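import Crest.Agent.R310.PairGDefs

/-! Row 310: closed forms of the integrals in `PairCertG`. -/

set_option autoImplicit false
set_option linter.dupNamespace false

namespace Crest.Agent.R310

open Finset MeasureTheory

/-- `Φ` is a primitive of the continuous function `φ` -/
structure Prim (φ Φ : ℝ → ℝ) : Prop where
  cont : Continuous φ
  int : ∀ p q, ∫ σ in p..q, φ σ = Φ q - Φ p

theorem prim_of_deriv {φ Φ : ℝ → ℝ} (hc : Continuous φ) (h : ∀ x, HasDerivAt Φ (φ x) x) :
    Prim φ Φ :=
  ⟨hc, fun p q => intervalIntegral.integral_eq_sub_of_hasDerivAt (fun x _ => h x)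
    (hc.intervalIntegrable p q)⟩

theorem prim_const (c : ℝ) : Prim (fun _ => c) (fun x => c * x) :=
  ⟨continuous_const, fun p q => by simp; ring⟩

theorem prim_exp : Prim Real.exp Real.exp := prim_of_deriv Real.continuous_exp Real.hasDerivAt_exp

theorem prim_id : Prim (fun x => x) (fun x => x ^ 2 / 2) :=
  ⟨continuous_id, fun p q => by simp; ring⟩

theorem Prim.add {φ Φ ψ Ψ : ℝ → ℝ} (h : Prim φ Φ) (h' : Prim ψ Ψ) :
    Prim (fun x => φ x + ψ x) (fun x => Φ x + Ψ x) :=
  ⟨h.cont.add h'.cont, fun p q => by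
    rw [intervalIntegral.integral_add (h.cont.intervalIntegrable _ _)
      (h'.cont.intervalIntegrable _ _), h.int, h'.int]
    ring⟩

theorem Prim.const_mul {φ Φ : ℝ → ℝ} (h : Prim φ Φ) (c : ℝ) :
    Prim (fun x => c * φ x) (fun x => c * Φ x) :=
  ⟨continuous_const.mul h.cont, fun p q => by
    rw [intervalIntegral.integral_const_mul, h.int]
    ring⟩

theorem Prim.sum {n : ℕ} {φ Φ : ℕ → ℝ → ℝ} (h : ∀ j < n, Prim (φ j) (Φ j)) (β : ℕ → ℝ) :
    Prim (fun x => ∑ j ∈ range n, β j * φ j x) (fun x => ∑ j ∈ range n, β j * Φ j x) := by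
  induction n with
  | zero => simpa using prim_const 0
  | succ n ih =>
    simp only [Finset.sum_range_succ]
    exact (ih fun j hj => h j (by omega)).add ((h n (by omega)).const_mul _)

theorem Prim.shift {φ Φ : ℝ → ℝ} (h : Prim φ Φ) (t : ℝ) :
    Prim (fun x => φ (x - t)) (fun x => Φ (x - t)) :=
  ⟨h.cont.comp (continuous_id.sub continuous_const), fun p q => by
    rw [intervalIntegral.integral_comp_sub_right, h.int]⟩

/-- freezing after time `τ` -/
theorem Prim.min {φ Φ : ℝ → ℝ} (h : Prim φ Φ) (τ : ℝ) :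
    Prim (fun x => φ (min τ x)) (fun x => Φ (min τ x) + (max x τ - τ) * φ τ) := by
  have hc : Continuous fun x => φ (Min.min τ x) := h.cont.comp (continuous_const.min continuous_id)
  have key : ∀ q, ∫ σ in τ..q, φ (Min.min τ σ) =
      Φ (Min.min τ q) + (max q τ - τ) * φ τ - Φ τ := fun q => by
    rcases le_total q τ with h1 | h1
    · rw [min_eq_right h1, max_eq_right h1, sub_self, zero_mul, add_zero, ← h.int]
      refine intervalIntegral.integral_congr fun s hs => ?_
      rw [Set.uIcc_of_ge h1] at hs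
      rw [min_eq_right hs.2]
    · rw [min_eq_left h1, max_eq_left h1,
        intervalIntegral.integral_congr (g := fun _ => φ τ) fun s hs => by
          rw [Set.uIcc_of_le h1] at hs
          rw [min_eq_left hs.1]]
      simp
  refine ⟨hc, fun p q => ?_⟩
  rw [← intervalIntegral.integral_interval_sub_left (a := τ) (hc.intervalIntegrable _ _)
    (hc.intervalIntegrable _ _), key, key]
  ring

/-- freezing before time `t` -/
theorem Prim.max {φ Φ : ℝ → ℝ} (h : Prim φ Φ) (t : ℝ) :
    Prim (fun x => φ (max x t)) (fun x => Φ (max x t) + (Min.min t x - t) * φ t) := by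
  have hc : Continuous fun x => φ (Max.max x t) := h.cont.comp (continuous_id.max continuous_const)
  have key : ∀ q, ∫ σ in t..q, φ (Max.max σ t) =
      Φ (Max.max q t) + (Min.min t q - t) * φ t - Φ t := fun q => by
    rcases le_total q t with h1 | h1
    · rw [min_eq_right h1, max_eq_right h1,
        intervalIntegral.integral_congr (g := fun _ => φ t) fun s hs => by
          rw [Set.uIcc_of_ge h1] at hs
          rw [max_eq_right hs.2]]
      simp
    · rw [min_eq_left h1, max_eq_left h1, sub_self, zero_mul, add_zero, ← h.int]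
      refine intervalIntegral.integral_congr fun s hs => ?_
      rw [Set.uIcc_of_le h1] at hs
      rw [max_eq_left hs.1]
  refine ⟨hc, fun p q => ?_⟩
  rw [← intervalIntegral.integral_interval_sub_left (a := t) (hc.intervalIntegrable _ _)
    (hc.intervalIntegrable _ _), key, key]
  ring

theorem Prim.congr {φ Φ φ' Φ' : ℝ → ℝ} (h : Prim φ Φ) (h1 : ∀ x, φ' x = φ x) {c : ℝ}
    (h2 : ∀ x, Φ' x = Φ x + c) : Prim φ' Φ' := by
  obtain rfl : φ' = φ := funext h1
  exact ⟨h.cont, fun p q => by rw [h.int, h2, h2]; ring⟩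

/-- the kink `(e^σ - e^t)₊` (piecewise linear in `T = e^σ`) -/
noncomputable def ph (t σ : ℝ) : ℝ := Real.exp (max σ t) - Real.exp t

/-- its primitive -/
noncomputable def Ph (t x : ℝ) : ℝ :=
  Real.exp (max x t) - Real.exp t - Real.exp t * (max x t - t)

theorem prim_ph (t : ℝ) : Prim (ph t) (Ph t) :=
  ((prim_exp.add (prim_const (-Real.exp t))).max t).congr (fun x => by rw [ph]; ring)
    (c := Real.exp t * t - Real.exp t) fun x => by rw [Ph]; ring

theorem ph_mono (t : ℝ) : Monotone (ph t) := fun _ _ h =>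
  sub_le_sub_right (Real.exp_le_exp.2 (max_le_max_right _ h)) _

/-- the kink `(σ - t)₊` (piecewise linear in log time) -/
theorem prim_pl (t : ℝ) : Prim (fun σ => max σ t - t) (fun x => (max x t - t) ^ 2 / 2) :=
  ((prim_id.shift t).max t).congr (fun _ => rfl) (c := 0) fun x => by ring

/-- frozen primitive -/
noncomputable def frz (φ Φ : ℝ → ℝ) (τ x : ℝ) : ℝ := Φ (min τ x) + (max x τ - τ) * φ τ

theorem Prim.int_frz {φ Φ : ℝ → ℝ} (h : Prim φ Φ) (τ lam p q : ℝ) :
    ∫ s in p..q, φ (Min.min τ (lam - s)) = frz φ Φ τ (lam - p) - frz φ Φ τ (lam - q) := by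
  rw [intervalIntegral.integral_comp_sub_left (fun x => φ (Min.min τ x)) lam, (h.min τ).int]
  rfl

theorem sub_min_one (lam τ0 : ℝ) : lam - min 1 (lam - τ0) = max (lam - 1) τ0 := by
  rcases le_total 1 (lam - τ0) with h | h
  · rw [min_eq_left h, max_eq_left (by linarith)]
  · rw [min_eq_right h, max_eq_right (by linarith)]
    ring

/-- closed form of the gain with weight one -/
theorem gainV_one {φ Φ : ℝ → ℝ} (h : Prim φ Φ) (c τ0 τ lam μ : ℝ) :
    gainV (fun _ => 1) φ c τ0 τ lam μ =
      frz φ Φ τ (lam - max 0 (min 1 (μ - τ))) - frz φ Φ τ (max (lam - 1) τ0) -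
        c * (min 1 (lam - τ0) - max 0 (min 1 (μ - τ))) := by
  have hc : Continuous fun s => φ (min τ (lam - s)) := h.cont.comp (by fun_prop)
  simp only [gainV, one_mul]
  rw [intervalIntegral.integral_sub (hc.intervalIntegrable _ _) intervalIntegrable_const,
    h.int_frz, sub_min_one, intervalIntegral.integral_const, smul_eq_mul]
  ring

theorem gainV_zero (φ : ℝ → ℝ) (c τ0 τ lam μ : ℝ) : gainV (fun _ => 0) φ c τ0 τ lam μ = 0 := by
  simp [gainV]

/-- a later start `st` for one entry: weight `1{st ≤ σ}` -/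
theorem gainV_ind {φ : ℝ → ℝ} (hφ : Continuous φ) (c : ℝ) {τ0 st τ lam μ : ℝ} (h0 : τ0 ≤ st)
    (h1 : st ≤ τ) (h2 : st ≤ lam) (h3 : μ ≤ lam) :
    gainV (fun σ => if st ≤ σ then 1 else 0) φ c τ0 τ lam μ =
      gainV (fun _ => 1) φ c st τ lam μ := by
  have hm : max 0 (min 1 (μ - τ)) ≤ min 1 (lam - st) :=
    max_le (le_min zero_le_one (by linarith)) (min_le_min_left _ (by linarith))
  have hm2 : min 1 (lam - st) ≤ min 1 (lam - τ0) := min_le_min_left _ (by linarith)
  have hc : Continuous fun s => φ (min τ (lam - s)) - c := by fun_prop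
  have hi : ∀ p q, IntervalIntegrable (fun s => (if st ≤ min τ (lam - s) then (1 : ℝ) else 0) *
      (φ (min τ (lam - s)) - c)) volume p q := fun p q =>
    ii_bdd_mul (Measurable.ite (measurableSet_le measurable_const (by fun_prop)) measurable_const
      measurable_const) (fun s => by split_ifs <;> norm_num) (fun s => by split_ifs <;> norm_num)
      (hc.intervalIntegrable _ _)
  rw [gainV, gainV, ← intervalIntegral.integral_add_adjacent_intervals (b := min 1 (lam - st))
    (hi _ _) (hi _ _)]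
  have e1 : ∫ s in (min 1 (lam - st))..(min 1 (lam - τ0)),
      (if st ≤ min τ (lam - s) then (1 : ℝ) else 0) * (φ (min τ (lam - s)) - c) = 0 := by
    rw [intervalIntegral.integral_of_le hm2]
    refine setIntegral_eq_zero_of_forall_eq_zero fun s hs => ?_
    rw [if_neg, zero_mul]
    intro h4
    have h5 := h4.trans (min_le_right _ _)
    have h6 := lt_of_lt_of_le hs.1 (le_min (hs.2.trans (min_le_left _ _))
      (show s ≤ lam - st by linarith))
    exact lt_irrefl _ h6
  rw [e1, add_zero]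
  refine intervalIntegral.integral_congr fun s hs => ?_
  rw [Set.uIcc_of_le hm] at hs
  have := min_le_right 1 (lam - st)
  rw [if_pos (le_min h1 (by linarith [hs.2]))]

theorem UV_eq {g0 τ0 τ1 : ℝ} {lo : ℝ → ℝ} {h H : ℝ → ℝ → ℝ → ℝ} {k l : ℝ}
    (h1 : Prim (h k l) (H k l)) (h2 : Prim (h l k) (H l k)) :
    UV g0 τ0 τ1 lo h k l = min 1 (g0 * k) + min 1 (g0 * l) +
      (frz (h k l) (H k l) τ1 (lo k) - frz (h k l) (H k l) τ1 (max (lo k - 1) τ0)) +
      (frz (h l k) (H l k) τ1 (lo l) - frz (h l k) (H l k) τ1 (max (lo l - 1) τ0)) := by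
  rw [UV, h1.int_frz, h2.int_frz, sub_min_one, sub_min_one, sub_zero, sub_zero]

theorem frz_sum {n : ℕ} (φ Φ : ℕ → ℝ → ℝ) (β : ℕ → ℝ) (τ x : ℝ) :
    frz (fun x => ∑ j ∈ range n, β j * φ j x) (fun x => ∑ j ∈ range n, β j * Φ j x) τ x =
      ∑ j ∈ range n, β j * frz (φ j) (Φ j) τ x := by
  simp only [frz]
  rw [Finset.mul_sum, ← Finset.sum_add_distrib]
  exact Finset.sum_congr rfl fun j _ => by ring

theorem frz_of_le (φ Φ : ℝ → ℝ) {τ x : ℝ} (h : x ≤ τ) : frz φ Φ τ x = Φ x := by
  rw [frz, min_eq_right h, max_eq_right h, sub_self, zero_mul, add_zero]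

theorem frz_of_ge (φ Φ : ℝ → ℝ) {τ x : ℝ} (h : τ ≤ x) : frz φ Φ τ x = Φ τ + (x - τ) * φ τ := by
  rw [frz, min_eq_left h, max_eq_left h]

/-- diagonal candidate `μ = lam = x`: no freezing -/
theorem gainV_one_diag {φ Φ : ℝ → ℝ} (h : Prim φ Φ) (c : ℝ) {τ0 τ x : ℝ} (h0 : τ0 ≤ τ)
    (h1 : x - 1 ≤ τ) :
    gainV (fun _ => 1) φ c τ0 τ x x =
      Φ (min τ x) - Φ (max (x - 1) τ0) - c * (min τ x - max (x - 1) τ0) := by
  have e : x - max 0 (min 1 (x - τ)) = min τ x := by
    rw [min_eq_right (by linarith)]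
    rcases le_total x τ with h2 | h2
    · rw [max_eq_left (by linarith), min_eq_right h2, sub_zero]
    · rw [max_eq_right (by linarith), min_eq_left h2]
      ring
  rw [gainV_one h, e, frz_of_le _ _ (min_le_left _ _), frz_of_le _ _ (max_le h1 h0), ← e,
    ← sub_min_one]
  ring

theorem gainV_diag_dead (χ φ : ℝ → ℝ) (c : ℝ) {τ0 τ x : ℝ} (h0 : τ0 ≤ τ) (h1 : τ ≤ x - 1) :
    gainV χ φ c τ0 τ x x = 0 := by
  rw [gainV, min_eq_left (by linarith), max_eq_right zero_le_one, min_eq_left (by linarith),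
    intervalIntegral.integral_same]

end Crest.Agent.R310
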