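import Crest.Agent.R310.PairG
import Crest.Agent.R310.Closed

/-!
Row 310: certificates that are a convex combination in the partner, `h r k = ∑ j, φ j k * H j r`.
The pair inequalities follow from column inequalities with an antisymmetric matrix.
-/

set_option autoImplicit false
set_option linter.dupNamespace false

namespace Crest.Agent.R310

open Finset MeasureTheory

theorem anti_pair {n : ℕ} {p q A B : ℕ → ℝ} {N : ℕ → ℕ → ℝ} (hN : ∀ i j, 0 ≤ N i j + N j i)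
    (hp : ∀ j < n, 0 ≤ p j) (hq : ∀ j < n, 0 ≤ q j)
    (hA : ∀ j < n, ∑ i ∈ range n, p i * N i j ≤ A j)
    (hB : ∀ j < n, ∑ i ∈ range n, q i * N i j ≤ B j) :
    0 ≤ ∑ j ∈ range n, q j * A j + ∑ j ∈ range n, p j * B j := by
  have h1 : ∑ j ∈ range n, q j * ∑ i ∈ range n, p i * N i j ≤ ∑ j ∈ range n, q j * A j :=
    Finset.sum_le_sum fun j hj => mul_le_mul_of_nonneg_left (hA j (Finset.mem_range.1 hj))
      (hq j (Finset.mem_range.1 hj))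
  have h2 : ∑ j ∈ range n, p j * ∑ i ∈ range n, q i * N i j ≤ ∑ j ∈ range n, p j * B j :=
    Finset.sum_le_sum fun j hj => mul_le_mul_of_nonneg_left (hB j (Finset.mem_range.1 hj))
      (hp j (Finset.mem_range.1 hj))
  have h3 : 0 ≤ ∑ j ∈ range n, q j * ∑ i ∈ range n, p i * N i j +
      ∑ j ∈ range n, p j * ∑ i ∈ range n, q i * N i j := by
    simp only [Finset.mul_sum]
    rw [Finset.sum_comm (f := fun j i => p j * (q i * N i j)), ← Finset.sum_add_distrib]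
    refine Finset.sum_nonneg fun j hj => ?_
    rw [← Finset.sum_add_distrib]
    refine Finset.sum_nonneg fun i hi => ?_
    have := mul_nonneg (mul_nonneg (hq j (Finset.mem_range.1 hj)) (hp i (Finset.mem_range.1 hi)))
      (hN i j)
    linarith
  linarith

/-- the one-entry part of `UV` -/
noncomputable def U1 (g0 τ0 τ1 : ℝ) (lo : ℝ → ℝ) (v : ℝ → ℝ) (k : ℝ) : ℝ :=
  min 1 (g0 * k) + ∫ s in (0 : ℝ)..(min 1 (lo k - τ0)), v (min τ1 (lo k - s))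

/-- column certificate -/
structure ColCert (n : ℕ) (g0 b τ0 τ1 : ℝ) (ub lo : ℝ → ℝ) (hi c : ℝ → ℝ → ℝ)
    (χ : ℝ → ℝ → ℝ → ℝ → ℝ → ℝ) (φ : ℕ → ℝ → ℝ) (H : ℕ → ℝ → ℝ → ℝ) : Prop where
  φ0 : ∀ j < n, ∀ k, 0 < k → k ≤ b → 0 ≤ φ j k
  φ1 : ∀ k, 0 < k → k ≤ b → ∑ j ∈ range n, φ j k = 1
  cont : ∀ j < n, ∀ r, 0 < r → r ≤ b → Continuous (H j r)
  mono : ∀ j < n, ∀ r, 0 < r → r ≤ b → MonotoneOn (H j r) (Set.Icc τ0 τ1)
  le_ub : ∀ j < n, ∀ r, 0 < r → r ≤ b → H j r τ1 ≤ ub r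
  cU : ∃ N : ℕ → ℕ → ℝ, (∀ i j, 0 ≤ N i j + N j i) ∧ ∀ k, 0 < k → k ≤ b → ∀ j < n,
    ∑ i ∈ range n, φ i k * N i j ≤ U1 g0 τ0 τ1 lo (H j k) k - 1
  cE : ∀ r, 0 < r → r ≤ b → ∃ N : ℕ → ℕ → ℝ, (∀ i j, 0 ≤ N i j + N j i) ∧
    ∀ k, 0 < k → k ≤ b → ∀ j < n,
      ∑ i ∈ range n, φ i k * N i j ≤ U1 g0 τ0 τ1 lo (H j k) k - H j r τ1 - r
  cP : ∀ r, 0 < r → r ≤ b → ∀ τ, τ0 ≤ τ → τ ≤ τ1 → ∃ N : ℕ → ℕ → ℝ, (∀ i j, 0 ≤ N i j + N j i) ∧
    ∀ k, 0 < k → k ≤ b → ∀ j < n, ∀ μ, (μ = min (lo k) (hi r k) ∨ μ = hi r k) →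
      ∑ i ∈ range n, φ i k * N i j ≤ min 1 (g0 * k) - min r (g0 * k) +
        gainV (χ k r τ μ) (H j k) (c k r) τ0 τ (max (lo k) μ) μ - H j r τ

theorem U1_sum {n : ℕ} {p : ℕ → ℝ} {v : ℕ → ℝ → ℝ} (hp : ∑ j ∈ range n, p j = 1)
    (hv : ∀ j < n, Continuous (v j)) (g0 τ0 τ1 : ℝ) (lo : ℝ → ℝ) (k : ℝ) :
    U1 g0 τ0 τ1 lo (fun τ => ∑ j ∈ range n, p j * v j τ) k =
      ∑ j ∈ range n, p j * U1 g0 τ0 τ1 lo (v j) k := by
  simp only [U1, mul_add]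
  rw [Finset.sum_add_distrib, ← Finset.sum_mul, hp, one_mul,
    intervalIntegral.integral_finsetSum fun j hj => ?_]
  · simp only [intervalIntegral.integral_const_mul]
  · have := hv j (Finset.mem_range.1 hj)
    exact Continuous.intervalIntegrable (by fun_prop) _ _

theorem gainV_sum {n : ℕ} {p : ℕ → ℝ} {v : ℕ → ℝ → ℝ} (hp : ∑ j ∈ range n, p j = 1)
    (hv : ∀ j < n, Continuous (v j)) {χ : ℝ → ℝ} (hχ : Measurable χ) (h0 : ∀ σ, 0 ≤ χ σ)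
    (h1 : ∀ σ, χ σ ≤ 1) (c τ0 τ lam μ : ℝ) :
    gainV χ (fun τ => ∑ j ∈ range n, p j * v j τ) c τ0 τ lam μ =
      ∑ j ∈ range n, p j * gainV χ (v j) c τ0 τ lam μ := by
  simp only [gainV, ← intervalIntegral.integral_const_mul]
  rw [← intervalIntegral.integral_finsetSum fun j hj => ?_]
  · refine intervalIntegral.integral_congr fun s _ => ?_
    have h5 : c = ∑ j ∈ range n, p j * c := by rw [← Finset.sum_mul, hp, one_mul]
    conv_lhs => rw [h5, ← Finset.sum_sub_distrib, Finset.mul_sum]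
    exact Finset.sum_congr rfl fun j _ => by ring
  · have := hv j (Finset.mem_range.1 hj)
    exact (ii_bdd_mul (hχ.comp (by fun_prop)) (fun _ => h0 _) (fun _ => h1 _)
      (Continuous.intervalIntegrable (by fun_prop) _ _)).const_mul _

theorem ColCert.pairG {n : ℕ} {g0 b τ0 τ1 : ℝ} {ub lo : ℝ → ℝ} {hi c : ℝ → ℝ → ℝ}
    {χ : ℝ → ℝ → ℝ → ℝ → ℝ → ℝ} {φ : ℕ → ℝ → ℝ} {H : ℕ → ℝ → ℝ → ℝ}
    (hχm : ∀ k r τ μ, Measurable (χ k r τ μ)) (hχ0 : ∀ k r τ μ σ, 0 ≤ χ k r τ μ σ)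
    (hχ1 : ∀ k r τ μ σ, χ k r τ μ σ ≤ 1) (C : ColCert n g0 b τ0 τ1 ub lo hi c χ φ H) :
    PairCertG g0 b τ0 τ1 ub lo hi c χ (fun r k τ => ∑ j ∈ range n, φ j k * H j r τ)
      (fun _ _ => 0) (fun _ _ _ => 0) (fun _ _ _ _ => 0) := by
  have hUV : ∀ k l, 0 < k → k ≤ b → 0 < l → l ≤ b →
      UV g0 τ0 τ1 lo (fun r k τ => ∑ j ∈ range n, φ j k * H j r τ) k l =
      ∑ j ∈ range n, φ j l * U1 g0 τ0 τ1 lo (H j k) k +
        ∑ j ∈ range n, φ j k * U1 g0 τ0 τ1 lo (H j l) l := fun k l h1 h2 h3 h4 => by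
    rw [← U1_sum (C.φ1 l h3 h4) fun j hj => C.cont j hj k h1 h2,
      ← U1_sum (C.φ1 k h1 h2) fun j hj => C.cont j hj l h3 h4, UV, U1, U1]
    ring
  have hc : ∀ k, 0 < k → k ≤ b → ∀ y : ℝ, ∑ j ∈ range n, φ j k * y = y := fun k h1 h2 y => by
    rw [← Finset.sum_mul, C.φ1 k h1 h2, one_mul]
  refine ⟨copos_zero, fun _ => copos_zero, fun _ _ => copos_zero, ?_, ?_, ?_, ?_, ?_⟩
  · intro r k h1 h2 h3 h4 τ hτ τ' hτ' ht
    exact Finset.sum_le_sum fun j hj => mul_le_mul_of_nonneg_left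
      (C.mono j (Finset.mem_range.1 hj) r h1 h2 hτ hτ' ht) (C.φ0 j (Finset.mem_range.1 hj) k h3 h4)
  · intro r k h1 h2 h3 h4
    rw [← hc k h3 h4 (ub r)]
    exact Finset.sum_le_sum fun j hj => mul_le_mul_of_nonneg_left
      (C.le_ub j (Finset.mem_range.1 hj) r h1 h2) (C.φ0 j (Finset.mem_range.1 hj) k h3 h4)
  · intro k l h1 h2 h3
    obtain ⟨N, hN, h⟩ := C.cU
    have := anti_pair hN (fun j hj => C.φ0 j hj k h1 (h2.trans h3))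
      (fun j hj => C.φ0 j hj l (h1.trans_le h2) h3) (h k h1 (h2.trans h3)) (h l (h1.trans_le h2) h3)
    simp only [mul_sub, Finset.sum_sub_distrib] at this
    rw [hc k h1 (h2.trans h3), hc l (h1.trans_le h2) h3] at this
    rw [hUV k l h1 (h2.trans h3) (h1.trans_le h2) h3]
    linarith
  · intro r k l h4 h5 h1 h2 h3
    obtain ⟨N, hN, h⟩ := C.cE r h4 h5
    have := anti_pair hN (fun j hj => C.φ0 j hj k h1 (h2.trans h3))
      (fun j hj => C.φ0 j hj l (h1.trans_le h2) h3) (h k h1 (h2.trans h3)) (h l (h1.trans_le h2) h3)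
    simp only [mul_sub, Finset.sum_sub_distrib] at this
    rw [hc k h1 (h2.trans h3), hc l (h1.trans_le h2) h3] at this
    rw [hUV k l h1 (h2.trans h3) (h1.trans_le h2) h3]
    linarith
  · intro r k l h4 h5 h1 h2 h3 τ h6 h7 μ ν hμ hν
    obtain ⟨N, hN, h⟩ := C.cP r h4 h5 τ h6 h7
    have := anti_pair hN (fun j hj => C.φ0 j hj k h1 (h2.trans h3))
      (fun j hj => C.φ0 j hj l (h1.trans_le h2) h3) (fun j hj => h k h1 (h2.trans h3) j hj μ hμ)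
      (fun j hj => h l (h1.trans_le h2) h3 j hj ν hν)
    simp only [mul_sub, mul_add, Finset.sum_sub_distrib, Finset.sum_add_distrib] at this
    rw [hc k h1 (h2.trans h3), hc l (h1.trans_le h2) h3, hc k h1 (h2.trans h3),
      hc l (h1.trans_le h2) h3] at this
    rw [gainV_sum (C.φ1 l (h1.trans_le h2) h3) (fun j hj => C.cont j hj k h1 (h2.trans h3))
        (hχm _ _ _ _) (hχ0 _ _ _ _) (hχ1 _ _ _ _),
      gainV_sum (C.φ1 k h1 (h2.trans h3)) (fun j hj => C.cont j hj l (h1.trans_le h2) h3)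
        (hχm _ _ _ _) (hχ0 _ _ _ _) (hχ1 _ _ _ _)]
    linarith

/-- column certificate at the exact constant ⇒ the target -/
theorem cert_exists_of_col {n : ℕ} {a b τ0 τ1 gc : ℝ} {A : ℚ} {lo : ℝ → ℝ} {hi : ℝ → ℝ → ℝ}
    {χ : ℝ → ℝ → ℝ → ℝ → ℝ → ℝ} {φ : ℕ → ℝ → ℝ} {H : ℕ → ℝ → ℝ → ℝ}
    (ha : 0 < a) (hA : 0 ≤ A) (hgc : 0 < gc)
    (hb : 29 / 50 ≤ b) (hτ : τ0 ≤ τ1) (hlo0 : ∀ k, 0 < k → k ≤ b → τ0 ≤ lo k)
    (hlo : ∀ k, 0 < k → k ≤ b → lo k ≤ a * Real.log (1 - k))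
    (hhi : ∀ r k, 0 < r → r ≤ b → 0 < k → k ≤ b → a * Real.log (r + k) ≤ hi r k)
    (hχm : ∀ k r τ μ, Measurable (χ k r τ μ)) (hχ0 : ∀ k r τ μ σ, 0 ≤ χ k r τ μ σ)
    (hχ1 : ∀ k r τ μ σ, χ k r τ μ σ ≤ 1)
    (C : ColCert n (1 + 2 / Real.exp 1) b τ0 τ1 (fun d => max 0 (A * (1 - gc * d))) lo hi
      (capR A gc) χ φ H) (g : ℚ) (hg : 1 + 2 / Real.exp 1 < (g : ℝ)) :
    ∃ (Kn : Kernel) (A g1 : ℚ), 0 ≤ A ∧ Cert Kn g A g1 :=
  cert_exists_of_pairG ha hA hgc hb hτ hlo0 hlo hhi hχm hχ0 hχ1 (C.pairG hχm hχ0 hχ1) g hg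

end Crest.Agent.R310
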