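import Crest.Agent.R310.Pade

/-! Row 310: column certificates with a copositive matrix. -/

set_option autoImplicit false
set_option linter.dupNamespace false

namespace Crest.Agent.R310

open Finset MeasureTheory

/-- copositive `n × n` matrix -/
def CoposM (n : ℕ) (N : ℕ → ℕ → ℝ) : Prop :=
  ∀ y : ℕ → ℝ, (∀ i < n, 0 ≤ y i) → 0 ≤ ∑ i ∈ range n, ∑ j ∈ range n, y i * y j * N i j

theorem coposM_of_sym {n : ℕ} {N M : ℕ → ℕ → ℝ} (hM : CoposM n M)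
    (h : ∀ i < n, ∀ j < n, M i j + M j i ≤ N i j + N j i) : CoposM n N := fun y hy => by
  have e : ∀ P : ℕ → ℕ → ℝ, ∑ i ∈ range n, ∑ j ∈ range n, y i * y j * (P i j + P j i) =
      2 * ∑ i ∈ range n, ∑ j ∈ range n, y i * y j * P i j := fun P => by
    simp only [mul_add, Finset.sum_add_distrib]
    rw [Finset.sum_comm (f := fun i j => y i * y j * P j i), two_mul]
    congr 1
    exact Finset.sum_congr rfl fun i _ => Finset.sum_congr rfl fun j _ => by ring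
  have h1 : ∑ i ∈ range n, ∑ j ∈ range n, y i * y j * (M i j + M j i) ≤
      ∑ i ∈ range n, ∑ j ∈ range n, y i * y j * (N i j + N j i) :=
    Finset.sum_le_sum fun i hi => Finset.sum_le_sum fun j hj =>
      mul_le_mul_of_nonneg_left (h i (Finset.mem_range.1 hi) j (Finset.mem_range.1 hj))
        (mul_nonneg (hy i (Finset.mem_range.1 hi)) (hy j (Finset.mem_range.1 hj)))
  rw [e, e] at h1
  linarith [hM y hy]

theorem coposM_rank (n : ℕ) (v : ℕ → ℝ) : CoposM n fun i j => v i * v j := fun y _ => by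
  have : ∑ i ∈ range n, ∑ j ∈ range n, y i * y j * (v i * v j) =
      (∑ i ∈ range n, y i * v i) * ∑ j ∈ range n, y j * v j := by
    rw [Finset.sum_mul_sum]
    exact Finset.sum_congr rfl fun i _ => Finset.sum_congr rfl fun j _ => by ring
  rw [this]
  exact mul_self_nonneg _

theorem CoposM.add {n : ℕ} {N M : ℕ → ℕ → ℝ} (hN : CoposM n N) (hM : CoposM n M) :
    CoposM n fun i j => N i j + M i j := fun y hy => by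
  simp only [mul_add, Finset.sum_add_distrib]
  exact add_nonneg (hN y hy) (hM y hy)

theorem coposM_of_rank {n : ℕ} {N : ℕ → ℕ → ℝ} (v : ℕ → ℝ)
    (h : ∀ i < n, ∀ j < n, 2 * (v i * v j) ≤ N i j + N j i) : CoposM n N :=
  coposM_of_sym (coposM_rank n v) fun i hi j hj => by linarith [h i hi j hj]

theorem coposM_of_rank2 {n : ℕ} {N : ℕ → ℕ → ℝ} (v w : ℕ → ℝ)
    (h : ∀ i < n, ∀ j < n, 2 * (v i * v j + w i * w j) ≤ N i j + N j i) : CoposM n N :=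
  coposM_of_sym ((coposM_rank n v).add (coposM_rank n w)) fun i hi j hj => by
    linarith [h i hi j hj]

theorem coposM_of_anti {n : ℕ} {N : ℕ → ℕ → ℝ} (h : ∀ i j, 0 ≤ N i j + N j i) : CoposM n N :=
  coposM_of_rank (fun _ => 0) fun i _ j _ => by simpa using h i j

/-- the kernel of a matrix along nonnegative weights -/
noncomputable def kerM (n : ℕ) (φ : ℕ → ℝ → ℝ) (N : ℕ → ℕ → ℝ) (k l : ℝ) : ℝ :=
  ∑ j ∈ range n, max (φ j l) 0 * ∑ i ∈ range n, max (φ i k) 0 * N i j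

theorem copos_kerM {α : Type} {n : ℕ} (φ : ℕ → ℝ → ℝ) {N : ℕ → ℕ → ℝ} (hN : CoposM n N)
    (π : α → ℝ) : Copos fun p q : α => kerM n φ N (π p) (π q) := fun m x D hx => by
  have h := hN (fun i => ∑ l ∈ range m, x l * max (φ i (π (D l))) 0) fun i _ =>
    Finset.sum_nonneg fun l hl => mul_nonneg (hx l (Finset.mem_range.1 hl)) (le_max_right _ _)
  refine h.trans_eq ?_
  simp only [kerM, Finset.mul_sum, Finset.sum_mul]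
  calc _ = ∑ i ∈ range n, ∑ j ∈ range n, ∑ l ∈ range m, ∑ k ∈ range m,
        x l * (x k * (max (φ j (π (D k))) 0 * (max (φ i (π (D l))) 0 * N i j))) := by
        refine Finset.sum_congr rfl fun i _ => Finset.sum_congr rfl fun j _ => ?_
        rw [Finset.sum_comm]
        exact Finset.sum_congr rfl fun l _ => Finset.sum_congr rfl fun k _ => by ring
    _ = ∑ j ∈ range n, ∑ i ∈ range n, ∑ l ∈ range m, ∑ k ∈ range m,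
        x l * (x k * (max (φ j (π (D k))) 0 * (max (φ i (π (D l))) 0 * N i j))) := Finset.sum_comm
    _ = ∑ j ∈ range n, ∑ l ∈ range m, ∑ k ∈ range m, ∑ i ∈ range n,
        x l * (x k * (max (φ j (π (D k))) 0 * (max (φ i (π (D l))) 0 * N i j))) := by
        refine Finset.sum_congr rfl fun j _ => ?_
        rw [Finset.sum_comm]
        exact Finset.sum_congr rfl fun l _ => Finset.sum_comm
    _ = _ := by
        rw [Finset.sum_comm]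
        exact Finset.sum_congr rfl fun l _ => Finset.sum_comm

theorem kerM_le {n : ℕ} {φ : ℕ → ℝ → ℝ} {N : ℕ → ℕ → ℝ} {k l : ℝ} {A : ℕ → ℝ}
    (hk : ∀ j < n, 0 ≤ φ j k) (hl : ∀ j < n, 0 ≤ φ j l)
    (hA : ∀ j < n, ∑ i ∈ range n, φ i k * N i j ≤ A j) :
    kerM n φ N k l ≤ ∑ j ∈ range n, φ j l * A j := by
  refine Finset.sum_le_sum fun j hj => ?_
  rw [max_eq_left (hl j (Finset.mem_range.1 hj)), Finset.sum_congr rfl fun i hi => by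
    rw [max_eq_left (hk i (Finset.mem_range.1 hi))]]
  exact mul_le_mul_of_nonneg_left (hA j (Finset.mem_range.1 hj)) (hl j (Finset.mem_range.1 hj))

/-- column certificate with copositive matrices -/
structure ColCertM (n : ℕ) (g0 b τ0 τ1 : ℝ) (ub lo : ℝ → ℝ) (hi c : ℝ → ℝ → ℝ)
    (χ : ℝ → ℝ → ℝ → ℝ → ℝ → ℝ) (φ : ℕ → ℝ → ℝ) (H : ℕ → ℝ → ℝ → ℝ) : Prop where
  φ0 : ∀ j < n, ∀ k, 0 < k → k ≤ b → 0 ≤ φ j k
  φ1 : ∀ k, 0 < k → k ≤ b → ∑ j ∈ range n, φ j k = 1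
  cont : ∀ j < n, ∀ r, 0 < r → r ≤ b → Continuous (H j r)
  mono : ∀ j < n, ∀ r, 0 < r → r ≤ b → MonotoneOn (H j r) (Set.Icc τ0 τ1)
  le_ub : ∀ j < n, ∀ r, 0 < r → r ≤ b → H j r τ1 ≤ ub r
  cU : ∃ N : ℕ → ℕ → ℝ, CoposM n N ∧ ∀ k, 0 < k → k ≤ b → ∀ j < n,
    ∑ i ∈ range n, φ i k * N i j ≤ U1 g0 τ0 τ1 lo (H j k) k - 1
  cE : ∀ r, 0 < r → r ≤ b → ∃ N : ℕ → ℕ → ℝ, CoposM n N ∧
    ∀ k, 0 < k → k ≤ b → ∀ j < n,
      ∑ i ∈ range n, φ i k * N i j ≤ U1 g0 τ0 τ1 lo (H j k) k - H j r τ1 - r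
  cP : ∀ r, 0 < r → r ≤ b → ∀ τ, τ0 ≤ τ → τ ≤ τ1 → ∃ N : ℕ → ℕ → ℝ, CoposM n N ∧
    ∀ k, 0 < k → k ≤ b → ∀ j < n, ∀ μ, (μ = min (lo k) (hi r k) ∨ μ = hi r k) →
      ∑ i ∈ range n, φ i k * N i j ≤ min 1 (g0 * k) - min r (g0 * k) +
        gainV (χ k r τ μ) (H j k) (c k r) τ0 τ (max (lo k) μ) μ - H j r τ

theorem ColCertM.pairG {n : ℕ} {g0 b τ0 τ1 : ℝ} {ub lo : ℝ → ℝ} {hi c : ℝ → ℝ → ℝ}
    {χ : ℝ → ℝ → ℝ → ℝ → ℝ → ℝ} {φ : ℕ → ℝ → ℝ} {H : ℕ → ℝ → ℝ → ℝ}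
    (hχm : ∀ k r τ μ, Measurable (χ k r τ μ)) (hχ0 : ∀ k r τ μ σ, 0 ≤ χ k r τ μ σ)
    (hχ1 : ∀ k r τ μ σ, χ k r τ μ σ ≤ 1) (C : ColCertM n g0 b τ0 τ1 ub lo hi c χ φ H) :
    ∃ QU QE QP, PairCertG g0 b τ0 τ1 ub lo hi c χ (fun r k τ => ∑ j ∈ range n, φ j k * H j r τ)
      QU QE QP := by
  have hUV : ∀ k l, 0 < k → k ≤ b → 0 < l → l ≤ b →
      UV g0 τ0 τ1 lo (fun r k τ => ∑ j ∈ range n, φ j k * H j r τ) k l =
      ∑ j ∈ range n, φ j l * U1 g0 τ0 τ1 lo (H j k) k +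
        ∑ j ∈ range n, φ j k * U1 g0 τ0 τ1 lo (H j l) l := fun k l h1 h2 h3 h4 => by
    rw [← U1_sum (C.φ1 l h3 h4) fun j hj => C.cont j hj k h1 h2,
      ← U1_sum (C.φ1 k h1 h2) fun j hj => C.cont j hj l h3 h4, UV, U1, U1]
    ring
  have hc : ∀ k, 0 < k → k ≤ b → ∀ y : ℝ, ∑ j ∈ range n, φ j k * y = y := fun k h1 h2 y => by
    rw [← Finset.sum_mul, C.φ1 k h1 h2, one_mul]
  have hz : CoposM n fun _ _ => 0 := coposM_of_anti fun _ _ => by simp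
  obtain ⟨NU, hNU, hU⟩ := C.cU
  have hE : ∀ r, ∃ N : ℕ → ℕ → ℝ, CoposM n N ∧ (0 < r → r ≤ b → ∀ k, 0 < k → k ≤ b → ∀ j < n,
      ∑ i ∈ range n, φ i k * N i j ≤ U1 g0 τ0 τ1 lo (H j k) k - H j r τ1 - r) := fun r => by
    by_cases h : 0 < r ∧ r ≤ b
    · obtain ⟨N, h1, h2⟩ := C.cE r h.1 h.2
      exact ⟨N, h1, fun _ _ => h2⟩
    · exact ⟨_, hz, fun h1 h2 => absurd ⟨h1, h2⟩ h⟩
  have hP : ∀ r τ, ∃ N : ℕ → ℕ → ℝ, CoposM n N ∧ (0 < r → r ≤ b → τ0 ≤ τ → τ ≤ τ1 →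
      ∀ k, 0 < k → k ≤ b → ∀ j < n, ∀ μ, (μ = min (lo k) (hi r k) ∨ μ = hi r k) →
      ∑ i ∈ range n, φ i k * N i j ≤ min 1 (g0 * k) - min r (g0 * k) +
        gainV (χ k r τ μ) (H j k) (c k r) τ0 τ (max (lo k) μ) μ - H j r τ) := fun r τ => by
    by_cases h : 0 < r ∧ r ≤ b ∧ τ0 ≤ τ ∧ τ ≤ τ1
    · obtain ⟨N, h1, h2⟩ := C.cP r h.1 h.2.1 τ h.2.2.1 h.2.2.2
      exact ⟨N, h1, fun _ _ _ _ => h2⟩
    · exact ⟨_, hz, fun h1 h2 h3 h4 => absurd ⟨h1, h2, h3, h4⟩ h⟩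
  choose NE hNE hE using hE
  choose NP hNP hP using hP
  refine ⟨kerM n φ NU, fun r => kerM n φ (NE r), fun r τ p q => kerM n φ (NP r τ) p.1 q.1,
    copos_kerM φ hNU id, fun r => copos_kerM φ (hNE r) id,
    fun r τ => copos_kerM φ (hNP r τ) Prod.fst, ?_, ?_, ?_, ?_, ?_⟩
  · intro r k h1 h2 h3 h4 τ hτ τ' hτ' ht
    exact Finset.sum_le_sum fun j hj => mul_le_mul_of_nonneg_left
      (C.mono j (Finset.mem_range.1 hj) r h1 h2 hτ hτ' ht) (C.φ0 j (Finset.mem_range.1 hj) k h3 h4)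
  · intro r k h1 h2 h3 h4
    rw [← hc k h3 h4 (ub r)]
    exact Finset.sum_le_sum fun j hj => mul_le_mul_of_nonneg_left
      (C.le_ub j (Finset.mem_range.1 hj) r h1 h2) (C.φ0 j (Finset.mem_range.1 hj) k h3 h4)
  · intro k l h1 h2 h3
    have hk := fun j hj => C.φ0 j hj k h1 (h2.trans h3)
    have hl := fun j hj => C.φ0 j hj l (h1.trans_le h2) h3
    have a1 := kerM_le hk hl (hU k h1 (h2.trans h3))
    have a2 := kerM_le hl hk (hU l (h1.trans_le h2) h3)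
    simp only [mul_sub, Finset.sum_sub_distrib] at a1 a2
    rw [hc l (h1.trans_le h2) h3] at a1
    rw [hc k h1 (h2.trans h3)] at a2
    rw [hUV k l h1 (h2.trans h3) (h1.trans_le h2) h3]
    linarith
  · intro r k l h4 h5 h1 h2 h3
    have hk := fun j hj => C.φ0 j hj k h1 (h2.trans h3)
    have hl := fun j hj => C.φ0 j hj l (h1.trans_le h2) h3
    have a1 := kerM_le hk hl (hE r h4 h5 k h1 (h2.trans h3))
    have a2 := kerM_le hl hk (hE r h4 h5 l (h1.trans_le h2) h3)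
    simp only [mul_sub, Finset.sum_sub_distrib] at a1 a2
    rw [hc l (h1.trans_le h2) h3] at a1
    rw [hc k h1 (h2.trans h3)] at a2
    rw [hUV k l h1 (h2.trans h3) (h1.trans_le h2) h3]
    linarith
  · intro r k l h4 h5 h1 h2 h3 τ h6 h7 μ ν hμ hν
    have hk := fun j hj => C.φ0 j hj k h1 (h2.trans h3)
    have hl := fun j hj => C.φ0 j hj l (h1.trans_le h2) h3
    have a1 := kerM_le hk hl fun j hj => hP r τ h4 h5 h6 h7 k h1 (h2.trans h3) j hj μ hμ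
    have a2 := kerM_le hl hk fun j hj => hP r τ h4 h5 h6 h7 l (h1.trans_le h2) h3 j hj ν hν
    simp only [mul_sub, mul_add, Finset.sum_sub_distrib, Finset.sum_add_distrib] at a1 a2
    rw [hc l (h1.trans_le h2) h3, hc l (h1.trans_le h2) h3] at a1
    rw [hc k h1 (h2.trans h3), hc k h1 (h2.trans h3)] at a2
    rw [gainV_sum (C.φ1 l (h1.trans_le h2) h3) (fun j hj => C.cont j hj k h1 (h2.trans h3))
        (hχm _ _ _ _) (hχ0 _ _ _ _) (hχ1 _ _ _ _),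
      gainV_sum (C.φ1 k h1 (h2.trans h3)) (fun j hj => C.cont j hj l (h1.trans_le h2) h3)
        (hχm _ _ _ _) (hχ0 _ _ _ _) (hχ1 _ _ _ _)]
    linarith

/-- copositive column certificate in relative time with the Padé levels -/
theorem cert_exists_of_colM_pade {n : ℕ} {a b τ0 τ1 gc : ℝ} {A : ℚ}
    {χ : ℝ → ℝ → ℝ → ℝ → ℝ → ℝ} {φ : ℕ → ℝ → ℝ} {H : ℕ → ℝ → ℝ → ℝ}
    (ha : 0 < a) (hA : 0 ≤ A) (hgc : 0 < gc) (hb : 29 / 50 ≤ b) (hb1 : b < 1) (hτ : τ0 ≤ τ1)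
    (hlo0 : ∀ k, 0 < k → k ≤ b → τ0 ≤ loP a k)
    (hχm : ∀ k r τ μ, Measurable (χ k r τ μ)) (hχ0 : ∀ k r τ μ σ, 0 ≤ χ k r τ μ σ)
    (hχ1 : ∀ k r τ μ σ, χ k r τ μ σ ≤ 1)
    (C : ColCertM n (1 + 2 / Real.exp 1) b τ0 τ1 (fun d => max 0 (A * (1 - gc * d))) (loP a)
      (hiP a) (capR A gc) χ φ H) (g : ℚ) (hg : 1 + 2 / Real.exp 1 < (g : ℝ)) :
    ∃ (Kn : Kernel) (A g1 : ℚ), 0 ≤ A ∧ Cert Kn g A g1 := by
  obtain ⟨QU, QE, QP, h⟩ := C.pairG hχm hχ0 hχ1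
  exact cert_exists_of_pairG_pade ha hA hgc hb hb1 hτ hlo0 hχm hχ0 hχ1 h g hg

/-- column certificate with a rank-one part -/
structure ColCert2 (n : ℕ) (g0 b τ0 τ1 : ℝ) (ub lo : ℝ → ℝ) (hi c : ℝ → ℝ → ℝ)
    (χ : ℝ → ℝ → ℝ → ℝ → ℝ → ℝ) (φ : ℕ → ℝ → ℝ) (H : ℕ → ℝ → ℝ → ℝ) : Prop where
  φ0 : ∀ j < n, ∀ k, 0 < k → k ≤ b → 0 ≤ φ j k
  φ1 : ∀ k, 0 < k → k ≤ b → ∑ j ∈ range n, φ j k = 1
  cont : ∀ j < n, ∀ r, 0 < r → r ≤ b → Continuous (H j r)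
  mono : ∀ j < n, ∀ r, 0 < r → r ≤ b → MonotoneOn (H j r) (Set.Icc τ0 τ1)
  le_ub : ∀ j < n, ∀ r, 0 < r → r ≤ b → H j r τ1 ≤ ub r
  cU : ∃ N : ℕ → ℕ → ℝ, (∃ v : ℕ → ℝ, ∀ i j, 2 * (v i * v j) ≤ N i j + N j i) ∧
    ∀ k, 0 < k → k ≤ b → ∀ j < n,
      ∑ i ∈ range n, φ i k * N i j ≤ U1 g0 τ0 τ1 lo (H j k) k - 1
  cE : ∀ r, 0 < r → r ≤ b → ∃ N : ℕ → ℕ → ℝ,
    (∃ v : ℕ → ℝ, ∀ i j, 2 * (v i * v j) ≤ N i j + N j i) ∧
    ∀ k, 0 < k → k ≤ b → ∀ j < n,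
      ∑ i ∈ range n, φ i k * N i j ≤ U1 g0 τ0 τ1 lo (H j k) k - H j r τ1 - r
  cP : ∀ r, 0 < r → r ≤ b → ∀ τ, τ0 ≤ τ → τ ≤ τ1 → ∃ N : ℕ → ℕ → ℝ,
    (∃ v : ℕ → ℝ, ∀ i j, 2 * (v i * v j) ≤ N i j + N j i) ∧
    ∀ k, 0 < k → k ≤ b → ∀ j < n, ∀ μ, (μ = min (lo k) (hi r k) ∨ μ = hi r k) →
      ∑ i ∈ range n, φ i k * N i j ≤ min 1 (g0 * k) - min r (g0 * k) +
        gainV (χ k r τ μ) (H j k) (c k r) τ0 τ (max (lo k) μ) μ - H j r τ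

theorem ColCert2.toM {n : ℕ} {g0 b τ0 τ1 : ℝ} {ub lo : ℝ → ℝ} {hi c : ℝ → ℝ → ℝ}
    {χ : ℝ → ℝ → ℝ → ℝ → ℝ → ℝ} {φ : ℕ → ℝ → ℝ} {H : ℕ → ℝ → ℝ → ℝ}
    (C : ColCert2 n g0 b τ0 τ1 ub lo hi c χ φ H) : ColCertM n g0 b τ0 τ1 ub lo hi c χ φ H := by
  refine ⟨C.φ0, C.φ1, C.cont, C.mono, C.le_ub, ?_, fun r h1 h2 => ?_, fun r h1 h2 τ h3 h4 => ?_⟩
  · obtain ⟨N, ⟨v, hv⟩, h⟩ := C.cU
    exact ⟨N, coposM_of_rank v fun i _ j _ => hv i j, h⟩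
  · obtain ⟨N, ⟨v, hv⟩, h⟩ := C.cE r h1 h2
    exact ⟨N, coposM_of_rank v fun i _ j _ => hv i j, h⟩
  · obtain ⟨N, ⟨v, hv⟩, h⟩ := C.cP r h1 h2 τ h3 h4
    exact ⟨N, coposM_of_rank v fun i _ j _ => hv i j, h⟩

theorem cert_exists_of_col2_pade {n : ℕ} {a b τ0 τ1 gc : ℝ} {A : ℚ}
    {χ : ℝ → ℝ → ℝ → ℝ → ℝ → ℝ} {φ : ℕ → ℝ → ℝ} {H : ℕ → ℝ → ℝ → ℝ}
    (ha : 0 < a) (hA : 0 ≤ A) (hgc : 0 < gc) (hb : 29 / 50 ≤ b) (hb1 : b < 1) (hτ : τ0 ≤ τ1)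
    (hlo0 : ∀ k, 0 < k → k ≤ b → τ0 ≤ loP a k)
    (hχm : ∀ k r τ μ, Measurable (χ k r τ μ)) (hχ0 : ∀ k r τ μ σ, 0 ≤ χ k r τ μ σ)
    (hχ1 : ∀ k r τ μ σ, χ k r τ μ σ ≤ 1)
    (C : ColCert2 n (1 + 2 / Real.exp 1) b τ0 τ1 (fun d => max 0 (A * (1 - gc * d))) (loP a)
      (hiP a) (capR A gc) χ φ H) (g : ℚ) (hg : 1 + 2 / Real.exp 1 < (g : ℝ)) :
    ∃ (Kn : Kernel) (A g1 : ℚ), 0 ≤ A ∧ Cert Kn g A g1 :=
  cert_exists_of_colM_pade ha hA hgc hb hb1 hτ hlo0 hχm hχ0 hχ1 C.toM g hg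

end Crest.Agent.R310
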