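import Crest.Agent.R310.IDefs

/-!
Row 310: the linear relaxation is solved up to an additive error `1` by an exchange local search on
the grid `ℤ / Q` for the Huber smoothing of `Inst.lpCost`.
-/

set_option autoImplicit false

namespace Crest.Agent.R310.A

open Crest.Agent.Lib.PT

/-- The smoothing width. -/
def lpW (I : Inst) : ℕ := I.n * I.L * I.n
/-- The common denominator. -/
def lpQ (I : Inst) : ℕ := lpW I * (I.n * I.L)
/-- The Huber function on natural numbers. -/
def hub (W u : ℕ) : ℕ := if u ≤ W then u * u else 2 * W * u - W * W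
/-- The numerator mass within distance `t` of `j`. -/
def zball (I : Inst) (z : List ℕ) (j t : ℕ) : ℕ :=
  ((I.F.filter fun i => decide (I.d j i ≤ t)).map fun i => z.getD i 0).sum
/-- The potential. -/
def lpPot (I : Inst) (z : List ℕ) : ℕ :=
  (I.C.map fun j => ((List.range I.L).map fun t => hub (lpW I) (lpQ I - zball I z j t)).sum).sum
/-- Move one unit from `i'` to `i`. -/
def lpMove (z : List ℕ) (i i' : ℕ) : List ℕ :=
  (z.set i (z.getD i 0 + 1)).set i' (z.getD i' 0 - 1)
/-- Improving moves. -/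
def lpGood (I : Inst) (z : List ℕ) (p : ℕ × ℕ) : Bool :=
  decide (p.1 ≠ p.2 ∧ z.getD p.1 0 < lpQ I ∧ 0 < z.getD p.2 0 ∧
    lpPot I (lpMove z p.1 p.2) < lpPot I z)
/-- One step of the local search. -/
def lpStep (I : Inst) (z : List ℕ) : List ℕ :=
  ((I.F.product I.F).find? (lpGood I z)).elim z fun p => lpMove z p.1 p.2
/-- The starting point. -/
def lpInit (I : Inst) (m : ℕ) : List ℕ :=
  (List.range I.n).map fun i => if i ∈ I.F.take m then lpQ I else 0
/-- The number of rounds. -/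
def lpIter (I : Inst) : ℕ := I.n * I.L * (2 * lpW I * lpQ I) + 1
/-- The numerators of the approximate solution of total mass `m`. -/
def lpSolve (I : Inst) (m : ℕ) : List ℕ := (lpStep I)^[lpIter I] (lpInit I m)
/-- The fractional solution with numerators `z`. -/
noncomputable def lpY (I : Inst) (z : List ℕ) (i : ℕ) : ℝ := (z.getD i 0 : ℝ) / lpQ I

/-- The invariant of the search. -/
structure LPInv (I : Inst) (m : ℕ) (z : List ℕ) : Prop where
  len : z.length = I.n
  le : ∀ i, z.getD i 0 ≤ lpQ I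
  off : ∀ i, i ∉ I.F → z.getD i 0 = 0
  sum : ∑ i ∈ I.F.toFinset, z.getD i 0 = m * lpQ I

section PTlemmas

variable {α : Type} [Enc α]

@[fun_prop] lemma pt_lpW {I : α → Inst} (hI : PT I) : PT (fun a => lpW (I a)) := by
  unfold lpW; fun_prop
@[fun_prop] lemma pb_lpW {I : α → Inst} (hI : PT I) : PB (fun a => lpW (I a)) := by
  unfold lpW; fun_prop
@[fun_prop] lemma pt_lpQ {I : α → Inst} (hI : PT I) : PT (fun a => lpQ (I a)) := by
  unfold lpQ; fun_prop
@[fun_prop] lemma pb_lpQ {I : α → Inst} (hI : PT I) : PB (fun a => lpQ (I a)) := by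
  unfold lpQ; fun_prop
@[fun_prop] lemma pt_zball {I : α → Inst} {z : α → List ℕ} {j t : α → ℕ} (hI : PT I) (hz : PT z)
    (hj : PT j) (ht : PT t) : PT (fun a => zball (I a) (z a) (j a) (t a)) := by
  unfold zball; fun_prop

private lemma h68_getD_set (l : List ℕ) (i v a : ℕ) :
    (l.set i v).getD a 0 = if a = i ∧ i < l.length then v else l.getD a 0 := by
  simp only [List.getD_eq_getElem?_getD, List.getElem?_set]
  by_cases h : i = a
  · subst h
    by_cases h' : i < l.length
    · simp [h']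
    · simp [h']
  · have : ¬ a = i := fun e => h e.symm
    simp [h, this]

private lemma h68_step_cases (I : Inst) (z : List ℕ) :
    (((I.F.product I.F).find? (lpGood I z)) = none ∧ lpStep I z = z) ∨
      ∃ i ∈ I.F, ∃ i' ∈ I.F, i ≠ i' ∧ z.getD i 0 < lpQ I ∧ 0 < z.getD i' 0 ∧
        lpPot I (lpMove z i i') < lpPot I z ∧ lpStep I z = lpMove z i i' := by
  unfold lpStep
  cases h : (I.F.product I.F).find? (lpGood I z) with
  | none => exact Or.inl ⟨rfl, rfl⟩
  | some p =>
    have h1 := List.mem_of_find?_eq_some h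
    have h2 := List.find?_some h
    obtain ⟨i, i'⟩ := p
    have h3 := List.mem_product.1 h1
    simp only [lpGood, decide_eq_true_eq] at h2
    exact Or.inr ⟨i, h3.1, i', h3.2, h2.1, h2.2.1, h2.2.2.1, h2.2.2.2, rfl⟩

private lemma h68_init_getD (I : Inst) (m a : ℕ) :
    (lpInit I m).getD a 0 = if a < I.n ∧ a ∈ I.F.take m then lpQ I else 0 := by
  unfold lpInit
  by_cases h : a < I.n
  · simp [List.getD_eq_getElem?_getD, h]
  · simp [List.getD_eq_getElem?_getD, h]

private lemma h68_pt_lpPot {I : α → Inst} {z : α → List ℕ} (hI : PT I) (hz : PT z) :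
    PT (fun a => lpPot (I a) (z a)) := by
  unfold lpPot hub; fun_prop

private lemma h68_pt_lpMove {z : α → List ℕ} {i i' : α → ℕ} (hz : PT z) (hi : PT i) (hi' : PT i') :
    PT (fun a => lpMove (z a) (i a) (i' a)) := by
  unfold lpMove; fun_prop

private lemma h68_pt_lpStep {I : α → Inst} {z : α → List ℕ} (hI : PT I) (hz : PT z) :
    PT (fun a => lpStep (I a) (z a)) := by
  have h1 : PT (fun p : α × (ℕ × ℕ) => lpMove (z p.1) p.2.1 p.2.2) :=
    h68_pt_lpMove (by fun_prop) (by fun_prop) (by fun_prop)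
  have h2 : PT (fun p : α × (ℕ × ℕ) => lpPot (I p.1) (lpMove (z p.1) p.2.1 p.2.2)) :=
    h68_pt_lpPot (by fun_prop) h1
  have h3 : PT (fun p : α × (ℕ × ℕ) => lpPot (I p.1) (z p.1)) :=
    h68_pt_lpPot (by fun_prop) (by fun_prop)
  have h4 : PT (fun p : α × (ℕ × ℕ) => lpGood (I p.1) (z p.1) p.2) := by
    unfold lpGood
    refine PT.decide_and (by fun_prop) (PT.decide_and (by fun_prop) (PT.decide_and (by fun_prop) ?_))
    exact PT.decide_lt h2 h3
  unfold lpStep
  exact PT.optionElim (PT.find? (by fun_prop) h4) hz h1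

/-- `PT.iterate_inv` with the invariant `z.length = n ∧ ∀ x ∈ z, x ≤ Q` (true for every instance,
valid or not), size bound `sz_list_le`, `sz_nat_mono`. -/
@[fun_prop] lemma pt_lpSolve {I : α → Inst} {m : α → ℕ} (hI : PT I) (hm : PT m) :
    PT (fun a => lpSolve (I a) (m a)) := by
  unfold lpSolve
  refine PT.iterate_inv (f := fun a z => lpStep (I a) z)
    (fun a z => z.length = (I a).n ∧ ∀ i, z.getD i 0 ≤ lpQ (I a))
    (fun a => (sz (lpQ (I a)) + 1) * (I a).n + 1) (h68_pt_lpStep (by fun_prop) (by fun_prop))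
    (by unfold lpIter; fun_prop) (by unfold lpIter; fun_prop) (by unfold lpInit; fun_prop)
    (by fun_prop) (fun a => ⟨by simp [lpInit], fun i => ?_⟩) (fun a z hz => ?_) (fun a z hz => ?_)
  · rw [h68_init_getD]
    split_ifs <;> omega
  · rcases h68_step_cases (I a) z with ⟨-, h⟩ | ⟨i, -, i', -, -, h1, h2, -, h⟩
    · rw [h]; exact hz
    · rw [h]
      refine ⟨by simp [lpMove, hz.1], fun b => ?_⟩
      have e1 := hz.2 b
      have e2 := hz.2 i'
      unfold lpMove
      rw [h68_getD_set, h68_getD_set]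
      split_ifs <;> omega
  · have := sz_list_le z (sz (lpQ (I a))) fun x hx => by
      obtain ⟨k, hk, rfl⟩ := List.getElem_of_mem hx
      have e := hz.2 k
      rw [List.getD_eq_getElem _ _ hk] at e
      exact sz_nat_mono e
    rw [hz.1] at this
    exact this

end PTlemmas

lemma lpQ_pos {I : Inst} (hI : I.Valid) : 0 < lpQ I := by
  have := hI.n_pos
  have := hI.L_pos
  unfold lpQ lpW; positivity

/-- The coordinates after a move (both indices in range and distinct). -/
lemma getD_lpMove {z : List ℕ} {i i' : ℕ} (hi : i < z.length) (hi' : i' < z.length) (h : i ≠ i')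
    (a : ℕ) : (lpMove z i i').getD a 0 =
      if a = i' then z.getD i' 0 - 1 else if a = i then z.getD i 0 + 1 else z.getD a 0 := by
  unfold lpMove
  rw [h68_getD_set, h68_getD_set, List.length_set]
  simp [hi, hi']

lemma lpInv_init {I : Inst} (hI : I.Valid) {m : ℕ} (hm : m ≤ I.F.length) :
    LPInv I m (lpInit I m) := by
  refine ⟨by simp [lpInit], fun i => ?_, fun i hi => ?_, ?_⟩
  · rw [h68_init_getD]
    split_ifs <;> omega
  · rw [h68_init_getD, if_neg]
    exact fun h => hi (List.mem_of_mem_take h.2)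
  · have e : ∀ i ∈ I.F.toFinset, (lpInit I m).getD i 0 =
        if i ∈ (I.F.take m).toFinset then lpQ I else 0 := by
      intro i hi
      rw [h68_init_getD]
      simp [hI.F_lt i (List.mem_toFinset.1 hi)]
    rw [Finset.sum_congr rfl e, Finset.sum_ite_mem, Finset.inter_eq_right.2 (fun i hi =>
      List.mem_toFinset.2 (List.mem_of_mem_take (List.mem_toFinset.1 hi))), Finset.sum_const,
      List.toFinset_card_of_nodup (hI.F_nodup.sublist (List.take_sublist _ _)), List.length_take,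
      min_eq_left hm, smul_eq_mul]

lemma lpInv_step {I : Inst} (hI : I.Valid) {m : ℕ} {z : List ℕ} (hz : LPInv I m z) :
    LPInv I m (lpStep I z) := by
  rcases h68_step_cases I z with ⟨-, h⟩ | ⟨i, hi, i', hi', hne, h1, h2, -, h⟩
  · rw [h]; exact hz
  rw [h]
  have l1 : i < z.length := hz.len ▸ hI.F_lt i hi
  have l2 : i' < z.length := hz.len ▸ hI.F_lt i' hi'
  have e := getD_lpMove l1 l2 hne
  refine ⟨by simp [lpMove, hz.len], fun a => ?_, fun a ha => ?_, ?_⟩
  · have e1 := hz.le a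
    have e2 := hz.le i'
    rw [e]
    split_ifs <;> omega
  · rw [e, if_neg (fun h : a = i' => ha (h ▸ hi')), if_neg (fun h : a = i => ha (h ▸ hi))]
    exact hz.off a ha
  · have e3 : ∀ a ∈ I.F.toFinset, (lpMove z i i').getD a 0 + (if a = i' then 1 else 0) =
        z.getD a 0 + (if a = i then 1 else 0) := by
      intro a _
      rw [e]
      by_cases c1 : a = i'
      · subst c1
        rw [if_pos rfl, if_pos rfl, if_neg (Ne.symm hne)]
        omega
      · by_cases c2 : a = i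
        · subst c2
          simp [c1]
        · simp [c1, c2]
    have e4 := Finset.sum_congr rfl e3
    rw [Finset.sum_add_distrib, Finset.sum_add_distrib, Finset.sum_ite_eq', Finset.sum_ite_eq',
      if_pos (List.mem_toFinset.2 hi), if_pos (List.mem_toFinset.2 hi'), hz.sum] at e4
    omega

lemma lpInv_solve {I : Inst} (hI : I.Valid) {m : ℕ} (hm : m ≤ I.F.length) :
    LPInv I m (lpSolve I m) := by
  unfold lpSolve
  generalize lpIter I = k
  induction k with
  | zero => exact lpInv_init hI hm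
  | succ k ih => rw [Function.iterate_succ_apply']; exact lpInv_step hI ih

/-- The search ends in a local optimum: a step either fixes the state (no good move) or lowers
`lpPot` by at least one, and `lpPot ≤ n L (2 W Q) < lpIter` because `hub W u ≤ 2 W u`. -/
lemma lpSolve_local {I : Inst} (hI : I.Valid) (m : ℕ) :
    ∀ i ∈ I.F, ∀ i' ∈ I.F, lpGood I (lpSolve I m) (i, i') = false := by
  have hub_le : ∀ W u : ℕ, hub W u ≤ 2 * W * u := by
    intro W u
    unfold hub
    split_ifs with h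
    · nlinarith
    · omega
  have pot_le : ∀ z, lpPot I z ≤ I.n * I.L * (2 * lpW I * lpQ I) := by
    intro z
    have h1 : ∀ j, ((List.range I.L).map fun t => hub (lpW I) (lpQ I - zball I z j t)).sum ≤
        I.L * (2 * lpW I * lpQ I) := by
      intro j
      refine (List.sum_le_card_nsmul _ (2 * lpW I * lpQ I) ?_).trans (by simp)
      intro x hx
      obtain ⟨t, -, rfl⟩ := List.mem_map.1 hx
      exact (hub_le _ _).trans (Nat.mul_le_mul_left _ (Nat.sub_le _ _))
    unfold lpPot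
    refine (List.sum_le_card_nsmul _ (I.L * (2 * lpW I * lpQ I)) ?_).trans ?_
    · intro x hx
      obtain ⟨j, -, rfl⟩ := List.mem_map.1 hx
      exact h1 j
    · rw [List.length_map, smul_eq_mul, mul_assoc I.n]
      exact Nat.mul_le_mul_right _ hI.C_length_le
  have key : ∀ (z : List ℕ) (k : ℕ),
      (I.F.product I.F).find? (lpGood I ((lpStep I)^[k] z)) = none ∨
        lpPot I ((lpStep I)^[k] z) + k ≤ lpPot I z := by
    intro z k
    induction k with
    | zero => exact Or.inr le_rfl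
    | succ k ih =>
      rw [Function.iterate_succ_apply']
      rcases h68_step_cases I ((lpStep I)^[k] z) with ⟨h0, h⟩ | ⟨i, hi, i', hi', hne, h1, h2, h3, h⟩
      · rw [h]; exact Or.inl h0
      · rcases ih with ih | ih
        · have h4 := List.find?_eq_none.1 ih (i, i') (List.mem_product.2 ⟨hi, hi'⟩)
          exact absurd (by simp only [lpGood, decide_eq_true_eq]; exact ⟨hne, h1, h2, h3⟩) h4
        · rw [h]; right; omega
  intro i hi i' hi'
  rcases key (lpInit I m) (lpIter I) with h | h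
  · have h4 := List.find?_eq_none.1 h (i, i') (List.mem_product.2 ⟨hi, hi'⟩)
    exact Bool.eq_false_iff.2 h4
  · have := pot_le (lpInit I m)
    unfold lpIter at h
    omega

/-- The Huber function on the reals. -/
noncomputable def hubR (W u : ℝ) : ℝ := if u ≤ 0 then 0 else if u ≤ W then u * u else 2 * W * u - W * W
/-- Its derivative. -/
noncomputable def hubD (W u : ℝ) : ℝ := 2 * max 0 (min u W)

lemma hub_cast (W Q a : ℕ) : (hub W (Q - a) : ℝ) = hubR W ((Q : ℝ) - a) := by
  unfold hub hubR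
  rcases le_or_gt Q a with h | h
  · have h1 : (Q : ℝ) - a ≤ 0 := sub_nonpos.2 (by exact_mod_cast h)
    rw [Nat.sub_eq_zero_of_le h, if_pos (Nat.zero_le W), if_pos h1]
    simp
  · have h1 : ¬ (Q : ℝ) - a ≤ 0 := not_le.2 (sub_pos.2 (by exact_mod_cast h))
    have h2 : ((Q - a : ℕ) : ℝ) = (Q : ℝ) - a := Nat.cast_sub h.le
    rw [if_neg h1, ← h2]
    by_cases h3 : Q - a ≤ W
    · rw [if_pos h3, if_pos (by exact_mod_cast h3)]
      push_cast
      rfl
    · rw [if_neg h3, if_neg (by exact_mod_cast h3), Nat.cast_sub (by nlinarith)]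
      push_cast
      rfl

lemma h60_hub_cases {W : ℝ} (hW : 0 ≤ W) (u : ℝ) :
    (u ≤ 0 ∧ hubR W u = 0 ∧ hubD W u = 0) ∨ (0 ≤ u ∧ u ≤ W ∧ hubR W u = u * u ∧ hubD W u = 2 * u) ∨
      (W ≤ u ∧ hubR W u = 2 * W * u - W * W ∧ hubD W u = 2 * W) := by
  unfold hubR hubD
  by_cases h1 : u ≤ 0
  · refine Or.inl ⟨h1, if_pos h1, ?_⟩
    rw [max_eq_left ((min_le_left _ _).trans h1), mul_zero]
  · by_cases h2 : u ≤ W
    · refine Or.inr (Or.inl ⟨(not_le.1 h1).le, h2, by rw [if_neg h1, if_pos h2], ?_⟩)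
      rw [min_eq_left h2, max_eq_right (not_le.1 h1).le]
    · refine Or.inr (Or.inr ⟨(not_le.1 h2).le, by rw [if_neg h1, if_neg h2], ?_⟩)
      rw [min_eq_right (not_le.1 h2).le, max_eq_right hW]

lemma hubR_convex {W : ℝ} (hW : 0 ≤ W) (u v : ℝ) : hubR W u + hubD W u * (v - u) ≤ hubR W v := by
  rcases h60_hub_cases hW u with ⟨a1, a2, a3⟩ | ⟨a0, a1, a2, a3⟩ | ⟨a1, a2, a3⟩ <;>
  rcases h60_hub_cases hW v with ⟨b1, b2, -⟩ | ⟨b0, b1, b2, -⟩ | ⟨b1, b2, -⟩ <;>
  rw [a2, a3, b2]
  · linarith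
  · nlinarith
  · nlinarith
  · nlinarith
  · nlinarith [sq_nonneg (u - v)]
  · nlinarith [sq_nonneg (u - W), mul_nonneg (sub_nonneg.2 a1) (sub_nonneg.2 b1)]
  · nlinarith
  · nlinarith [sq_nonneg (v - W)]
  · nlinarith

lemma hubR_smooth {W : ℝ} (hW : 0 ≤ W) (u v : ℝ) :
    hubR W v ≤ hubR W u + hubD W u * (v - u) + (v - u) ^ 2 := by
  rcases h60_hub_cases hW u with ⟨a1, a2, a3⟩ | ⟨a0, a1, a2, a3⟩ | ⟨a1, a2, a3⟩ <;>
  rcases h60_hub_cases hW v with ⟨b1, b2, -⟩ | ⟨b0, b1, b2, -⟩ | ⟨b1, b2, -⟩ <;>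
  rw [a2, a3, b2]
  · nlinarith [sq_nonneg (v - u)]
  · nlinarith [mul_nonneg b0 (neg_nonneg.2 a1), sq_nonneg u]
  · nlinarith [sq_nonneg (v - W), mul_nonneg (hW.trans b1) (neg_nonneg.2 a1), sq_nonneg u]
  · nlinarith [sq_nonneg v]
  · nlinarith
  · nlinarith [sq_nonneg (v - W)]
  · nlinarith [mul_nonneg (sub_nonneg.2 a1) (neg_nonneg.2 b1), sq_nonneg v,
      mul_nonneg (sub_nonneg.2 a1) hW, sq_nonneg (u - W)]
  · nlinarith [mul_nonneg (sub_nonneg.2 a1) (sub_nonneg.2 b1), sq_nonneg (u - W)]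
  · nlinarith [sq_nonneg (v - u)]

lemma hubR_le {W : ℝ} (hW : 0 ≤ W) (u : ℝ) : hubR W u ≤ 2 * W * max 0 u := by
  rcases h60_hub_cases hW u with ⟨a1, a2, -⟩ | ⟨a0, a1, a2, -⟩ | ⟨a1, a2, -⟩ <;> rw [a2]
  · rw [max_eq_left a1, mul_zero]
  · rw [max_eq_right a0]
    nlinarith
  · rw [max_eq_right (hW.trans a1)]
    nlinarith

lemma le_hubR {W : ℝ} (hW : 0 ≤ W) (u : ℝ) : 2 * W * max 0 u - W * W ≤ hubR W u := by
  rcases h60_hub_cases hW u with ⟨a1, a2, -⟩ | ⟨a0, a1, a2, -⟩ | ⟨a1, a2, -⟩ <;> rw [a2]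
  · rw [max_eq_left a1]
    nlinarith
  · rw [max_eq_right a0]
    nlinarith [sq_nonneg (u - W)]
  · rw [max_eq_right (hW.trans a1)]

/-- Exchange lemma: if no positive coordinate of `w` exists all vanish; otherwise let `a` be the
least `g i` over `w i > 0`; then `g i w i ≥ a w i - Δ |w i|` for every `i`. -/
lemma exchange_bound (s : Finset ℕ) (g w : ℕ → ℝ) (Δ Q : ℝ) (hΔ : 0 ≤ Δ)
    (hsum : ∑ i ∈ s, w i = 0) (hw : ∀ i ∈ s, |w i| ≤ Q)
    (hg : ∀ i ∈ s, ∀ i' ∈ s, 0 < w i → w i' < 0 → g i' ≤ g i + Δ) :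
    -(Δ * Q * s.card) ≤ ∑ i ∈ s, g i * w i := by
  have key : ∀ a : ℝ, (∀ i ∈ s, a * w i - Δ * Q ≤ g i * w i) →
      -(Δ * Q * s.card) ≤ ∑ i ∈ s, g i * w i := by
    intro a h
    have h1 := Finset.sum_le_sum h
    rw [Finset.sum_sub_distrib, ← Finset.mul_sum, hsum, Finset.sum_const, nsmul_eq_mul] at h1
    linarith
  have hQ : ∀ i ∈ s, 0 ≤ Δ * Q := fun i hi => mul_nonneg hΔ ((abs_nonneg _).trans (hw i hi))
  by_cases hP : (s.filter fun i => 0 < w i).Nonempty
  · obtain ⟨i₀, hi₀, hmin⟩ := Finset.exists_min_image _ g hP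
    obtain ⟨hi₀s, hi₀w⟩ := Finset.mem_filter.1 hi₀
    refine key (g i₀) fun i hi => ?_
    rcases lt_trichotomy (w i) 0 with h | h | h
    · have h1 := hg i₀ hi₀s i hi hi₀w h
      have h2 := hw i hi
      rw [abs_of_neg h] at h2
      nlinarith
    · rw [h]
      linarith [hQ i hi]
    · have h1 := hmin i (Finset.mem_filter.2 ⟨hi, h⟩)
      nlinarith [hQ i hi]
  · have h0 : ∀ i ∈ s, w i ≤ 0 := fun i hi =>
      not_lt.1 fun h => hP ⟨i, Finset.mem_filter.2 ⟨hi, h⟩⟩
    have h1 := (Finset.sum_eq_zero_iff_of_nonpos h0).1 hsum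
    refine key 0 fun i hi => ?_
    rw [h1 i hi]
    linarith [hQ i hi]

/-- The gradient of the potential. -/
noncomputable def lpGrad (I : Inst) (z : List ℕ) (i : ℕ) : ℝ :=
  -∑ j ∈ I.C.toFinset, ∑ t ∈ Finset.range I.L,
    if I.d j i ≤ t then hubD (lpW I) ((lpQ I : ℝ) - zball I z j t) else 0

lemma h60_zball_eq {I : Inst} (hI : I.Valid) (z : List ℕ) (j t : ℕ) :
    (zball I z j t : ℝ) = ∑ a ∈ I.F.toFinset, if I.d j a ≤ t then (z.getD a 0 : ℝ) else 0 := by
  unfold zball
  rw [← List.sum_toFinset _ (hI.F_nodup.filter _), List.toFinset_filter, Finset.sum_filter]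
  push_cast
  simp only [decide_eq_true_eq]

lemma h60_lpPot_eq {I : Inst} (hI : I.Valid) (z : List ℕ) :
    (lpPot I z : ℝ) = ∑ j ∈ I.C.toFinset, ∑ t ∈ Finset.range I.L,
      hubR (lpW I) ((lpQ I : ℝ) - zball I z j t) := by
  unfold lpPot
  rw [← List.sum_toFinset _ hI.C_nodup, Nat.cast_sum]
  refine Finset.sum_congr rfl fun j _ => ?_
  rw [← List.sum_toFinset _ List.nodup_range, List.toFinset_range, Nat.cast_sum]
  exact Finset.sum_congr rfl fun t _ => hub_cast _ _ _

lemma h60_zball_move {I : Inst} (hI : I.Valid) {m : ℕ} {z : List ℕ} (hz : LPInv I m z) {i i' : ℕ}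
    (hi : i ∈ I.F) (hi' : i' ∈ I.F) (hne : i ≠ i') (h2 : 0 < z.getD i' 0) (j t : ℕ) :
    (zball I (lpMove z i i') j t : ℝ) = zball I z j t + (if I.d j i ≤ t then 1 else 0) -
      (if I.d j i' ≤ t then 1 else 0) := by
  have hl : i < z.length := hz.len ▸ hI.F_lt i hi
  have hl' : i' < z.length := hz.len ▸ hI.F_lt i' hi'
  have e1 : (if I.d j i ≤ t then (1 : ℝ) else 0) =
      ∑ a ∈ I.F.toFinset, if a = i then (if I.d j a ≤ t then 1 else 0) else 0 := by
    rw [Finset.sum_ite_eq', if_pos (List.mem_toFinset.2 hi)]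
  have e2 : (if I.d j i' ≤ t then (1 : ℝ) else 0) =
      ∑ a ∈ I.F.toFinset, if a = i' then (if I.d j a ≤ t then 1 else 0) else 0 := by
    rw [Finset.sum_ite_eq', if_pos (List.mem_toFinset.2 hi')]
  rw [h60_zball_eq hI, h60_zball_eq hI, e1, e2, ← Finset.sum_add_distrib, ← Finset.sum_sub_distrib]
  refine Finset.sum_congr rfl fun a _ => ?_
  rw [getD_lpMove hl hl' hne]
  by_cases ha : I.d j a ≤ t
  · simp only [if_pos ha]
    by_cases h3 : a = i'
    · subst h3
      rw [if_pos rfl, if_neg hne.symm, if_pos rfl, Nat.cast_sub h2]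
      simp
    · rw [if_neg h3, if_neg h3]
      by_cases h4 : a = i
      · subst h4
        simp
      · simp [h4]
  · simp [ha]

/-- A move changes every `zball` by `[d j i ≤ t] - [d j i' ≤ t] ∈ {-1,0,1}`; `hubR_smooth` gives
`lpPot (move) ≤ lpPot z + grad i - grad i' + |C| L`, and the move is not good. -/
lemma lpGrad_le {I : Inst} (hI : I.Valid) {m : ℕ} {z : List ℕ} (hz : LPInv I m z) {i i' : ℕ}
    (hi : i ∈ I.F) (hi' : i' ∈ I.F) (hne : i ≠ i') (h1 : z.getD i 0 < lpQ I)
    (h2 : 0 < z.getD i' 0) (hloc : lpGood I z (i, i') = false) :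
    lpGrad I z i' ≤ lpGrad I z i + I.n * I.L := by
  have hpot : lpPot I z ≤ lpPot I (lpMove z i i') := by
    by_contra h
    simp only [lpGood, decide_eq_false_iff_not] at hloc
    exact hloc ⟨hne, h1, h2, not_le.1 h⟩
  have hpot' : (lpPot I z : ℝ) ≤ lpPot I (lpMove z i i') := by exact_mod_cast hpot
  rw [h60_lpPot_eq hI, h60_lpPot_eq hI] at hpot'
  have hterm : ∀ j t, hubR (lpW I) ((lpQ I : ℝ) - zball I (lpMove z i i') j t) ≤
      hubR (lpW I) ((lpQ I : ℝ) - zball I z j t) +
        ((if I.d j i' ≤ t then hubD (lpW I) ((lpQ I : ℝ) - zball I z j t) else 0) -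
          (if I.d j i ≤ t then hubD (lpW I) ((lpQ I : ℝ) - zball I z j t) else 0)) + 1 := by
    intro j t
    have h := hubR_smooth (W := (lpW I : ℝ)) (Nat.cast_nonneg _) ((lpQ I : ℝ) - zball I z j t)
      ((lpQ I : ℝ) - zball I (lpMove z i i') j t)
    rw [h60_zball_move hI hz hi hi' hne h2] at h ⊢
    split_ifs at h ⊢ <;> nlinarith
  have hsum : ∑ j ∈ I.C.toFinset, ∑ t ∈ Finset.range I.L,
      hubR (lpW I) ((lpQ I : ℝ) - zball I (lpMove z i i') j t) ≤
      ∑ j ∈ I.C.toFinset, ∑ t ∈ Finset.range I.L, (hubR (lpW I) ((lpQ I : ℝ) - zball I z j t) +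
        ((if I.d j i' ≤ t then hubD (lpW I) ((lpQ I : ℝ) - zball I z j t) else 0) -
          (if I.d j i ≤ t then hubD (lpW I) ((lpQ I : ℝ) - zball I z j t) else 0)) + 1) :=
    Finset.sum_le_sum fun j _ => Finset.sum_le_sum fun t _ => hterm j t
  simp only [Finset.sum_add_distrib, Finset.sum_sub_distrib, Finset.sum_const, Finset.card_range,
    nsmul_eq_mul, mul_one] at hsum
  have hc : ((I.C.toFinset.card : ℕ) : ℝ) ≤ I.n := by
    rw [List.toFinset_card_of_nodup hI.C_nodup]
    exact_mod_cast hI.C_length_le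
  have hc' := mul_le_mul_of_nonneg_right hc (Nat.cast_nonneg (α := ℝ) I.L)
  unfold lpGrad
  linarith

private lemma helper70_zball_cast {I : Inst} (hI : I.Valid) (z : List ℕ) (j t : ℕ) :
    (zball I z j t : ℝ) =
      ∑ i ∈ I.F.toFinset, if I.d j i ≤ t then (z.getD i 0 : ℝ) else 0 := by
  unfold zball
  rw [← List.sum_toFinset _ (hI.F_nodup.filter _), List.toFinset_filter, Nat.cast_sum,
    Finset.sum_filter]
  refine Finset.sum_congr rfl fun i _ => ?_
  by_cases h : I.d j i ≤ t <;> simp [h]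

private lemma helper70_ball (I : Inst) (y : ℕ → ℝ) (j t : ℕ) :
    I.ball y j t = ∑ i ∈ I.F.toFinset, if I.d j i ≤ t then y i else 0 := by
  unfold Inst.ball
  rw [Finset.sum_filter]

/-- A local optimum is optimal up to `1`. With `w i = Q y i - z i`, `hubR_convex` gives
`∑ hubR (Q - Q ball y) ≥ lpPot z + ∑ grad i * w i ≥ lpPot z - n L Q n` (`exchange_bound`); then
`le_hubR`, `hubR_le`: `2 W Q lpCost (z/Q) - W² n L ≤ lpPot z ≤ 2 W Q lpCost y + n L Q n`, and
`W = n L n`, `Q = W n L`. -/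
lemma lpCost_le_of_local {I : Inst} (hI : I.Valid) {m : ℕ} {z : List ℕ} (hz : LPInv I m z)
    (hloc : ∀ i ∈ I.F, ∀ i' ∈ I.F, lpGood I z (i, i') = false) {y : ℕ → ℝ}
    (hy : I.LPFeas m y) : I.lpCost (lpY I z) ≤ I.lpCost y + 1 := by
  classical
  set W : ℝ := (lpW I : ℝ) with hWdef
  set Q : ℝ := (lpQ I : ℝ) with hQdef
  have hQpos : 0 < Q := by rw [hQdef]; exact_mod_cast lpQ_pos hI
  have hn : (1 : ℝ) ≤ I.n := by exact_mod_cast hI.n_pos
  have hL : (1 : ℝ) ≤ I.L := by exact_mod_cast hI.L_pos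
  have hWeq : W = (I.n : ℝ) * I.L * I.n := by rw [hWdef]; unfold lpW; push_cast; ring
  have hQeq : Q = W * ((I.n : ℝ) * I.L) := by rw [hQdef, hWdef]; unfold lpQ; push_cast; ring
  have hWpos : 0 < W := by rw [hWeq]; positivity
  set w : ℕ → ℝ := fun i => Q * y i - (z.getD i 0 : ℝ) with hw
  have hzle : ∀ i, (z.getD i 0 : ℝ) ≤ Q := fun i => by rw [hQdef]; exact_mod_cast hz.le i
  have hex := exchange_bound I.F.toFinset (lpGrad I z) w ((I.n : ℝ) * I.L) Q (by positivity)
    (by
      have h1 : ∑ i ∈ I.F.toFinset, (z.getD i 0 : ℝ) = m * Q := by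
        rw [hQdef]; exact_mod_cast hz.sum
      simp only [hw]
      rw [Finset.sum_sub_distrib, ← Finset.mul_sum, hy.2, h1]; ring)
    (fun i hi => by
      have h1 := hy.1 i (List.mem_toFinset.1 hi)
      have h2 := hzle i
      have h3 : (0 : ℝ) ≤ z.getD i 0 := Nat.cast_nonneg _
      have h4 : 0 ≤ Q * y i := mul_nonneg hQpos.le h1.1
      have h5 : Q * y i ≤ Q := mul_le_of_le_one_right hQpos.le h1.2
      simp only [hw]
      rw [abs_le]; constructor <;> linarith)
    (fun i hi i' hi' hp hneg => by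
      have h1 := hy.1 i (List.mem_toFinset.1 hi)
      have h1' := hy.1 i' (List.mem_toFinset.1 hi')
      have h4 : 0 ≤ Q * y i' := mul_nonneg hQpos.le h1'.1
      have h5 : Q * y i ≤ Q := mul_le_of_le_one_right hQpos.le h1.2
      have hne : i ≠ i' := by
        rintro rfl
        exact lt_asymm hp hneg
      simp only [hw] at hp hneg
      have h6 : z.getD i 0 < lpQ I := by
        have : (z.getD i 0 : ℝ) < (lpQ I : ℝ) := by rw [← hQdef]; linarith
        exact_mod_cast this
      have h7 : 0 < z.getD i' 0 := by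
        have : (0 : ℝ) < (z.getD i' 0 : ℝ) := by linarith
        exact_mod_cast this
      exact lpGrad_le hI hz (List.mem_toFinset.1 hi) (List.mem_toFinset.1 hi') hne h6 h7
        (hloc i (List.mem_toFinset.1 hi) i' (List.mem_toFinset.1 hi')))
  -- the gradient pairing
  have hdiff : ∀ j t, (Q - Q * I.ball y j t) - (Q - zball I z j t) =
      -∑ i ∈ I.F.toFinset, if I.d j i ≤ t then w i else 0 := by
    intro j t
    rw [helper70_zball_cast hI, helper70_ball, Finset.mul_sum]
    have : ∑ i ∈ I.F.toFinset, (if I.d j i ≤ t then w i else 0) =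
        ∑ i ∈ I.F.toFinset, ((Q * if I.d j i ≤ t then y i else 0) -
          if I.d j i ≤ t then (z.getD i 0 : ℝ) else 0) := by
      refine Finset.sum_congr rfl fun i _ => ?_
      by_cases h : I.d j i ≤ t <;> simp [h, hw]
    rw [this, Finset.sum_sub_distrib]; ring
  have hpair : ∑ i ∈ I.F.toFinset, lpGrad I z i * w i =
      ∑ j ∈ I.C.toFinset, ∑ t ∈ Finset.range I.L,
        hubD W (Q - zball I z j t) * ((Q - Q * I.ball y j t) - (Q - zball I z j t)) := by
    simp only [hdiff, lpGrad, ← hWdef, ← hQdef]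
    simp only [neg_mul, mul_neg, Finset.sum_neg_distrib, Finset.sum_mul, Finset.mul_sum]
    congr 1
    rw [Finset.sum_comm]
    refine Finset.sum_congr rfl fun j _ => ?_
    rw [Finset.sum_comm]
    refine Finset.sum_congr rfl fun t _ => Finset.sum_congr rfl fun i _ => ?_
    by_cases h : I.d j i ≤ t <;> simp [h]
  -- termwise bound
  have hterm : ∀ j t, 2 * W * Q * max 0 (1 - I.ball (lpY I z) j t) - W * W +
      hubD W (Q - zball I z j t) * ((Q - Q * I.ball y j t) - (Q - zball I z j t)) ≤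
      2 * W * Q * max 0 (1 - I.ball y j t) := by
    intro j t
    have h1 := hubR_convex hWpos.le (Q - zball I z j t) (Q - Q * I.ball y j t)
    have h2 := hubR_le hWpos.le (Q - Q * I.ball y j t)
    have h3 := le_hubR hWpos.le (Q - (zball I z j t : ℝ))
    have h4 : max 0 (Q - Q * I.ball y j t) = Q * max 0 (1 - I.ball y j t) := by
      rw [mul_max_of_nonneg _ _ hQpos.le]; congr 1 <;> ring
    have h5 : (zball I z j t : ℝ) = Q * I.ball (lpY I z) j t := by
      rw [helper70_zball_cast hI, helper70_ball, Finset.mul_sum]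
      refine Finset.sum_congr rfl fun i _ => ?_
      by_cases h : I.d j i ≤ t
      · simp only [h, if_true, lpY, ← hQdef]
        field_simp
      · simp [h]
    have h6 : max 0 (Q - (zball I z j t : ℝ)) = Q * max 0 (1 - I.ball (lpY I z) j t) := by
      rw [h5, mul_max_of_nonneg _ _ hQpos.le]; congr 1 <;> ring
    rw [h4] at h2
    rw [h6] at h3
    linarith
  have hsum : ∑ j ∈ I.C.toFinset, ∑ t ∈ Finset.range I.L,
      (2 * W * Q * max 0 (1 - I.ball (lpY I z) j t) - W * W +
        hubD W (Q - zball I z j t) * ((Q - Q * I.ball y j t) - (Q - zball I z j t))) ≤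
      ∑ j ∈ I.C.toFinset, ∑ t ∈ Finset.range I.L, 2 * W * Q * max 0 (1 - I.ball y j t) :=
    Finset.sum_le_sum fun j _ => Finset.sum_le_sum fun t _ => hterm j t
  have hA : ∀ y' : ℕ → ℝ, ∑ j ∈ I.C.toFinset, ∑ t ∈ Finset.range I.L,
      2 * W * Q * max 0 (1 - I.ball y' j t) = 2 * W * Q * I.lpCost y' := by
    intro y'
    simp only [Inst.lpCost, Inst.lpClient, Finset.mul_sum]
  simp only [Finset.sum_add_distrib, Finset.sum_sub_distrib] at hsum
  rw [hA, hA, ← hpair] at hsum
  simp only [Finset.sum_const, Finset.card_range, nsmul_eq_mul] at hsum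
  have hC : (I.C.toFinset.card : ℝ) ≤ I.n := by
    rw [List.toFinset_card_of_nodup hI.C_nodup]; exact_mod_cast hI.C_length_le
  have hF : (I.F.toFinset.card : ℝ) ≤ I.n := by
    rw [List.toFinset_card_of_nodup hI.F_nodup]; exact_mod_cast hI.F_length_le
  have e1 : (I.C.toFinset.card : ℝ) * ((I.L : ℝ) * (W * W)) ≤ W * Q := by
    calc (I.C.toFinset.card : ℝ) * ((I.L : ℝ) * (W * W)) ≤ I.n * ((I.L : ℝ) * (W * W)) :=
          mul_le_mul_of_nonneg_right hC (by positivity)
      _ = W * Q := by rw [hQeq]; ring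
  have e2 : (I.n : ℝ) * I.L * Q * (I.F.toFinset.card : ℝ) ≤ W * Q := by
    calc (I.n : ℝ) * I.L * Q * (I.F.toFinset.card : ℝ) ≤ (I.n : ℝ) * I.L * Q * I.n :=
          mul_le_mul_of_nonneg_left hF (by positivity)
      _ = W * Q := by rw [hWeq]; ring
  have e3 : 2 * W * Q * I.lpCost (lpY I z) ≤ 2 * W * Q * (I.lpCost y + 1) := by linarith
  exact le_of_mul_le_mul_left e3 (by positivity)

/-- `ball` of the computed solution in terms of numerators. -/
lemma ball_lpY {I : Inst} (hI : I.Valid) (z : List ℕ) (j t : ℕ) :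
    I.ball (lpY I z) j t = (zball I z j t : ℝ) / lpQ I := by
  unfold Inst.ball lpY zball
  rw [← Finset.sum_div, ← List.sum_toFinset _ (hI.F_nodup.filter _), List.toFinset_filter]
  simp

lemma LPInv.lpFeas {I : Inst} (hI : I.Valid) {m : ℕ} {z : List ℕ} (hz : LPInv I m z) :
    I.LPFeas m (lpY I z) := by
  have hQ : (0 : ℝ) < lpQ I := by exact_mod_cast lpQ_pos hI
  refine ⟨fun i _ => ⟨div_nonneg (Nat.cast_nonneg _) hQ.le, ?_⟩, ?_⟩
  · exact (div_le_one hQ).2 (by exact_mod_cast hz.le i)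
  · unfold lpY
    rw [← Finset.sum_div, div_eq_iff hQ.ne']
    exact_mod_cast hz.sum

theorem lpSolve_feas {I : Inst} (hI : I.Valid) {m : ℕ} (hm : m ≤ I.F.length) :
    I.LPFeas m (lpY I (lpSolve I m)) :=
  (lpInv_solve hI hm).lpFeas hI

theorem lpSolve_opt {I : Inst} (hI : I.Valid) {m : ℕ} (hm : m ≤ I.F.length) {y : ℕ → ℝ}
    (hy : I.LPFeas m y) : I.lpCost (lpY I (lpSolve I m)) ≤ I.lpCost y + 1 :=
  lpCost_le_of_local hI (lpInv_solve hI hm) (lpSolve_local hI m) hy

end Crest.Agent.R310.A
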