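import Crest.Agent.R310.LSDefs

/-!
Row 310: the repair step of the Li–Svensson reduction.
-/

set_option autoImplicit false

namespace Crest.Agent.R310.A

/-- `pick` is a facility (or `i` itself), is close to `i` and is at least as good as any close
facility (`List.argmin_mem`, `List.le_of_mem_argmin`, `List.argmin_eq_none`). -/
theorem pick_spec (I : Inst) (R : ℕ) (T V : List ℕ) {i f : ℕ} (hf : f ∈ I.F)
    (hfi : R * I.d i f < gap I T i) :
    pick I R T V i ∈ I.F ∧ R * I.d i (pick I R T V i) < gap I T i ∧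
      localCost I T V i (pick I R T V i) ≤ localCost I T V i f := by
  have hmem : f ∈ I.F.filter fun f => decide (R * I.d i f < gap I T i) :=
    List.mem_filter.2 ⟨hf, by simpa using hfi⟩
  unfold pick
  cases h : (I.F.filter fun f => decide (R * I.d i f < gap I T i)).argmin (localCost I T V i) with
  | none =>
    rw [List.argmin_eq_none] at h
    rw [h] at hmem
    cases hmem
  | some m =>
    have h1 := List.mem_filter.1 (List.argmin_mem (Option.mem_def.2 h))
    exact ⟨h1.1, by simpa using h1.2, List.le_of_mem_argmin hmem (Option.mem_def.2 h)⟩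

/-- Distinct members of `T` are at distance at least the gap. -/
theorem gap_le (I : Inst) {T : List ℕ} {a b : ℕ} (hb : b ∈ T) (hab : a ≠ b) :
    gap I T a ≤ I.d a b := by
  exact I.dS_le a ((List.mem_erase_of_ne hab.symm).2 hb)

private theorem helper40_arith {r a x p q y : ℕ} (ha : a ≤ x + p) (hp : (r + 3) * p ≤ 3 * x)
    (hq : (r + 3) * q ≤ 3 * x) (hx : x ≤ y + q) : r * a ≤ (r + 6) * y := by
  refine Nat.le_of_mul_le_mul_left (c := r + 3) ?_ (by omega)
  have h1 : (r + 3) * a ≤ (r + 6) * x := by nlinarith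
  have h2 : r * x ≤ (r + 3) * y := by nlinarith
  calc (r + 3) * (r * a) = r * ((r + 3) * a) := by ring
    _ ≤ r * ((r + 6) * x) := Nat.mul_le_mul_left _ h1
    _ = (r + 6) * (r * x) := by ring
    _ ≤ (r + 6) * ((r + 3) * y) := Nat.mul_le_mul_left _ h2
    _ = (r + 3) * ((r + 6) * y) := by ring

private theorem helper40_localCost {I : Inst} (hI : I.Valid) (T V : List ℕ) (i f : ℕ) :
    localCost I T V i f = ∑ j ∈ I.C.toFinset.filter (fun j => 3 * I.d i j < gap I T i),
      min (I.d j f) (I.dS j V) := by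
  unfold localCost cball
  rw [← List.sum_toFinset _ (hI.C_nodup.filter _), List.toFinset_filter]
  simp

/-- The cost of the repaired solution. `D` (members of `T` outside `U`) are determined: `o i ∈ S`
has `R d i (o i) < gap i`. Every member of `S` is in `V` or is some `o i`.
* The `cball i (gap i)`, `i ∈ D`, are disjoint (`gap_le` twice). For `j ∈ cball i (gap i)`:
  `dS j (repair) ≤ min (d j (pick i)) (dS j V)`, the sum of these over the ball is at most
  `localCost .. (o i)` (`pick_spec`), and `min (d j (o i)) (dS j V) ≤ dS j S` because for `i' ≠ i` in `D`,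
  with `Δ = d i i'`: `3 d i j < Δ`, `6 d i (o i) < Δ`, `6 d i' (o i') < Δ` give `d j (o i) ≤ d j (o i')`.
* For `j` in no such ball, with nearest member `s` of `S`: if `s ∈ V` done; if `s = o i` then
  `gap i ≤ 3 d i j`, `d j (pick i) ≤ d i j + gap i / R`, `d j s ≥ d i j - gap i / R`, so
  `(R - 3) d j (pick i) ≤ (R + 3) d j s`. -/
theorem repair_cost {I : Inst} (hI : I.Valid) {S T U V : List ℕ} {R : ℕ} (hR : 6 ≤ R)
    (hS : S ≠ []) (hSF : ∀ s ∈ S, s ∈ I.F) (o : ℕ → ℕ)
    (ho : ∀ i ∈ T, i ∉ U → o i ∈ S ∧ R * I.d i (o i) < gap I T i)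
    (hcov : ∀ s ∈ S, s ∈ V ∨ ∃ i ∈ T, i ∉ U ∧ o i = s) :
    (R - 3) * I.cost (repair I R T U V) ≤ (R + 3) * I.cost S := by
  classical
  set D : Finset ℕ := T.toFinset.filter (fun i => i ∉ U) with hD
  have hDm : ∀ i, i ∈ D ↔ i ∈ T ∧ i ∉ U := fun i => by simp [hD]
  set Bl : ℕ → Finset ℕ := fun i => I.C.toFinset.filter (fun j => 3 * I.d i j < gap I T i)
    with hBl
  have hV : ∀ j, I.dS j (repair I R T U V) ≤ I.dS j V := fun j =>
    I.dS_mono j fun v hv => List.mem_append_left _ hv
  have hP : ∀ j, ∀ i ∈ D, I.dS j (repair I R T U V) ≤ I.d j (pick I R T V i) := by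
    intro j i hi
    refine I.dS_le j (List.mem_append_right _ (List.mem_map.2 ⟨i, ?_, rfl⟩))
    simpa using (hDm i).1 hi
  have hdisj : (D : Set ℕ).PairwiseDisjoint Bl := by
    intro i hi i' hi' hne
    refine Finset.disjoint_left.2 fun j hj hj' => ?_
    have h1 := (Finset.mem_filter.1 hj).2
    have h2 := (Finset.mem_filter.1 hj').2
    have h3 := gap_le I ((hDm i').1 hi').1 hne
    have h4 := gap_le I ((hDm i).1 hi).1 hne.symm
    have h5 := hI.d_tri i j i'
    have h6 := hI.d_comm j i'
    have h7 := hI.d_comm i i'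
    omega
  have hsub : D.biUnion Bl ⊆ I.C.toFinset :=
    Finset.biUnion_subset.2 fun i _ => Finset.filter_subset _ _
  -- clients in a ball
  have hin : ∑ j ∈ D.biUnion Bl, I.dS j (repair I R T U V) ≤ ∑ j ∈ D.biUnion Bl, I.dS j S := by
    rw [Finset.sum_biUnion hdisj, Finset.sum_biUnion hdisj]
    refine Finset.sum_le_sum fun i hi => ?_
    obtain ⟨hiT, hiU⟩ := (hDm i).1 hi
    obtain ⟨hoS, hoi⟩ := ho i hiT hiU
    obtain ⟨-, -, hpk⟩ := pick_spec I R T V (hSF _ hoS) hoi
    rw [helper40_localCost hI, helper40_localCost hI] at hpk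
    refine le_trans (Finset.sum_le_sum fun j _ => le_min (hP j i hi) (hV j)) (hpk.trans ?_)
    refine Finset.sum_le_sum fun j hj => ?_
    have h1 := (Finset.mem_filter.1 hj).2
    obtain ⟨s, hs, e⟩ := hI.exists_dS j hS
    rw [e]
    rcases hcov s hs with hsV | ⟨i', hi'T, hi'U, rfl⟩
    · exact (min_le_right _ _).trans (I.dS_le j hsV)
    refine (min_le_left _ _).trans ?_
    by_cases hne : i = i'
    · rw [hne]
    have h2 := (ho i' hi'T hi'U).2
    have h3 := gap_le I hi'T hne
    have h4 := gap_le I hiT (Ne.symm hne)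
    have h5 : 6 * I.d i (o i) ≤ R * I.d i (o i) := Nat.mul_le_mul_right _ hR
    have h6 : 6 * I.d i' (o i') ≤ R * I.d i' (o i') := Nat.mul_le_mul_right _ hR
    have h7 := hI.d_tri j i (o i)
    have h8 := hI.d_tri i j i'
    have h9 := hI.d_tri j (o i') i'
    have h10 := hI.d_comm i j
    have h11 := hI.d_comm i i'
    have h12 := hI.d_comm i' (o i')
    omega
  -- clients outside the balls
  have hout : ∀ j ∈ I.C.toFinset \ D.biUnion Bl,
      (R - 3) * I.dS j (repair I R T U V) ≤ (R + 3) * I.dS j S := by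
    intro j hj
    obtain ⟨hjC, hjB⟩ := Finset.mem_sdiff.1 hj
    obtain ⟨s, hs, e⟩ := hI.exists_dS j hS
    rw [e]
    rcases hcov s hs with hsV | ⟨i, hiT, hiU, rfl⟩
    · exact Nat.mul_le_mul (by omega) ((hV j).trans (I.dS_le j hsV))
    have hi : i ∈ D := (hDm i).2 ⟨hiT, hiU⟩
    have h1 : gap I T i ≤ 3 * I.d i j := by
      by_contra h
      exact hjB (Finset.mem_biUnion.2 ⟨i, hi, Finset.mem_filter.2 ⟨hjC, not_le.1 h⟩⟩)
    obtain ⟨hoS, hoi⟩ := ho i hiT hiU
    obtain ⟨-, hpk, -⟩ := pick_spec I R T V (hSF _ hoS) hoi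
    obtain ⟨r, rfl⟩ : ∃ r, R = r + 3 := ⟨R - 3, by omega⟩
    rw [Nat.add_sub_cancel, add_assoc]
    refine helper40_arith (x := I.d i j) (p := I.d i (pick I (r + 3) T V i)) (q := I.d i (o i))
      ?_ (by omega) (by omega) ?_
    · have h2 := hP j i hi
      have h3 := hI.d_tri j i (pick I (r + 3) T V i)
      have h4 := hI.d_comm i j
      omega
    · have h3 := hI.d_tri i (o i) j
      have h4 := hI.d_comm (o i) j
      omega
  rw [hI.cost_eq_sum, hI.cost_eq_sum, ← Finset.sum_sdiff hsub, ← Finset.sum_sdiff hsub, mul_add,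
    mul_add]
  refine add_le_add ?_ (Nat.mul_le_mul (by omega) hin)
  rw [Finset.mul_sum, Finset.mul_sum]
  exact Finset.sum_le_sum hout

/-- The right guess. `U = undet I R S T`; for `i ∈ T` outside `U` let `o i` be a nearest member of
`S` (`exists_dS`); `o` is injective there (`gap_le`, `R ≥ 2`); `V` lists the members of `S.dedup`
that are not of this form, so `|V| + |T| - |U| = |S| ≤ k < |T|`. -/
theorem exists_repair {I : Inst} (hI : I.Valid) {S T : List ℕ} {R : ℕ} (hR : 6 ≤ R)
    (hS : I.Feas I.k S) (hnd : T.Nodup) (hTF : ∀ i ∈ T, i ∈ I.F) (hk : I.k < T.length) :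
    ∃ V : List ℕ, V.length ≤ (undet I R S T).length ∧ (∀ v ∈ V, v ∈ I.F) ∧
      I.Feas I.k (repair I R T (undet I R S T) V) ∧
      (R - 3) * I.cost (repair I R T (undet I R S T) V) ≤ (R + 3) * I.cost S := by
  classical
  choose o hoS hod using fun i => hI.exists_dS i hS.1
  set U := undet I R S T with hU
  have ho : ∀ i ∈ T, i ∉ U → o i ∈ S ∧ R * I.d i (o i) < gap I T i := by
    intro i hi hiU
    refine ⟨hoS i, ?_⟩
    rw [← hod i]
    by_contra hcon
    exact hiU (List.mem_filter.2 ⟨hi, by simpa using hcon⟩)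
  set D := T.filter fun i => decide (i ∉ U) with hD
  have hDm : ∀ i, i ∈ D ↔ i ∈ T ∧ i ∉ U := fun i => by simp [hD]
  have hinj : Set.InjOn o (D.toFinset : Set ℕ) := by
    intro i hi i' hi' e
    by_contra hne
    obtain ⟨hi1, hi2⟩ := (hDm i).1 (by simpa using hi)
    obtain ⟨hi1', hi2'⟩ := (hDm i').1 (by simpa using hi')
    have h1 := (ho i hi1 hi2).2
    have h2 := (ho i' hi1' hi2').2
    have h3 := gap_le I hi1' hne
    have h4 := gap_le I hi1 (Ne.symm hne)
    have h5 := hI.d_tri i (o i) i'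
    rw [hI.d_comm (o i) i', e] at h5
    rw [hI.d_comm i' i] at h4
    rw [e] at h1
    have h6 : 6 * I.d i (o i') ≤ R * I.d i (o i') := Nat.mul_le_mul_right _ hR
    have h7 : 6 * I.d i' (o i') ≤ R * I.d i' (o i') := Nat.mul_le_mul_right _ hR
    omega
  set V := S.dedup.filter fun s => decide (s ∉ D.map o) with hV
  have hVm : ∀ s, s ∈ V ↔ s ∈ S ∧ s ∉ D.map o := fun s => by
    simp only [hV, List.mem_filter, List.mem_dedup, decide_eq_true_eq]
  have hVnd : V.Nodup := (List.nodup_dedup S).filter _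
  have hDnd : D.Nodup := hnd.filter _
  have hcard : V.length + D.length = S.toFinset.card := by
    have h1 : V.toFinset = S.toFinset \ D.toFinset.image o := by
      ext s
      simp only [List.mem_toFinset, hVm, Finset.mem_sdiff, Finset.mem_image, List.mem_map]
    have h2 : D.toFinset.image o ⊆ S.toFinset := by
      intro s hs
      obtain ⟨i, -, rfl⟩ := Finset.mem_image.1 hs
      exact List.mem_toFinset.2 (hoS i)
    rw [← List.toFinset_card_of_nodup hVnd, ← List.toFinset_card_of_nodup hDnd, h1,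
      ← Finset.card_image_of_injOn hinj, Finset.card_sdiff_add_card_eq_card h2]
  have hlen : T.length = U.length + D.length := by
    have h1 : D = T.filter fun i => !decide (gap I T i ≤ R * I.dS i S) := by
      apply List.filter_congr
      intro i hi
      by_cases h : gap I T i ≤ R * I.dS i S
      · simp [hU, undet, hi, h]
      · simp [hU, undet, hi, h, not_le.1 h]
    rw [h1]
    exact List.length_eq_length_filter_add _
  have hk' := hS.2.2
  refine ⟨V, by omega, fun v hv => hS.2.1 v ((hVm v).1 hv).1, ⟨?_, ?_, ?_⟩, ?_⟩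
  · intro h0
    have h1 := congrArg List.length h0
    simp only [repair, List.length_append, List.length_map, List.length_nil] at h1
    have h2 : S.toFinset.card = 0 := by rw [← hcard]; exact h1
    rw [Finset.card_eq_zero, List.toFinset_eq_empty_iff] at h2
    exact hS.1 h2
  · intro x hx
    rcases List.mem_append.1 hx with hx | hx
    · exact hS.2.1 x ((hVm x).1 hx).1
    · obtain ⟨i, hi, rfl⟩ := List.mem_map.1 hx
      obtain ⟨hi1, hi2⟩ := (hDm i).1 hi
      exact (pick_spec I R T V (hS.2.1 _ (hoS i)) (ho i hi1 hi2).2).1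
  · refine (List.toFinset_card_le _).trans ?_
    simp only [repair, List.length_append, List.length_map]
    change V.length + D.length ≤ I.k
    omega
  · refine repair_cost hI hR hS.1 hS.2.1 o ho fun s hs => ?_
    by_cases h : s ∈ D.map o
    · obtain ⟨i, hi, e⟩ := List.mem_map.1 h
      exact Or.inr ⟨i, ((hDm i).1 hi).1, ((hDm i).1 hi).2, e⟩
    · exact Or.inl ((hVm s).2 ⟨hs, h⟩)

end Crest.Agent.R310.A
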