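import Crest.Agent.R310.LSSparse
import Crest.Agent.R310.LSRepair

/-!
Row 310: the Li–Svensson reduction.
-/

set_option autoImplicit false

namespace Crest.Agent.R310.A

open Crest.Agent.Lib.PT

section h76

variable {α : Type} [Enc α]

@[fun_prop] lemma h76_pt_cball {I : α → Inst} {i r : α → ℕ} (hI : PT I) (hi : PT i) (hr : PT r) :
    PT (fun a => cball (I a) (i a) (r a)) := by
  unfold cball; fun_prop

@[fun_prop] lemma h76_pt_resid {I : α → Inst} {τ : α → List (ℕ × ℕ)} (hI : PT I) (hτ : PT τ) :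
    PT (fun a => resid (I a) (τ a)) := by
  unfold resid; fun_prop

@[fun_prop] lemma h76_pt_residInst {I : α → Inst} {τ : α → List (ℕ × ℕ)} (hI : PT I)
    (hτ : PT τ) : PT (fun a => residInst (I a) (τ a)) := by
  unfold residInst; fun_prop

@[fun_prop] lemma h76_pt_pruneStep (P : ℕ) {I : α → Inst} {B : α → ℕ} {T : α → List ℕ}
    (hI : PT I) (hB : PT B) (hT : PT T) : PT (fun a => pruneStep (I a) P (B a) (T a)) := by
  unfold pruneStep; fun_prop

lemma h76_pt_iter (P c : ℕ) {I : α → Inst} {B : α → ℕ} {T : α → List ℕ}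
    (hI : PT I) (hB : PT B) (hT : PT T) : PT (fun a => (pruneStep (I a) P (B a))^[c] (T a)) := by
  induction c with
  | zero => exact hT
  | succ c ih =>
    simp only [Function.iterate_succ_apply']
    exact h76_pt_pruneStep P hI hB ih

@[fun_prop] lemma h76_pt_prune (P c : ℕ) {I : α → Inst} {B : α → ℕ} {T : α → List ℕ}
    (hI : PT I) (hB : PT B) (hT : PT T) : PT (fun a => prune (I a) P (B a) c (T a)) :=
  h76_pt_iter P c hI hB (by fun_prop)

@[fun_prop] lemma h76_pt_gap {I : α → Inst} {T : α → List ℕ} {i : α → ℕ}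
    (hI : PT I) (hT : PT T) (hi : PT i) : PT (fun a => gap (I a) (T a) (i a)) := by
  unfold gap; fun_prop

@[fun_prop] lemma h76_pt_localCost {I : α → Inst} {T V : α → List ℕ} {i f : α → ℕ}
    (hI : PT I) (hT : PT T) (hV : PT V) (hi : PT i) (hf : PT f) :
    PT (fun a => localCost (I a) (T a) (V a) (i a) (f a)) := by
  unfold localCost; fun_prop

@[fun_prop] lemma h76_pt_pick (R : ℕ) {I : α → Inst} {T V : α → List ℕ} {i : α → ℕ}
    (hI : PT I) (hT : PT T) (hV : PT V) (hi : PT i) :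
    PT (fun a => pick (I a) R (T a) (V a) (i a)) := by
  unfold pick; fun_prop

@[fun_prop] lemma h76_pt_repair (R : ℕ) {I : α → Inst} {T U V : α → List ℕ}
    (hI : PT I) (hT : PT T) (hU : PT U) (hV : PT V) :
    PT (fun a => repair (I a) R (T a) (U a) (V a)) := by
  unfold repair; fun_prop

@[fun_prop] lemma h76_pt_repairs (R t' : ℕ) {I : α → Inst} {T : α → List ℕ}
    (hI : PT I) (hT : PT T) : PT (fun a => repairs (I a) R t' (T a)) := by
  unfold repairs; fun_prop

end h76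

/-- All pieces are `fun_prop` after unfolding (state one `@[fun_prop]` lemma per definition of
`LSDefs`; `prune` by induction on the constant `c`, `PT.argmin_nat` for `pick`). -/
theorem pt_lsCands (t t' c P R : ℕ) {A : Inst × ℕ → List (List ℕ)} (hA : PT A) :
    PT (lsCands t t' c P R A) := by
  unfold lsCands; fun_prop

/-- Combine `exists_sparse`, the specification of `A` on the residual instance `J`, `prune_spec`,
`undet_length_le` and `exists_repair` (all in `J`); `J.Feas J.k X` implies `I.Feas I.k X`. -/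
theorem lsCands_spec {α β : ℝ} {c K P R G : ℕ} {A : Inst × ℕ → List (List ℕ)}
    (hA : Spec α c K A) (hP : 1 ≤ P) (hR : 6 ≤ R) (h1 : α + c / P ≤ β) (h2 : β ≤ G)
    (h3 : (R : ℝ) + 3 ≤ β * (R - 3)) :
    Spec β 0 K (lsCands (3 * R * P) (6 * R * P * G) c P R A) := by
  rintro I B hI hK hB ⟨S, hS, hSB⟩
  obtain ⟨τ, hτ, hJ, hJS, hsp⟩ := exists_sparse hI hS (3 * R * P) B hSB
  set J := residInst I τ with hJdef
  have hcost : ∀ X, J.cost X = I.cost X := fun X => rfl
  have hfeas : ∀ X, J.Feas J.k X → I.Feas (I.k + 0) X := by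
    rintro X ⟨a1, a2, a3⟩
    refine ⟨a1, fun i hi => ?_, a3.trans ?_⟩
    · exact List.mem_of_mem_filter (a2 i hi)
    · exact min_le_left _ _
  obtain ⟨T, hT, hTf, hTc⟩ := hA J B hJ hK hB ⟨S, hJS, hSB⟩
  obtain ⟨p1, p2, p3, p4, p5⟩ := prune_spec hJ P B c hTf
  set T' := prune J P B c T with hT'
  have hP0 : (0 : ℝ) < P := by exact_mod_cast hP
  have hB0 : (0 : ℝ) ≤ B := Nat.cast_nonneg _
  have hc' : (J.cost T' : ℝ) ≤ β * B := by
    have e1 : (P : ℝ) * J.cost T' ≤ P * J.cost T + c * B := by exact_mod_cast p4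
    have e2 : (J.cost T' : ℝ) ≤ J.cost T + c / P * B := by
      refine le_of_mul_le_mul_left (e1.trans (le_of_eq ?_)) hP0
      field_simp
    nlinarith [mul_le_mul_of_nonneg_right h1 hB0]
  have hmem : ∀ X ∈ repairs J R (6 * R * P * G) T',
      X ∈ lsCands (3 * R * P) (6 * R * P * G) c P R A (I, B) := fun X hX =>
    List.mem_flatMap.2 ⟨τ, hτ, List.mem_flatMap.2 ⟨T, hT, hX⟩⟩
  rcases p5 with hlen | ⟨hlen, hmin⟩
  · exact ⟨T', hmem _ (List.mem_cons_self ..),
      hfeas _ ⟨p2, p3, (List.toFinset_card_le _).trans hlen⟩, hc'⟩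
  · have hG : J.cost T' ≤ G * B := by
      have : (J.cost T' : ℝ) ≤ G * B := hc'.trans (mul_le_mul_of_nonneg_right h2 hB0)
      exact_mod_cast this
    have hu := undet_length_le hJ hsp le_rfl hP (by omega : 1 ≤ R) p1 p3 p2 hG hmin
    obtain ⟨V, v1, v2, v3, v4⟩ := exists_repair hJ hR hJS p1 p3 hlen
    refine ⟨repair J R T' (undet J R S T') V, hmem _ (List.mem_cons_of_mem _ ?_), hfeas _ v3, ?_⟩
    · refine List.mem_flatMap.2 ⟨undet J R S T', (mem_tuples _ _ _).2
        ⟨hu, fun x hx => List.mem_of_mem_filter hx⟩, List.mem_map.2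
          ⟨V, (mem_tuples _ _ _).2 ⟨v1.trans hu, v2⟩, rfl⟩⟩
    · have hR' : (6 : ℝ) ≤ R := by exact_mod_cast hR
      have e1 : ((R : ℝ) - 3) * J.cost (repair J R T' (undet J R S T') V) ≤
          (R + 3) * J.cost S := by
        have : (((R - 3 : ℕ) : ℝ)) * J.cost (repair J R T' (undet J R S T') V) ≤
            ((R + 3 : ℕ) : ℝ) * J.cost S := by exact_mod_cast v4
        rwa [Nat.cast_sub (by omega), Nat.cast_add, Nat.cast_ofNat] at this
      have e2 : (J.cost S : ℝ) ≤ B := by exact_mod_cast hSB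
      rw [← hcost]
      refine le_of_mul_le_mul_left (a := (R : ℝ) - 3) ?_ (by linarith)
      calc ((R : ℝ) - 3) * J.cost (repair J R T' (undet J R S T') V) ≤ (R + 3) * J.cost S := e1
        _ ≤ (R + 3) * B := mul_le_mul_of_nonneg_left e2 (by linarith)
        _ ≤ β * (R - 3) * B := mul_le_mul_of_nonneg_right h3 hB0
        _ = (R - 3) * (β * B) := by ring

/-- Use `Pseudo` with `ε / 2`; `P = c ⌈2/ε⌉₊ + 1`, `R = ⌈6/ε⌉₊ + 6`, `G = ⌈g + ε⌉₊`. -/
theorem exact_of_pseudo {g : ℝ} (hg : 1 ≤ g) (h : Pseudo g) : Exact g := by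
  intro ε hε
  obtain ⟨c, K, A, hA, hS⟩ := h (ε / 2) (by positivity)
  refine ⟨K, _, pt_lsCands _ _ c (c * ⌈2 / ε⌉₊ + 1) (⌈6 / ε⌉₊ + 6) hA,
    lsCands_spec (G := ⌈g + ε⌉₊) hS (by omega) (by omega) ?_ (Nat.le_ceil _) ?_⟩
  · have e1 : 2 / ε ≤ ⌈2 / ε⌉₊ := Nat.le_ceil _
    have hc : (0 : ℝ) ≤ c := Nat.cast_nonneg _
    have e2 : (c : ℝ) / ((c * ⌈2 / ε⌉₊ + 1 : ℕ) : ℝ) ≤ ε / 2 := by
      rw [div_le_iff₀ (by positivity)]
      push_cast
      rw [div_le_iff₀ hε] at e1
      nlinarith [mul_le_mul_of_nonneg_left e1 hc]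
    linarith
  · have e1 : 6 / ε ≤ ⌈6 / ε⌉₊ := Nat.le_ceil _
    rw [div_le_iff₀ hε] at e1
    have h0 : (0 : ℝ) ≤ ⌈6 / ε⌉₊ := Nat.cast_nonneg _
    push_cast
    nlinarith

end Crest.Agent.R310.A
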