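import Crest.Agent.R310.WrapDefs

/-!
Row 310: the scaled integer instance.
-/

set_option autoImplicit false

namespace Crest.Agent.R310.A

open Crest.LogicCS.KMedian

/-- The scaled distance between two points of the instance. -/
theorem scale_d (I : Instance) (hI : I.Valid) (K G : ℕ) (δ : ℚ) (a b : Fin I.N) :
    (scale K G (raw I) δ).d a b = min ⌈I.dist a b * (K * I.N : ℕ) / δ⌉₊ (wrapL K G (raw I)) := by
  unfold Inst.d
  split_ifs with h
  · have h' : a = b := Fin.ext h
    subst h'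
    simp [hI.1 a]
  · simp [scale, raw, List.getD_eq_getElem?_getD]

private lemma h44_scale_L (K G : ℕ) (R : Raw) (δ : ℚ) : (scale K G R δ).L = wrapL K G R := by
  simp [scale, Inst.L]

private lemma h44_scale_out (I : Instance) (K G : ℕ) (δ : ℚ) {a b : ℕ} (hab : a ≠ b)
    (h : I.N ≤ a ∨ I.N ≤ b) : (scale K G (raw I) δ).d a b = wrapL K G (raw I) := by
  unfold Inst.d
  rw [if_neg hab, h44_scale_L]
  by_cases ha : a < I.N
  · have hb : I.N ≤ b := by omega
    simp [scale, raw, List.getD_eq_getElem?_getD, ha, hb]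
  · have ha' : I.N ≤ a := by omega
    simp [scale, raw, List.getD_eq_getElem?_getD, ha']

private lemma h44_scale_le (I : Instance) (hI : I.Valid) (K G : ℕ) (δ : ℚ) (a b : ℕ) :
    (scale K G (raw I) δ).d a b ≤ wrapL K G (raw I) := by
  by_cases hab : a = b
  · subst hab; simp
  by_cases h : I.N ≤ a ∨ I.N ≤ b
  · exact (h44_scale_out I K G δ hab h).le
  · have := scale_d I hI K G δ ⟨a, by omega⟩ ⟨b, by omega⟩
    simp only at this
    rw [this]
    exact min_le_right _ _

/-- Outside the table distinct points are at distance `L`; inside use `scale_d`, subadditivity of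
`⌈·⌉₊` (`Nat.ceil_add_le`) and of `min · L`. -/
theorem scale_valid (I : Instance) (hI : I.Valid) {K : ℕ} (hK : 1 ≤ K) (G : ℕ) {δ : ℚ}
    (hδ : 0 < δ) : (scale K G (raw I) δ).Valid := by
  have hd : ∀ (a b : ℕ) (ha : a < I.N) (hb : b < I.N), (scale K G (raw I) δ).d a b =
      min ⌈I.dist ⟨a, ha⟩ ⟨b, hb⟩ * (K * I.N : ℕ) / δ⌉₊ (wrapL K G (raw I)) :=
    fun a b ha hb => scale_d I hI K G δ ⟨a, ha⟩ ⟨b, hb⟩
  have hL : 1 ≤ wrapL K G (raw I) := by unfold wrapL; omega
  refine ⟨?_, ?_, ?_, ?_, nodup_toL _, nodup_toL _, ?_, ?_, hI.2.2.2.2.1, ?_⟩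
  · intro a b
    by_cases hab : a = b
    · rw [hab]
    by_cases h : I.N ≤ a ∨ I.N ≤ b
    · rw [h44_scale_out I K G δ hab h, h44_scale_out I K G δ (Ne.symm hab) h.symm]
    · rw [hd a b (by omega) (by omega), hd b a (by omega) (by omega), hI.2.2.1]
  · intro a b c
    by_cases hab : a = b
    · subst hab; simp
    by_cases hbc : b = c
    · subst hbc; simp
    have hle := h44_scale_le I hI K G δ a c
    by_cases h1 : I.N ≤ a ∨ I.N ≤ b
    · rw [h44_scale_out I K G δ hab h1]; omega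
    by_cases h2 : I.N ≤ b ∨ I.N ≤ c
    · rw [h44_scale_out I K G δ hbc h2]; omega
    have ha : a < I.N := by omega
    have hb : b < I.N := by omega
    have hc : c < I.N := by omega
    rw [hd a c ha hc, hd a b ha hb, hd b c hb hc]
    have htri := hI.2.2.2.1 ⟨a, ha⟩ ⟨b, hb⟩ ⟨c, hc⟩
    have hm : (0 : ℚ) ≤ ((K * I.N : ℕ) : ℚ) := Nat.cast_nonneg _
    have h3 : ⌈I.dist ⟨a, ha⟩ ⟨c, hc⟩ * (K * I.N : ℕ) / δ⌉₊ ≤
        ⌈I.dist ⟨a, ha⟩ ⟨b, hb⟩ * (K * I.N : ℕ) / δ⌉₊ +
          ⌈I.dist ⟨b, hb⟩ ⟨c, hc⟩ * (K * I.N : ℕ) / δ⌉₊ := by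
      refine le_trans (Nat.ceil_mono ?_) (Nat.ceil_add_le _ _)
      rw [← add_div, ← add_mul]
      gcongr
    omega
  · intro a b hab
    by_cases h : I.N ≤ a ∨ I.N ≤ b
    · rw [h44_scale_out I K G δ hab h]; exact hL
    have ha : a < I.N := by omega
    have hb : b < I.N := by omega
    rw [hd a b ha hb]
    refine le_min ?_ hL
    have h1 := hI.2.1 ⟨a, ha⟩ ⟨b, hb⟩ (fun e => hab (congrArg Fin.val e))
    have h2 : (0 : ℚ) < ((K * I.N : ℕ) : ℚ) := by
      exact_mod_cast Nat.mul_pos hK (by omega)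
    exact Nat.one_le_iff_ne_zero.2 (Nat.ceil_pos.2 (by positivity)).ne'
  · intro a b
    rw [h44_scale_L]
    exact h44_scale_le I hI K G δ a b
  · intro j hj
    obtain ⟨i, -, rfl⟩ := (mem_toL _ _).1 hj
    simp [Inst.n, scale]
  · intro j hj
    obtain ⟨i, -, rfl⟩ := (mem_toL _ _).1 hj
    simp [Inst.n, scale]
  · change I.k ≤ (toL I.facilities).length
    rw [length_toL]
    exact hI.2.2.2.2.2

private lemma h44_foldr_min (l : List ℚ) (z : ℚ) :
    (l.foldr min z ≤ z ∧ ∀ x ∈ l, l.foldr min z ≤ x) ∧ (l.foldr min z = z ∨ l.foldr min z ∈ l) := by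
  induction l with
  | nil => simp
  | cons a l ih =>
    obtain ⟨⟨h1, h2⟩, h3⟩ := ih
    simp only [List.foldr_cons, List.mem_cons]
    refine ⟨⟨(min_le_right _ _).trans h1, ?_⟩, ?_⟩
    · rintro x (rfl | hx)
      · exact min_le_left _ _
      · exact (min_le_right _ _).trans (h2 x hx)
    · rcases le_total a (l.foldr min z) with h | h
      · rw [min_eq_left h]; exact Or.inr (Or.inl rfl)
      · rw [min_eq_right h]
        rcases h3 with h3 | h3
        · exact Or.inl h3
        · exact Or.inr (Or.inr h3)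

private lemma h44_qdS (I : Instance) {T : List ℕ} (hT : T ≠ []) (hlt : ∀ i ∈ T, i < I.N)
    (hne : (ofL I.N T).Nonempty) (j : Fin I.N) :
    qdS (raw I) j T = (ofL I.N T).inf' hne (I.dist j) := by
  obtain ⟨⟨-, h2⟩, h3⟩ := h44_foldr_min (T.map (qd (raw I) j)) (qd (raw I) j (T.headD 0))
  apply le_antisymm
  · refine Finset.le_inf' _ _ fun i hi => ?_
    have hi' : (i : ℕ) ∈ T := by simpa [ofL] using hi
    rw [← qd_raw]
    exact h2 _ (List.mem_map_of_mem hi')
  · have key : ∀ i ∈ T, (ofL I.N T).inf' hne (I.dist j) ≤ qd (raw I) j i := by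
      intro i hi
      have e := qd_raw I j ⟨i, hlt i hi⟩
      simp only at e
      rw [e]
      exact Finset.inf'_le _ (by simpa [ofL] using hi)
    unfold qdS
    rcases h3 with h3 | h3
    · rw [h3]
      apply key
      cases T with
      | nil => exact absurd rfl hT
      | cons a T => simp
    · obtain ⟨i, hi, e⟩ := List.mem_map.1 h3
      rw [← e]
      exact key i hi

/-- `qcost` is the cost of the statement. -/
theorem cost_ofL (I : Instance) {T : List ℕ} (hT : T ≠ []) (hlt : ∀ i ∈ T, i < I.N) :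
    (ofL I.N T).Nonempty ∧ I.cost (ofL I.N T) = qcost (raw I) T := by
  have hne : (ofL I.N T).Nonempty := by
    obtain ⟨a, ha⟩ := List.exists_mem_of_ne_nil T hT
    exact ⟨⟨a, hlt a ha⟩, by simpa [ofL] using ha⟩
  refine ⟨hne, ?_⟩
  unfold Instance.cost qcost
  rw [dif_pos hne]
  change _ = ((toL I.clients).map fun j => qdS (raw I) j T).sum
  rw [← List.sum_toFinset _ (nodup_toL _), toFinset_toL, Finset.sum_map]
  exact Finset.sum_congr rfl fun j _ => (h44_qdS I hT hlt hne j).symm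

private theorem helper22_cost (I : Instance) (hI : I.Valid) (K G : ℕ) {δ : ℚ} (hδ : 0 < δ)
    {S : Finset (Fin I.N)} (hS : S.Nonempty) {T : List ℕ} (hlt : ∀ i ∈ T, i < I.N)
    (hST : ∀ i : Fin I.N, i ∈ S ↔ (i : ℕ) ∈ T) :
    (scale K G (raw I) δ).cost T = ∑ j ∈ I.clients,
      min ⌈S.inf' hS (I.dist j) * (K * I.N : ℕ) / δ⌉₊ (wrapL K G (raw I)) := by
  have hC : (scale K G (raw I) δ).C = toL I.clients := rfl
  have hL : (scale K G (raw I) δ).L = wrapL K G (raw I) := by simp [Inst.L, scale]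
  unfold Inst.cost
  rw [hC, ← List.sum_toFinset _ (nodup_toL _), toFinset_toL, Finset.sum_map]
  refine Finset.sum_congr rfl fun j _ => le_antisymm ?_ ?_
  · obtain ⟨i, hi, e⟩ := Finset.exists_mem_eq_inf' hS (I.dist j)
    rw [e, ← scale_d I hI K G δ j i]
    exact Inst.dS_le _ _ ((hST i).1 hi)
  · refine Inst.le_dS _ _ (hL ▸ min_le_right _ _) fun i hi => ?_
    have h := scale_d I hI K G δ j ⟨i, hlt i hi⟩
    refine le_trans (min_le_min_right _ (Nat.ceil_mono ?_)) h.ge
    have h1 : S.inf' hS (I.dist j) ≤ I.dist j ⟨i, hlt i hi⟩ :=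
      Finset.inf'_le _ ((hST ⟨i, hlt i hi⟩).2 hi)
    gcongr

private theorem helper22_inf_nonneg (I : Instance) (hI : I.Valid) {S : Finset (Fin I.N)}
    (hS : S.Nonempty) (j : Fin I.N) : 0 ≤ S.inf' hS (I.dist j) := by
  refine Finset.le_inf' _ _ fun i _ => ?_
  by_cases h : j = i
  · rw [h, hI.1]
  · exact (hI.2.1 j i h).le

/-- The reference solution in the scaled instance, `δ` being the largest distance of a client to
`S`: every client costs at most `K n` and at most `dist * K n / δ + 1`, one client costs at least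
`K n`. -/
theorem scale_cost_upper (I : Instance) (hI : I.Valid) {K G : ℕ} (hK : 1 ≤ K) (hG : 1 ≤ G) {δ : ℚ}
    (hδ : 0 < δ) {S : Finset (Fin I.N)} (hS : S.Nonempty)
    (h1 : ∀ j ∈ I.clients, S.inf' hS (I.dist j) ≤ δ)
    (h2 : ∃ j ∈ I.clients, S.inf' hS (I.dist j) = δ) :
    K * I.N ≤ (scale K G (raw I) δ).cost (toL S) ∧
      (scale K G (raw I) δ).cost (toL S) ≤ I.N * (K * I.N) ∧
      ((scale K G (raw I) δ).cost (toL S) : ℚ) ≤ I.cost S * (K * I.N : ℕ) / δ + I.N := by
  have hc := helper22_cost I hI K G hδ hS (T := toL S)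
    (fun i hi => by
      obtain ⟨a, -, rfl⟩ := (mem_toL S i).1 hi
      exact a.2)
    (fun i => by simp [mem_toL, Fin.val_inj])
  have hcard : I.clients.card ≤ I.N := by simpa using I.clients.card_le_univ
  rw [hc]
  refine ⟨?_, ?_, ?_⟩
  · obtain ⟨j, hj, e⟩ := h2
    refine le_trans ?_ (Finset.single_le_sum (fun _ _ => Nat.zero_le _) hj)
    rw [e, mul_div_cancel_left₀ _ hδ.ne', Nat.ceil_natCast]
    refine le_min le_rfl ?_
    have hN : 1 ≤ I.N := j.pos
    unfold wrapL
    rw [length_raw]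
    calc K * I.N = 1 * (1 * (K * I.N)) := by ring
      _ ≤ G * (I.N * (K * I.N)) := by gcongr
      _ ≤ _ := Nat.le_succ _
  · refine (Finset.sum_le_card_nsmul _ _ (K * I.N) fun j hj => ?_).trans ?_
    · refine (min_le_left _ _).trans (Nat.ceil_le.2 ?_)
      rw [div_le_iff₀ hδ, mul_comm]
      exact mul_le_mul_of_nonneg_left (h1 j hj) (Nat.cast_nonneg _)
    · rw [smul_eq_mul]
      exact Nat.mul_le_mul_right _ hcard
  · rw [Instance.cost, dif_pos hS, Nat.cast_sum, Finset.sum_mul, Finset.sum_div]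
    calc ∑ j ∈ I.clients, ((min ⌈S.inf' hS (I.dist j) * (K * I.N : ℕ) / δ⌉₊
          (wrapL K G (raw I)) : ℕ) : ℚ)
        ≤ ∑ j ∈ I.clients, (S.inf' hS (I.dist j) * (K * I.N : ℕ) / δ + 1) := by
          refine Finset.sum_le_sum fun j _ => ?_
          have h0 := helper22_inf_nonneg I hI hS j
          exact (Nat.cast_le.2 (min_le_left _ _)).trans (Nat.ceil_lt_add_one (by positivity)).le
      _ ≤ _ := by
          rw [Finset.sum_add_distrib, Finset.sum_const, nsmul_eq_mul, mul_one]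
          have : (I.clients.card : ℚ) ≤ I.N := by exact_mod_cast hcard
          linarith

/-- A solution cheaper than the truncation level has no truncated client. -/
theorem scale_cost_lower (I : Instance) (hI : I.Valid) {K G : ℕ} (hK : 1 ≤ K) {δ : ℚ}
    (hδ : 0 < δ) {T : List ℕ} (hT : T ≠ []) (hlt : ∀ i ∈ T, i < I.N)
    (h : (scale K G (raw I) δ).cost T < wrapL K G (raw I)) :
    qcost (raw I) T * (K * I.N : ℕ) / δ ≤ (scale K G (raw I) δ).cost T := by
  obtain ⟨hS, e⟩ := cost_ofL I hT hlt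
  have hc := helper22_cost I hI K G hδ hS hlt (fun i => by simp [ofL])
  rw [hc] at h ⊢
  rw [← e, Instance.cost, dif_pos hS, Nat.cast_sum, Finset.sum_mul, Finset.sum_div]
  refine Finset.sum_le_sum fun j hj => ?_
  have h1 := (Finset.single_le_sum (fun _ _ => Nat.zero_le _) hj).trans_lt h
  rw [min_eq_left (le_of_lt ((min_lt_iff.1 h1).resolve_right (lt_irrefl _)))]
  exact Nat.le_ceil _

end Crest.Agent.R310.A
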