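import Crest.Agent.R310.WrapPT
import Crest.Agent.R310.WrapScale

/-!
Row 310: from the integer specification to the statement.
-/

set_option autoImplicit false

namespace Crest.Agent.R310.A

open Crest.Agent.Lib.PT Crest.LogicCS.KMedian

lemma h97_feasB_iff (I : Instance) (T : List ℕ) : feasB (raw I) T = true ↔
    T ≠ [] ∧ (∀ i ∈ T, i ∈ toL I.facilities) ∧ T.toFinset.card ≤ I.k := by
  unfold feasB
  rw [decide_eq_true_iff, List.card_toFinset]
  rfl

lemma h97_lt {N : ℕ} {S : Finset (Fin N)} {a : ℕ} (h : a ∈ toL S) : a < N := by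
  obtain ⟨i, -, rfl⟩ := (mem_toL S a).1 h
  exact i.2

lemma h97_take (I : Instance) (hI : I.Valid) :
    feasB (raw I) ((toL I.facilities).take 1) = true := by
  have hl : 1 ≤ (toL I.facilities).length := by
    rw [length_toL]; exact hI.2.2.2.2.1.trans hI.2.2.2.2.2
  rw [h97_feasB_iff]
  refine ⟨?_, fun i hi => List.mem_of_mem_take hi, ?_⟩
  · intro h
    have := congrArg List.length h
    rw [List.length_take, List.length_nil] at this
    omega
  · refine (List.toFinset_card_le _).trans ?_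
    rw [List.length_take]
    exact (min_le_left _ _).trans hI.2.2.2.2.1

lemma h97_inf_nonneg (I : Instance) (hI : I.Valid) {S : Finset (Fin I.N)} (hS : S.Nonempty)
    (j : Fin I.N) : 0 ≤ S.inf' hS (I.dist j) := by
  refine Finset.le_inf' _ _ fun i _ => ?_
  by_cases h : j = i
  · rw [h, hI.1]
  · exact (hI.2.1 j i h).le

lemma h97_cost_nonneg (I : Instance) (hI : I.Valid) {S : Finset (Fin I.N)} (hS : S.Nonempty) :
    0 ≤ I.cost S := by
  unfold Instance.cost
  rw [dif_pos hS]
  exact Finset.sum_nonneg fun j _ => h97_inf_nonneg I hI hS j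

/-- Some feasible candidate is good. If there are no clients take `F.take 1`. Otherwise let `δ` be
the largest distance of a client to `S` (a table entry, `δ ≤ cost S`). If `δ = 0` every client is
in `S` and the client list is a feasible candidate of cost `0`. Otherwise `B` is the scaled cost of
`toL S`: `scale_valid`, `scale_cost_upper`, `hA`, `α B ≤ G B < wrapL`, `scale_cost_lower`, and
`B δ / (K n) ≤ cost S + δ / K ≤ (1 + 1 / K) cost S`. -/
theorem exists_good_cand {α : ℝ} {K₀ K G : ℕ} {A : Inst × ℕ → List (List ℕ)} (hA : Spec α 0 K₀ A)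
    (hα : 0 ≤ α) (hG : α ≤ G) (hG1 : 1 ≤ G) (hK₀ : K₀ ≤ K) (hK : 1 ≤ K) (I : Instance)
    (hI : I.Valid) {S : Finset (Fin I.N)} (h1 : S ⊆ I.facilities) (h2 : S.Nonempty)
    (h3 : S.card ≤ I.k) :
    ∃ T ∈ wrapCands K G A (raw I), feasB (raw I) T = true ∧
      (qcost (raw I) T : ℝ) ≤ α * (1 + 1 / K) * (I.cost S : ℝ) := by
  have hc0 : (0 : ℝ) ≤ (I.cost S : ℝ) := by exact_mod_cast h97_cost_nonneg I hI h2
  have hK0 : (0 : ℝ) < K := by exact_mod_cast hK
  have hrhs : (0 : ℝ) ≤ α * (1 + 1 / K) * (I.cost S : ℝ) := by positivity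
  rcases I.clients.eq_empty_or_nonempty with hC | hC
  · refine ⟨(toL I.facilities).take 1, by simp [wrapCands, raw], h97_take I hI, ?_⟩
    have : qcost (raw I) ((toL I.facilities).take 1) = 0 := by
      simp [qcost, raw, hC, toL]
    rw [this]
    simpa using hrhs
  obtain ⟨j₀, hj₀, hmax⟩ := I.clients.exists_max_image (fun j => S.inf' h2 (I.dist j)) hC
  set δ := S.inf' h2 (I.dist j₀) with hδ
  rcases (h97_inf_nonneg I hI h2 j₀).eq_or_lt with h0 | h0
  · have hCS : I.clients ⊆ S := by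
      intro j hj
      obtain ⟨i, hi, e⟩ := S.exists_mem_eq_inf' h2 (I.dist j)
      by_contra hjS
      have h4 : 0 < I.dist j i := hI.2.1 j i fun h => hjS (h ▸ hi)
      have h5 := hmax j hj
      rw [e] at h5
      linarith
    have hne : toL I.clients ≠ [] := by
      intro h
      have := length_toL I.clients
      rw [h, List.length_nil] at this
      exact absurd this.symm hC.card_pos.ne'
    refine ⟨toL I.clients, by simp [wrapCands, raw], ?_, ?_⟩
    · rw [h97_feasB_iff]
      refine ⟨hne, fun a ha => ?_, ?_⟩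
      · obtain ⟨i, hi, e⟩ := (mem_toL _ a).1 ha
        exact (mem_toL _ a).2 ⟨i, h1 (hCS hi), e⟩
      · rw [toFinset_toL, Finset.card_map]
        exact (Finset.card_le_card hCS).trans h3
    · have e := (cost_ofL I hne fun a ha => h97_lt ha).2
      rw [ofL_toL] at e
      have h6 : I.cost I.clients ≤ 0 := by
        unfold Instance.cost
        rw [dif_pos hC]
        exact Finset.sum_nonpos fun j hj => (Finset.inf'_le _ hj).trans (hI.1 j).le
      rw [← e]
      have h7 : (I.cost I.clients : ℝ) ≤ 0 := by exact_mod_cast h6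
      exact h7.trans hrhs
  · have hδ0 : 0 < δ := h0
    obtain ⟨u1, u2, u3⟩ := scale_cost_upper I hI hK hG1 hδ0 h2 hmax ⟨j₀, hj₀, rfl⟩
    set J := scale K G (raw I) δ with hJ
    set B := J.cost (toL S) with hB
    have hJn : J.n = I.N := by simp [hJ, scale, Inst.n]
    have hN : 1 ≤ I.N := Nat.succ_le_of_lt j₀.pos
    have hwL : wrapL K G (raw I) = G * (I.N * (K * I.N)) + 1 := by simp [wrapL]
    have hSne : toL S ≠ [] := by
      intro h
      have := length_toL S
      rw [h, List.length_nil] at this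
      exact absurd this.symm h2.card_pos.ne'
    obtain ⟨T, hT, ⟨f1, f2, f3⟩, hTc⟩ := hA J B (scale_valid I hI hK G hδ0)
      (by rw [hJn]; exact (Nat.mul_le_mul_right _ hK₀).trans u1)
      ((scale_valid I hI hK G hδ0).cost_le _)
      ⟨toL S, ⟨hSne, fun a ha => by
        obtain ⟨i, hi, e⟩ := (mem_toL _ a).1 ha
        exact (mem_toL _ a).2 ⟨i, h1 hi, e⟩, by
        rw [toFinset_toL, Finset.card_map]; exact h3⟩, le_rfl⟩
    have hTlt : ∀ i ∈ T, i < I.N := fun i hi => h97_lt (S := I.facilities) (f2 i hi)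
    have hlt : J.cost T < wrapL K G (raw I) := by
      have h4 : (J.cost T : ℝ) ≤ ((G * B : ℕ) : ℝ) := by
        push_cast
        exact hTc.trans (mul_le_mul_of_nonneg_right hG (Nat.cast_nonneg B))
      have h5 : J.cost T ≤ G * B := by exact_mod_cast h4
      have h6 : G * B ≤ G * (I.N * (K * I.N)) := Nat.mul_le_mul_left _ u2
      omega
    have low := scale_cost_lower I hI hK hδ0 f1 hTlt hlt
    refine ⟨T, ?_, (h97_feasB_iff I T).2 ⟨f1, f2, f3⟩, ?_⟩
    · obtain ⟨i, hi, e⟩ := S.exists_mem_eq_inf' h2 (I.dist j₀)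
      simp only [wrapCands, List.mem_cons, List.mem_flatMap, List.mem_range, length_raw]
      refine Or.inr (Or.inr ⟨δ, ?_, B, Nat.lt_succ_of_le u2, hT⟩)
      rw [hδ, e]
      simp only [raw, List.mem_flatten, List.mem_ofFn]
      exact ⟨_, ⟨j₀, rfl⟩, List.mem_ofFn.2 ⟨i, rfl⟩⟩
    · have hδc : δ ≤ I.cost S := by
        unfold Instance.cost
        rw [dif_pos h2]
        exact Finset.single_le_sum (f := fun j => S.inf' h2 (I.dist j))
          (fun j _ => h97_inf_nonneg I hI h2 j) hj₀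
      have hN0 : (0 : ℝ) < I.N := by exact_mod_cast hN
      have r0 : (0 : ℝ) < δ := by exact_mod_cast hδ0
      have r1 : (δ : ℝ) ≤ I.cost S := by exact_mod_cast hδc
      have r2 : (qcost (raw I) T : ℝ) * (K * I.N) / δ ≤ J.cost T := by exact_mod_cast low
      have r3 : (B : ℝ) ≤ (I.cost S : ℝ) * (K * I.N) / δ + I.N := by exact_mod_cast u3
      have r4 := r2.trans (hTc.trans (mul_le_mul_of_nonneg_left r3 hα))
      have r5 : (qcost (raw I) T : ℝ) ≤ α * ((I.cost S : ℝ) + δ / K) := by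
        have e1 : α * ((I.cost S : ℝ) * (K * I.N) / δ + I.N) =
            α * ((I.cost S : ℝ) + δ / K) * (K * I.N) / δ := by
          field_simp
        rw [e1, div_le_div_iff_of_pos_right r0] at r4
        exact le_of_mul_le_mul_right r4 (by positivity)
      refine r5.trans ?_
      rw [mul_assoc]
      refine mul_le_mul_of_nonneg_left ?_ hα
      have : (δ : ℝ) / K ≤ (I.cost S : ℝ) / K := div_le_div_of_nonneg_right r1 hK0.le
      calc (I.cost S : ℝ) + δ / K ≤ I.cost S + I.cost S / K := by linarith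
        _ = (1 + 1 / K) * I.cost S := by ring

/-- `F.take 1` is a feasible candidate, so `wrapBest` is a feasible candidate of least `qcost`;
`decodeSet N (wrapOut ..) = ofL N (wrapBest ..)`; `cost_ofL`. -/
theorem wrapOut_spec (K G : ℕ) (A : Inst × ℕ → List (List ℕ)) (I : Instance) (hI : I.Valid) :
    decodeSet I.N (wrapOut K G A (raw I)) ⊆ I.facilities ∧
      (decodeSet I.N (wrapOut K G A (raw I))).Nonempty ∧
      (decodeSet I.N (wrapOut K G A (raw I))).card ≤ I.k ∧
      ∀ T ∈ wrapCands K G A (raw I), feasB (raw I) T = true →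
        I.cost (decodeSet I.N (wrapOut K G A (raw I))) ≤ qcost (raw I) T := by
  have hdec : decodeSet I.N (wrapOut K G A (raw I)) = ofL I.N (wrapBest K G A (raw I)) := by
    ext i
    simp [decodeSet, ofL, wrapOut, List.getD_eq_getElem?_getD]
  have hmem : (toL I.facilities).take 1 ∈ (wrapCands K G A (raw I)).filter (feasB (raw I)) :=
    List.mem_filter.2 ⟨by simp [wrapCands, raw], h97_take I hI⟩
  obtain ⟨W, hW⟩ : ∃ W, ((wrapCands K G A (raw I)).filter (feasB (raw I))).argmin
      (qcost (raw I)) = some W := by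
    cases h : ((wrapCands K G A (raw I)).filter (feasB (raw I))).argmin (qcost (raw I)) with
    | none => rw [List.argmin_eq_none] at h; rw [h] at hmem; cases hmem
    | some W => exact ⟨W, rfl⟩
  have hb : wrapBest K G A (raw I) = W := by rw [wrapBest, hW]; rfl
  obtain ⟨f1, f2, f3⟩ := (h97_feasB_iff I W).1 (List.mem_filter.1 (List.argmin_mem hW)).2
  have hlt : ∀ i ∈ W, i < I.N := fun i hi => h97_lt (f2 i hi)
  obtain ⟨c1, c2⟩ := cost_ofL I f1 hlt
  rw [hdec, hb]
  refine ⟨fun i hi => ?_, c1, ?_, fun T hT hf => ?_⟩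
  · obtain ⟨i', hi', e⟩ := (mem_toL _ _).1 (f2 i (Finset.mem_filter.1 hi).2)
    rwa [← Fin.val_injective e]
  · refine le_trans ?_ f3
    refine Finset.card_le_card_of_injOn (fun i => (i : ℕ)) (fun i hi => ?_)
      Fin.val_injective.injOn
    exact Finset.mem_coe.2 (List.mem_toFinset.2 (Finset.mem_filter.1 (Finset.mem_coe.1 hi)).2)
  · rw [c2]
    exact List.le_of_mem_argmin (List.mem_filter.2 ⟨hT, hf⟩) hW

/-- Use `Exact` with `ε / 2`, `G = ⌈g + ε⌉₊ + 1` and `K ≥ K₀`, `K ≥ 1`, `K ≥ (2 g + ε) / ε`. -/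
theorem result_of_exact {g : ℝ} (hg : 0 ≤ g) (h : Exact g) (ε : ℝ) (hε : 0 < ε) :
    ∃ f : List Bool → List Bool, Crest.Complexity.PolyTime f ∧
      ∀ I : Instance, I.Valid →
        I.opened f ⊆ I.facilities ∧ (I.opened f).Nonempty ∧ (I.opened f).card ≤ I.k ∧
        ∀ S : Finset (Fin I.N), S ⊆ I.facilities → S.Nonempty → S.card ≤ I.k →
          (I.cost (I.opened f) : ℝ) ≤ (g + ε) * (I.cost S : ℝ) := by
  obtain ⟨K₀, A, hPT, hA⟩ := h (ε / 2) (half_pos hε)
  obtain ⟨K, hK⟩ := exists_nat_ge ((2 * g + ε) / ε)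
  obtain ⟨G, hG⟩ := exists_nat_ge (g + ε / 2)
  obtain ⟨f, hf, hfe⟩ := exists_polyTime_wrap (K + K₀ + 1) (G + 1) hPT
  refine ⟨f, hf, fun I hI => ?_⟩
  obtain ⟨s1, s2, s3, s4⟩ := wrapOut_spec (K + K₀ + 1) (G + 1) A I hI
  unfold Instance.opened
  rw [hfe I]
  refine ⟨s1, s2, s3, fun S h1 h2 h3 => ?_⟩
  obtain ⟨T, hT, hTf, hTc⟩ := exists_good_cand (K := K + K₀ + 1) (G := G + 1) hA (by positivity)
    (by push_cast; linarith) (by omega) (by omega) (by omega) I hI h1 h2 h3
  have h4 : (I.cost (decodeSet I.N (wrapOut (K + K₀ + 1) (G + 1) A (raw I))) : ℝ) ≤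
      qcost (raw I) T := by exact_mod_cast s4 T hT hTf
  refine h4.trans (hTc.trans (mul_le_mul_of_nonneg_right ?_ ?_))
  · have hK' : (2 * g + ε) / ε ≤ ((K + K₀ + 1 : ℕ) : ℝ) := by
      push_cast
      have : (0 : ℝ) ≤ K₀ := Nat.cast_nonneg _
      linarith
    have hpos : (0 : ℝ) < ((K + K₀ + 1 : ℕ) : ℝ) := by positivity
    generalize ((K + K₀ + 1 : ℕ) : ℝ) = x at hK' hpos
    rw [div_le_iff₀ hε] at hK'
    have : (g + ε / 2) * (1 / x) ≤ ε / 2 := by
      rw [mul_one_div, div_le_iff₀ hpos]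
      linarith
    linarith
  · exact_mod_cast h97_cost_nonneg I hI h2

end Crest.Agent.R310.A
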