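import Crest.Agent.R310.NF
import Crest.Agent.R310.LP
import Crest.Agent.R310.LS
import Crest.Agent.R310.Wrap

/-!
Row 310: bridge between the list-based layer (`A.Inst`: LP solver, Li–Svensson, wrapper) and the
function-based layer (`II`).
-/

set_option autoImplicit false

namespace Crest.Agent.R310

open Finset Crest.Agent.Lib.PT

/-- A list instance as a function instance. -/
def toII (I : A.Inst) : II :=
  ⟨I.n, I.L, I.k, I.d, fun j => decide (j ∈ I.C), fun i => decide (i ∈ I.F)⟩

/-- A function instance as a list instance. -/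
def ofII (I : II) : A.Inst :=
  (List.replicate I.L (), (List.range I.N).map fun a => (List.range I.N).map fun b => I.dd a b,
    (List.range I.N).filter fun j => I.cl j, (List.range I.N).filter fun i => I.fa i, I.k)

lemma ptf_toII {α : Type} [Enc α] {I : α → A.Inst} (hI : PT I) : II.PTF fun a => toII (I a) where
  N := by simp only [toII]; fun_prop
  Nb := by simp only [toII]; fun_prop
  L := by simp only [toII]; fun_prop
  Lb := by simp only [toII]; fun_prop
  k := by simp only [toII]; fun_prop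
  dd := by simp only [toII]; fun_prop
  cl := by simp only [toII]; fun_prop
  fa := by simp only [toII]; fun_prop

lemma pt_ofII {α : Type} [Enc α] {I : α → II} (hI : II.PTF I) : PT fun a => ofII (I a) := by
  simp only [ofII]; fun_prop

lemma toII_C {I : A.Inst} (hI : I.Valid) : (toII I).C = I.C.toFinset := by
  ext j
  simp only [II.mem_C, toII, decide_eq_true_eq, List.mem_toFinset]
  exact ⟨fun h => h.2, fun h => ⟨hI.C_lt j h, h⟩⟩

lemma toII_F {I : A.Inst} (hI : I.Valid) : (toII I).F = I.F.toFinset := by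
  ext j
  simp only [II.mem_F, toII, decide_eq_true_eq, List.mem_toFinset]
  exact ⟨fun h => h.2, fun h => ⟨hI.F_lt j h, h⟩⟩

lemma toII_valid {I : A.Inst} (hI : I.Valid) : (toII I).Valid where
  refl := I.d_self
  pos := hI.d_pos
  symm := hI.d_comm
  tri := hI.d_tri
  le_L := hI.d_le
  k_pos := hI.k_pos
  k_le := by rw [toII_F hI, List.toFinset_card_of_nodup hI.F_nodup]; exact hI.k_le

lemma toII_cost {I : A.Inst} (hI : I.Valid) (T : List ℕ) :
    (toII I).cost T.toFinset = I.cost T := by
  rw [II.cost, toII_C hI, hI.cost_eq_sum]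
  exact Finset.sum_congr rfl fun j _ => II.dset_toFinset j T

lemma pseudo_of_pseudoSpec {g : ℝ}
    (h : ∀ ε : ℝ, 0 < ε → ∃ c K alg, PseudoSpec (g + ε) c K alg) : A.Pseudo g := by
  intro ε hε
  obtain ⟨c, K, alg, h1, h2⟩ := h ε hε
  refine ⟨c, K, fun p => alg (toII p.1) (p.2 : ℚ), h1 (ptf_toII (by fun_prop)) (by fun_prop), ?_⟩
  rintro I B hI hK - ⟨S, ⟨hS1, hS2, hS3⟩, hS⟩
  have hC : (toII I).C.card ≤ I.n := by
    rw [toII_C hI, List.toFinset_card_of_nodup hI.C_nodup]; exact hI.C_length_le
  obtain ⟨T, hT, t1, t2, t3, t4⟩ := h2 (toII I) (B : ℚ) S.toFinset (toII_valid hI)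
    (by rw [toII_F hI]; exact fun i hi => List.mem_toFinset.2 (hS2 i (List.mem_toFinset.1 hi)))
    (by obtain ⟨a, ha⟩ := List.exists_mem_of_ne_nil S hS1; exact ⟨a, List.mem_toFinset.2 ha⟩)
    hS3 (by rw [toII_cost hI]; exact_mod_cast hS)
    (by exact_mod_cast (Nat.mul_le_mul_left K hC).trans hK)
  refine ⟨T, hT, ⟨t2, fun i hi => ?_, t3⟩, ?_⟩
  · have := t1 (List.mem_toFinset.2 hi)
    rw [toII_F hI] at this
    exact List.mem_toFinset.1 this
  · rw [toII_cost hI] at t4
    simpa using t4

open Crest.LogicCS.KMedian in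
theorem main_of_pseudo
    (h : ∀ ε : ℝ, 0 < ε → ∃ c K alg, PseudoSpec (1 + 2 / Real.exp 1 + ε) c K alg)
    (ε : ℝ) (hε : 0 < ε) :
    ∃ f : List Bool → List Bool, Crest.Complexity.PolyTime f ∧
      ∀ I : Instance, I.Valid →
        I.opened f ⊆ I.facilities ∧ (I.opened f).Nonempty ∧ (I.opened f).card ≤ I.k ∧
        ∀ S : Finset (Fin I.N), S ⊆ I.facilities → S.Nonempty → S.card ≤ I.k →
          (I.cost (I.opened f) : ℝ) ≤ (1 + 2 / Real.exp 1 + ε) * (I.cost S : ℝ) := by
  have h0 : (0 : ℝ) ≤ 2 / Real.exp 1 := by positivity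
  exact A.result_of_exact (by linarith)
    (A.exact_of_pseudo (by linarith) (pseudo_of_pseudoSpec h)) ε hε

/-! ### the LP solver -/

@[simp] lemma ofII_n (I : II) : (ofII I).n = I.N := by simp [ofII, A.Inst.n]
@[simp] lemma ofII_L (I : II) : (ofII I).L = I.L := by simp [ofII, A.Inst.L]
@[simp] lemma ofII_k (I : II) : (ofII I).k = I.k := rfl

lemma ofII_C (I : II) : (ofII I).C.toFinset = I.C := by
  ext j; simp [ofII, A.Inst.C, II.mem_C]

lemma ofII_F (I : II) : (ofII I).F.toFinset = I.F := by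
  ext j; simp [ofII, A.Inst.F, II.mem_F]

lemma ofII_d {I : II} (hI : I.Valid) (a b : ℕ) :
    (ofII I).d a b = if a < I.N ∧ b < I.N then I.dd a b else if a = b then 0 else I.L := by
  unfold A.Inst.d
  rw [ofII_L]
  by_cases hab : a = b
  · subst hab; simp [hI.refl]
  · by_cases ha : a < I.N
    · by_cases hb : b < I.N
      · simp [ofII, hab, ha, hb, List.getD_eq_getElem?_getD]
      · simp [ofII, hab, ha, hb, List.getD_eq_getElem?_getD]
    · simp [ofII, hab, ha, List.getD_eq_getElem?_getD]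

lemma ofII_valid {I : II} (hI : I.Valid) : (ofII I).Valid where
  d_comm a b := by
    rw [ofII_d hI, ofII_d hI, hI.symm a b]
    simp only [and_comm, eq_comm]
  d_tri a b c := by
    have h1 := hI.tri a b c
    have h2 := hI.le_L a c
    have h3 := hI.refl
    simp only [ofII_d hI]
    split_ifs <;> omega
  d_pos a b hab := by
    have h1 := hI.pos a b hab
    have h2 := hI.le_L a b
    rw [ofII_d hI]
    split_ifs <;> omega
  d_le a b := by
    have h2 := hI.le_L a b
    rw [ofII_d hI, ofII_L]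
    split_ifs <;> omega
  C_nodup := (List.nodup_range).filter _
  F_nodup := (List.nodup_range).filter _
  C_lt j hj := by
    rw [ofII_n]; exact List.mem_range.1 (List.mem_of_mem_filter hj)
  F_lt j hj := by
    rw [ofII_n]; exact List.mem_range.1 (List.mem_of_mem_filter hj)
  k_pos := hI.k_pos
  k_le := by
    have h : (ofII I).F.Nodup := (List.nodup_range).filter _
    rw [← List.toFinset_card_of_nodup h, ofII_F]; exact hI.k_le

/-- layer cake -/
lemma layer_cake (N L : ℕ) (d : ℕ → ℕ) (hd : ∀ i, d i ≤ L) (x : ℕ → ℚ) :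
    ∑ i ∈ range N, x i * (d i : ℚ) =
      ∑ t ∈ range L, (∑ i ∈ range N, x i - ∑ i ∈ range N, if d i ≤ t then x i else 0) := by
  simp only [← Finset.sum_sub_distrib]
  rw [Finset.sum_comm]
  refine Finset.sum_congr rfl fun i _ => ?_
  have : ∀ t, (x i - if d i ≤ t then x i else 0) = if t ∈ range (d i) then x i else 0 := by
    intro t
    by_cases h : d i ≤ t
    · simp [h]
    · simp [h, not_le.1 h]
  simp only [this]
  rw [Finset.sum_ite_mem, Finset.inter_eq_right.2 (Finset.range_subset_range.2 (hd i))]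
  simp [mul_comm]

lemma ball_ofII {I : II} (hI : I.Valid) {y : ℕ → ℚ} (hy : I.YOK y) {j : ℕ} (hj : j < I.N) (t : ℕ) :
    (ofII I).ball (fun i => (y i : ℝ)) j t = (I.ball y j t : ℝ) := by
  unfold A.Inst.ball II.ball
  rw [ofII_F, Finset.sum_filter]
  push_cast
  rw [II.F, Finset.sum_filter]
  refine Finset.sum_congr rfl fun i hi => ?_
  have hi' := Finset.mem_range.1 hi
  have e : (ofII I).d j i = I.dd j i := by rw [ofII_d hI, if_pos ⟨hj, hi'⟩]
  rw [e]
  by_cases h : I.fa i = true
  · rw [if_pos h]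
    split_ifs <;> simp
  · have : y i = 0 := hy.supp i fun hF => h (II.mem_F.1 hF).2
    simp [this]

lemma sum_F_eq_mass {I : II} {y : ℕ → ℚ} (hy : I.YOK y) : ∑ i ∈ I.F, y i = I.mass y := by
  rw [II.mass, II.F, Finset.sum_filter]
  refine Finset.sum_congr rfl fun i _ => ?_
  by_cases h : I.fa i = true
  · simp [h]
  · simp [h, hy.supp i fun hF => h (II.mem_F.1 hF).2]

lemma lpCost_eq {I : II} (hI : I.Valid) {y : ℕ → ℚ} (hy : I.YOK y) (h1 : 1 ≤ I.mass y) :
    (ofII I).lpCost (fun i => (y i : ℝ)) = (I.lpcost y : ℝ) := by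
  unfold A.Inst.lpCost II.lpcost
  rw [ofII_C]
  push_cast
  refine Finset.sum_congr rfl fun j hj => ?_
  have hj' := (II.mem_C.1 hj).1
  unfold A.Inst.lpClient II.Dc
  rw [layer_cake I.N I.L (I.dd j) (hI.le_L j), II.nf_sum hy h1, ofII_L]
  push_cast
  refine Finset.sum_congr rfl fun t _ => ?_
  rw [ball_ofII hI hy hj']
  have e := II.ball_nf hy j t
  unfold II.ball at e
  have e' : (∑ i ∈ range I.N, ((if I.dd j i ≤ t then I.nf y j i else 0 : ℚ) : ℝ)) =
      min 1 (I.ball y j t : ℝ) := by
    unfold II.ball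
    exact_mod_cast e
  rw [e']
  rcases le_total 1 (I.ball y j t : ℝ) with h | h
  · rw [min_eq_left h, max_eq_left (by linarith)]; simp
  · rw [min_eq_right h, max_eq_right (by linarith)]

/-- Raise an opening to a prescribed mass. -/
lemma exists_raise {I : II} {y : ℕ → ℚ} (hy : I.YOK y) {κ : ℚ} (h1 : I.mass y ≤ κ)
    (h2 : κ ≤ I.F.card) : ∃ y', I.YOK y' ∧ I.mass y' = κ ∧ ∀ i, y i ≤ y' i := by
  rcases eq_or_lt_of_le h1 with h | h
  · exact ⟨y, hy, h, fun _ => le_rfl⟩
  · set θ := (κ - I.mass y) / (I.F.card - I.mass y) with hθ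
    have hd : 0 < (I.F.card : ℚ) - I.mass y := by linarith
    have h0 : 0 ≤ θ := div_nonneg (by linarith) hd.le
    have h1' : θ ≤ 1 := (div_le_one hd).2 (by linarith)
    have hok : I.YOK fun i => if i ∈ I.F then y i + θ * (1 - y i) else 0 := by
      refine ⟨fun i => ?_, fun i => ?_, fun i hi => by simp [hi]⟩
      · have := hy.nonneg i; have := hy.le_one i
        split_ifs
        · nlinarith
        · exact le_rfl
      · have := hy.nonneg i; have := hy.le_one i
        split_ifs
        · nlinarith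
        · exact zero_le_one
    refine ⟨_, hok, ?_, fun i => ?_⟩
    · rw [← sum_F_eq_mass hok, Finset.sum_congr rfl fun i hi => if_pos hi, Finset.sum_add_distrib,
        ← Finset.mul_sum, Finset.sum_sub_distrib, sum_F_eq_mass hy]
      simp only [Finset.sum_const, nsmul_eq_mul, mul_one]
      rw [hθ, div_mul_cancel₀ _ hd.ne']; ring
    · have := hy.nonneg i; have := hy.le_one i
      by_cases hi : i ∈ I.F
      · simp only [hi, if_true]; nlinarith
      · simp only [hi, if_false]; exact (hy.supp i hi).le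

/-- The solver. -/
def lpII (I : II) (κ i : ℕ) : ℚ := ((A.lpSolve (ofII I) κ).getD i 0 : ℚ) / A.lpQ (ofII I)

theorem lp_exists : ∃ lp, LPSpec lp := by
  refine ⟨lpII, fun hI hκ hi => ?_, fun I κ hI h1 h2 => ?_⟩
  · have := pt_ofII hI
    simp only [lpII]; fun_prop
  · have hV := ofII_valid hI
    have hm : κ ≤ (ofII I).F.length := by
      rw [← List.toFinset_card_of_nodup hV.F_nodup, ofII_F]; exact h2
    have hinv := A.lpInv_solve hV hm
    have hQ : (0 : ℚ) < A.lpQ (ofII I) := by exact_mod_cast A.lpQ_pos hV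
    have hok : I.YOK (lpII I κ) := by
      refine ⟨fun i => by unfold lpII; positivity, fun i => ?_, fun i hi => ?_⟩
      · exact (div_le_one hQ).2 (by exact_mod_cast hinv.le i)
      · rw [lpII, hinv.off i fun h => hi (by rw [← ofII_F]; exact List.mem_toFinset.2 h)]; simp
    have hmass : I.mass (lpII I κ) = κ := by
      rw [← sum_F_eq_mass hok]
      unfold lpII
      have := hinv.sum
      rw [ofII_F] at this
      rw [← Finset.sum_div, div_eq_iff hQ.ne']
      exact_mod_cast this
    refine ⟨hok, hmass, fun x y hf hy => ?_⟩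
    obtain ⟨y', hy', e, hle⟩ := exists_raise hf.yok hy (by exact_mod_cast h2)
    have h1' : (1 : ℚ) ≤ κ := by exact_mod_cast h1
    have hfe : (ofII I).LPFeas κ fun i => (y' i : ℝ) := by
      refine ⟨fun i _ => ⟨?_, ?_⟩, ?_⟩
      · show (0 : ℝ) ≤ (y' i : ℝ)
        exact_mod_cast hy'.nonneg i
      · show (y' i : ℝ) ≤ 1
        exact_mod_cast hy'.le_one i
      · rw [ofII_F]
        have := sum_F_eq_mass hy'
        rw [e] at this
        show ∑ i ∈ I.F, (y' i : ℝ) = κ
        exact_mod_cast this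
    have h := A.lpSolve_opt hV hm hfe
    have e2 : A.lpY (ofII I) (A.lpSolve (ofII I) κ) = fun i => (lpII I κ i : ℝ) := by
      funext i; simp [A.lpY, lpII]
    rw [e2, lpCost_eq hI hok (hmass ▸ h1'), lpCost_eq hI hy' (e ▸ h1')] at h
    have h3 : I.lpcost y' ≤ I.xcost x :=
      Finset.sum_le_sum fun j hj => II.nf_opt hy' (e ▸ h1') j (x j)
        (fun i _ => hf.nonneg j hj i) (fun i _ => (hf.le j hj i).trans (hle i)) (hf.sum j hj)
    have h4 : I.lpcost (lpII I κ) ≤ I.lpcost y' + 1 := by exact_mod_cast h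
    linarith

end Crest.Agent.R310
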