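import Crest.Agent.R310.BxSem

/-! Row 310: constants, time pieces. -/

set_option autoImplicit false
set_option linter.dupNamespace false

namespace Crest.Agent.R310.Bx

open Finset Crest.Agent.Lib.IBox

theorem KK0 : KK 0 = g0 := by
  simp only [KK, cs, fpreV, Fx.val, g0, List.getD_cons_zero]
  norm_num [Real.exp_neg, div_eq_mul_inv]
theorem KK1 : KK 1 = Real.exp (-1) := by
  simp only [KK, cs, fpreV, Fx.val, List.getD_cons_succ, List.getD_cons_zero]
  norm_num
theorem KK2 : KK 2 = tq 0 := by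
  simp only [KK, cs, fpreV, Fx.val, tq, tn, List.getD_cons_succ, List.getD_cons_zero]
  norm_num
theorem KK3 : KK 3 = tq 1 := by
  simp only [KK, cs, fpreV, Fx.val, tq, tn, List.getD_cons_succ, List.getD_cons_zero]
  norm_num
theorem KK4 : KK 4 = tq 2 := by
  simp only [KK, cs, fpreV, Fx.val, tq, tn, List.getD_cons_succ, List.getD_cons_zero]
  norm_num
theorem KK5 : KK 5 = tq 3 := by
  simp only [KK, cs, fpreV, Fx.val, tq, tn, List.getD_cons_succ, List.getD_cons_zero]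
  norm_num
theorem KK6 : KK 6 = tq 4 := by
  simp only [KK, cs, fpreV, Fx.val, tq, tn, List.getD_cons_succ, List.getD_cons_zero]
  norm_num
theorem KK7 : KK 7 = 4 / 10 * (tq 1 - 1) := by
  simp only [KK, cs, fpreV, Fx.val, tq, tn, List.getD_cons_succ, List.getD_cons_zero]
  norm_num
theorem KK8 : KK 8 = 5 / 10 * (tq 2 - 1) := by
  simp only [KK, cs, fpreV, Fx.val, tq, tn, List.getD_cons_succ, List.getD_cons_zero]
  norm_num
theorem KK9 : KK 9 = 6 / 10 * (tq 3 - 1) := by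
  simp only [KK, cs, fpreV, Fx.val, tq, tn, List.getD_cons_succ, List.getD_cons_zero]
  norm_num
theorem KK10 : KK 10 = 8 / 10 * (tq 4 - 1) := by
  simp only [KK, cs, fpreV, Fx.val, tq, tn, List.getD_cons_succ, List.getD_cons_zero]
  norm_num
theorem KK11 : KK 11 = Real.exp (tq 0) := by
  simp only [KK, cs, fpreV, Fx.val, tq, tn, List.getD_cons_succ, List.getD_cons_zero]
  rw [Real.exp_log (by norm_num)]
  norm_num
theorem h41_tn_pos (q : ℕ) : (0 : ℝ) < (tn q : ℝ) / 10 := by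
  rcases q with _ | _ | _ | _ | _ | q <;> simp [tn]
theorem h41_tn_mono {p q : ℕ} (h : p ≤ q) : tn p ≤ tn q := by
  rcases p with _ | _ | _ | _ | _ | p <;> rcases q with _ | _ | _ | _ | _ | q <;>
    simp only [tn] <;> omega
theorem h41_tn_le (q : ℕ) : tn q ≤ 10 := by
  rcases q with _ | _ | _ | _ | _ | q <;> simp [tn]
theorem exp_tq (q : ℕ) : Real.exp (tq q) = (tn q : ℝ) / 10 := by
  exact Real.exp_log (h41_tn_pos q)
theorem tq5 : tq 5 = 0 := by
  simp [tq, tn]
theorem tq_mono {p q : ℕ} (h : p ≤ q) : tq p ≤ tq q := by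
  refine Real.log_le_log (h41_tn_pos p) ?_
  have : ((tn p : ℤ) : ℝ) ≤ tn q := by exact_mod_cast h41_tn_mono h
  linarith
theorem tq_le_zero (q : ℕ) : tq q ≤ 0 := by
  refine Real.log_nonpos (h41_tn_pos q).le ?_
  have : ((tn q : ℤ) : ℝ) ≤ 10 := by exact_mod_cast h41_tn_le q
  linarith
theorem tq0_le : tq 0 ≤ -11 / 10 := by
  rw [tq, Real.log_le_iff_le_exp (h41_tn_pos 0)]
  have h1 : Real.exp (-11 / 10) = Real.exp (-1) * Real.exp (-1 / 10) := by
    rw [← Real.exp_add]; norm_num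
  have h2 := Real.exp_neg_one_gt_d9
  have h3 := Real.add_one_le_exp (-1 / 10 : ℝ)
  rw [h1]
  simp only [tn]
  push_cast
  nlinarith
theorem le_tq0 : -5 / 4 ≤ tq 0 := by
  rw [tq, Real.le_log_iff_exp_le (h41_tn_pos 0)]
  have h1 : Real.exp (-5 / 4) * Real.exp (1 / 4) = Real.exp (-1) := by
    rw [← Real.exp_add]; norm_num
  have h2 := Real.exp_neg_one_lt_d9
  have h3 := Real.add_one_le_exp (1 / 4 : ℝ)
  have h4 := Real.exp_pos (-5 / 4 : ℝ)
  simp only [tn]
  push_cast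
  nlinarith
theorem le_tq1 : -1 ≤ tq 1 := by
  rw [tq, Real.le_log_iff_exp_le (h41_tn_pos 1)]
  have h2 := Real.exp_neg_one_lt_d9
  simp only [tn]
  push_cast
  linarith
theorem g0_bounds : 17 / 10 ≤ g0 ∧ g0 ≤ 7 / 4 := by
  have h1 := Real.exp_one_gt_d9
  have h2 := Real.exp_one_lt_d9
  have h0 := Real.exp_pos (1 : ℝ)
  unfold g0
  constructor
  · have : 7 / 10 ≤ 2 / Real.exp 1 := by
      rw [le_div_iff₀ h0]; linarith
    linarith
  · have : 2 / Real.exp 1 ≤ 3 / 4 := by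
      rw [div_le_iff₀ h0]; linarith
    linarith
theorem inP_of_inT {p : ℕ} {t : ℝ} (hp : p < 5) (h : InT p (Real.exp t)) : InP p t ∧ t ≤ 0 := by
  obtain ⟨h1, h2⟩ := h
  rw [← exp_tq, Real.exp_le_exp] at h1 h2
  exact ⟨⟨by omega, h1, fun _ => h2⟩, h2.trans (tq_le_zero _)⟩
theorem exists_inT {t : ℝ} (h0 : tq 0 ≤ t) (h1 : t ≤ 0) : ∃ p < 5, InT p (Real.exp t) := by
  have key : ∀ p, tq p ≤ t → t ≤ tq (p + 1) → InT p (Real.exp t) := fun p a b => by
    unfold InT
    rw [← exp_tq, ← exp_tq, Real.exp_le_exp, Real.exp_le_exp]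
    exact ⟨a, b⟩
  rcases le_total t (tq 1) with a1 | a1
  · exact ⟨0, by norm_num, key 0 h0 a1⟩
  rcases le_total t (tq 2) with a2 | a2
  · exact ⟨1, by norm_num, key 1 a1 a2⟩
  rcases le_total t (tq 3) with a3 | a3
  · exact ⟨2, by norm_num, key 2 a2 a3⟩
  rcases le_total t (tq 4) with a4 | a4
  · exact ⟨3, by norm_num, key 3 a3 a4⟩
  · exact ⟨4, by norm_num, key 4 a4 (by rw [tq5]; exact h1)⟩

theorem h97_ph {p q : ℕ} {x : ℝ} (h : InP p x) (hq : q ≤ 4) :
    ph (tq q) x = if q ≤ p then Real.exp x - (tn q : ℝ) / 10 else 0 := by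
  obtain ⟨h0, h1, h2⟩ := h
  unfold ph
  split_ifs with hqp
  · rw [max_eq_left ((tq_mono hqp).trans h1), exp_tq]
  · rw [max_eq_right ((h2 (by omega)).trans (tq_mono (by omega))), sub_self]

theorem h97_Ph {p q : ℕ} {x : ℝ} (h : InP p x) (hq : q ≤ 4) :
    Ph (tq q) x = if q ≤ p then Real.exp x - (tn q : ℝ) / 10 - (tn q : ℝ) / 10 * (x - tq q)
      else 0 := by
  obtain ⟨h0, h1, h2⟩ := h
  unfold Ph
  split_ifs with hqp
  · rw [max_eq_left ((tq_mono hqp).trans h1), exp_tq]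
  · rw [max_eq_right ((h2 (by omega)).trans (tq_mono (by omega)))]
    ring

theorem Hb_piece (C : Cf) (b : ℕ) {p : ℕ} {x : ℝ} (h : InP p x) :
    Hb C b x = ((C.al b p : ℝ) + (C.be b p : ℝ) * Real.exp x) / 300000 := by
  have h0 := h.1
  unfold Hb
  simp only [Finset.sum_range_succ, Finset.sum_range_zero, h97_ph h (show 0 ≤ 4 by norm_num),
    h97_ph h (show 1 ≤ 4 by norm_num), h97_ph h (show 2 ≤ 4 by norm_num),
    h97_ph h (show 3 ≤ 4 by norm_num), h97_ph h (show 4 ≤ 4 by norm_num)]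
  interval_cases p <;> simp only [Cf.al, Cf.be, tn] <;> norm_num <;> ring

theorem Pb_piece (C : Cf) (b : ℕ) {p : ℕ} {x : ℝ} (h : InP p x) :
    Pb C b x = ((C.al b p : ℝ) * x + (C.be b p : ℝ) * Real.exp x + (C.sq 0 b : ℝ) * (3 * (tq 0 - 1)) +
      (C.gm b 1 p : ℝ) * KK 7 + (C.gm b 2 p : ℝ) * KK 8 + (C.gm b 3 p : ℝ) * KK 9 +
      (C.gm b 4 p : ℝ) * KK 10) / 300000 := by
  have h0 := h.1
  unfold Pb
  simp only [Finset.sum_range_succ, Finset.sum_range_zero, h97_Ph h (show 0 ≤ 4 by norm_num),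
    h97_Ph h (show 1 ≤ 4 by norm_num), h97_Ph h (show 2 ≤ 4 by norm_num),
    h97_Ph h (show 3 ≤ 4 by norm_num), h97_Ph h (show 4 ≤ 4 by norm_num), KK7, KK8, KK9, KK10]
  interval_cases p <;> simp only [Cf.al, Cf.be, Cf.gm, tn, Nat.ble] <;> norm_num <;> ring

theorem hR_eq (C : Cf) (hat : Bool) {p : ℕ} {t : ℝ} (h : InP p t) (u v w z : ℝ) :
    hR C p hat (Real.exp t) u v w z = Hc C hat u v w z t := by
  simp only [hR, Hc, Hb_piece C _ h]

theorem gnR_eq (C : Cf) (dz hat : Bool) {p qm qn : ℕ} {t m n : ℝ} (hp : InP p t) (hm : InP qm m)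
    (hn : InP qn n) (D TD c u v w z : ℝ) (hTD : dz = false → TD = Real.exp t * D) :
    gnR C p qm qn dz hat m (Real.exp m) n (Real.exp n) D TD c u v w z KK =
      Pc C hat u v w z m - Pc C hat u v w z n - c * (m - n) +
        (Hc C hat u v w z t - c) * cond dz 0 D := by
  simp only [gnR, Pc, Hc, Hb_piece C _ hp, Pb_piece C _ hm, Pb_piece C _ hn, cmbR]
  cases dz
  · rw [hTD rfl]
    cases hat <;> cases C.kk <;> simp only [cond] <;> push_cast <;> ring
  · cases hat <;> cases C.kk <;> simp only [cond] <;> push_cast <;> ring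

theorem h97_prim_Hb (C : Cf) (b : ℕ) : Prim (Hb C b) (Pb C b) :=
  (((prim_const (C.n0 b : ℝ)).add (Prim.sum (n := 5) (φ := fun q => ph (tq q))
    (Φ := fun q => Ph (tq q)) (fun q _ => prim_ph (tq q)) fun q => (C.sq q b : ℝ))).const_mul
    (1 / 30000)).congr (fun x => by rw [Hb]; ring) (c := 0) fun x => by rw [Pb]; ring

theorem prim_Hc (C : Cf) (hat : Bool) (u v w z : ℝ) : Prim (Hc C hat u v w z) (Pc C hat u v w z) := by
  refine ((((((h97_prim_Hb C 0).const_mul (cond hat 0 1)).add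
    ((h97_prim_Hb C 1).const_mul u)).add ((h97_prim_Hb C 2).const_mul v)).add
    ((h97_prim_Hb C 3).const_mul (u * w))).add
    ((h97_prim_Hb C 4).const_mul (cond C.kk z 0))).congr (fun x => ?_) (c := 0) fun x => ?_
  · simp only [Hc, cmbR]
    cases hat <;> cases C.kk <;> simp only [cond] <;> ring
  · simp only [Pc, cmbR]
    cases hat <;> cases C.kk <;> simp only [cond] <;> ring

end Crest.Agent.R310.Bx
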