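import Crest.Agent.R310.BxA

/-! Row 310: closed forms of the gain programs. -/

set_option autoImplicit false
set_option linter.dupNamespace false

namespace Crest.Agent.R310.Bx

open Finset Crest.Agent.Lib.IBox

theorem h49_chain (f : ℕ → ℝ) {F x : ℝ} (h0 : tq 0 ≤ x) (h : ∀ q, InP q x → f q = F) :
    (if 0 ≤ x - tq 2 then (if 0 ≤ x - tq 3 then (if 0 ≤ x - tq 4 then f 4 else f 3) else f 2)
      else (if 0 ≤ x - tq 1 then f 1 else f 0)) = F := by
  split_ifs with h2 h3 h4 h1
  · exact h 4 ⟨le_rfl, by linarith, fun h => absurd h (lt_irrefl _)⟩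
  · exact h 3 ⟨by norm_num, by linarith, fun _ => by show x ≤ tq 4; linarith⟩
  · exact h 2 ⟨by norm_num, by linarith, fun _ => by show x ≤ tq 3; linarith⟩
  · exact h 1 ⟨by norm_num, by linarith, fun _ => by show x ≤ tq 2; linarith⟩
  · exact h 0 ⟨by norm_num, h0, fun _ => by show x ≤ tq 1; linarith⟩

theorem h49_inP0 : InP 0 (tq 0) := ⟨by norm_num, le_rfl, fun _ => tq_mono (by norm_num)⟩

theorem lateR_eq (C : Cf) (diag hat : Bool) {p : ℕ} {t lam mu : ℝ} (hp : InP p t) (ht : t ≤ 0)
    (hmu : mu ≤ lam) (hd : diag = true → mu = lam) (hl : tq 0 ≤ lam) (c u v w z : ℝ) :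
    lateR C p diag hat lam mu (lam - 1) (Real.exp t) t c u v w z KK =
      lateF (Hc C hat u v w z) (Pc C hat u v w z) c t lam mu := by
  unfold lateR lateF
  rw [KK1, KK2, KK3, KK4, KK5, KK6, KK11]
  dsimp only
  by_cases h1 : 0 ≤ lam - t
  · rw [if_pos h1]
    have hD : (cond diag (max (lam - 1 - t) (0 : ℝ))
        (if 0 ≤ (mu - t) then (lam - 1 - (min t (mu - (1 : ℝ)))) else (lam - t))) =
        min t mu - min t lam + (lam - 1) - min t (mu - 1) := by
      cases diag with
      | true =>
        rw [hd rfl, cond_true]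
        rcases le_total t (lam - 1) with h | h
        · rw [max_eq_left (by linarith), min_eq_left h]; ring
        · rw [max_eq_right (by linarith), min_eq_right h]; ring
      | false =>
        rw [cond_false, min_eq_left (show t ≤ lam by linarith)]
        split_ifs with h
        · rw [min_eq_left (show t ≤ mu by linarith)]; ring
        · rw [min_eq_right (show mu ≤ t by linarith), min_eq_right (show mu - 1 ≤ t by linarith)]
          ring
    rw [hD]
    generalize min t mu - min t lam + (lam - 1) - min t (mu - 1) = D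
    rw [min_eq_left (show t ≤ lam by linarith)]
    by_cases h2 : 0 ≤ lam - 1 - tq 0
    · rw [if_pos h2, max_eq_left (show tq 0 ≤ lam - 1 by linarith)]
      exact h49_chain (fun q => gnR C p p q false hat t (Real.exp t) (lam - 1) (Real.exp (lam - 1)) D
        (Real.exp t * D) c u v w z KK) (by linarith) fun q hq =>
          gnR_eq C false hat hp hp hq D _ c u v w z fun _ => rfl
    · rw [if_neg h2, max_eq_right (show lam - 1 ≤ tq 0 by linarith)]
      exact gnR_eq C false hat hp hp h49_inP0 D _ c u v w z fun _ => rfl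
  · rw [if_neg h1]
    have hlt : lam < t := by linarith
    have hz : min t mu - min t lam + (lam - 1) - min t (mu - 1) = cond true (0 : ℝ) lam := by
      rw [min_eq_right (show mu ≤ t by linarith), min_eq_right hlt.le,
        min_eq_right (show mu - 1 ≤ t by linarith), cond_true]
      ring
    rw [hz, min_eq_right hlt.le]
    by_cases h2 : 0 ≤ lam - 1 - tq 0
    · rw [if_pos h2, max_eq_left (show tq 0 ≤ lam - 1 by linarith)]
      have he : Real.exp (-1) * Real.exp lam = Real.exp (lam - 1) := by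
        rw [← Real.exp_add]; congr 1; ring
      have h0 : InP 0 (lam - 1) :=
        ⟨by norm_num, by linarith, fun _ => by
          show lam - 1 ≤ tq 1
          linarith [le_tq1]⟩
      rw [he]
      exact h49_chain (fun q => gnR C p q 0 true hat lam (Real.exp lam) (lam - 1) (Real.exp (lam - 1))
        lam lam c u v w z KK) hl fun q hq =>
          gnR_eq C true hat hp hq h0 lam lam c u v w z fun h => absurd h (by simp)
    · rw [if_neg h2, max_eq_right (show lam - 1 ≤ tq 0 by linarith)]
      exact h49_chain (fun q => gnR C p q 0 true hat lam (Real.exp lam) (tq 0) (Real.exp (tq 0))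
        lam lam c u v w z KK) hl fun q hq =>
          gnR_eq C true hat hp hq h49_inP0 lam lam c u v w z fun h => absurd h (by simp)

theorem gainR_eq (C : Cf) (diag hat : Bool) {p : ℕ} {t lam mu : ℝ} (hp : InP p t) (ht : t ≤ 0)
    (hmu : mu ≤ lam) (hd : diag = true → mu = lam) (hl : tq 0 ≤ lam) (c u v w z : ℝ) :
    gainR C p diag hat lam mu (Real.exp t) t c u v w z KK =
      gainF (Hc C hat u v w z) (Pc C hat u v w z) c t lam mu := by
  unfold gainR gainF
  dsimp only
  by_cases h1 : t ≤ lam - 1 - 1 / 32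
  · rw [if_pos h1, if_pos (show 0 ≤ lam - 1 - 1 / 32 - t by linarith), hR_eq C hat hp]
    cases diag with
    | true =>
      rw [hd rfl, cond_true, min_eq_left (show t ≤ lam by linarith),
        min_eq_left (show t ≤ lam - 1 by linarith)]
      ring
    | false =>
      rw [cond_false]
      split_ifs with h
      · rw [min_eq_left (show t ≤ mu by linarith)]
        rcases le_total t (mu - 1) with h' | h'
        · rw [max_eq_right (by linarith), min_eq_left h']; ring
        · rw [max_eq_left (by linarith), min_eq_right h']; ring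
      · rw [min_eq_right (show mu ≤ t by linarith), min_eq_right (show mu - 1 ≤ t by linarith)]
        ring
  · rw [if_neg h1, if_neg (show ¬ 0 ≤ lam - 1 - 1 / 32 - t by intro h; exact h1 (by linarith))]
    exact lateR_eq C diag hat hp ht hmu hd hl c u v w z

theorem lateF_le {φ Φ : ℝ → ℝ} (h : Prim φ Φ) (hm : MonotoneOn φ (Set.Icc (tq 0) 0)) (c : ℝ)
    {t lam mu : ℝ} (h0 : tq 0 ≤ t) (h1 : t ≤ 0) (hmu : mu ≤ lam) (hl : tq 0 ≤ lam) (hl1 : lam ≤ 1) :
    lateF φ Φ c t lam mu ≤ gainV (fun _ => 1) φ c (tq 0) t lam mu := by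
  unfold lateF
  exact gainV_ge h c hm h0 h1 hmu hl (by linarith)

theorem gainF_le {φ Φ : ℝ → ℝ} (h : Prim φ Φ) (hm : MonotoneOn φ (Set.Icc (tq 0) 0)) (c : ℝ)
    {t lam mu : ℝ} (h0 : tq 0 ≤ t) (h1 : t ≤ 0) (hmu : mu ≤ lam) (hl : tq 0 ≤ lam) (hl1 : lam ≤ 1) :
    gainF φ Φ c t lam mu ≤ gainV (fun _ => 1) φ c (tq 0) t lam mu := by
  unfold gainF
  split_ifs with hc
  · rw [gainV_early h c h0 (by linarith)]
  · exact lateF_le h hm c h0 h1 hmu hl hl1

/-- the kink value only matters when the flag is set -/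
theorem Hc_cond (C : Cf) (hat : Bool) (u v w z : ℝ) :
    Hc C hat u v w (cond C.kk z 0) = Hc C hat u v w z ∧ Pc C hat u v w (cond C.kk z 0) = Pc C hat u v w z := by
  constructor
  · funext σ
    unfold Hc cmbR
    cases C.kk <;> rfl
  · funext σ
    unfold Pc cmbR
    cases C.kk <;> rfl

/-- blow-up at the base point -/
theorem Hc_blow (C : Cf) (s u v z x : ℝ) :
    Hc C false (s * u) (s * v) (s * v) (s * z) x = Hb C 0 x + s * Hc C true u v (s * v) z x ∧
      Pc C false (s * u) (s * v) (s * v) (s * z) x = Pb C 0 x + s * Pc C true u v (s * v) z x := by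
  constructor
  · unfold Hc cmbR
    cases C.kk <;> simp only [cond_true, cond_false] <;> ring
  · unfold Pc cmbR
    cases C.kk <;> simp only [cond_true, cond_false] <;> ring

theorem tq0_le_loF {k : ℝ} (h : k ≤ 7 / 12) : tq 0 ≤ loF k := by
  have h1 : Real.log (5 / 8) ≤ Real.log (3 / 2 * (1 - k)) :=
    Real.log_le_log (by norm_num) (by linarith)
  have h2 : 1 - (5 / 8 : ℝ)⁻¹ ≤ Real.log (5 / 8) := Real.one_sub_inv_le_log_of_pos (by norm_num)
  have h3 := tq0_le
  unfold loF
  norm_num at h2
  linarith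
theorem loF_le {k : ℝ} (h0 : 0 ≤ k) (h : k ≤ 7 / 12) : loF k ≤ 1 := by
  have h1 : Real.log (3 / 2 * (1 - k)) ≤ 3 / 2 * (1 - k) - 1 :=
    Real.log_le_sub_one_of_pos (by linarith)
  unfold loF
  linarith
theorem hiF_le {r k : ℝ} (hr : r ≤ 7 / 12) (hk : k ≤ 7 / 12) : hiF r k ≤ 1 := by
  have h0 : (0 : ℝ) < 3 / 2 * max (r + k) (1 / 4) := by
    have := le_max_right (r + k) (1 / 4)
    linarith
  have h1 : Real.log (3 / 2 * max (r + k) (1 / 4)) ≤ Real.log 2 := by
    refine Real.log_le_log h0 ?_
    have : max (r + k) (1 / 4) ≤ 7 / 6 := max_le (by linarith) (by norm_num)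
    linarith
  have h2 := Real.log_two_lt_d9
  unfold hiF
  linarith
theorem hiF_le_loF {r k : ℝ} (hk : k ≤ 7 / 12) (h : r + 2 * k ≤ 1) : hiF r k ≤ loF k := by
  have h0 : (0 : ℝ) < 3 / 2 * max (r + k) (1 / 4) := by
    have := le_max_right (r + k) (1 / 4)
    linarith
  have h1 : Real.log (3 / 2 * max (r + k) (1 / 4)) ≤ Real.log (3 / 2 * (1 - k)) := by
    refine Real.log_le_log h0 ?_
    have : max (r + k) (1 / 4) ≤ 1 - k := max_le (by linarith) (by linarith)
    linarith
  unfold hiF loF
  linarith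
theorem loF_le_hiF {r k : ℝ} (hk : k ≤ 7 / 12) (h : 1 ≤ r + 2 * k) : loF k ≤ hiF r k := by
  have h1 : Real.log (3 / 2 * (1 - k)) ≤ Real.log (3 / 2 * max (r + k) (1 / 4)) := by
    refine Real.log_le_log (by linarith) ?_
    have := le_max_left (r + k) (1 / 4)
    linarith
  unfold hiF loF
  linarith
theorem usideT_eq (C : Cf) {k : ℝ} (h0 : 0 ≤ k) (h : k ≤ 7 / 12) (l : ℝ) :
    usideT C k l = min 1 (g0 * k) + gainV (fun _ => 1) (hC C k l) 0 (tq 0) 0 (loF k) (-2) := by
  have _h1 := loF_le h0 h
  have h2 : max (0 : ℝ) (min 1 (-2 - 0)) = 0 := by norm_num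
  unfold usideT gainV
  rw [h2]
  simp

end Crest.Agent.R310.Bx
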