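import Crest.Agent.R310.BxB

/-! Row 310: the ordinary region. -/

set_option autoImplicit false
set_option linter.dupNamespace false

namespace Crest.Agent.R310.Bx

open Finset Crest.Agent.Lib.IBox

theorem h85_gain (C : Cf) (diag : Bool) {p : ℕ} {t lam mu k l : ℝ} (c : ℝ) (hp : InP p t)
    (ht : t ≤ 0) (hmu : mu ≤ lam) (hd : diag = true → mu = lam) (hl : tq 0 ≤ lam) (hl1 : lam ≤ 1)
    (hm : MonoAt C k l) :
    gainR C p diag false lam mu (Real.exp t) t c (k - (C.xn : ℝ) / 48) (l - (C.yn : ℝ) / 48)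
      (l - (C.yn : ℝ) / 48) (cond C.kk (max (-1 + 1 * k + 2 * l) 0) 0) KK ≤
      gainV (fun _ => 1) (hC C k l) c (tq 0) t lam mu := by
  have e : -1 + 1 * k + 2 * l = k + 2 * l - 1 := by ring
  rw [gainR_eq C diag false hp ht hmu hd hl, (Hc_cond C false _ _ _ _).1,
    (Hc_cond C false _ _ _ _).2, e]
  exact gainF_le (prim_Hc C false _ _ _ _) hm c ((tq_mono (Nat.zero_le p)).trans hp.2.1) ht hmu hl
    hl1

theorem h85_inP : InP 4 0 := ⟨le_rfl, tq_le_zero 4, fun h => absurd h (lt_irrefl 4)⟩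

theorem side_le (Ch Cg : Cf) (dp dn : Bool) {p : ℕ} {r k l t μ : ℝ} (hp : InP p t) (ht : t ≤ 0)
    (hr0 : 0 ≤ r) (hr : r ≤ 7 / 12) (hk0 : 0 ≤ k) (hk : k ≤ 7 / 12) (hm : MonoAt Cg k l)
    (hdp : dp = true → r + 2 * k ≤ 1) (hdn : dn = true → 1 ≤ r + 2 * k) (hμ : Cand r k μ) :
    sideR Ch Cg p dp dn r k l (Real.exp t) t KK ≤ sideT Ch Cg r k l t μ := by
  have hc : (if 0 ≤ r - 8 / 5 * k then min (r - k) (2 * (r - 8 / 5 * k)) else 0) =
      capR 2 (8 / 5) k r := by
    unfold capR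
    split_ifs with h
    · exact (max_eq_right (le_min (by linarith) (by linarith))).symm
    · exact (max_eq_left ((min_le_right _ _).trans (by linarith))).symm
  have hlo := tq0_le_loF hk
  have hA : r + 2 * k ≤ 1 → min 1 (g0 * k) - min r (g0 * k) -
      hR Ch p false (Real.exp t) (r - (Ch.xn : ℝ) / 48) (k - (Ch.yn : ℝ) / 48)
        (k - (Ch.yn : ℝ) / 48) 0 +
      gainR Cg p false false (loF k) (hiF r k) (Real.exp t) t (capR 2 (8 / 5) k r)
        (k - (Cg.xn : ℝ) / 48) (l - (Cg.yn : ℝ) / 48) (l - (Cg.yn : ℝ) / 48)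
        (cond Cg.kk (max (-1 + 1 * k + 2 * l) 0) 0) KK ≤ sideT Ch Cg r k l t μ := by
    intro h
    have h1 := hiF_le_loF hk h
    have h2 : μ = hiF r k := by
      rcases hμ with h2 | h2
      · rw [h2, min_eq_right h1]
      · exact h2
    have h3 := h85_gain Cg false (capR 2 (8 / 5) k r) hp ht h1 (fun h => absurd h (by simp)) hlo
      (loF_le hk0 hk) hm
    have h4 : max (r + 2 * k - 1) 0 = 0 := max_eq_right (by linarith)
    rw [sideT, h2, max_eq_left h1, hR_eq Ch false hp, hC, h4]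
    linarith
  have hB : 1 ≤ r + 2 * k → min 1 (g0 * k) - min r (g0 * k) -
      hR Ch p false (Real.exp t) (r - (Ch.xn : ℝ) / 48) (k - (Ch.yn : ℝ) / 48)
        (k - (Ch.yn : ℝ) / 48) (-1 * (1 + -1 * r + -2 * k)) +
      min (gainR Cg p true false (loF k) (loF k) (Real.exp t) t (capR 2 (8 / 5) k r)
        (k - (Cg.xn : ℝ) / 48) (l - (Cg.yn : ℝ) / 48) (l - (Cg.yn : ℝ) / 48)
        (cond Cg.kk (max (-1 + 1 * k + 2 * l) 0) 0) KK)
        (gainR Cg p true false (hiF r k) (hiF r k) (Real.exp t) t (capR 2 (8 / 5) k r)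
        (k - (Cg.xn : ℝ) / 48) (l - (Cg.yn : ℝ) / 48) (l - (Cg.yn : ℝ) / 48)
        (cond Cg.kk (max (-1 + 1 * k + 2 * l) 0) 0) KK) ≤ sideT Ch Cg r k l t μ := by
    intro h
    have h1 := loF_le_hiF hk h
    have h3 := (min_le_left _ (gainR Cg p true false (hiF r k) (hiF r k) (Real.exp t) t
        (capR 2 (8 / 5) k r) (k - (Cg.xn : ℝ) / 48) (l - (Cg.yn : ℝ) / 48) (l - (Cg.yn : ℝ) / 48)
        (cond Cg.kk (max (-1 + 1 * k + 2 * l) 0) 0) KK)).trans
      (h85_gain Cg true (capR 2 (8 / 5) k r) hp ht le_rfl (fun _ => rfl) hlo (loF_le hk0 hk) hm)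
    have h3' := (min_le_right (gainR Cg p true false (loF k) (loF k) (Real.exp t) t
        (capR 2 (8 / 5) k r) (k - (Cg.xn : ℝ) / 48) (l - (Cg.yn : ℝ) / 48) (l - (Cg.yn : ℝ) / 48)
        (cond Cg.kk (max (-1 + 1 * k + 2 * l) 0) 0) KK) _).trans
      (h85_gain Cg true (capR 2 (8 / 5) k r) hp ht le_rfl (fun _ => rfl) (hlo.trans h1)
        (hiF_le hr hk) hm)
    have h4 : max (r + 2 * k - 1) 0 = -1 * (1 + -1 * r + -2 * k) := by
      rw [max_eq_left (by linarith)]; ring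
    rcases hμ with h2 | h2
    · rw [sideT, h2, min_eq_left h1, max_self, hR_eq Ch false hp, hC, h4]
      linarith
    · rw [sideT, h2, max_eq_right h1, hR_eq Ch false hp, hC, h4]
      linarith
  unfold sideR
  dsimp only
  rw [hc, KK0]
  cases dp with
  | true => exact hA (hdp rfl)
  | false =>
    cases dn with
    | true => exact hB (hdn rfl)
    | false =>
      simp only [cond_false]
      split_ifs with h
      · exact hA (by linarith)
      · exact hB (by linarith)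

theorem uside_le (C : Cf) {k l : ℝ} (hk0 : 0 ≤ k) (hk : k ≤ 7 / 12) (hm : MonoAt C k l) :
    usideR C k l KK ≤ usideT C k l := by
  have hlo := tq0_le_loF hk
  have h := h85_gain C false (mu := -2) 0 h85_inP le_rfl (by linarith [le_tq0])
    (fun h => absurd h (by simp)) hlo (loF_le hk0 hk) hm
  rw [Real.exp_zero] at h
  rw [usideT_eq C hk0 hk]
  unfold usideR usR
  dsimp only
  rw [KK0]
  exact add_le_add le_rfl h

theorem hend_eq (C : Cf) (r k : ℝ) : hendR C r k = hC C r k 0 := by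
  have e : -1 + 1 * r + 2 * k = r + 2 * k - 1 := by ring
  have h := hR_eq C false h85_inP (r - (C.xn : ℝ) / 48) (k - (C.yn : ℝ) / 48)
    (k - (C.yn : ℝ) / 48) (cond C.kk (max (-1 + 1 * r + 2 * k) 0) 0)
  rw [Real.exp_zero, (Hc_cond C false _ _ _ _).1] at h
  unfold hendR
  dsimp only
  rw [h, e]
  rfl

end Crest.Agent.R310.Bx
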