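import Crest.Agent.R310.BxB

/-! Row 310: blow-up at the tip. -/

set_option autoImplicit false
set_option linter.dupNamespace false

namespace Crest.Agent.R310.Bx

open Finset Crest.Agent.Lib.IBox

theorem Hb_tip {C : Cf} (hC : TipC C) {x : ℝ} (hx : tq 0 ≤ x) :
    Hb C 0 x = 2 / 3 * Real.exp x ∧ Pb C 0 x = 2 / 3 * Real.exp x + (tq 0 - 1) / 5 := by
  obtain ⟨-, -, h0, h1, h2, h3, h4, h5⟩ := hC
  have e : Real.exp (tq 0) = 3 / 10 := by rw [exp_tq]; norm_num [tn]
  simp only [Hb, Pb, Finset.sum_range_succ, Finset.sum_range_zero, h0, h1, h2, h3, h4, h5, ph, Ph,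
    max_eq_left hx, e]
  constructor <;> push_cast <;> ring

theorem h31_bonus {s mh mu t : ℝ} (hs0 : 0 ≤ s) (hs : s ≤ 43 / 1024)
    (h2 : t ≤ -33 / 32 → s * mh ≤ mu) :
    s * (if 0 ≤ (-33 : ℝ) / 32 - t then max (mh - 1024 / 43 - 1024 / 43 * t) 0 else 0) ≤
      mu - 1 - min t (mu - 1) := by
  have h0 : 0 ≤ mu - 1 - min t (mu - 1) := sub_nonneg.2 (min_le_right _ _)
  split_ifs with h
  · rw [mul_max_of_nonneg _ _ hs0, mul_zero]
    refine max_le ?_ h0
    have h3 := h2 (by linarith)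
    have h4 := min_le_left t (mu - 1)
    have h5 : 0 ≤ (43 / 1024 - s) * (-1 - t) := mul_nonneg (by linarith) (by linarith)
    nlinarith
  · rwa [mul_zero]

theorem h31_window (diag : Bool) {s lh mh mu t : ℝ} (hs0 : 0 ≤ s) (hs : s ≤ 43 / 1024) (ht : t ≤ 0)
    (hmu : mu ≤ s * lh) (hd : diag = true → mu = s * lh) (h1 : mu ≤ s * mh) :
    Real.exp t * (s * (if 0 ≤ lh - 1024 / 43 * t then
        cond diag 0 (if 0 ≤ mh - 1024 / 43 * t then lh - mh else lh - 1024 / 43 * t)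
      else (lh - 1024 / 43 * t) * ex1 (s * (lh - 1024 / 43 * t)))) ≤
      Real.exp (min t (s * lh)) - Real.exp t +
        Real.exp t * (min t mu - min t (s * lh) + (s * lh - mu)) := by
  have hT := Real.exp_pos t
  have hts : t ≤ s * (1024 / 43 * t) := by
    have h5 : 0 ≤ (43 / 1024 - s) * (-t) := mul_nonneg (by linarith) (by linarith)
    nlinarith
  by_cases h : 0 ≤ lh - 1024 / 43 * t
  · have h3 : s * (1024 / 43 * t) ≤ s * lh := mul_le_mul_of_nonneg_left (by linarith) hs0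
    rw [if_pos h, min_eq_left (hts.trans h3), sub_self, zero_add]
    refine mul_le_mul_of_nonneg_left ?_ hT.le
    cases diag with
    | true =>
      rw [hd rfl, min_eq_left (hts.trans h3), cond_true]
      linarith
    | false =>
      rw [cond_false]
      split_ifs with h4
      · have h5 : s * (1024 / 43 * t) ≤ s * mh := mul_le_mul_of_nonneg_left (by linarith) hs0
        rw [mul_sub]
        rcases le_total t mu with h6 | h6
        · rw [min_eq_left h6]; linarith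
        · rw [min_eq_right h6]; linarith
      · have h5 : s * mh ≤ s * (1024 / 43 * t) :=
          mul_le_mul_of_nonneg_left (by linarith [not_le.1 h4]) hs0
        rw [mul_sub]
        rcases le_total t mu with h6 | h6
        · rw [min_eq_left h6]; linarith
        · rw [min_eq_right h6]; linarith
  · have h3 : s * lh ≤ s * (1024 / 43 * t) :=
      mul_le_mul_of_nonneg_left (by linarith [not_le.1 h]) hs0
    rw [if_neg h, ← mul_assoc s, mul_ex1, mul_sub, ← Real.exp_add, mul_one]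
    have h4 : Real.exp (t + s * (lh - 1024 / 43 * t)) ≤ Real.exp (min t (s * lh)) :=
      Real.exp_le_exp.2 (le_min (by rw [mul_sub]; linarith) (by rw [mul_sub]; linarith))
    have h5 : 0 ≤ min t mu - min t (s * lh) + (s * lh - mu) := by
      rcases le_total t mu with h6 | h6
      · rw [min_eq_left h6, min_eq_left (h6.trans hmu)]; linarith
      · rw [min_eq_right h6]; linarith [min_le_right t (s * lh)]
    linarith [mul_nonneg hT.le h5]

theorem main_le (diag : Bool) {s lh mh mu t : ℝ} (hs0 : 0 ≤ s) (hs : s ≤ 43 / 1024) (ht : t ≤ 0)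
    (hmu : mu ≤ s * lh) (hd : diag = true → mu = s * lh) (h1 : mu ≤ s * mh)
    (h2 : t ≤ -33 / 32 → s * mh ≤ mu) :
    s * mainR diag s lh mh (s * lh) (Real.exp t) t KK ≤
      (1 - Real.exp (s * lh)) * Real.exp (-1) + (Real.exp (min t (s * lh)) - Real.exp t) +
        Real.exp t * (min t mu - min t (s * lh) + (s * lh - 1) - min t (mu - 1)) := by
  have hb := mul_le_mul_of_nonneg_left (h31_bonus hs0 hs h2) (Real.exp_pos t).le
  have hw := h31_window diag hs0 hs ht hmu hd h1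
  have he : Real.exp (-1) * (s * lh * ex1 (s * lh)) = Real.exp (-1) * (Real.exp (s * lh) - 1) := by
    rw [mul_ex1]
  unfold mainR
  dsimp only
  rw [KK1]
  linarith

private theorem hC_tip86 {C : Cf} (hC : TipC C) {s : ℝ} (hs0 : 0 ≤ s) (u v : ℝ) :
    Bx.hC C (1 / 3 + s * u) (1 / 3 + s * v) =
      Hc C false (s * u) (s * v) (s * v) (s * max (0 + 1 * u + 2 * v) 0) := by
  funext σ
  have e1 : (1 / 3 + s * u - (C.xn : ℝ) / 48) = s * u := by rw [hC.1]; push_cast; ring
  have e2 : (1 / 3 + s * v - (C.yn : ℝ) / 48) = s * v := by rw [hC.2.1]; push_cast; ring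
  have e3 : max (1 / 3 + s * u + 2 * (1 / 3 + s * v) - 1) 0 = s * max (0 + 1 * u + 2 * v) 0 := by
    rw [mul_max_of_nonneg _ _ hs0, mul_zero]; congr 1; ring
  unfold Bx.hC
  rw [e1, e2, e3]

/-- one candidate: `lam = s * lh` -/
theorem cand_le {C : Cf} (hC : TipC C) (diag : Bool) {p : ℕ} {s lh mh mu t u v : ℝ} (hp : InP p t)
    (hs0 : 0 ≤ s) (hs : s ≤ 43 / 1024) (ht : t ≤ 0) (hmu : mu ≤ s * lh)
    (hd : diag = true → mu = s * lh) (h1 : mu ≤ s * mh) (h2 : t ≤ -33 / 32 → s * mh ≤ mu)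
    (hl : -1 / 10 ≤ s * lh) (hl1 : s * lh ≤ 1) (hm : MonoAt C (1 / 3 + s * u) (1 / 3 + s * v)) :
    s * candR C p diag s lh mh (s * lh) mu (Real.exp t) t u v (s * v)
        (cond C.kk (max (0 + 1 * u + 2 * v) 0) 0) KK ≤
      gainV (fun _ => 1) (Bx.hC C (1 / 3 + s * u) (1 / 3 + s * v)) 0 (tq 0) t (s * lh) mu +
        2 / 3 * (Real.exp (-1) - Real.exp t) := by
  have hq := tq0_le
  have h0 : tq 0 ≤ t := (tq_mono (Nat.zero_le p)).trans hp.2.1
  have hl0 : tq 0 ≤ s * lh := by linarith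
  have hl2 : tq 0 ≤ s * lh - 1 := by linarith
  have hmain := main_le diag hs0 hs ht hmu hd h1 h2
  unfold MonoAt at hm
  rw [hC_tip86 hC hs0] at hm ⊢
  have hle := lateF_le (prim_Hc C false _ _ _ _) hm 0 h0 ht hmu hl0 hl1
  have hR := lateR_eq C diag true hp ht hmu hd hl0 0 u v (s * v)
    (cond C.kk (max (0 + 1 * u + 2 * v) 0) 0)
  rw [(Hc_cond C true u v (s * v) _).1, (Hc_cond C true u v (s * v) _).2] at hR
  have hmin : tq 0 ≤ min t (s * lh) := le_min h0 hl0
  have ee : Real.exp (s * lh - 1) = Real.exp (s * lh) * Real.exp (-1) := by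
    rw [← Real.exp_add]; congr 1
  simp only [candR]
  rw [hR]
  refine le_trans ?_ (add_le_add_left hle _)
  unfold lateF
  rw [max_eq_left hl2, (Hc_blow C s u v _ _).1, (Hc_blow C s u v _ (min t (s * lh))).2,
    (Hc_blow C s u v _ (s * lh - 1)).2, (Hb_tip hC h0).1, (Hb_tip hC hmin).2, (Hb_tip hC hl2).2, ee]
  nlinarith [hmain]

theorem tside_le {Ch Cg : Cf} (hh : TipC Ch) (hg : TipC Cg) (dp dn : Bool) {p : ℕ} {s r k l t μ : ℝ}
    (hp : InP p t) (ht : t ≤ 0) (hs0 : 0 ≤ s) (hs : s ≤ 43 / 1024) (hr : |r| ≤ 1) (hk : |k| ≤ 1)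
    (hm : MonoAt Cg (1 / 3 + s * k) (1 / 3 + s * l))
    (hdp : dp = true → s * (r + 2 * k) ≤ 0) (hdn : dn = true → 0 ≤ s * (r + 2 * k))
    (hμ : Cand (1 / 3 + s * r) (1 / 3 + s * k) μ) :
    s * tsideR Ch Cg p dp dn s r k l (Real.exp t) t KK ≤
      sideT Ch Cg (1 / 3 + s * r) (1 / 3 + s * k) (1 / 3 + s * l) t μ := by
  obtain ⟨hr1, hr2⟩ := abs_le.1 hr
  obtain ⟨hk1, hk2⟩ := abs_le.1 hk
  have sr1 : s * r ≤ 43 / 1024 := by nlinarith
  have sr2 : -(43 / 1024) ≤ s * r := by nlinarith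
  have sk1 : s * k ≤ 43 / 1024 := by nlinarith
  have sk2 : -(43 / 1024) ≤ s * k := by nlinarith
  obtain ⟨g1, g2⟩ := g0_bounds
  set lh : ℝ := (7 : ℝ) / 5 * ((-3 : ℝ) / 2 * k * lg1 (s * ((-3 : ℝ) / 2 * k))) with hlh
  set mh : ℝ := (7 : ℝ) / 5 * ((3 : ℝ) / 2 * (r + k) * lg1 (s * ((3 : ℝ) / 2 * (r + k)))) with hmh
  have elo : loF (1 / 3 + s * k) = s * lh := by
    have h := mul_lg1 (s * ((-3 : ℝ) / 2 * k))
    have e : (3 : ℝ) / 2 * (1 - (1 / 3 + s * k)) = 1 + s * ((-3 : ℝ) / 2 * k) := by ring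
    unfold loF
    rw [e, ← h, hlh]; ring
  have ehi : hiF (1 / 3 + s * r) (1 / 3 + s * k) = s * mh := by
    have h := mul_lg1 (s * ((3 : ℝ) / 2 * (r + k)))
    have e0 : max (1 / 3 + s * r + (1 / 3 + s * k)) (1 / 4 : ℝ) = 1 / 3 + s * r + (1 / 3 + s * k) :=
      max_eq_left (by linarith)
    have e : (3 : ℝ) / 2 * (1 / 3 + s * r + (1 / 3 + s * k)) = 1 + s * ((3 : ℝ) / 2 * (r + k)) := by
      ring
    unfold hiF
    rw [e0, e, ← h, hmh]; ring
  have hlo : -1 / 10 ≤ s * lh := by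
    rw [← elo]
    unfold loF
    have hy : (1 : ℝ) - 3 / 2 * (43 / 1024) ≤ 3 / 2 * (1 - (1 / 3 + s * k)) := by linarith
    have hy0 : (0 : ℝ) < 1 - 3 / 2 * (43 / 1024) := by norm_num
    have h1 := Real.log_le_log hy0 hy
    have h2 := Real.one_sub_inv_le_log_of_pos hy0
    norm_num at h2
    norm_num at h1
    norm_num
    linarith
  have hk' : 1 / 3 + s * k ≤ 7 / 12 := by linarith
  have hr' : 1 / 3 + s * r ≤ 7 / 12 := by linarith
  have hlo1 : s * lh ≤ 1 := by rw [← elo]; exact loF_le (by linarith) hk'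
  have hhi1 : s * mh ≤ 1 := by rw [← ehi]; exact hiF_le hr' hk'
  have m1 : min 1 (g0 * (1 / 3 + s * k)) = g0 * (1 / 3 + s * k) := min_eq_right (by nlinarith)
  have m2 : min (1 / 3 + s * r) (g0 * (1 / 3 + s * k)) = 1 / 3 + s * r := min_eq_left (by nlinarith)
  have m3 : capR 2 (8 / 5) (1 / 3 + s * k) (1 / 3 + s * r) = 0 := by
    unfold capR
    exact max_eq_left ((min_le_right _ _).trans (by linarith))
  have hg0 : g0 = 1 + 2 * Real.exp (-1) := by
    unfold g0; rw [Real.exp_neg]; ring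
  have hhC : ∀ z : ℝ, max (s * (r + 2 * k)) 0 = s * z →
      Bx.hC Ch (1 / 3 + s * r) (1 / 3 + s * k) t =
        2 / 3 * Real.exp t + s * hR Ch p true (Real.exp t) r k (s * k) z := by
    intro z hz
    have e1 : 1 / 3 + s * r - ((Ch.xn : ℤ) : ℝ) / 48 = s * r := by rw [hh.1]; push_cast; ring
    have e2 : 1 / 3 + s * k - ((Ch.yn : ℤ) : ℝ) / 48 = s * k := by rw [hh.2.1]; push_cast; ring
    have e3 : 1 / 3 + s * r + 2 * (1 / 3 + s * k) - 1 = s * (r + 2 * k) := by ring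
    unfold Bx.hC
    rw [e1, e2, e3, hz, (Hc_blow Ch s r k z t).1, (Hb_tip hh ((tq_mono (Nat.zero_le p)).trans hp.2.1)).1, hR_eq Ch true hp]
  have HP : s * (r + 2 * k) ≤ 0 →
      s * (KK 0 * k - r - hR Ch p true (Real.exp t) r k (s * k) 0 +
        candR Cg p false s lh mh (s * lh) (s * mh) (Real.exp t) t k l (s * l)
          (cond Cg.kk (max (0 + 1 * k + 2 * l) 0) 0) KK) ≤
      sideT Ch Cg (1 / 3 + s * r) (1 / 3 + s * k) (1 / 3 + s * l) t μ := by
    intro h
    have hle : s * mh ≤ s * lh := by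
      rw [← elo, ← ehi]; exact hiF_le_loF hk' (by linarith)
    have hμ' : μ = s * mh := by
      rcases hμ with h1 | h1
      · rw [h1, elo, ehi, min_eq_right hle]
      · rw [h1, ehi]
    have hc := cand_le hg false (lh := lh) (mh := mh) (mu := s * mh) hp hs0 hs ht hle
      (by simp) le_rfl (fun _ => le_rfl) hlo hlo1 hm
    unfold sideT
    rw [m1, m2, m3, hhC 0 (by rw [max_eq_right h, mul_zero]), elo, hμ', max_eq_left hle, KK0]
    rw [hg0] at *
    nlinarith [hc]
  have HN : 0 ≤ s * (r + 2 * k) →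
      s * (KK 0 * k - r - hR Ch p true (Real.exp t) r k (s * k) (-1 * (0 + -1 * r + -2 * k)) +
        min (candR Cg p true s lh lh (s * lh) (s * lh) (Real.exp t) t k l (s * l)
          (cond Cg.kk (max (0 + 1 * k + 2 * l) 0) 0) KK)
          (candR Cg p true s mh mh (s * mh) (s * mh) (Real.exp t) t k l (s * l)
          (cond Cg.kk (max (0 + 1 * k + 2 * l) 0) 0) KK)) ≤
      sideT Ch Cg (1 / 3 + s * r) (1 / 3 + s * k) (1 / 3 + s * l) t μ := by
    intro h
    have hle : s * lh ≤ s * mh := by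
      rw [← elo, ← ehi]; exact loF_le_hiF hk' (by linarith)
    have hz : max (s * (r + 2 * k)) 0 = s * (-1 * (0 + -1 * r + -2 * k)) := by
      rw [max_eq_left h]; ring
    rcases hμ with h1 | h1
    · have hμ' : μ = s * lh := by rw [h1, elo, ehi, min_eq_left hle]
      have hc := cand_le hg true (lh := lh) (mh := lh) (mu := s * lh) hp hs0 hs ht le_rfl
        (fun _ => rfl) le_rfl (fun _ => le_rfl) hlo hlo1 hm
      have hmin := mul_le_mul_of_nonneg_left (min_le_left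
        (candR Cg p true s lh lh (s * lh) (s * lh) (Real.exp t) t k l (s * l)
          (cond Cg.kk (max (0 + 1 * k + 2 * l) 0) 0) KK)
        (candR Cg p true s mh mh (s * mh) (s * mh) (Real.exp t) t k l (s * l)
          (cond Cg.kk (max (0 + 1 * k + 2 * l) 0) 0) KK)) hs0
      unfold sideT
      rw [m1, m2, m3, hhC _ hz, elo, hμ', max_self, KK0]
      rw [hg0] at *
      nlinarith [hc, hmin]
    · have hμ' : μ = s * mh := by rw [h1, ehi]
      have hc := cand_le hg true (lh := mh) (mh := mh) (mu := s * mh) hp hs0 hs ht le_rfl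
        (fun _ => rfl) le_rfl (fun _ => le_rfl) (hlo.trans hle) hhi1 hm
      have hmin := mul_le_mul_of_nonneg_left (min_le_right
        (candR Cg p true s lh lh (s * lh) (s * lh) (Real.exp t) t k l (s * l)
          (cond Cg.kk (max (0 + 1 * k + 2 * l) 0) 0) KK)
        (candR Cg p true s mh mh (s * mh) (s * mh) (Real.exp t) t k l (s * l)
          (cond Cg.kk (max (0 + 1 * k + 2 * l) 0) 0) KK)) hs0
      unfold sideT
      rw [m1, m2, m3, hhC _ hz, elo, hμ', max_eq_right hle, KK0]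
      rw [hg0] at *
      nlinarith [hc, hmin]
  unfold tsideR
  dsimp only
  cases dp with
  | true => exact HP (hdp rfl)
  | false =>
    cases dn with
    | true => exact HN (hdn rfl)
    | false =>
      simp only [cond_false]
      split_ifs with hd
      · exact HP (mul_nonpos_of_nonneg_of_nonpos hs0 (by linarith))
      · exact HN (mul_nonneg hs0 (by linarith))

theorem tus_le {C : Cf} (hC : TipC C) {s k l : ℝ} (hs0 : 0 ≤ s) (hs : s ≤ 43 / 1024) (hk : |k| ≤ 1)
    (hm : MonoAt C (1 / 3 + s * k) (1 / 3 + s * l)) :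
    1 + s * tusR C s k l KK ≤ usideT C (1 / 3 + s * k) (1 / 3 + s * l) := by
  obtain ⟨hk1, hk2⟩ := abs_le.1 hk
  have hsk1 : -(43 / 1024) ≤ s * k := by nlinarith
  have hsk2 : s * k ≤ 43 / 1024 := by nlinarith
  have hA : 0 ≤ 1 / 3 + s * k := by linarith
  have hB : 1 / 3 + s * k ≤ 7 / 12 := by linarith
  have hlo : s * (7 / 5 * (-3 / 2 * k * lg1 (s * (-3 / 2 * k)))) = loF (1 / 3 + s * k) := by
    have := mul_lg1 (s * (-3 / 2 * k))
    unfold loF
    rw [show 3 / 2 * (1 - (1 / 3 + s * k)) = 1 + s * (-3 / 2 * k) by ring, ← this]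
    ring
  have hl : -1 / 10 ≤ loF (1 / 3 + s * k) := by
    unfold loF
    have hpos : (0 : ℝ) < 3 / 2 * (1 - (1 / 3 + s * k)) := by linarith
    have h1 := Real.one_sub_inv_le_log_of_pos hpos
    have h2 : (3 / 2 * (1 - (1 / 3 + s * k)))⁻¹ ≤ 15 / 14 := by
      rw [inv_le_comm₀ hpos (by norm_num)]; linarith
    linarith
  have hl1 := loF_le hA hB
  have hp : InP 4 0 := ⟨le_rfl, tq_le_zero 4, fun h => absurd h (lt_irrefl _)⟩
  have hc := cand_le hC false (p := 4) (s := s) (lh := 7 / 5 * (-3 / 2 * k * lg1 (s * (-3 / 2 * k))))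
    (mh := -40) (mu := -2) (t := 0) (u := k) (v := l) hp hs0 hs le_rfl
    (by rw [hlo]; linarith) (fun h => absurd h (by simp)) (by linarith)
    (fun h => absurd h (by norm_num)) (by rw [hlo]; exact hl) (by rw [hlo]; exact hl1) hm
  rw [usideT_eq C hA hB]
  simp only [tusR]
  rw [Real.exp_zero] at hc
  obtain ⟨g1, g2⟩ := g0_bounds
  have hmin : min 1 (g0 * (1 / 3 + s * k)) = g0 * (1 / 3 + s * k) :=
    min_eq_right (by nlinarith)
  have hg : g0 = 1 + 2 * Real.exp (-1) := by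
    unfold g0; rw [Real.exp_neg, div_eq_mul_inv]
  rw [hmin, KK0, ← hlo]
  nlinarith [hc]

theorem hendh_eq {C : Cf} (hC : TipC C) {s : ℝ} (hs0 : 0 ≤ s) (r k : ℝ) :
    Bx.hC C (1 / 3 + s * r) (1 / 3 + s * k) 0 = 2 / 3 + s * hendhR C s r k := by
  have hp : InP 4 0 := ⟨le_rfl, tq_le_zero 4, fun h => absurd h (lt_irrefl 4)⟩
  have h1 := hR_eq C true hp r k (s * k) (cond C.kk (max (0 + 1 * r + 2 * k) 0) 0)
  rw [Real.exp_zero, (Hc_cond C true r k (s * k) _).1] at h1
  have h2 := (Hc_blow C s r k (max (0 + 1 * r + 2 * k) 0) 0).1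
  rw [(Hb_tip hC (tq_le_zero 0)).1, Real.exp_zero, mul_one] at h2
  have e1 : 1 / 3 + s * r - (C.xn : ℝ) / 48 = s * r := by rw [hC.1]; push_cast; ring
  have e2 : 1 / 3 + s * k - (C.yn : ℝ) / 48 = s * k := by rw [hC.2.1]; push_cast; ring
  have e3 : max (1 / 3 + s * r + 2 * (1 / 3 + s * k) - 1) 0 = s * max (0 + 1 * r + 2 * k) 0 := by
    rw [mul_max_of_nonneg _ _ hs0, mul_zero]
    congr 1
    ring
  unfold hendhR Bx.hC
  dsimp only
  rw [e1, e2, e3, h1, h2]

end Crest.Agent.R310.Bx
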