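import Crest.Agent.R310.BxSem
import Crest.Agent.R310.BxTab

/-! Row 310: side conditions on the table. -/

set_option autoImplicit false
set_option linter.dupNamespace false

namespace Crest.Agent.R310.Bx

theorem tabOK : TabOK cf pq := ⟨by decide +kernel, by decide +kernel, by decide +kernel, by decide +kernel,
  by decide +kernel⟩

end Crest.Agent.R310.Bx
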