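import Crest.Agent.Lib.IBoxD

/-! Row 310: box programs for the explicit pair certificate, their real-valued mirrors and value lemmas
(the part after `cmbE_val` is generated). -/

set_option autoImplicit false
set_option linter.dupNamespace false
set_option linter.unusedVariables false
set_option linter.unusedSimpArgs false
set_option linter.unusedTactic false
set_option linter.unreachableTactic false

namespace Crest.Agent.R310.Bx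

open Crest.Agent.Lib.IBox

/-- data of one pair of cells: base point `(xn/48, yn/48)`, kink flag, initial values `n` and slope
increments `s` (five time knots, five basis functions, denominator `30000`) -/
structure Cf where
  xn : ℤ
  yn : ℤ
  kk : Bool
  n : List ℤ
  s : List (List ℤ)

def Cf.n0 (C : Cf) (b : ℕ) : ℤ := C.n.getD b 0
def Cf.sq (C : Cf) (q b : ℕ) : ℤ := (C.s.getD q []).getD b 0
/-- time knots `T = tn/10` -/
def tn : ℕ → ℤ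
  | 0 => 3
  | 1 => 4
  | 2 => 5
  | 3 => 6
  | 4 => 8
  | _ => 10
def Cf.be (C : Cf) (b : ℕ) : ℕ → ℤ
  | 0 => 10 * C.sq 0 b
  | p + 1 => C.be b p + 10 * C.sq (p + 1) b
def Cf.al (C : Cf) (b : ℕ) : ℕ → ℤ
  | 0 => 10 * C.n0 b - tn 0 * C.sq 0 b
  | p + 1 => C.al b p - tn (p + 1) * C.sq (p + 1) b
def Cf.gm (C : Cf) (b q p : ℕ) : ℤ := cond (Nat.ble q p) (10 * C.sq q b) 0

/-- constants `K 0 = g`, `K 1 = 1/e`, `K (2+q) = log T_q`, `K (6+q) = T_q (log T_q - 1)`, `K 11 = T_0` -/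
def cs : List Fx :=
  [.c 3 9, .sm 8 9 (.sub (.log (.c 8 9)) (.c 1 0)), .sm 6 9 (.sub (.log (.c 6 9)) (.c 1 0)),
    .sm 5 9 (.sub (.log (.c 5 9)) (.c 1 0)), .sm 4 9 (.sub (.log (.c 4 9)) (.c 1 0)),
    .log (.c 8 9), .log (.c 6 9), .log (.c 5 9), .log (.c 4 9), .log (.c 3 9), .exp (.c (-1) 0),
    .add (.c 1 0) (.sm 2 0 (.exp (.c (-1) 0)))]

noncomputable def KK (j : ℕ) : ℝ := (fpreV cs []).getD j 0

/-- skip zero coefficients -/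
def cs0 (n : ℤ) (i : ℕ) (t : Lc) : Lc := cond (Nat.beq n.natAbs 0) t (.cons n i t)

theorem cs0_val (n : ℤ) (i : ℕ) (t : Lc) (ρ : List ℝ) :
    (cs0 n i t).val ρ = (n : ℝ) * ρ.getD i 0 + t.val ρ := by
  unfold cs0
  cases h : Nat.beq n.natAbs 0 with
  | true =>
    have : n = 0 := Int.natAbs_eq_zero.1 (Nat.eq_of_beq_eq_true h)
    simp [this]
  | false => rfl

theorem val_cond (b : Bool) (x y : Fx) (ρ : List ℝ) :
    (cond b x y).val ρ = cond b (x.val ρ) (y.val ρ) := by cases b <;> rfl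

theorem getD_shift (x : ℝ) (ρ : List ℝ) (j o : ℕ) :
    (x :: ρ).getD (j + (o + 1)) 0 = ρ.getD (j + o) 0 := rfl

def cmbE (hat kk : Bool) (s0 s1 s2 s3 s4 : Fx) (u v w z : ℕ) : Fx :=
  cond hat
    (cond kk (.add (.add (.mul (.v u) (.add s1 (.mul (.v w) s3))) (.mul (.v v) s2)) (.mul (.v z) s4))
      (.add (.mul (.v u) (.add s1 (.mul (.v w) s3))) (.mul (.v v) s2)))
    (cond kk (.add s0 (.add (.add (.mul (.v u) (.add s1 (.mul (.v w) s3))) (.mul (.v v) s2)) (.mul (.v z) s4)))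
      (.add s0 (.add (.mul (.v u) (.add s1 (.mul (.v w) s3))) (.mul (.v v) s2))))

/-- combination of the five basis values; `hat` drops the value at the base point -/
noncomputable def cmbR (hat kk : Bool) (s0 s1 s2 s3 s4 u v w z : ℝ) : ℝ :=
  cond hat 0 s0 + (u * (s1 + w * s3) + v * s2 + cond kk (z * s4) 0)

theorem cmbE_val (hat kk : Bool) (s0 s1 s2 s3 s4 : Fx) (u v w z : ℕ) (ρ : List ℝ) :
    (cmbE hat kk s0 s1 s2 s3 s4 u v w z).val ρ = cmbR hat kk (s0.val ρ) (s1.val ρ) (s2.val ρ)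
      (s3.val ρ) (s4.val ρ) (ρ.getD u 0) (ρ.getD v 0) (ρ.getD w 0) (ρ.getD z 0) := by
  cases hat <;> cases kk <;> simp [cmbE, cmbR, Fx.val]

/-- the offer on time piece `p` -/
def hE (C : Cf) (p : ℕ) (hat : Bool) (T u v w z : ℕ) : Fx :=
  (cmbE hat C.kk
    (.lc (C.al 0 p) 299999 (cs0 (C.be 0 p) T .nil))
    (.lc (C.al 1 p) 299999 (cs0 (C.be 1 p) T .nil))
    (.lc (C.al 2 p) 299999 (cs0 (C.be 2 p) T .nil))
    (.lc (C.al 3 p) 299999 (cs0 (C.be 3 p) T .nil))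
    (.lc (C.al 4 p) 299999 (cs0 (C.be 4 p) T .nil))
    u v w z)

noncomputable def hR (C : Cf) (p : ℕ) (hat : Bool) (T u v w z : ℝ) : ℝ :=
  (cmbR hat C.kk
    (((((C.al 0 p) : ℤ) : ℝ) + (((C.be 0 p) : ℤ) : ℝ) * T) / 300000)
    (((((C.al 1 p) : ℤ) : ℝ) + (((C.be 1 p) : ℤ) : ℝ) * T) / 300000)
    (((((C.al 2 p) : ℤ) : ℝ) + (((C.be 2 p) : ℤ) : ℝ) * T) / 300000)
    (((((C.al 3 p) : ℤ) : ℝ) + (((C.be 3 p) : ℤ) : ℝ) * T) / 300000)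
    (((((C.al 4 p) : ℤ) : ℝ) + (((C.be 4 p) : ℤ) : ℝ) * T) / 300000)
    u v w z)

theorem hE_val (C : Cf) (p : ℕ) (hat : Bool) (T u v w z : ℕ) (ρ : List ℝ) :
    (hE C p hat T u v w z).val ρ = hR C p hat (ρ.getD T 0) (ρ.getD u 0) (ρ.getD v 0) (ρ.getD w 0) (ρ.getD z 0) := by
  simp only [hE, hR, Fx.val, Lc.val, val_cond, cs0_val, cmbE_val, List.getD_cons_succ, List.getD_cons_zero, getD_shift, Nat.add_zero]
  all_goals norm_num [add_assoc]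

/-- integral from `n` (piece `qn`) to `m` (piece `qm`) plus frozen part -/
def gnE (C : Cf) (p qm qn : ℕ) (dz hat : Bool) (m em n en D TD c u v w z o : ℕ) : Fx :=
  (.sub (cmbE hat C.kk
    (.lc 0 299999 (cs0 (C.al 0 qm) m (cs0 (C.be 0 qm) em (cs0 (-C.al 0 qn) n (cs0 (-C.be 0 qn) en (cs0 (cond dz 0 (C.al 0 p)) D (cs0 (cond dz 0 (C.be 0 p)) TD (cs0 (C.gm 0 1 qm - C.gm 0 1 qn) (7 + o) (cs0 (C.gm 0 2 qm - C.gm 0 2 qn) (8 + o) (cs0 (C.gm 0 3 qm - C.gm 0 3 qn) (9 + o) (cs0 (C.gm 0 4 qm - C.gm 0 4 qn) (10 + o) .nil)))))))))))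
    (.lc 0 299999 (cs0 (C.al 1 qm) m (cs0 (C.be 1 qm) em (cs0 (-C.al 1 qn) n (cs0 (-C.be 1 qn) en (cs0 (cond dz 0 (C.al 1 p)) D (cs0 (cond dz 0 (C.be 1 p)) TD (cs0 (C.gm 1 1 qm - C.gm 1 1 qn) (7 + o) (cs0 (C.gm 1 2 qm - C.gm 1 2 qn) (8 + o) (cs0 (C.gm 1 3 qm - C.gm 1 3 qn) (9 + o) (cs0 (C.gm 1 4 qm - C.gm 1 4 qn) (10 + o) .nil)))))))))))
    (.lc 0 299999 (cs0 (C.al 2 qm) m (cs0 (C.be 2 qm) em (cs0 (-C.al 2 qn) n (cs0 (-C.be 2 qn) en (cs0 (cond dz 0 (C.al 2 p)) D (cs0 (cond dz 0 (C.be 2 p)) TD (cs0 (C.gm 2 1 qm - C.gm 2 1 qn) (7 + o) (cs0 (C.gm 2 2 qm - C.gm 2 2 qn) (8 + o) (cs0 (C.gm 2 3 qm - C.gm 2 3 qn) (9 + o) (cs0 (C.gm 2 4 qm - C.gm 2 4 qn) (10 + o) .nil)))))))))))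
    (.lc 0 299999 (cs0 (C.al 3 qm) m (cs0 (C.be 3 qm) em (cs0 (-C.al 3 qn) n (cs0 (-C.be 3 qn) en (cs0 (cond dz 0 (C.al 3 p)) D (cs0 (cond dz 0 (C.be 3 p)) TD (cs0 (C.gm 3 1 qm - C.gm 3 1 qn) (7 + o) (cs0 (C.gm 3 2 qm - C.gm 3 2 qn) (8 + o) (cs0 (C.gm 3 3 qm - C.gm 3 3 qn) (9 + o) (cs0 (C.gm 3 4 qm - C.gm 3 4 qn) (10 + o) .nil)))))))))))
    (.lc 0 299999 (cs0 (C.al 4 qm) m (cs0 (C.be 4 qm) em (cs0 (-C.al 4 qn) n (cs0 (-C.be 4 qn) en (cs0 (cond dz 0 (C.al 4 p)) D (cs0 (cond dz 0 (C.be 4 p)) TD (cs0 (C.gm 4 1 qm - C.gm 4 1 qn) (7 + o) (cs0 (C.gm 4 2 qm - C.gm 4 2 qn) (8 + o) (cs0 (C.gm 4 3 qm - C.gm 4 3 qn) (9 + o) (cs0 (C.gm 4 4 qm - C.gm 4 4 qn) (10 + o) .nil)))))))))))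
    u v w z) (.mul (.v c) (cond dz (.sub (.v m) (.v n))
    (.add (.sub (.v m) (.v n)) (.v D)))))

noncomputable def gnR (C : Cf) (p qm qn : ℕ) (dz hat : Bool) (m em n en D TD c u v w z : ℝ) (K : ℕ → ℝ) : ℝ :=
  ((cmbR hat C.kk
    (((0 : ℝ) + (((C.al 0 qm) : ℤ) : ℝ) * m + (((C.be 0 qm) : ℤ) : ℝ) * em + (((-C.al 0 qn) : ℤ) : ℝ) * n + (((-C.be 0 qn) : ℤ) : ℝ) * en + (((cond dz 0 (C.al 0 p)) : ℤ) : ℝ) * D + (((cond dz 0 (C.be 0 p)) : ℤ) : ℝ) * TD + (((C.gm 0 1 qm - C.gm 0 1 qn) : ℤ) : ℝ) * (K 7) + (((C.gm 0 2 qm - C.gm 0 2 qn) : ℤ) : ℝ) * (K 8) + (((C.gm 0 3 qm - C.gm 0 3 qn) : ℤ) : ℝ) * (K 9) + (((C.gm 0 4 qm - C.gm 0 4 qn) : ℤ) : ℝ) * (K 10)) / 300000)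
    (((0 : ℝ) + (((C.al 1 qm) : ℤ) : ℝ) * m + (((C.be 1 qm) : ℤ) : ℝ) * em + (((-C.al 1 qn) : ℤ) : ℝ) * n + (((-C.be 1 qn) : ℤ) : ℝ) * en + (((cond dz 0 (C.al 1 p)) : ℤ) : ℝ) * D + (((cond dz 0 (C.be 1 p)) : ℤ) : ℝ) * TD + (((C.gm 1 1 qm - C.gm 1 1 qn) : ℤ) : ℝ) * (K 7) + (((C.gm 1 2 qm - C.gm 1 2 qn) : ℤ) : ℝ) * (K 8) + (((C.gm 1 3 qm - C.gm 1 3 qn) : ℤ) : ℝ) * (K 9) + (((C.gm 1 4 qm - C.gm 1 4 qn) : ℤ) : ℝ) * (K 10)) / 300000)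
    (((0 : ℝ) + (((C.al 2 qm) : ℤ) : ℝ) * m + (((C.be 2 qm) : ℤ) : ℝ) * em + (((-C.al 2 qn) : ℤ) : ℝ) * n + (((-C.be 2 qn) : ℤ) : ℝ) * en + (((cond dz 0 (C.al 2 p)) : ℤ) : ℝ) * D + (((cond dz 0 (C.be 2 p)) : ℤ) : ℝ) * TD + (((C.gm 2 1 qm - C.gm 2 1 qn) : ℤ) : ℝ) * (K 7) + (((C.gm 2 2 qm - C.gm 2 2 qn) : ℤ) : ℝ) * (K 8) + (((C.gm 2 3 qm - C.gm 2 3 qn) : ℤ) : ℝ) * (K 9) + (((C.gm 2 4 qm - C.gm 2 4 qn) : ℤ) : ℝ) * (K 10)) / 300000)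
    (((0 : ℝ) + (((C.al 3 qm) : ℤ) : ℝ) * m + (((C.be 3 qm) : ℤ) : ℝ) * em + (((-C.al 3 qn) : ℤ) : ℝ) * n + (((-C.be 3 qn) : ℤ) : ℝ) * en + (((cond dz 0 (C.al 3 p)) : ℤ) : ℝ) * D + (((cond dz 0 (C.be 3 p)) : ℤ) : ℝ) * TD + (((C.gm 3 1 qm - C.gm 3 1 qn) : ℤ) : ℝ) * (K 7) + (((C.gm 3 2 qm - C.gm 3 2 qn) : ℤ) : ℝ) * (K 8) + (((C.gm 3 3 qm - C.gm 3 3 qn) : ℤ) : ℝ) * (K 9) + (((C.gm 3 4 qm - C.gm 3 4 qn) : ℤ) : ℝ) * (K 10)) / 300000)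
    (((0 : ℝ) + (((C.al 4 qm) : ℤ) : ℝ) * m + (((C.be 4 qm) : ℤ) : ℝ) * em + (((-C.al 4 qn) : ℤ) : ℝ) * n + (((-C.be 4 qn) : ℤ) : ℝ) * en + (((cond dz 0 (C.al 4 p)) : ℤ) : ℝ) * D + (((cond dz 0 (C.be 4 p)) : ℤ) : ℝ) * TD + (((C.gm 4 1 qm - C.gm 4 1 qn) : ℤ) : ℝ) * (K 7) + (((C.gm 4 2 qm - C.gm 4 2 qn) : ℤ) : ℝ) * (K 8) + (((C.gm 4 3 qm - C.gm 4 3 qn) : ℤ) : ℝ) * (K 9) + (((C.gm 4 4 qm - C.gm 4 4 qn) : ℤ) : ℝ) * (K 10)) / 300000)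
    u v w z) - (c * (cond dz (m - n)
    ((m - n) + D))))

theorem gnE_val (C : Cf) (p qm qn : ℕ) (dz hat : Bool) (m em n en D TD c u v w z o : ℕ) (ρ : List ℝ) :
    (gnE C p qm qn dz hat m em n en D TD c u v w z o).val ρ = gnR C p qm qn dz hat (ρ.getD m 0) (ρ.getD em 0) (ρ.getD n 0) (ρ.getD en 0) (ρ.getD D 0) (ρ.getD TD 0) (ρ.getD c 0) (ρ.getD u 0) (ρ.getD v 0) (ρ.getD w 0) (ρ.getD z 0) (fun j => ρ.getD (j + o) 0) := by
  simp only [gnE, gnR, Fx.val, Lc.val, val_cond, cs0_val, cmbE_val, List.getD_cons_succ, List.getD_cons_zero, getD_shift, Nat.add_zero]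
  all_goals norm_num [add_assoc]

/-- lower bound of the gain -/
def lateE (C : Cf) (p : ℕ) (diag hat : Bool) (lam mu l1 T t c u v w z o : ℕ) : Fx :=
  (.its (.sub (.v lam) (.v t)) (.lt (cond diag (.max (.sub (.v l1) (.v t)) (.c 0 0))
    (.its (.sub (.v mu) (.v t)) (.sub (.v l1) (.min (.v t) (.sub (.v mu) (.c 1 0)))) (.sub (.v lam) (.v t))))
    (.lt (.mul (.v (T + 1)) (.v 0))
    (.its (.sub (.v (l1 + 2)) (.v (2 + (o + 2)))) (.lt (.exp (.v (l1 + 2)))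
    (.its (.sub (.v (l1 + 3)) (.v (4 + (o + 3)))) (.its (.sub (.v (l1 + 3)) (.v (5 + (o + 3)))) (.its (.sub (.v (l1 + 3)) (.v (6 + (o + 3)))) (gnE C p p 4 false hat (t + 3) (T + 3) (l1 + 3) 0 2 1 (c + 3) (u + 3) (v + 3) (w + 3) (z + 3) (o + 3)) (gnE C p p 3 false hat (t + 3) (T + 3) (l1 + 3) 0 2 1 (c + 3) (u + 3) (v + 3) (w + 3) (z + 3) (o + 3))) (gnE C p p 2 false hat (t + 3) (T + 3) (l1 + 3) 0 2 1 (c + 3) (u + 3) (v + 3) (w + 3) (z + 3) (o + 3))) (.its (.sub (.v (l1 + 3)) (.v (3 + (o + 3)))) (gnE C p p 1 false hat (t + 3) (T + 3) (l1 + 3) 0 2 1 (c + 3) (u + 3) (v + 3) (w + 3) (z + 3) (o + 3)) (gnE C p p 0 false hat (t + 3) (T + 3) (l1 + 3) 0 2 1 (c + 3) (u + 3) (v + 3) (w + 3) (z + 3) (o + 3))))) (gnE C p p 0 false hat (t + 2) (T + 2) (2 + (o + 2)) (11 + (o + 2)) 1 0 (c + 2) (u + 2) (v + 2) (w + 2) (z + 2) (o + 2))))) (.lt (.exp (.v lam))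
    (.its (.sub (.v (l1 + 1)) (.v (2 + (o + 1)))) (.lt (.mul (.v (1 + (o + 1))) (.v 0))
    (.its (.sub (.v (lam + 2)) (.v (4 + (o + 2)))) (.its (.sub (.v (lam + 2)) (.v (5 + (o + 2)))) (.its (.sub (.v (lam + 2)) (.v (6 + (o + 2)))) (gnE C p 4 0 true hat (lam + 2) 1 (l1 + 2) 0 (lam + 2) (lam + 2) (c + 2) (u + 2) (v + 2) (w + 2) (z + 2) (o + 2)) (gnE C p 3 0 true hat (lam + 2) 1 (l1 + 2) 0 (lam + 2) (lam + 2) (c + 2) (u + 2) (v + 2) (w + 2) (z + 2) (o + 2))) (gnE C p 2 0 true hat (lam + 2) 1 (l1 + 2) 0 (lam + 2) (lam + 2) (c + 2) (u + 2) (v + 2) (w + 2) (z + 2) (o + 2))) (.its (.sub (.v (lam + 2)) (.v (3 + (o + 2)))) (gnE C p 1 0 true hat (lam + 2) 1 (l1 + 2) 0 (lam + 2) (lam + 2) (c + 2) (u + 2) (v + 2) (w + 2) (z + 2) (o + 2)) (gnE C p 0 0 true hat (lam + 2) 1 (l1 + 2) 0 (lam + 2) (lam + 2) (c + 2) (u + 2) (v + 2) (w + 2) (z + 2) (o + 2))))) (.its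 (.sub (.v (lam + 1)) (.v (4 + (o + 1)))) (.its (.sub (.v (lam + 1)) (.v (5 + (o + 1)))) (.its (.sub (.v (lam + 1)) (.v (6 + (o + 1)))) (gnE C p 4 0 true hat (lam + 1) 0 (2 + (o + 1)) (11 + (o + 1)) (lam + 1) (lam + 1) (c + 1) (u + 1) (v + 1) (w + 1) (z + 1) (o + 1)) (gnE C p 3 0 true hat (lam + 1) 0 (2 + (o + 1)) (11 + (o + 1)) (lam + 1) (lam + 1) (c + 1) (u + 1) (v + 1) (w + 1) (z + 1) (o + 1))) (gnE C p 2 0 true hat (lam + 1) 0 (2 + (o + 1)) (11 + (o + 1)) (lam + 1) (lam + 1) (c + 1) (u + 1) (v + 1) (w + 1) (z + 1) (o + 1))) (.its (.sub (.v (lam + 1)) (.v (3 + (o + 1)))) (gnE C p 1 0 true hat (lam + 1) 0 (2 + (o + 1)) (11 + (o + 1)) (lam + 1) (lam + 1) (c + 1) (u + 1) (v + 1) (w + 1) (z + 1) (o + 1)) (gnE C p 0 0 true hat (lam + 1) 0 (2 + (o + 1)) (11 + (o + 1)) (lam + 1) (lam + 1) (c + 1) (u + 1) (v + 1) (w + 1) (z + 1) (o + 1)))))))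

noncomputable def lateR (C : Cf) (p : ℕ) (diag hat : Bool) (lam mu l1 T t c u v w z : ℝ) (K : ℕ → ℝ) : ℝ :=
  (if 0 ≤ (lam - t) then (let D : ℝ := (cond diag (max (l1 - t) (0 : ℝ))
    (if 0 ≤ (mu - t) then (l1 - (min t (mu - (1 : ℝ))))
    else (lam - t)));
    (let TD : ℝ := (T * D);
    (if 0 ≤ (l1 - (K 2)) then (let en : ℝ := (Real.exp l1);
    (if 0 ≤ (l1 - (K 4)) then (if 0 ≤ (l1 - (K 5)) then (if 0 ≤ (l1 - (K 6)) then (gnR C p p 4 false hat t T l1 en D TD c u v w z K)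
    else (gnR C p p 3 false hat t T l1 en D TD c u v w z K))
    else (gnR C p p 2 false hat t T l1 en D TD c u v w z K))
    else (if 0 ≤ (l1 - (K 3)) then (gnR C p p 1 false hat t T l1 en D TD c u v w z K)
    else (gnR C p p 0 false hat t T l1 en D TD c u v w z K))))
    else (gnR C p p 0 false hat t T (K 2) (K 11) D TD c u v w z K))))
    else (let em : ℝ := (Real.exp lam);
    (if 0 ≤ (l1 - (K 2)) then (let en : ℝ := ((K 1) * em);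
    (if 0 ≤ (lam - (K 4)) then (if 0 ≤ (lam - (K 5)) then (if 0 ≤ (lam - (K 6)) then (gnR C p 4 0 true hat lam em l1 en lam lam c u v w z K)
    else (gnR C p 3 0 true hat lam em l1 en lam lam c u v w z K))
    else (gnR C p 2 0 true hat lam em l1 en lam lam c u v w z K))
    else (if 0 ≤ (lam - (K 3)) then (gnR C p 1 0 true hat lam em l1 en lam lam c u v w z K)
    else (gnR C p 0 0 true hat lam em l1 en lam lam c u v w z K))))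
    else (if 0 ≤ (lam - (K 4)) then (if 0 ≤ (lam - (K 5)) then (if 0 ≤ (lam - (K 6)) then (gnR C p 4 0 true hat lam em (K 2) (K 11) lam lam c u v w z K)
    else (gnR C p 3 0 true hat lam em (K 2) (K 11) lam lam c u v w z K))
    else (gnR C p 2 0 true hat lam em (K 2) (K 11) lam lam c u v w z K))
    else (if 0 ≤ (lam - (K 3)) then (gnR C p 1 0 true hat lam em (K 2) (K 11) lam lam c u v w z K)
    else (gnR C p 0 0 true hat lam em (K 2) (K 11) lam lam c u v w z K))))))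

theorem lateE_val (C : Cf) (p : ℕ) (diag hat : Bool) (lam mu l1 T t c u v w z o : ℕ) (ρ : List ℝ) :
    (lateE C p diag hat lam mu l1 T t c u v w z o).val ρ = lateR C p diag hat (ρ.getD lam 0) (ρ.getD mu 0) (ρ.getD l1 0) (ρ.getD T 0) (ρ.getD t 0) (ρ.getD c 0) (ρ.getD u 0) (ρ.getD v 0) (ρ.getD w 0) (ρ.getD z 0) (fun j => ρ.getD (j + o) 0) := by
  simp only [lateE, lateR, Fx.val, Lc.val, val_cond, cs0_val, cmbE_val, gnE_val, List.getD_cons_succ, List.getD_cons_zero, getD_shift, Nat.add_zero]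
  all_goals norm_num [add_assoc]

/-- lower bound of the gain, exact for early times -/
def gainE (C : Cf) (p : ℕ) (diag hat : Bool) (lam mu T t c u v w z o : ℕ) : Fx :=
  (.lt (.sub (.v lam) (.c 1 0))
    (.its (.sub (.sub (.v 0) (.c 1 31)) (.v (t + 1))) (cond diag (.c 0 0)
    (.its (.sub (.v (mu + 1)) (.v (t + 1))) (.mul (.sub (hE C p hat (T + 1) (u + 1) (v + 1) (w + 1) (z + 1)) (.v (c + 1))) (.max (.add (.sub (.v (t + 1)) (.v (mu + 1))) (.c 1 0)) (.c 0 0))) (.sub (hE C p hat (T + 1) (u + 1) (v + 1) (w + 1) (z + 1)) (.v (c + 1))))) (lateE C p diag hat (lam + 1) (mu + 1) 0 (T + 1) (t + 1) (c + 1) (u + 1) (v + 1) (w + 1) (z + 1) (o + 1))))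

noncomputable def gainR (C : Cf) (p : ℕ) (diag hat : Bool) (lam mu T t c u v w z : ℝ) (K : ℕ → ℝ) : ℝ :=
  (let l1 : ℝ := (lam - (1 : ℝ));
    (if 0 ≤ ((l1 - ((1 : ℝ) / 32)) - t) then (cond diag (0 : ℝ)
    (if 0 ≤ (mu - t) then (((hR C p hat T u v w z) - c) * (max ((t - mu) + (1 : ℝ)) (0 : ℝ)))
    else ((hR C p hat T u v w z) - c)))
    else (lateR C p diag hat lam mu l1 T t c u v w z K)))

theorem gainE_val (C : Cf) (p : ℕ) (diag hat : Bool) (lam mu T t c u v w z o : ℕ) (ρ : List ℝ) :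
    (gainE C p diag hat lam mu T t c u v w z o).val ρ = gainR C p diag hat (ρ.getD lam 0) (ρ.getD mu 0) (ρ.getD T 0) (ρ.getD t 0) (ρ.getD c 0) (ρ.getD u 0) (ρ.getD v 0) (ρ.getD w 0) (ρ.getD z 0) (fun j => ρ.getD (j + o) 0) := by
  simp only [gainE, gainR, Fx.val, Lc.val, val_cond, cs0_val, cmbE_val, hE_val, lateE_val, List.getD_cons_succ, List.getD_cons_zero, getD_shift, Nat.add_zero]
  all_goals norm_num [add_assoc]

/-- one half of (P) -/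
def sideE (Ch Cg : Cf) (p : ℕ) (dp dn : Bool) (r k l T t o : ℕ) : Fx :=
  (.lt (.mul (.v (0 + o)) (.v k))
    (.lt (.sub (.mins (.c 1 0) (.v 0)) (.min (.v (r + 1)) (.v 0)))
    (.lt (.lt (.sub (.v (r + 2)) (.sm 8 4 (.v (k + 2))))
    (.its (.v 0) (.min (.sub (.v (r + 3)) (.v (k + 3))) (.sm 2 0 (.v 0))) (.c 0 0)))
    (.lt (.sub (.v (r + 3)) (.c Ch.xn 47))
    (.lt (.sub (.v (k + 4)) (.c Ch.yn 47))
    (.lt (.lc 1 0 (cs0 (-1) (r + 5) (cs0 (-2) (k + 5) .nil)))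
    (.lt (.sm 7 4 (.log (.sm 3 1 (.sub (.c 1 0) (.v (k + 6))))))
    (.lt (.sm 7 4 (.log (.sm 3 1 (.maxs (.add (.v (r + 7)) (.v (k + 7))) (.c 1 3)))))
    (.lt (.sub (.v (k + 8)) (.c Cg.xn 47))
    (.lt (.sub (.v (l + 9)) (.c Cg.yn 47))
    (.lt (cond Cg.kk (.max (.lc (-1) 0 (cs0 1 (k + 10) (cs0 2 (l + 10) .nil))) (.c 0 0))
    (.c 0 0))
    (cond dp (.add (.sub (.v 9) (.lt (.c 0 0)
    (hE Ch p false (T + 12) 8 7 7 0))) (gainE Cg p false false 4 3 (T + 11) (t + 11) 8 2 1 1 0 (o + 11)))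
    (cond dn (.add (.sub (.v 9) (.lt (.sm (-1) 0 (.v 5))
    (hE Ch p false (T + 12) 8 7 7 0))) (.mins (gainE Cg p true false 4 4 (T + 11) (t + 11) 8 2 1 1 0 (o + 11)) (gainE Cg p true false 3 3 (T + 11) (t + 11) 8 2 1 1 0 (o + 11))))
    (.its (.v 5) (.add (.sub (.v 9) (.lt (.c 0 0)
    (hE Ch p false (T + 12) 8 7 7 0))) (gainE Cg p false false 4 3 (T + 11) (t + 11) 8 2 1 1 0 (o + 11))) (.add (.sub (.v 9) (.lt (.sm (-1) 0 (.v 5))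
    (hE Ch p false (T + 12) 8 7 7 0))) (.mins (gainE Cg p true false 4 4 (T + 11) (t + 11) 8 2 1 1 0 (o + 11)) (gainE Cg p true false 3 3 (T + 11) (t + 11) 8 2 1 1 0 (o + 11))))))))))))))))))

noncomputable def sideR (Ch Cg : Cf) (p : ℕ) (dp dn : Bool) (r k l T t : ℝ) (K : ℕ → ℝ) : ℝ :=
  (let gk : ℝ := ((K 0) * k);
    (let base : ℝ := ((min (1 : ℝ) gk) - (min r gk));
    (let c : ℝ := (let c2 : ℝ := (r - ((8 : ℝ) / 5 * k));
    (if 0 ≤ c2 then (min (r - k) ((2 : ℝ) * c2))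
    else (0 : ℝ)));
    (let uh : ℝ := (r - (((Ch.xn : ℤ) : ℝ) / 48));
    (let vh : ℝ := (k - (((Ch.yn : ℤ) : ℝ) / 48));
    (let d : ℝ := ((1 : ℝ) + (-1 : ℝ) * r + (-2 : ℝ) * k);
    (let lam : ℝ := ((7 : ℝ) / 5 * (Real.log ((3 : ℝ) / 2 * ((1 : ℝ) - k))));
    (let mu : ℝ := ((7 : ℝ) / 5 * (Real.log ((3 : ℝ) / 2 * (max (r + k) ((1 : ℝ) / 4)))));
    (let u : ℝ := (k - (((Cg.xn : ℤ) : ℝ) / 48));
    (let v : ℝ := (l - (((Cg.yn : ℤ) : ℝ) / 48));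
    (let z : ℝ := (cond Cg.kk (max ((-1 : ℝ) + (1 : ℝ) * k + (2 : ℝ) * l) (0 : ℝ))
    (0 : ℝ));
    (cond dp ((base - (let zh : ℝ := (0 : ℝ);
    (hR Ch p false T uh vh vh zh))) + (gainR Cg p false false lam mu T t c u v v z K))
    (cond dn ((base - (let zh : ℝ := ((-1 : ℝ) * d);
    (hR Ch p false T uh vh vh zh))) + (min (gainR Cg p true false lam lam T t c u v v z K) (gainR Cg p true false mu mu T t c u v v z K)))
    (if 0 ≤ d then ((base - (let zh : ℝ := (0 : ℝ);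
    (hR Ch p false T uh vh vh zh))) + (gainR Cg p false false lam mu T t c u v v z K))
    else ((base - (let zh : ℝ := ((-1 : ℝ) * d);
    (hR Ch p false T uh vh vh zh))) + (min (gainR Cg p true false lam lam T t c u v v z K) (gainR Cg p true false mu mu T t c u v v z K)))))))))))))))))

theorem sideE_val (Ch Cg : Cf) (p : ℕ) (dp dn : Bool) (r k l T t o : ℕ) (ρ : List ℝ) :
    (sideE Ch Cg p dp dn r k l T t o).val ρ = sideR Ch Cg p dp dn (ρ.getD r 0) (ρ.getD k 0) (ρ.getD l 0) (ρ.getD T 0) (ρ.getD t 0) (fun j => ρ.getD (j + o) 0) := by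
  simp only [sideE, sideR, Fx.val, Lc.val, val_cond, cs0_val, cmbE_val, gainE_val, hE_val, List.getD_cons_succ, List.getD_cons_zero, getD_shift, Nat.add_zero]
  all_goals norm_num [add_assoc]

/-- (P) -/
def tPE (C1 C2 C3 C4 : Cf) (p : ℕ) (dp dn ep en : Bool) : Fx :=
  (.lt (.log (.v 3))
    (.add (sideE C1 C3 p dp dn 1 2 3 4 0 5) (sideE C2 C4 p ep en 1 3 2 4 0 5)))

noncomputable def tPR (C1 C2 C3 C4 : Cf) (p : ℕ) (dp dn ep en : Bool) (r k l T : ℝ) (K : ℕ → ℝ) : ℝ :=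
  (let t : ℝ := (Real.log T);
    ((sideR C1 C3 p dp dn r k l T t K) + (sideR C2 C4 p ep en r l k T t K)))

theorem tPE_val (C1 C2 C3 C4 : Cf) (p : ℕ) (dp dn ep en : Bool) (r k l T : ℝ) (ρ : List ℝ) :
    (tPE C1 C2 C3 C4 p dp dn ep en).val (r :: k :: l :: T :: ρ) = tPR C1 C2 C3 C4 p dp dn ep en r k l T (fun j => ρ.getD j 0) := by
  simp only [tPE, tPR, Fx.val, Lc.val, val_cond, cs0_val, cmbE_val, sideE_val, List.getD_cons_succ, List.getD_cons_zero, getD_shift, Nat.add_zero]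
  all_goals norm_num [add_assoc]

/-- the integral in (U) -/
def usE (C : Cf) (hat : Bool) (lam u v w z o : ℕ) : Fx :=
  (.lt (.c 1 0)
    (.lt (.c 0 0)
    (.lt (.c (-2) 0)
    (gainE C 4 false hat (lam + 3) 0 2 1 1 (u + 3) (v + 3) (w + 3) (z + 3) (o + 3)))))

noncomputable def usR (C : Cf) (hat : Bool) (lam u v w z : ℝ) (K : ℕ → ℝ) : ℝ :=
  (let one : ℝ := (1 : ℝ);
    (let zero : ℝ := (0 : ℝ);
    (let m2 : ℝ := (-2 : ℝ);
    (gainR C 4 false hat lam m2 one zero zero u v w z K))))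

theorem usE_val (C : Cf) (hat : Bool) (lam u v w z o : ℕ) (ρ : List ℝ) :
    (usE C hat lam u v w z o).val ρ = usR C hat (ρ.getD lam 0) (ρ.getD u 0) (ρ.getD v 0) (ρ.getD w 0) (ρ.getD z 0) (fun j => ρ.getD (j + o) 0) := by
  simp only [usE, usR, Fx.val, Lc.val, val_cond, cs0_val, cmbE_val, gainE_val, List.getD_cons_succ, List.getD_cons_zero, getD_shift, Nat.add_zero]
  all_goals norm_num [add_assoc]

/-- one half of the left side of (U) -/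
def usideE (C : Cf) (k l o : ℕ) : Fx :=
  (.lt (.sm 7 4 (.log (.sm 3 1 (.sub (.c 1 0) (.v k)))))
    (.lt (.sub (.v (k + 1)) (.c C.xn 47))
    (.lt (.sub (.v (l + 2)) (.c C.yn 47))
    (.lt (cond C.kk (.max (.lc (-1) 0 (cs0 1 (k + 3) (cs0 2 (l + 3) .nil))) (.c 0 0))
    (.c 0 0))
    (.add (.mins (.c 1 0) (.mul (.v (0 + (o + 4))) (.v (k + 4)))) (usE C false 3 2 1 1 0 (o + 4)))))))

noncomputable def usideR (C : Cf) (k l : ℝ) (K : ℕ → ℝ) : ℝ :=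
  (let lam : ℝ := ((7 : ℝ) / 5 * (Real.log ((3 : ℝ) / 2 * ((1 : ℝ) - k))));
    (let u : ℝ := (k - (((C.xn : ℤ) : ℝ) / 48));
    (let v : ℝ := (l - (((C.yn : ℤ) : ℝ) / 48));
    (let z : ℝ := (cond C.kk (max ((-1 : ℝ) + (1 : ℝ) * k + (2 : ℝ) * l) (0 : ℝ))
    (0 : ℝ));
    ((min (1 : ℝ) ((K 0) * k)) + (usR C false lam u v v z K))))))

theorem usideE_val (C : Cf) (k l o : ℕ) (ρ : List ℝ) :
    (usideE C k l o).val ρ = usideR C (ρ.getD k 0) (ρ.getD l 0) (fun j => ρ.getD (j + o) 0) := by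
  simp only [usideE, usideR, Fx.val, Lc.val, val_cond, cs0_val, cmbE_val, usE_val, List.getD_cons_succ, List.getD_cons_zero, getD_shift, Nat.add_zero]
  all_goals norm_num [add_assoc]

/-- the copositive kernel -/
def qE (P1 P2 : List ℤ) (u v : ℕ) : Fx :=
  (.add (.add (.mul (.lc (P1.getD 0 0) 9999 (cs0 (P1.getD 1 0) u .nil)) (.lc (P2.getD 0 0) 9999 (cs0 (P2.getD 1 0) v .nil))) (.mul (.lc (P1.getD 2 0) 9999 (cs0 (P1.getD 3 0) u .nil)) (.lc (P2.getD 2 0) 9999 (cs0 (P2.getD 3 0) v .nil)))) (.mul (.lc (P1.getD 4 0) 9999 (cs0 (P1.getD 5 0) u .nil)) (.lc (P2.getD 4 0) 9999 (cs0 (P2.getD 5 0) v .nil))))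

noncomputable def qR (P1 P2 : List ℤ) (u v : ℝ) : ℝ :=
  ((((((((P1.getD 0 0) : ℤ) : ℝ) + (((P1.getD 1 0) : ℤ) : ℝ) * u) / 10000) * (((((P2.getD 0 0) : ℤ) : ℝ) + (((P2.getD 1 0) : ℤ) : ℝ) * v) / 10000)) + ((((((P1.getD 2 0) : ℤ) : ℝ) + (((P1.getD 3 0) : ℤ) : ℝ) * u) / 10000) * (((((P2.getD 2 0) : ℤ) : ℝ) + (((P2.getD 3 0) : ℤ) : ℝ) * v) / 10000))) + ((((((P1.getD 4 0) : ℤ) : ℝ) + (((P1.getD 5 0) : ℤ) : ℝ) * u) / 10000) * (((((P2.getD 4 0) : ℤ) : ℝ) + (((P2.getD 5 0) : ℤ) : ℝ) * v) / 10000)))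

theorem qE_val (P1 P2 : List ℤ) (u v : ℕ) (ρ : List ℝ) :
    (qE P1 P2 u v).val ρ = qR P1 P2 (ρ.getD u 0) (ρ.getD v 0) := by
  simp only [qE, qR, Fx.val, Lc.val, val_cond, cs0_val, cmbE_val, List.getD_cons_succ, List.getD_cons_zero, getD_shift, Nat.add_zero]
  all_goals norm_num [add_assoc]

/-- the copositive kernel at the tip -/
def qhE (P1 P2 : List ℤ) (u v : ℕ) : Fx :=
  (.add (.add (.mul (.lc 0 9999 (cs0 (P1.getD 1 0) u .nil)) (.lc 0 9999 (cs0 (P2.getD 1 0) v .nil))) (.mul (.lc 0 9999 (cs0 (P1.getD 3 0) u .nil)) (.lc 0 9999 (cs0 (P2.getD 3 0) v .nil)))) (.mul (.lc 0 9999 (cs0 (P1.getD 5 0) u .nil)) (.lc 0 9999 (cs0 (P2.getD 5 0) v .nil))))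

noncomputable def qhR (P1 P2 : List ℤ) (u v : ℝ) : ℝ :=
  ((((((0 : ℝ) + (((P1.getD 1 0) : ℤ) : ℝ) * u) / 10000) * (((0 : ℝ) + (((P2.getD 1 0) : ℤ) : ℝ) * v) / 10000)) + ((((0 : ℝ) + (((P1.getD 3 0) : ℤ) : ℝ) * u) / 10000) * (((0 : ℝ) + (((P2.getD 3 0) : ℤ) : ℝ) * v) / 10000))) + ((((0 : ℝ) + (((P1.getD 5 0) : ℤ) : ℝ) * u) / 10000) * (((0 : ℝ) + (((P2.getD 5 0) : ℤ) : ℝ) * v) / 10000)))

theorem qhE_val (P1 P2 : List ℤ) (u v : ℕ) (ρ : List ℝ) :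
    (qhE P1 P2 u v).val ρ = qhR P1 P2 (ρ.getD u 0) (ρ.getD v 0) := by
  simp only [qhE, qhR, Fx.val, Lc.val, val_cond, cs0_val, cmbE_val, List.getD_cons_succ, List.getD_cons_zero, getD_shift, Nat.add_zero]
  all_goals norm_num [add_assoc]

/-- (U) -/
def tUE (C3 C4 : Cf) (P1 P2 : List ℤ) : Fx :=
  (.lt (.sub (.v 0) (.c C3.xn 47))
    (.lt (.sub (.v 2) (.c C3.yn 47))
    (.sub (.sub (.add (usideE C3 2 3 6) (usideE C4 3 2 6)) (.c 2 0)) (.sm 2 0 (qE P1 P2 1 0)))))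

noncomputable def tUR (C3 C4 : Cf) (P1 P2 : List ℤ) (k l x y : ℝ) (K : ℕ → ℝ) : ℝ :=
  (let u : ℝ := (k - (((C3.xn : ℤ) : ℝ) / 48));
    (let v : ℝ := (l - (((C3.yn : ℤ) : ℝ) / 48));
    ((((usideR C3 k l K) + (usideR C4 l k K)) - (2 : ℝ)) - ((2 : ℝ) * (qR P1 P2 u v)))))

theorem tUE_val (C3 C4 : Cf) (P1 P2 : List ℤ) (k l x y : ℝ) (ρ : List ℝ) :
    (tUE C3 C4 P1 P2).val (k :: l :: x :: y :: ρ) = tUR C3 C4 P1 P2 k l x y (fun j => ρ.getD j 0) := by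
  simp only [tUE, tUR, Fx.val, Lc.val, val_cond, cs0_val, cmbE_val, qE_val, usideE_val, List.getD_cons_succ, List.getD_cons_zero, getD_shift, Nat.add_zero]
  all_goals norm_num [add_assoc]

/-- final offer -/
def hendE (C : Cf) (r k : ℕ) : Fx :=
  (.lt (.c 1 0)
    (.lt (.sub (.v (r + 1)) (.c C.xn 47))
    (.lt (.sub (.v (k + 2)) (.c C.yn 47))
    (.lt (cond C.kk (.max (.lc (-1) 0 (cs0 1 (r + 3) (cs0 2 (k + 3) .nil))) (.c 0 0))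
    (.c 0 0))
    (hE C 4 false 3 2 1 1 0)))))

noncomputable def hendR (C : Cf) (r k : ℝ) : ℝ :=
  (let one : ℝ := (1 : ℝ);
    (let u : ℝ := (r - (((C.xn : ℤ) : ℝ) / 48));
    (let v : ℝ := (k - (((C.yn : ℤ) : ℝ) / 48));
    (let z : ℝ := (cond C.kk (max ((-1 : ℝ) + (1 : ℝ) * r + (2 : ℝ) * k) (0 : ℝ))
    (0 : ℝ));
    (hR C 4 false one u v v z)))))

theorem hendE_val (C : Cf) (r k : ℕ) (ρ : List ℝ) :
    (hendE C r k).val ρ = hendR C (ρ.getD r 0) (ρ.getD k 0) := by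
  simp only [hendE, hendR, Fx.val, Lc.val, val_cond, cs0_val, cmbE_val, hE_val, List.getD_cons_succ, List.getD_cons_zero, getD_shift, Nat.add_zero]
  all_goals norm_num [add_assoc]

/-- (E) -/
def tEE (C1 C2 C3 C4 : Cf) : Fx :=
  (.sub (.sub (.add (usideE C3 1 2 4) (usideE C4 2 1 4)) (.add (hendE C1 0 1) (hendE C2 0 2))) (.sm 2 0 (.v 0)))

noncomputable def tER (C1 C2 C3 C4 : Cf) (r k l x : ℝ) (K : ℕ → ℝ) : ℝ :=
  ((((usideR C3 k l K) + (usideR C4 l k K)) - ((hendR C1 r k) + (hendR C2 r l))) - ((2 : ℝ) * r))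

theorem tEE_val (C1 C2 C3 C4 : Cf) (r k l x : ℝ) (ρ : List ℝ) :
    (tEE C1 C2 C3 C4).val (r :: k :: l :: x :: ρ) = tER C1 C2 C3 C4 r k l x (fun j => ρ.getD j 0) := by
  simp only [tEE, tER, Fx.val, Lc.val, val_cond, cs0_val, cmbE_val, hendE_val, usideE_val, List.getD_cons_succ, List.getD_cons_zero, getD_shift, Nat.add_zero]
  all_goals norm_num [add_assoc]

/-- leading part at the tip -/
def mainE (diag : Bool) (s lh mh lam T t o : ℕ) : Fx :=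
  (.lt (.sm 1024 42 (.v t))
    (.sub (.mul (.v (T + 1)) (.add (.its (.sub (.v (lh + 1)) (.v 0)) (cond diag (.c 0 0)
    (.its (.sub (.v (mh + 1)) (.v 0)) (.sub (.v (lh + 1)) (.v (mh + 1))) (.sub (.v (lh + 1)) (.v 0)))) (.lt (.sub (.v (lh + 1)) (.v 0))
    (.mul (.v 0) (.ex1 (.mul (.v (s + 2)) (.v 0)))))) (.its (.sub (.c (-33) 31) (.v (t + 1))) (.max (.sub (.sub (.v (mh + 1)) (.c 1024 42)) (.v 0)) (.c 0 0)) (.c 0 0)))) (.mul (.v (1 + (o + 1))) (.mul (.v (lh + 1)) (.ex1 (.v (lam + 1)))))))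

noncomputable def mainR (diag : Bool) (s lh mh lam T t : ℝ) (K : ℕ → ℝ) : ℝ :=
  (let t2 : ℝ := ((1024 : ℝ) / 43 * t);
    ((T * ((if 0 ≤ (lh - t2) then (cond diag (0 : ℝ)
    (if 0 ≤ (mh - t2) then (lh - mh)
    else (lh - t2)))
    else (let y : ℝ := (lh - t2);
    (y * (ex1 (s * y))))) + (if 0 ≤ (((-33 : ℝ) / 32) - t) then (max ((mh - ((1024 : ℝ) / 43)) - t2) (0 : ℝ))
    else (0 : ℝ)))) - ((K 1) * (lh * (ex1 lam)))))

theorem mainE_val (diag : Bool) (s lh mh lam T t o : ℕ) (ρ : List ℝ) :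
    (mainE diag s lh mh lam T t o).val ρ = mainR diag (ρ.getD s 0) (ρ.getD lh 0) (ρ.getD mh 0) (ρ.getD lam 0) (ρ.getD T 0) (ρ.getD t 0) (fun j => ρ.getD (j + o) 0) := by
  simp only [mainE, mainR, Fx.val, Lc.val, val_cond, cs0_val, cmbE_val, List.getD_cons_succ, List.getD_cons_zero, getD_shift, Nat.add_zero]
  all_goals norm_num [add_assoc]

/-- one candidate at the tip -/
def candE (C : Cf) (p : ℕ) (diag : Bool) (s lh mh lam mu T t u v w z o : ℕ) : Fx :=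
  (.lt (.sub (.v lam) (.c 1 0))
    (.lt (.c 0 0)
    (.add (lateE C p diag true (lam + 2) (mu + 2) 1 (T + 2) (t + 2) 0 (u + 2) (v + 2) (w + 2) (z + 2) (o + 2)) (.sm 2 2 (mainE diag (s + 2) (lh + 2) (mh + 2) (lam + 2) (T + 2) (t + 2) (o + 2))))))

noncomputable def candR (C : Cf) (p : ℕ) (diag : Bool) (s lh mh lam mu T t u v w z : ℝ) (K : ℕ → ℝ) : ℝ :=
  (let l1 : ℝ := (lam - (1 : ℝ));
    (let zero : ℝ := (0 : ℝ);
    ((lateR C p diag true lam mu l1 T t zero u v w z K) + ((2 : ℝ) / 3 * (mainR diag s lh mh lam T t K)))))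

theorem candE_val (C : Cf) (p : ℕ) (diag : Bool) (s lh mh lam mu T t u v w z o : ℕ) (ρ : List ℝ) :
    (candE C p diag s lh mh lam mu T t u v w z o).val ρ = candR C p diag (ρ.getD s 0) (ρ.getD lh 0) (ρ.getD mh 0) (ρ.getD lam 0) (ρ.getD mu 0) (ρ.getD T 0) (ρ.getD t 0) (ρ.getD u 0) (ρ.getD v 0) (ρ.getD w 0) (ρ.getD z 0) (fun j => ρ.getD (j + o) 0) := by
  simp only [candE, candR, Fx.val, Lc.val, val_cond, cs0_val, cmbE_val, lateE_val, mainE_val, List.getD_cons_succ, List.getD_cons_zero, getD_shift, Nat.add_zero]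
  all_goals norm_num [add_assoc]

/-- one half of (P) at the tip, divided by `s` -/
def tsideE (Ch Cg : Cf) (p : ℕ) (dp dn : Bool) (s r k l T t o : ℕ) : Fx :=
  (.lt (.sub (.mul (.v (0 + o)) (.v k)) (.v r))
    (.lt (.mul (.v (s + 1)) (.v (k + 1)))
    (.lt (.lc 0 0 (cs0 (-1) (r + 2) (cs0 (-2) (k + 2) .nil)))
    (.lt (.lt (.sm (-3) 1 (.v (k + 3)))
    (.sm 7 4 (.mul (.v 0) (.lg1 (.mul (.v (s + 4)) (.v 0))))))
    (.lt (.lt (.sm 3 1 (.add (.v (r + 4)) (.v (k + 4))))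
    (.sm 7 4 (.mul (.v 0) (.lg1 (.mul (.v (s + 5)) (.v 0))))))
    (.lt (.mul (.v (s + 5)) (.v 1))
    (.lt (.mul (.v (s + 6)) (.v 1))
    (.lt (.mul (.v (s + 7)) (.v (l + 7)))
    (.lt (cond Cg.kk (.max (.lc 0 0 (cs0 1 (k + 8) (cs0 2 (l + 8) .nil))) (.c 0 0))
    (.c 0 0))
    (cond dp (.add (.sub (.v 8) (.lt (.c 0 0)
    (hE Ch p true (T + 10) (r + 10) (k + 10) 8 0))) (candE Cg p false (s + 9) 5 4 3 2 (T + 9) (t + 9) (k + 9) (l + 9) 1 0 (o + 9)))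
    (cond dn (.add (.sub (.v 8) (.lt (.sm (-1) 0 (.v 6))
    (hE Ch p true (T + 10) (r + 10) (k + 10) 8 0))) (.mins (candE Cg p true (s + 9) 5 5 3 3 (T + 9) (t + 9) (k + 9) (l + 9) 1 0 (o + 9)) (candE Cg p true (s + 9) 4 4 2 2 (T + 9) (t + 9) (k + 9) (l + 9) 1 0 (o + 9))))
    (.its (.v 6) (.add (.sub (.v 8) (.lt (.c 0 0)
    (hE Ch p true (T + 10) (r + 10) (k + 10) 8 0))) (candE Cg p false (s + 9) 5 4 3 2 (T + 9) (t + 9) (k + 9) (l + 9) 1 0 (o + 9))) (.add (.sub (.v 8) (.lt (.sm (-1) 0 (.v 6))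
    (hE Ch p true (T + 10) (r + 10) (k + 10) 8 0))) (.mins (candE Cg p true (s + 9) 5 5 3 3 (T + 9) (t + 9) (k + 9) (l + 9) 1 0 (o + 9)) (candE Cg p true (s + 9) 4 4 2 2 (T + 9) (t + 9) (k + 9) (l + 9) 1 0 (o + 9))))))))))))))))

noncomputable def tsideR (Ch Cg : Cf) (p : ℕ) (dp dn : Bool) (s r k l T t : ℝ) (K : ℕ → ℝ) : ℝ :=
  (let base : ℝ := (((K 0) * k) - r);
    (let wh : ℝ := (s * k);
    (let d : ℝ := ((0 : ℝ) + (-1 : ℝ) * r + (-2 : ℝ) * k);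
    (let lh : ℝ := (let a : ℝ := ((-3 : ℝ) / 2 * k);
    ((7 : ℝ) / 5 * (a * (lg1 (s * a)))));
    (let mh : ℝ := (let a : ℝ := ((3 : ℝ) / 2 * (r + k));
    ((7 : ℝ) / 5 * (a * (lg1 (s * a)))));
    (let lam : ℝ := (s * lh);
    (let mu : ℝ := (s * mh);
    (let w : ℝ := (s * l);
    (let z : ℝ := (cond Cg.kk (max ((0 : ℝ) + (1 : ℝ) * k + (2 : ℝ) * l) (0 : ℝ))
    (0 : ℝ));
    (cond dp ((base - (let zh : ℝ := (0 : ℝ);
    (hR Ch p true T r k wh zh))) + (candR Cg p false s lh mh lam mu T t k l w z K))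
    (cond dn ((base - (let zh : ℝ := ((-1 : ℝ) * d);
    (hR Ch p true T r k wh zh))) + (min (candR Cg p true s lh lh lam lam T t k l w z K) (candR Cg p true s mh mh mu mu T t k l w z K)))
    (if 0 ≤ d then ((base - (let zh : ℝ := (0 : ℝ);
    (hR Ch p true T r k wh zh))) + (candR Cg p false s lh mh lam mu T t k l w z K))
    else ((base - (let zh : ℝ := ((-1 : ℝ) * d);
    (hR Ch p true T r k wh zh))) + (min (candR Cg p true s lh lh lam lam T t k l w z K) (candR Cg p true s mh mh mu mu T t k l w z K)))))))))))))))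

theorem tsideE_val (Ch Cg : Cf) (p : ℕ) (dp dn : Bool) (s r k l T t o : ℕ) (ρ : List ℝ) :
    (tsideE Ch Cg p dp dn s r k l T t o).val ρ = tsideR Ch Cg p dp dn (ρ.getD s 0) (ρ.getD r 0) (ρ.getD k 0) (ρ.getD l 0) (ρ.getD T 0) (ρ.getD t 0) (fun j => ρ.getD (j + o) 0) := by
  simp only [tsideE, tsideR, Fx.val, Lc.val, val_cond, cs0_val, cmbE_val, candE_val, hE_val, List.getD_cons_succ, List.getD_cons_zero, getD_shift, Nat.add_zero]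
  all_goals norm_num [add_assoc]

/-- (P) at the tip -/
def tTE (C1 C2 C3 C4 : Cf) (p : ℕ) (dp dn ep en : Bool) (ar ak al : ℤ) (fr fk fl : Bool) : Fx :=
  (.lt (.log (.v 3))
    (.lt (cond fr (.c ar 0)
    (.sm ar 0 (.v 2)))
    (.lt (cond fk (.c ak 0)
    (cond fr (.sm ak 0 (.v 3))
    (.sm ak 0 (.v 4))))
    (.lt (cond fl (.c al 0)
    (.sm al 0 (.v 5)))
    (.add (tsideE C1 C3 p dp dn 4 2 1 0 7 3 8) (tsideE C2 C4 p ep en 4 2 0 1 7 3 8))))))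

noncomputable def tTR (C1 C2 C3 C4 : Cf) (p : ℕ) (dp dn ep en : Bool) (ar ak al : ℤ) (fr fk fl : Bool) (s x y T : ℝ) (K : ℕ → ℝ) : ℝ :=
  (let t : ℝ := (Real.log T);
    (let r : ℝ := (cond fr ((ar : ℤ) : ℝ)
    (((ar : ℤ) : ℝ) * x));
    (let k : ℝ := (cond fk ((ak : ℤ) : ℝ)
    (cond fr (((ak : ℤ) : ℝ) * x)
    (((ak : ℤ) : ℝ) * y)));
    (let l : ℝ := (cond fl ((al : ℤ) : ℝ)
    (((al : ℤ) : ℝ) * y));
    ((tsideR C1 C3 p dp dn s r k l T t K) + (tsideR C2 C4 p ep en s r l k T t K))))))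

theorem tTE_val (C1 C2 C3 C4 : Cf) (p : ℕ) (dp dn ep en : Bool) (ar ak al : ℤ) (fr fk fl : Bool) (s x y T : ℝ) (ρ : List ℝ) :
    (tTE C1 C2 C3 C4 p dp dn ep en ar ak al fr fk fl).val (s :: x :: y :: T :: ρ) = tTR C1 C2 C3 C4 p dp dn ep en ar ak al fr fk fl s x y T (fun j => ρ.getD j 0) := by
  simp only [tTE, tTR, Fx.val, Lc.val, val_cond, cs0_val, cmbE_val, tsideE_val, List.getD_cons_succ, List.getD_cons_zero, getD_shift, Nat.add_zero]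
  all_goals norm_num [add_assoc]

/-- one half of (U) at the tip -/
def tusE (C : Cf) (s k l o : ℕ) : Fx :=
  (.lt (.lt (.sm (-3) 1 (.v k))
    (.sm 7 4 (.mul (.v 0) (.lg1 (.mul (.v (s + 1)) (.v 0))))))
    (.lt (.mul (.v (s + 1)) (.v 0))
    (.lt (.mul (.v (s + 2)) (.v (l + 2)))
    (.lt (cond C.kk (.max (.lc 0 0 (cs0 1 (k + 3) (cs0 2 (l + 3) .nil))) (.c 0 0))
    (.c 0 0))
    (.lt (.c 1 0)
    (.lt (.c 0 0)
    (.lt (.c (-2) 0)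
    (.lt (.c (-40) 0)
    (.add (.mul (.v (0 + (o + 8))) (.v (k + 8))) (candE C 4 false (s + 8) 7 0 6 1 3 2 (k + 8) (l + 8) 5 4 (o + 8)))))))))))

noncomputable def tusR (C : Cf) (s k l : ℝ) (K : ℕ → ℝ) : ℝ :=
  (let lh : ℝ := (let a : ℝ := ((-3 : ℝ) / 2 * k);
    ((7 : ℝ) / 5 * (a * (lg1 (s * a)))));
    (let lam : ℝ := (s * lh);
    (let w : ℝ := (s * l);
    (let z : ℝ := (cond C.kk (max ((0 : ℝ) + (1 : ℝ) * k + (2 : ℝ) * l) (0 : ℝ))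
    (0 : ℝ));
    (let one : ℝ := (1 : ℝ);
    (let zero : ℝ := (0 : ℝ);
    (let m2 : ℝ := (-2 : ℝ);
    (let m9 : ℝ := (-40 : ℝ);
    (((K 0) * k) + (candR C 4 false s lh m9 lam m2 one zero k l w z K))))))))))

theorem tusE_val (C : Cf) (s k l o : ℕ) (ρ : List ℝ) :
    (tusE C s k l o).val ρ = tusR C (ρ.getD s 0) (ρ.getD k 0) (ρ.getD l 0) (fun j => ρ.getD (j + o) 0) := by
  simp only [tusE, tusR, Fx.val, Lc.val, val_cond, cs0_val, cmbE_val, candE_val, List.getD_cons_succ, List.getD_cons_zero, getD_shift, Nat.add_zero]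
  all_goals norm_num [add_assoc]

/-- (U) at the tip -/
def tTUE (C3 C4 : Cf) (P1 P2 : List ℤ) (ak al : ℤ) (fk : Bool) : Fx :=
  (.lt (cond fk (.c ak 0)
    (.sm ak 0 (.v 1)))
    (.lt (cond fk (.sm al 0 (.v 2))
    (.c al 0))
    (.sub (.add (tusE C3 2 1 0 6) (tusE C4 2 0 1 6)) (.sm 2 0 (.mul (.v 2) (qhE P1 P2 1 0))))))

noncomputable def tTUR (C3 C4 : Cf) (P1 P2 : List ℤ) (ak al : ℤ) (fk : Bool) (s x y z : ℝ) (K : ℕ → ℝ) : ℝ :=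
  (let k : ℝ := (cond fk ((ak : ℤ) : ℝ)
    (((ak : ℤ) : ℝ) * x));
    (let l : ℝ := (cond fk (((al : ℤ) : ℝ) * x)
    ((al : ℤ) : ℝ));
    (((tusR C3 s k l K) + (tusR C4 s l k K)) - ((2 : ℝ) * (s * (qhR P1 P2 k l))))))

theorem tTUE_val (C3 C4 : Cf) (P1 P2 : List ℤ) (ak al : ℤ) (fk : Bool) (s x y z : ℝ) (ρ : List ℝ) :
    (tTUE C3 C4 P1 P2 ak al fk).val (s :: x :: y :: z :: ρ) = tTUR C3 C4 P1 P2 ak al fk s x y z (fun j => ρ.getD j 0) := by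
  simp only [tTUE, tTUR, Fx.val, Lc.val, val_cond, cs0_val, cmbE_val, qhE_val, tusE_val, List.getD_cons_succ, List.getD_cons_zero, getD_shift, Nat.add_zero]
  all_goals norm_num [add_assoc]

/-- final offer, blown up -/
def hendhE (C : Cf) (s r k : ℕ) : Fx :=
  (.lt (.c 1 0)
    (.lt (.mul (.v (s + 1)) (.v (k + 1)))
    (.lt (cond C.kk (.max (.lc 0 0 (cs0 1 (r + 2) (cs0 2 (k + 2) .nil))) (.c 0 0))
    (.c 0 0))
    (hE C 4 true 2 (r + 3) (k + 3) 1 0))))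

noncomputable def hendhR (C : Cf) (s r k : ℝ) : ℝ :=
  (let one : ℝ := (1 : ℝ);
    (let w : ℝ := (s * k);
    (let z : ℝ := (cond C.kk (max ((0 : ℝ) + (1 : ℝ) * r + (2 : ℝ) * k) (0 : ℝ))
    (0 : ℝ));
    (hR C 4 true one r k w z))))

theorem hendhE_val (C : Cf) (s r k : ℕ) (ρ : List ℝ) :
    (hendhE C s r k).val ρ = hendhR C (ρ.getD s 0) (ρ.getD r 0) (ρ.getD k 0) := by
  simp only [hendhE, hendhR, Fx.val, Lc.val, val_cond, cs0_val, cmbE_val, hE_val, List.getD_cons_succ, List.getD_cons_zero, getD_shift, Nat.add_zero]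
  all_goals norm_num [add_assoc]

/-- (E) at the tip -/
def tTEE (C1 C2 C3 C4 : Cf) (ar ak al : ℤ) (fr fk fl : Bool) : Fx :=
  (.lt (cond fr (.c ar 0)
    (.sm ar 0 (.v 1)))
    (.lt (cond fk (.c ak 0)
    (cond fr (.sm ak 0 (.v 2))
    (.sm ak 0 (.v 3))))
    (.lt (cond fl (.c al 0)
    (.sm al 0 (.v 4)))
    (.sub (.sub (.add (tusE C3 3 1 0 7) (tusE C4 3 0 1 7)) (.add (hendhE C1 3 2 1) (hendhE C2 3 2 0))) (.sm 2 0 (.v 2))))))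

noncomputable def tTER (C1 C2 C3 C4 : Cf) (ar ak al : ℤ) (fr fk fl : Bool) (s x y z : ℝ) (K : ℕ → ℝ) : ℝ :=
  (let r : ℝ := (cond fr ((ar : ℤ) : ℝ)
    (((ar : ℤ) : ℝ) * x));
    (let k : ℝ := (cond fk ((ak : ℤ) : ℝ)
    (cond fr (((ak : ℤ) : ℝ) * x)
    (((ak : ℤ) : ℝ) * y)));
    (let l : ℝ := (cond fl ((al : ℤ) : ℝ)
    (((al : ℤ) : ℝ) * y));
    ((((tusR C3 s k l K) + (tusR C4 s l k K)) - ((hendhR C1 s r k) + (hendhR C2 s r l))) - ((2 : ℝ) * r)))))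

theorem tTEE_val (C1 C2 C3 C4 : Cf) (ar ak al : ℤ) (fr fk fl : Bool) (s x y z : ℝ) (ρ : List ℝ) :
    (tTEE C1 C2 C3 C4 ar ak al fr fk fl).val (s :: x :: y :: z :: ρ) = tTER C1 C2 C3 C4 ar ak al fr fk fl s x y z (fun j => ρ.getD j 0) := by
  simp only [tTEE, tTER, Fx.val, Lc.val, val_cond, cs0_val, cmbE_val, hendhE_val, tusE_val, List.getD_cons_succ, List.getD_cons_zero, getD_shift, Nat.add_zero]
  all_goals norm_num [add_assoc]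

/-- one half of (P) at the origin -/
def osideE (C : Cf) (p : ℕ) (s r k l T t o : ℕ) : Fx :=
  (.lt (.mul (.v (0 + o)) (.v k))
    (.lt (.sub (.v 0) (.min (.v (r + 1)) (.v 0)))
    (.lt (.lt (.sub (.v (r + 2)) (.sm 8 4 (.v (k + 2))))
    (.its (.v 0) (.min (.sub (.v (r + 3)) (.v (k + 3))) (.sm 2 0 (.v 0))) (.c 0 0)))
    (.lt (.mul (.v (s + 3)) (.v (k + 3)))
    (.lt (.sm 7 4 (.log (.sm 3 1 (.sub (.c 1 0) (.v 0)))))
    (.lt (.mul (.v (s + 5)) (.v (l + 5)))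
    (.lt (.c 0 0)
    (.lt (.c (-2) 0)
    (.add (.sub (.v 6) (hE C p true (T + 8) (r + 8) (k + 8) 4 1)) (gainE C p false true 3 0 (T + 8) (t + 8) 5 (k + 8) (l + 8) 2 1 (o + 8)))))))))))

noncomputable def osideR (C : Cf) (p : ℕ) (s r k l T t : ℝ) (K : ℕ → ℝ) : ℝ :=
  (let gk : ℝ := ((K 0) * k);
    (let base : ℝ := (gk - (min r gk));
    (let c : ℝ := (let c2 : ℝ := (r - ((8 : ℝ) / 5 * k));
    (if 0 ≤ c2 then (min (r - k) ((2 : ℝ) * c2))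
    else (0 : ℝ)));
    (let wh : ℝ := (s * k);
    (let lam : ℝ := ((7 : ℝ) / 5 * (Real.log ((3 : ℝ) / 2 * ((1 : ℝ) - wh))));
    (let w : ℝ := (s * l);
    (let zero : ℝ := (0 : ℝ);
    (let m2 : ℝ := (-2 : ℝ);
    ((base - (hR C p true T r k wh zero)) + (gainR C p false true lam m2 T t c k l w zero K))))))))))

theorem osideE_val (C : Cf) (p : ℕ) (s r k l T t o : ℕ) (ρ : List ℝ) :
    (osideE C p s r k l T t o).val ρ = osideR C p (ρ.getD s 0) (ρ.getD r 0) (ρ.getD k 0) (ρ.getD l 0) (ρ.getD T 0) (ρ.getD t 0) (fun j => ρ.getD (j + o) 0) := by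
  simp only [osideE, osideR, Fx.val, Lc.val, val_cond, cs0_val, cmbE_val, gainE_val, hE_val, List.getD_cons_succ, List.getD_cons_zero, getD_shift, Nat.add_zero]
  all_goals norm_num [add_assoc]

/-- (P) at the origin -/
def tOE (C : Cf) (p : ℕ) (ar ak al : ℤ) (fr fk fl : Bool) : Fx :=
  (.lt (.log (.v 3))
    (.lt (cond fr (.c ar 0)
    (.sm ar 0 (.v 2)))
    (.lt (cond fk (.c ak 0)
    (cond fr (.sm ak 0 (.v 3))
    (.sm ak 0 (.v 4))))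
    (.lt (cond fl (.c al 0)
    (.sm al 0 (.v 5)))
    (.add (osideE C p 4 2 1 0 7 3 8) (osideE C p 4 2 0 1 7 3 8))))))

noncomputable def tOR (C : Cf) (p : ℕ) (ar ak al : ℤ) (fr fk fl : Bool) (s x y T : ℝ) (K : ℕ → ℝ) : ℝ :=
  (let t : ℝ := (Real.log T);
    (let r : ℝ := (cond fr ((ar : ℤ) : ℝ)
    (((ar : ℤ) : ℝ) * x));
    (let k : ℝ := (cond fk ((ak : ℤ) : ℝ)
    (cond fr (((ak : ℤ) : ℝ) * x)
    (((ak : ℤ) : ℝ) * y)));
    (let l : ℝ := (cond fl ((al : ℤ) : ℝ)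
    (((al : ℤ) : ℝ) * y));
    ((osideR C p s r k l T t K) + (osideR C p s r l k T t K))))))

theorem tOE_val (C : Cf) (p : ℕ) (ar ak al : ℤ) (fr fk fl : Bool) (s x y T : ℝ) (ρ : List ℝ) :
    (tOE C p ar ak al fr fk fl).val (s :: x :: y :: T :: ρ) = tOR C p ar ak al fr fk fl s x y T (fun j => ρ.getD j 0) := by
  simp only [tOE, tOR, Fx.val, Lc.val, val_cond, cs0_val, cmbE_val, osideE_val, List.getD_cons_succ, List.getD_cons_zero, getD_shift, Nat.add_zero]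
  all_goals norm_num [add_assoc]

/-- one half of (E) at the origin -/
def ousE (C : Cf) (s r k l o : ℕ) : Fx :=
  (.lt (.mul (.v s) (.v k))
    (.lt (.sm 7 4 (.log (.sm 3 1 (.sub (.c 1 0) (.v 0)))))
    (.lt (.mul (.v (s + 2)) (.v (l + 2)))
    (.lt (.c 0 0)
    (.lt (.c 1 0)
    (.sub (.add (.mul (.v (0 + (o + 5))) (.v (k + 5))) (usE C true 3 (k + 5) (l + 5) 2 1 (o + 5))) (hE C 4 true 0 (r + 5) (k + 5) 4 1)))))))

noncomputable def ousR (C : Cf) (s r k l : ℝ) (K : ℕ → ℝ) : ℝ :=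
  (let wh : ℝ := (s * k);
    (let lam : ℝ := ((7 : ℝ) / 5 * (Real.log ((3 : ℝ) / 2 * ((1 : ℝ) - wh))));
    (let w : ℝ := (s * l);
    (let zero : ℝ := (0 : ℝ);
    (let one : ℝ := (1 : ℝ);
    ((((K 0) * k) + (usR C true lam k l w zero K)) - (hR C 4 true one r k wh zero)))))))

theorem ousE_val (C : Cf) (s r k l o : ℕ) (ρ : List ℝ) :
    (ousE C s r k l o).val ρ = ousR C (ρ.getD s 0) (ρ.getD r 0) (ρ.getD k 0) (ρ.getD l 0) (fun j => ρ.getD (j + o) 0) := by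
  simp only [ousE, ousR, Fx.val, Lc.val, val_cond, cs0_val, cmbE_val, hE_val, usE_val, List.getD_cons_succ, List.getD_cons_zero, getD_shift, Nat.add_zero]
  all_goals norm_num [add_assoc]

/-- (E) at the origin -/
def tOEE (C : Cf) (ar ak al : ℤ) (fr fk fl : Bool) : Fx :=
  (.lt (cond fr (.c ar 0)
    (.sm ar 0 (.v 1)))
    (.lt (cond fk (.c ak 0)
    (cond fr (.sm ak 0 (.v 2))
    (.sm ak 0 (.v 3))))
    (.lt (cond fl (.c al 0)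
    (.sm al 0 (.v 4)))
    (.sub (.add (ousE C 3 2 1 0 7) (ousE C 3 2 0 1 7)) (.sm 2 0 (.v 2))))))

noncomputable def tOER (C : Cf) (ar ak al : ℤ) (fr fk fl : Bool) (s x y z : ℝ) (K : ℕ → ℝ) : ℝ :=
  (let r : ℝ := (cond fr ((ar : ℤ) : ℝ)
    (((ar : ℤ) : ℝ) * x));
    (let k : ℝ := (cond fk ((ak : ℤ) : ℝ)
    (cond fr (((ak : ℤ) : ℝ) * x)
    (((ak : ℤ) : ℝ) * y)));
    (let l : ℝ := (cond fl ((al : ℤ) : ℝ)
    (((al : ℤ) : ℝ) * y));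
    (((ousR C s r k l K) + (ousR C s r l k K)) - ((2 : ℝ) * r)))))

theorem tOEE_val (C : Cf) (ar ak al : ℤ) (fr fk fl : Bool) (s x y z : ℝ) (ρ : List ℝ) :
    (tOEE C ar ak al fr fk fl).val (s :: x :: y :: z :: ρ) = tOER C ar ak al fr fk fl s x y z (fun j => ρ.getD j 0) := by
  simp only [tOEE, tOER, Fx.val, Lc.val, val_cond, cs0_val, cmbE_val, ousE_val, List.getD_cons_succ, List.getD_cons_zero, getD_shift, Nat.add_zero]
  all_goals norm_num [add_assoc]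

/-- skip test: `k > l` (registers `i`, `i+1`) -/
def skD (i : ℕ) : Fx := .sub (.v i) (.v (i + 1))
/-- `43/1024 - |x - 1/3|` -/
def skX (i : ℕ) : Fx := .mins (.sub (.c 1153 3071) (.v i)) (.sub (.v i) (.c 895 3071))
def skT3 : Fx := .mins (skX 0) (.mins (skX 1) (skX 2))
def skT2 : Fx := .mins (skX 0) (skX 1)
def skO : Fx := .mins (.sub (.c 65 2047) (.v 0)) (.mins (.sub (.c 65 2047) (.v 1)) (.sub (.c 65 2047) (.v 2)))
def skN : Fx := .c (-1) 0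

/-- grid numerators over `48` -/
def gn : ℕ → ℤ
  | 0 => 0
  | 1 => 6
  | 2 => 12
  | 3 => 16
  | 4 => 20
  | 5 => 24
  | _ => 28

def dpB (i j : ℕ) : Bool := decide (gn (i + 1) + 2 * gn (j + 1) ≤ 48)
def dnB (i j : ℕ) : Bool := decide (48 ≤ gn i + 2 * gn j)
def sgZ (i : ℕ) : ℤ := if i = 2 then -1 else 1

end Crest.Agent.R310.Bx
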