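import Crest.Agent.R310.BxB

/-! Row 310: blow-up at the origin. -/

set_option autoImplicit false
set_option linter.dupNamespace false

namespace Crest.Agent.R310.Bx

open Finset Crest.Agent.Lib.IBox

theorem org_lo {k : ℝ} (h : k ≤ 65 / 2048) : tq 3 ≤ loF k - 1 - 1 / 32 := by
  have h1 : tq 3 = Real.log (1 + 1 / 5) - Real.log 2 := by
    rw [← Real.log_div (by norm_num) (by norm_num), tq]
    norm_num [tn]
  have h2 : Real.log (1 + 1 / 5) + 2 * Real.log (1 + 1 / 10) ≤ Real.log (3 / 2 * (1 - k)) := by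
    rw [show (2 : ℝ) * Real.log (1 + 1 / 10) = Real.log ((1 + 1 / 10) ^ 2) by
      rw [Real.log_pow]; norm_num, ← Real.log_mul (by norm_num) (by norm_num)]
    exact Real.log_le_log (by norm_num) (by linarith)
  have h3 := Real.le_log_one_add_of_nonneg (x := 1 / 5) (by norm_num)
  have h4 := Real.le_log_one_add_of_nonneg (x := 1 / 10) (by norm_num)
  have h5 := Real.log_two_gt_d9
  rw [h1, loF]
  linarith

private theorem e44_base {C : Cf} (hC : OrgC C) : ∃ A B : ℝ, ∀ x, tq 3 ≤ x →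
    Hb C 0 x = A ∧ Pb C 0 x = A * x + B := by
  obtain ⟨-, -, -, h3, h4⟩ := hC
  have hbe : C.be 0 4 = 0 := by
    show C.be 0 3 + 10 * C.sq 4 0 = 0
    rw [h3, h4]; rfl
  have hal : C.al 0 4 = C.al 0 3 := by
    show C.al 0 3 - tn 4 * C.sq 4 0 = _
    rw [h4]; simp
  refine ⟨(C.al 0 3 : ℝ) / 300000, ((C.sq 0 0 : ℝ) * (3 * (tq 0 - 1)) + (10 * C.sq 1 0 : ℤ) * KK 7 +
    (10 * C.sq 2 0 : ℤ) * KK 8 + (10 * C.sq 3 0 : ℤ) * KK 9) / 300000, fun x hx => ?_⟩
  rcases le_total x (tq 4) with h | h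
  · have hp : InP 3 x := ⟨by norm_num, hx, fun _ => h⟩
    rw [Hb_piece C 0 hp, Pb_piece C 0 hp, h3, show C.gm 0 1 3 = 10 * C.sq 1 0 from rfl,
      show C.gm 0 2 3 = 10 * C.sq 2 0 from rfl, show C.gm 0 3 3 = 10 * C.sq 3 0 from rfl,
      show C.gm 0 4 3 = 0 from rfl]
    constructor <;> push_cast <;> ring
  · have hp : InP 4 x := ⟨le_rfl, h, fun h => absurd h (lt_irrefl _)⟩
    rw [Hb_piece C 0 hp, Pb_piece C 0 hp, hbe, hal, show C.gm 0 1 4 = 10 * C.sq 1 0 from rfl,
      show C.gm 0 2 4 = 10 * C.sq 2 0 from rfl, show C.gm 0 3 4 = 10 * C.sq 3 0 from rfl,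
      show C.gm 0 4 4 = 10 * C.sq 4 0 from rfl, h4]
    constructor <;> push_cast <;> ring

private theorem e44_hC {C : Cf} (hC : OrgC C) (s u v : ℝ) :
    Bx.hC C (s * u) (s * v) = Hc C false (s * u) (s * v) (s * v) (s * 0) := by
  obtain ⟨h1, h2, h3, -, -⟩ := hC
  funext x
  simp [Bx.hC, Hc, cmbR, h1, h2, h3]

private theorem e44_gain {C : Cf} (hC : OrgC C) {s k l t c : ℝ} (h0 : tq 0 ≤ t) (ht : t ≤ 0)
    (hk0 : 0 ≤ s * k) (hk : s * k ≤ 65 / 2048) (hm : MonoAt C (s * k) (s * l)) :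
    Hb C 0 t + s * gainF (Hc C true k l (s * l) 0) (Pc C true k l (s * l) 0) c t (loF (s * k)) (-2) ≤
      gainV (fun _ => 1) (Bx.hC C (s * k) (s * l)) (s * c) (tq 0) t (loF (s * k)) (-2) := by
  have hl := tq0_le_loF (k := s * k) (by linarith)
  have hl1 := loF_le hk0 (by linarith)
  have hq := le_tq0
  have ho := org_lo hk
  obtain ⟨A, B, hAB⟩ := e44_base hC
  unfold MonoAt at hm
  rw [e44_hC hC] at hm ⊢
  refine le_trans (le_of_eq ?_)
    (gainF_le (prim_Hc C false _ _ _ _) hm (s * c) h0 ht (by linarith) hl hl1)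
  generalize loF (s * k) = lam at *
  have e2 : min t (-2) = -2 := min_eq_right (by linarith)
  have e3 : min t (-2 - 1) = -2 - 1 := min_eq_right (by linarith)
  unfold gainF lateF
  simp only [(Hc_blow C s k l 0 _).1, (Hc_blow C s k l 0 _).2, e2, e3]
  split_ifs with h
  · ring
  · have h3 : tq 3 ≤ t := by linarith
    have e4 : max (lam - 1) (tq 0) = lam - 1 :=
      max_eq_left ((tq_mono (by norm_num : 0 ≤ 3)).trans (by linarith))
    rw [e4, (hAB t h3).1, (hAB (lam - 1) (by linarith)).2,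
      (hAB (min t lam) (le_min h3 (by linarith))).2]
    ring

theorem oside_le {C : Cf} (hC : OrgC C) {p : ℕ} {s r k l t μ : ℝ} (hp : InP p t) (ht : t ≤ 0)
    (hs0 : 0 ≤ s) (hs : s ≤ 65 / 2048) (hr : U01 r) (hk : U01 k) (hm : MonoAt C (s * k) (s * l))
    (hμ : Cand (s * r) (s * k) μ) :
    s * osideR C p s r k l (Real.exp t) t KK ≤ sideT C C (s * r) (s * k) (s * l) t μ := by
  have hk0 : 0 ≤ s * k := mul_nonneg hs0 hk.1
  have hk1 : s * k ≤ 65 / 2048 := (mul_le_of_le_one_right hs0 hk.2).trans hs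
  have hr1 : s * r ≤ 65 / 2048 := (mul_le_of_le_one_right hs0 hr.2).trans hs
  have h0 : tq 0 ≤ t := (tq_mono (Nat.zero_le p)).trans hp.2.1
  have hl := tq0_le_loF (k := s * k) (by linarith)
  have hq := le_tq0
  have hg := g0_bounds
  have hhi : hiF (s * r) (s * k) ≤ tq 0 := by
    have h1 : Real.log (3 / 2 * (1 / 4)) = Real.log (3 / 4) - Real.log 2 := by
      rw [← Real.log_div (by norm_num) (by norm_num)]
      norm_num
    have h2 := Real.log_le_sub_one_of_pos (x := 3 / 4) (by norm_num)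
    have h3 := Real.log_two_gt_d9
    rw [hiF, max_eq_right (by linarith), h1]
    linarith
  have hμ0 : μ ≤ tq 0 := by
    rcases hμ with rfl | rfl
    · exact (min_le_right _ _).trans hhi
    · exact hhi
  have hV : ∀ (φ : ℝ → ℝ) (c : ℝ), gainV (fun _ => 1) φ c (tq 0) t (max (loF (s * k)) μ) μ =
      gainV (fun _ => 1) φ c (tq 0) t (loF (s * k)) (-2) := fun φ c => by
    unfold gainV
    rw [max_eq_left (hμ0.trans hl), max_eq_left ((min_le_right _ _).trans (by linarith)),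
      max_eq_left ((min_le_right _ _).trans (by linarith))]
  have hcap : capR 2 (8 / 5) (s * k) (s * r) =
      s * (if 0 ≤ r - 8 / 5 * k then min (r - k) (2 * (r - 8 / 5 * k)) else 0) := by
    have e : min (s * r - s * k) (2 * (s * r - 8 / 5 * (s * k))) =
        s * min (r - k) (2 * (r - 8 / 5 * k)) := by
      rw [mul_min_of_nonneg _ _ hs0]
      congr 1 <;> ring
    rw [capR, e]
    split_ifs with h
    · exact max_eq_right (mul_nonneg hs0 (le_min (by linarith [hk.1]) (by linarith)))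
    · rw [mul_zero]
      exact max_eq_left (mul_nonpos_of_nonneg_of_nonpos hs0 ((min_le_right _ _).trans (by linarith)))
  have hm1 : min 1 (g0 * (s * k)) = s * (g0 * k) := by
    rw [min_eq_right (by nlinarith)]
    ring
  have hm2 : min (s * r) (g0 * (s * k)) = s * min r (g0 * k) := by
    rw [mul_min_of_nonneg _ _ hs0]
    congr 1
    ring
  have key := e44_gain (c := if 0 ≤ r - 8 / 5 * k then min (r - k) (2 * (r - 8 / 5 * k)) else 0)
    hC h0 ht hk0 hk1 hm
  have hG := gainR_eq C false true hp ht (show -2 ≤ loF (s * k) by linarith) (by simp) hl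
    (if 0 ≤ r - 8 / 5 * k then min (r - k) (2 * (r - 8 / 5 * k)) else 0) k l (s * l) 0
  rw [← hG] at key
  unfold sideT osideR
  dsimp only
  rw [hV, hcap, hm1, hm2, KK0, hR_eq C true hp, e44_hC hC s r k, (Hc_blow C s r k 0 t).1]
  unfold loF at key ⊢
  linarith

theorem ous_le {C : Cf} (hC : OrgC C) {s r k l : ℝ} (hs0 : 0 ≤ s) (hs : s ≤ 65 / 2048) (hk : U01 k)
    (hm : MonoAt C (s * k) (s * l)) :
    s * ousR C s r k l KK ≤ usideT C (s * k) (s * l) - Bx.hC C (s * r) (s * k) 0 := by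
  have hk0 : 0 ≤ s * k := mul_nonneg hs0 hk.1
  have hk1 : s * k ≤ 65 / 2048 := (mul_le_of_le_one_right hs0 hk.2).trans hs
  have hl := tq0_le_loF (k := s * k) (by linarith)
  have hq := le_tq0
  have hg := g0_bounds
  have hp : InP 4 0 := ⟨le_rfl, tq_le_zero 4, fun h => absurd h (lt_irrefl _)⟩
  have hm1 : min 1 (g0 * (s * k)) = s * (g0 * k) := by
    rw [min_eq_right (by nlinarith)]
    ring
  have key := e44_gain (c := 0) hC (tq_le_zero 0) le_rfl hk0 hk1 hm
  have hG := gainR_eq C false true hp le_rfl (show -2 ≤ loF (s * k) by linarith) (by simp) hl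
    0 k l (s * l) 0
  have hR := hR_eq C true hp r k (s * k) 0
  rw [Real.exp_zero] at hG hR
  rw [← hG, mul_zero] at key
  rw [usideT_eq C hk0 (by linarith), hm1]
  unfold ousR usR
  dsimp only
  rw [KK0, hR, e44_hC hC s r k, (Hc_blow C s r k 0 0).1]
  unfold loF at key ⊢
  linarith

end Crest.Agent.R310.Bx
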