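import Crest.Agent.R310.BxA

/-! Row 310: cells, monotonicity and upper bound from corner conditions. -/

set_option autoImplicit false
set_option linter.dupNamespace false

namespace Crest.Agent.R310.Bx

open Finset Crest.Agent.Lib.IBox

theorem idx_lt (x : ℝ) : idx x < 6 := by
  unfold idx; split_ifs <;> omega
theorem idx_mono {x y : ℝ} (h : x ≤ y) : idx x ≤ idx y := by
  unfold idx; split_ifs <;> first | omega | (exfalso; linarith)
theorem inC_idx {x : ℝ} (h0 : 0 ≤ x) (h1 : x ≤ 7 / 12) : InC (idx x) x := by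
  unfold idx; split_ifs <;> simp only [InC, gn] <;> constructor <;> push_cast <;> linarith
theorem idx_near {x : ℝ} (h : Near x) :
    idx x ∈ [2, 3] ∧ x = 1 / 3 + (sgZ (idx x) : ℝ) * |x - 1 / 3| := by
  unfold Near at h
  obtain ⟨h1, h2⟩ := abs_lt.1 h
  unfold idx; split_ifs with a b c d e
  · exfalso; linarith
  · exfalso; linarith
  · refine ⟨by simp, ?_⟩
    rw [abs_of_nonpos (by linarith)]; simp only [sgZ, if_true]; push_cast; ring
  · refine ⟨by simp, ?_⟩
    rw [abs_of_nonneg (by linarith)]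
    have : sgZ 3 = 1 := by decide
    rw [this]; push_cast; ring
  · exfalso; linarith
  · exfalso; linarith
theorem idx_org {x : ℝ} (h : x < 65 / 2048) : idx x = 0 := by
  unfold idx; rw [if_pos (by linarith)]
theorem dpB_le {i j : ℕ} {r k : ℝ} (hr : InC i r) (hk : InC j k) (h : dpB i j = true) : r + 2 * k ≤ 1 := by
  have h1 : gn (i + 1) + 2 * gn (j + 1) ≤ 48 := of_decide_eq_true h
  have h2 : (gn (i + 1) : ℝ) + 2 * gn (j + 1) ≤ 48 := by exact_mod_cast h1
  have := hr.2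
  have := hk.2
  linarith
theorem dnB_le {i j : ℕ} {r k : ℝ} (hr : InC i r) (hk : InC j k) (h : dnB i j = true) : 1 ≤ r + 2 * k := by
  have h1 : 48 ≤ gn i + 2 * gn j := of_decide_eq_true h
  have h2 : (48 : ℝ) ≤ (gn i : ℝ) + 2 * gn j := by exact_mod_cast h1
  have := hr.1
  have := hk.1
  linarith

theorem h73_aff {a b X0 X1 x : ℝ} (h0 : 0 ≤ a + b * X0) (h1 : 0 ≤ a + b * X1) (hl : X0 ≤ x)
    (hu : x ≤ X1) : 0 ≤ a + b * x := by
  rcases le_total 0 b with hb | hb
  · nlinarith [mul_le_mul_of_nonneg_left hl hb]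
  · nlinarith [mul_le_mul_of_nonpos_left hu hb]

theorem h73_bil {a b c d X0 X1 Y0 Y1 x y : ℝ} (h00 : 0 ≤ a + b * X0 + c * Y0 + d * X0 * Y0)
    (h01 : 0 ≤ a + b * X0 + c * Y1 + d * X0 * Y1) (h10 : 0 ≤ a + b * X1 + c * Y0 + d * X1 * Y0)
    (h11 : 0 ≤ a + b * X1 + c * Y1 + d * X1 * Y1) (hl : X0 ≤ x) (hu : x ≤ X1) (hl' : Y0 ≤ y)
    (hu' : y ≤ Y1) : 0 ≤ a + b * x + c * y + d * x * y := by
  have e0 : 0 ≤ (a + b * X0) + (c + d * X0) * y :=
    h73_aff (by linarith) (by linarith) hl' hu'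
  have e1 : 0 ≤ (a + b * X1) + (c + d * X1) * y :=
    h73_aff (by linarith) (by linarith) hl' hu'
  have e2 : 0 ≤ (a + c * y) + (b + d * y) * x :=
    h73_aff (by linarith) (by linarith) hl hu
  linarith

theorem h73_key (C : Cf) (f : ℕ → ℤ) (A B s : ℝ) {i j : ℕ} {x y : ℝ} (hx : InC i x) (hy : InC j y)
    (h : ∀ X ∈ [gn i, gn (i + 1)], ∀ Y ∈ [gn j, gn (j + 1)], ∀ e ∈ [(0 : ℤ), 1],
      0 ≤ 2304 * A + 48 * B * (X : ℝ) + s * (crn C f X Y e : ℝ)) :
    0 ≤ A + B * x + s * cmbR false C.kk (f 0) (f 1) (f 2) (f 3) (f 4) (x - C.xn / 48) (y - C.yn / 48)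
      (y - C.yn / 48) (max (x + 2 * y - 1) 0) := by
  obtain ⟨e, he, hm⟩ : ∃ e ∈ [(0 : ℤ), 1], max (x + 2 * y - 1) 0 = (e : ℝ) * (x + 2 * y - 1) := by
    rcases le_total (x + 2 * y - 1) 0 with h0 | h0
    · exact ⟨0, by simp, by rw [max_eq_right h0]; simp⟩
    · exact ⟨1, by simp, by rw [max_eq_left h0]; simp⟩
  rw [hm]
  obtain ⟨κ, hκ⟩ : ∃ κ : ℝ, (∀ t : ℝ, cond C.kk t 0 = κ * t) ∧
      ∀ t : ℤ, ((cond C.kk t 0 : ℤ) : ℝ) = κ * t := by
    cases C.kk
    · exact ⟨0, by simp, by simp⟩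
    · exact ⟨1, by simp, by simp⟩
  have key : ∀ X ∈ [gn i, gn (i + 1)], ∀ Y ∈ [gn j, gn (j + 1)],
      0 ≤ (A + s * (f 0 - C.xn / 48 * f 1 - C.yn / 48 * f 2 + C.xn / 48 * (C.yn / 48) * f 3 -
          κ * e * f 4)) +
        (B + s * (f 1 - C.yn / 48 * f 3 + κ * e * f 4)) * ((X : ℝ) / 48) +
        (s * (f 2 - C.xn / 48 * f 3 + 2 * κ * e * f 4)) * ((Y : ℝ) / 48) +
        (s * f 3) * ((X : ℝ) / 48) * ((Y : ℝ) / 48) := by
    intro X hX Y hY
    have h1 := h X hX Y hY e he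
    unfold crn at h1
    push_cast at h1
    rw [hκ.2] at h1
    push_cast at h1
    linarith
  have := h73_bil (key (gn i) (by simp) (gn j) (by simp)) (key (gn i) (by simp) (gn (j + 1)) (by simp))
    (key (gn (i + 1)) (by simp) (gn j) (by simp)) (key (gn (i + 1)) (by simp) (gn (j + 1)) (by simp))
    hx.1 hx.2 hy.1 hy.2
  unfold cmbR
  rw [hκ.1]
  simp only [cond_false]
  linarith

theorem h73_piece (C : Cf) (x y : ℝ) {p : ℕ} {σ : ℝ} (h : InP p σ) :
    hC C x y σ = (cmbR false C.kk (C.al 0 p) (C.al 1 p) (C.al 2 p) (C.al 3 p) (C.al 4 p)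
        (x - C.xn / 48) (y - C.yn / 48) (y - C.yn / 48) (max (x + 2 * y - 1) 0) +
      cmbR false C.kk (C.be 0 p) (C.be 1 p) (C.be 2 p) (C.be 3 p) (C.be 4 p)
        (x - C.xn / 48) (y - C.yn / 48) (y - C.yn / 48) (max (x + 2 * y - 1) 0) * Real.exp σ) /
      300000 := by
  unfold hC Hc
  simp only [Hb_piece C _ h]
  unfold cmbR
  cases C.kk <;> simp only [cond_false, cond_true] <;> ring

theorem mono_of_corner {C : Cf} {i j : ℕ} (h : CornerOK C i j) {x y : ℝ} (hx : InC i x) (hy : InC j y) :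
    MonoAt C x y := by
  have hp : ∀ p ∈ [0, 1, 2, 3, 4], MonotoneOn (hC C x y) (Set.Icc (tq p) (tq (p + 1))) := by
    intro p hp a ha b hb hab
    have hp4 : p ≤ 4 := by
      simp only [List.mem_cons, List.not_mem_nil, or_false] at hp
      omega
    have hB := h73_key C (fun b => C.be b p) 0 0 1 hx hy (fun X hX Y hY e he => by
      have := (h X hX Y hY e he).1 p hp
      have h2 : (0 : ℝ) ≤ (crn C (fun b => C.be b p) X Y e : ℝ) := by exact_mod_cast this
      linarith)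
    rw [h73_piece C x y (p := p) ⟨hp4, ha.1, fun _ => ha.2⟩,
      h73_piece C x y (p := p) ⟨hp4, hb.1, fun _ => hb.2⟩]
    have he := Real.exp_le_exp.mpr hab
    simp only [zero_mul, add_zero, zero_add, one_mul] at hB
    have := mul_le_mul_of_nonneg_left he hB
    linarith
  have hind : ∀ p ≤ 5, MonotoneOn (hC C x y) (Set.Icc (tq 0) (tq p)) := by
    intro p
    induction p with
    | zero =>
      intro _
      rw [Set.Icc_self]
      exact Set.subsingleton_singleton.monotoneOn _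
    | succ p ih =>
      intro hp5
      have h1 := ih (by omega)
      have h2 := hp p (by
        simp only [List.mem_cons, List.not_mem_nil, or_false]
        omega)
      rw [← Set.Icc_union_Icc_eq_Icc (tq_mono (Nat.zero_le p)) (tq_mono (Nat.le_succ p))]
      exact h1.union_right h2 (isGreatest_Icc (tq_mono (Nat.zero_le p)))
        (isLeast_Icc (tq_mono (Nat.le_succ p)))
  have := hind 5 le_rfl
  rw [tq5] at this
  exact this

theorem ub_of_corner {C : Cf} {i j : ℕ} (h : CornerOK C i j) {x y : ℝ} (hx : InC i x) (hy : InC j y) :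
    hC C x y 0 ≤ 2 * (1 - 8 / 5 * x) := by
  have hB := h73_key C (fun b => C.al b 4 + C.be b 4) 600000 (-960000) (-1) hx hy
    (fun X hX Y hY e he => by
      have := (h X hX Y hY e he).2
      have h2 : (crn C (fun b => C.al b 4 + C.be b 4) X Y e : ℝ) ≤
          2304 * 600000 - 48 * 960000 * (X : ℝ) := by exact_mod_cast this
      linarith)
  rw [h73_piece C x y (p := 4) ⟨le_rfl, tq_le_zero 4, fun h => absurd h (lt_irrefl _)⟩, Real.exp_zero]
  unfold cmbR at hB ⊢
  push_cast at hB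
  revert hB
  cases C.kk <;> simp only [cond_false, cond_true] <;> intro hB <;> linarith

theorem copos_QG (P : ℕ → List ℤ) : Copos (QG P) := by
  let p : ℕ → ℕ → ℝ → ℝ := fun a b k =>
    ((((P (idx k)).getD a 0 : ℤ) : ℝ) + (((P (idx k)).getD b 0 : ℤ) : ℝ) * (k - bs (idx k) / 48)) / 10000
  exact ((copos_rank (p 0 1)).add (copos_rank (p 2 3))).add (copos_rank (p 4 5))
theorem QG_comm (P : ℕ → List ℤ) (k l : ℝ) : QG P l k = QG P k l := by
  unfold QG qR; ring

end Crest.Agent.R310.Bx
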