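import Crest.Agent.R310.BxC
import Crest.Agent.R310.BxD
import Crest.Agent.R310.BxE
import Crest.Agent.R310.BxF

/-! Row 310: assembly of (U) and (E). -/

set_option autoImplicit false
set_option linter.dupNamespace false

namespace Crest.Agent.R310.Bx

open Finset Crest.Agent.Lib.IBox

private theorem u01_div {a s : ℝ} (ha : 0 ≤ a) (h : a ≤ s) : U01 (a / s) ∧ a = s * (a / s) := by
  rcases eq_or_lt_of_le (ha.trans h) with hs | hs
  · have : a = 0 := le_antisymm (hs ▸ h) ha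
    subst this
    simp [U01]
  · refine ⟨⟨div_nonneg ha hs.le, (div_le_one hs).2 h⟩, ?_⟩
    field_simp

private theorem faceH2 {a b : ℝ} (ha : 0 ≤ a) (hb : 0 ≤ b) :
    ∃ (s x : ℝ) (fk : Bool), U01 x ∧ (s = a ∨ s = b) ∧ a = s * cond fk 1 x ∧ b = s * cond fk x 1 := by
  rcases le_total a b with h | h
  · obtain ⟨h1, h2⟩ := u01_div ha h
    exact ⟨b, a / b, false, h1, Or.inr rfl, h2, by simp⟩
  · obtain ⟨h1, h2⟩ := u01_div hb h
    exact ⟨a, b / a, true, h1, Or.inl rfl, by simp, h2⟩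

private theorem faceH3 {a b c : ℝ} (ha : 0 ≤ a) (hb : 0 ≤ b) (hc : 0 ≤ c) :
    ∃ (s x y : ℝ) (fr fk fl : Bool), Face fr fk fl ∧ U01 x ∧ U01 y ∧ (s = a ∨ s = b ∨ s = c) ∧
      a = s * cond fr 1 x ∧ b = s * cond fk 1 (cond fr x y) ∧ c = s * cond fl 1 y := by
  by_cases h1 : b ≤ a ∧ c ≤ a
  · obtain ⟨p1, p2⟩ := u01_div hb h1.1
    obtain ⟨q1, q2⟩ := u01_div hc h1.2
    exact ⟨a, b / a, c / a, true, false, false, Or.inl ⟨rfl, rfl, rfl⟩, p1, q1, Or.inl rfl, by simp,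
      p2, q2⟩
  by_cases h2 : a ≤ b ∧ c ≤ b
  · obtain ⟨p1, p2⟩ := u01_div ha h2.1
    obtain ⟨q1, q2⟩ := u01_div hc h2.2
    exact ⟨b, a / b, c / b, false, true, false, Or.inr (Or.inl ⟨rfl, rfl, rfl⟩), p1, q1,
      Or.inr (Or.inl rfl), p2, by simp, q2⟩
  have h3 : a ≤ c ∧ b ≤ c := by
    rw [not_and_or, not_le, not_le] at h1 h2
    rcases h1 with h1 | h1 <;> rcases h2 with h2 | h2 <;> constructor <;> linarith
  obtain ⟨p1, p2⟩ := u01_div ha h3.1
  obtain ⟨q1, q2⟩ := u01_div hb h3.2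
  exact ⟨c, a / c, b / c, false, false, true, Or.inr (Or.inr ⟨rfl, rfl, rfl⟩), p1, q1,
    Or.inr (Or.inr rfl), p2, q2, by simp⟩

private theorem abs_sg_le (i : ℕ) {x : ℝ} (hx : U01 x) : |(sgZ i : ℝ) * x| ≤ 1 := by
  unfold sgZ
  obtain ⟨h0, h1⟩ := hx
  split_ifs <;> simp [abs_of_nonneg h0, h1]

private theorem u01_one : U01 1 := ⟨zero_le_one, le_rfl⟩

private theorem u01_cond (b : Bool) {x y : ℝ} (hx : U01 x) (hy : U01 y) : U01 (cond b x y) := by
  cases b
  · exact hy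
  · exact hx

private theorem monoH {cf : ℕ → ℕ → Cf} {P : ℕ → List ℤ} (hT : TabOK cf P) {k l : ℝ}
    (hk0 : 0 ≤ k) (hk : k ≤ 7 / 12) (hl0 : 0 ≤ l) (hl : l ≤ 7 / 12) :
    MonoAt (cf (idx k) (idx l)) k l :=
  mono_of_corner (hT.corner _ (idx_lt k) _ (idx_lt l)) (inC_idx hk0 hk) (inC_idx hl0 hl)

private theorem bs_tip {i : ℕ} (h : i ∈ [2, 3]) : ((bs i : ℤ) : ℝ) / 48 = 1 / 3 := by
  simp only [List.mem_cons, List.not_mem_nil, or_false] at h
  rcases h with rfl | rfl <;> norm_num [bs]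

theorem hU_of_checks {cf : ℕ → ℕ → Cf} {P : ℕ → List ℤ} (hT : TabOK cf P) (hC : Checks cf P)
    {k l : ℝ} (hk0 : 0 < k) (hkl : k ≤ l) (hl : l ≤ 7 / 12) :
    2 + 2 * QG P k l ≤ usideT (cf (idx k) (idx l)) k l + usideT (cf (idx l) (idx k)) l k := by
  have hk : k ≤ 7 / 12 := hkl.trans hl
  have hl0 : 0 < l := hk0.trans_le hkl
  have m1 := monoH hT hk0.le hk hl0.le hl
  have m2 := monoH hT hl0.le hl hk0.le hk
  rcases hC.cU (idx l) (idx_lt l) (idx k) (idx_mono hkl) k l (inC_idx hk0.le hk) (inC_idx hl0.le hl)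
    with h | h | ⟨nk, nl⟩
  · have u1 := uside_le _ hk0.le hk m1
    have u2 := uside_le _ hl0.le hl m2
    obtain ⟨b1, b2⟩ := hT.base _ (idx_lt k) _ (idx_lt l)
    unfold tUR at h
    dsimp only at h
    rw [b1, b2] at h
    unfold QG
    linarith
  · exact absurd h (not_lt.2 hkl)
  · obtain ⟨ik, ek⟩ := idx_near nk
    obtain ⟨il, el⟩ := idx_near nl
    obtain ⟨s, x, fk, hx, hs, e1, e2⟩ := faceH2 (abs_nonneg (k - 1 / 3)) (abs_nonneg (l - 1 / 3))
    have hs0 : 0 ≤ s := by rcases hs with rfl | rfl <;> exact abs_nonneg _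
    have hs1 : s ≤ 43 / 1024 := by
      rcases hs with rfl | rfl
      · exact le_of_lt nk
      · exact le_of_lt nl
    have h := hC.cTU (idx l) il (idx k) ik (idx_mono hkl) fk s x hs0 hs1 hx
    unfold tTUR at h
    dsimp only at h
    have c1 : (cond fk ((sgZ (idx k) : ℤ) : ℝ) (((sgZ (idx k) : ℤ) : ℝ) * x)) =
        (sgZ (idx k) : ℝ) * cond fk 1 x := by cases fk <;> simp
    have c2 : (cond fk (((sgZ (idx l) : ℤ) : ℝ) * x) ((sgZ (idx l) : ℤ) : ℝ)) =
        (sgZ (idx l) : ℝ) * cond fk x 1 := by cases fk <;> simp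
    rw [c1, c2] at h
    have a1 := abs_sg_le (idx k) (u01_cond fk u01_one hx)
    have a2 := abs_sg_le (idx l) (u01_cond fk hx u01_one)
    generalize hkh : (sgZ (idx k) : ℝ) * cond fk 1 x = kh at h a1
    generalize hlh : (sgZ (idx l) : ℝ) * cond fk x 1 = lh at h a2
    have fk' : 1 / 3 + s * kh = k := by rw [← hkh]; rw [e1] at ek; linarith
    have fl' : 1 / 3 + s * lh = l := by rw [← hlh]; rw [e2] at el; linarith
    have t1 := tus_le (l := lh) (hT.tip _ ik _ il) hs0 hs1 a1 (by rw [fk', fl']; exact m1)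
    have t2 := tus_le (l := kh) (hT.tip _ il _ ik) hs0 hs1 a2 (by rw [fk', fl']; exact m2)
    rw [fk', fl'] at t1 t2
    have q : QG P k l = s * (s * qhR (P (idx k)) (P (idx l)) kh lh) := by
      unfold QG
      rw [bs_tip ik, bs_tip il]
      have u1 : k - 1 / 3 = s * kh := by linarith
      have u2 : l - 1 / 3 = s * lh := by linarith
      rw [u1, u2]
      obtain ⟨p0, p2, p4⟩ := hT.ptip _ ik
      obtain ⟨q0, q2, q4⟩ := hT.ptip _ il
      unfold qR qhR
      rw [p0, p2, p4, q0, q2, q4]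
      push_cast
      ring
    rw [q]
    have := mul_nonneg hs0 h.le
    nlinarith

theorem hE_of_checks {cf : ℕ → ℕ → Cf} {P : ℕ → List ℤ} (hT : TabOK cf P) (hC : Checks cf P)
    {r k l : ℝ} (hr0 : 0 < r) (hr : r ≤ 7 / 12) (hk0 : 0 < k) (hkl : k ≤ l) (hl : l ≤ 7 / 12) :
    hG cf r k 0 + hG cf r l 0 + 2 * r ≤
      usideT (cf (idx k) (idx l)) k l + usideT (cf (idx l) (idx k)) l k := by
  have hk : k ≤ 7 / 12 := hkl.trans hl
  have hl0 : 0 < l := hk0.trans_le hkl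
  have m1 := monoH hT hk0.le hk hl0.le hl
  have m2 := monoH hT hl0.le hl hk0.le hk
  unfold hG
  rcases hC.cE (idx r) (idx_lt r) (idx l) (idx_lt l) (idx k) (idx_mono hkl) r k l (inC_idx hr0.le hr)
    (inC_idx hk0.le hk) (inC_idx hl0.le hl) with h | h | ⟨nr, nk, nl⟩ | ⟨nr, nk, nl⟩
  · have u1 := uside_le _ hk0.le hk m1
    have u2 := uside_le _ hl0.le hl m2
    unfold tER at h
    rw [hend_eq, hend_eq] at h
    linarith
  · exact absurd h (not_lt.2 hkl)
  · obtain ⟨ir, er⟩ := idx_near nr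
    obtain ⟨ik, ek⟩ := idx_near nk
    obtain ⟨il, el⟩ := idx_near nl
    obtain ⟨s, x, y, fr, fk, fl, hf, hx, hy, hs, e0, e1, e2⟩ :=
      faceH3 (abs_nonneg (r - 1 / 3)) (abs_nonneg (k - 1 / 3)) (abs_nonneg (l - 1 / 3))
    have hs0 : 0 ≤ s := by rcases hs with rfl | rfl | rfl <;> exact abs_nonneg _
    have hs1 : s ≤ 43 / 1024 := by
      rcases hs with rfl | rfl | rfl
      · exact le_of_lt nr
      · exact le_of_lt nk
      · exact le_of_lt nl
    have h := hC.cTE (idx r) ir (idx l) il (idx k) ik (idx_mono hkl) fr fk fl hf s x y hs0 hs1 hx hy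
    unfold tTER at h
    dsimp only at h
    have c0 : (cond fr ((sgZ (idx r) : ℤ) : ℝ) (((sgZ (idx r) : ℤ) : ℝ) * x)) =
        (sgZ (idx r) : ℝ) * cond fr 1 x := by cases fr <;> simp
    have c1 : (cond fk ((sgZ (idx k) : ℤ) : ℝ)
        (cond fr (((sgZ (idx k) : ℤ) : ℝ) * x) (((sgZ (idx k) : ℤ) : ℝ) * y))) =
        (sgZ (idx k) : ℝ) * cond fk 1 (cond fr x y) := by cases fk <;> cases fr <;> simp
    have c2 : (cond fl ((sgZ (idx l) : ℤ) : ℝ) (((sgZ (idx l) : ℤ) : ℝ) * y)) =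
        (sgZ (idx l) : ℝ) * cond fl 1 y := by cases fl <;> simp
    rw [c0, c1, c2] at h
    have a1 := abs_sg_le (idx k) (u01_cond fk u01_one (u01_cond fr hx hy))
    have a2 := abs_sg_le (idx l) (u01_cond fl u01_one hy)
    generalize hrh : (sgZ (idx r) : ℝ) * cond fr 1 x = rh at h
    generalize hkh : (sgZ (idx k) : ℝ) * cond fk 1 (cond fr x y) = kh at h a1
    generalize hlh : (sgZ (idx l) : ℝ) * cond fl 1 y = lh at h a2
    have fr' : 1 / 3 + s * rh = r := by rw [← hrh]; rw [e0] at er; linarith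
    have fk' : 1 / 3 + s * kh = k := by rw [← hkh]; rw [e1] at ek; linarith
    have fl' : 1 / 3 + s * lh = l := by rw [← hlh]; rw [e2] at el; linarith
    have t1 := tus_le (l := lh) (hT.tip _ ik _ il) hs0 hs1 a1 (by rw [fk', fl']; exact m1)
    have t2 := tus_le (l := kh) (hT.tip _ il _ ik) hs0 hs1 a2 (by rw [fk', fl']; exact m2)
    have g1 := hendh_eq (hT.tip _ ir _ ik) hs0 rh kh
    have g2 := hendh_eq (hT.tip _ ir _ il) hs0 rh lh
    rw [fk', fl'] at t1 t2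
    rw [fr', fk'] at g1
    rw [fr', fl'] at g2
    have := mul_nonneg hs0 h.le
    nlinarith
  · have ir := idx_org nr
    have ik := idx_org nk
    have il := idx_org nl
    rw [ik, il] at m1 m2
    rw [ir, ik, il]
    obtain ⟨s, x, y, fr, fk, fl, hf, hx, hy, hs, e0, e1, e2⟩ := faceH3 hr0.le hk0.le hl0.le
    have hs0 : 0 ≤ s := by rcases hs with rfl | rfl | rfl <;> linarith
    have hs1 : s ≤ 65 / 2048 := by rcases hs with rfl | rfl | rfl <;> linarith
    have h := hC.cOE fr fk fl hf s x y hs0 hs1 hx hy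
    unfold tOER at h
    dsimp only at h
    simp only [Int.cast_one, one_mul] at h
    have a1 := u01_cond fk u01_one (u01_cond fr hx hy)
    have a2 := u01_cond fl u01_one hy
    generalize (cond fr 1 x : ℝ) = rh at h e0
    generalize (cond fk 1 (cond fr x y) : ℝ) = kh at h a1 e1
    generalize (cond fl 1 y : ℝ) = lh at h a2 e2
    have t1 := ous_le (r := rh) (l := lh) hT.org hs0 hs1 a1 (by rw [← e1, ← e2]; exact m1)
    have t2 := ous_le (r := rh) (l := kh) hT.org hs0 hs1 a2 (by rw [← e1, ← e2]; exact m2)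
    rw [← e0, ← e1, ← e2] at t1 t2
    have := mul_nonneg hs0 h.le
    nlinarith

end Crest.Agent.R310.Bx
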