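import Crest.Agent.R310.BxG
import Crest.Agent.R310.BxH

/-! Row 310: the certificate from the box checks. -/

set_option autoImplicit false
set_option linter.dupNamespace false

namespace Crest.Agent.R310.Bx

open Finset Crest.Agent.Lib.IBox

theorem pairG_of_checks {cf : ℕ → ℕ → Cf} {P : ℕ → List ℤ} (hT : TabOK cf P) (hC : Checks cf P) :
    PairCertG (1 + 2 / Real.exp 1) (7 / 12) (tq 0) 0 (fun d => max 0 (((2 : ℚ) : ℝ) * (1 - 8 / 5 * d)))
      loF hiF (capR ((2 : ℚ) : ℝ) (8 / 5)) (fun _ _ _ _ _ => 1) (hG cf) (QG P) (fun _ _ _ => 0)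
      (fun _ _ _ _ => 0) := by
  have e2 : ((2 : ℚ) : ℝ) = 2 := by norm_num
  rw [e2]
  have hcor : ∀ r k : ℝ, CornerOK (cf (idx r) (idx k)) (idx r) (idx k) := fun r k =>
    hT.corner _ (idx_lt r) _ (idx_lt k)
  refine ⟨copos_QG P, fun _ => copos_zero, fun _ _ => copos_zero, fun r k h1 h2 h3 h4 => ?_,
    fun r k h1 h2 h3 h4 => ?_, fun k l h1 h2 h3 => ?_, fun r k l h1 h2 h3 h4 h5 => ?_,
    fun r k l h1 h2 h3 h4 h5 τ h6 h7 μ ν hμ hν => ?_⟩
  · exact mono_of_corner (hcor r k) (inC_idx h1.le h2) (inC_idx h3.le h4)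
  · exact le_max_of_le_right (ub_of_corner (hcor r k) (inC_idx h1.le h2) (inC_idx h3.le h4))
  · have h := hU_of_checks hT hC h1 h2 h3
    rw [QG_comm P k l]
    simp only [usideT, g0] at h
    simp only [UV, hG]
    linarith
  · have h := hE_of_checks hT hC h1 h2 h3 h4 h5
    simp only [usideT, g0, hG] at h
    simp only [UV, hG]
    linarith
  · have h := hP_of_checks hT hC h1 h2 h3 h4 h5 h6 h7 hμ hν
    have e1 : hG cf k l = Bx.hC (cf (idx k) (idx l)) k l := rfl
    have e3 : hG cf l k = Bx.hC (cf (idx l) (idx k)) l k := rfl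
    simp only [sideT, g0] at h
    rw [e1, e3]
    simp only [hG]
    linarith

theorem cert_of_checks {cf : ℕ → ℕ → Cf} {P : ℕ → List ℤ} (hT : TabOK cf P) (hC : Checks cf P)
    (g : ℚ) (hg : 1 + 2 / Real.exp 1 < (g : ℝ)) :
    ∃ (Kn : Kernel) (A g1 : ℚ), 0 ≤ A ∧ Cert Kn g A g1 := by
  have hl : ∀ x : ℝ, 0 < x → Real.log (3 / 2 * x) + Real.log (2 / 3) = Real.log x := by
    intro x hx
    rw [← Real.log_mul (by positivity) (by norm_num)]
    congr 1
    ring
  refine cert_exists_of_pairG_shift (a := 7 / 5) (7 / 5 * Real.log (2 / 3)) (by norm_num)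
    (by norm_num) (by norm_num) (by norm_num) (tq_le_zero 0) (fun k _ h2 => ?_)
    (fun k _ h2 => ?_) (fun r k h1 _ h3 _ => ?_) (fun _ _ _ _ => measurable_const)
    (fun _ _ _ _ _ => zero_le_one) (fun _ _ _ _ _ => le_rfl) (pairG_of_checks hT hC) g hg
  · have h1 : Real.log (5 / 8) ≤ Real.log (3 / 2 * (1 - k)) :=
      Real.log_le_log (by norm_num) (by linarith)
    have h2 : 1 - (5 / 8 : ℝ)⁻¹ ≤ Real.log (5 / 8) := Real.one_sub_inv_le_log_of_pos (by norm_num)
    have h3 := tq0_le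
    unfold loF
    norm_num at h2
    linarith
  · have := hl (1 - k) (by linarith)
    unfold loF
    linarith
  · have h4 := hl (max (r + k) (1 / 4)) (lt_max_of_lt_right (by norm_num))
    have h5 : Real.log (r + k) ≤ Real.log (max (r + k) (1 / 4)) :=
      Real.log_le_log (by linarith) (le_max_left _ _)
    unfold hiF
    linarith

end Crest.Agent.R310.Bx
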