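import Crest.Agent.R310.Run.XAll
import Crest.Agent.R310.BxI
import Crest.Agent.R310.BxData

/-! Row 310: the box checks hold for the table. -/

set_option autoImplicit false
set_option linter.dupNamespace false

namespace Crest.Agent.R310.Bx

open Crest.Agent.Lib.IBox

def gl : ℕ → ℤ
  | 0 => 0
  | 1 => 137438953472
  | 2 => 274877906944
  | 3 => 366503875925
  | 4 => 458129844906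
  | 5 => 549755813888
  | _ => 641381782869
def gl2 : ℕ → ℤ
  | 0 => (-1048576)
  | 1 => 137437904896
  | 2 => 274876858368
  | 3 => 366502827349
  | 4 => 458128796330
  | 5 => 549754765312
  | _ => 641380734293
def gh : ℕ → ℤ
  | 0 => 0
  | 1 => 137438953472
  | 2 => 274877906944
  | 3 => 366503875926
  | 4 => 458129844907
  | 5 => 549755813888
  | _ => 641381782870
def tl : ℕ → ℤ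
  | 0 => 329853488332
  | 1 => 439804651110
  | 2 => 549755813888
  | 3 => 659706976665
  | 4 => 879609302220
  | _ => 1099511627776
def th : ℕ → ℤ
  | 0 => 329853488333
  | 1 => 439804651111
  | 2 => 549755813888
  | 3 => 659706976666
  | 4 => 879609302221
  | _ => 1099511627776

def l3 (j m : ℕ) : ℤ := cond (Nat.beq j m) (gl2 m) (gl m)

theorem inC_box {i : ℕ} (hi : i < 6) {x : ℝ} (h : InC i x) :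
    (gl i : ℝ) ≤ x * S ∧ x * S ≤ (gh (i + 1) : ℝ) := by
  obtain ⟨h1, h2⟩ := h
  rw [S_val]
  interval_cases i <;> simp only [gl, gh, gn] at * <;> constructor <;> push_cast at * <;> linarith

theorem l3_le (j : ℕ) {m : ℕ} (hm : m < 6) : (l3 j m : ℝ) ≤ gl m := by
  unfold l3
  cases Nat.beq j m
  · exact le_rfl
  · interval_cases m <;> simp only [gl, gl2, cond] <;> norm_num

theorem inT_box {p : ℕ} (hp : p < 5) {x : ℝ} (h : InT p x) :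
    (tl p : ℝ) ≤ x * S ∧ x * S ≤ (th (p + 1) : ℝ) := by
  obtain ⟨h1, h2⟩ := h
  rw [S_val]
  interval_cases p <;> simp only [tl, th, tn] at * <;> constructor <;> push_cast at * <;> linarith

theorem u01_box {x : ℝ} (h : U01 x) : ((0 : ℤ) : ℝ) ≤ x * S ∧ x * S ≤ ((1099511627776 : ℤ) : ℝ) := by
  obtain ⟨h1, h2⟩ := h
  rw [S_val]
  constructor <;> push_cast <;> linarith

theorem st_box {x : ℝ} (h1 : 0 ≤ x) (h2 : x ≤ 43 / 1024) :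
    ((0 : ℤ) : ℝ) ≤ x * S ∧ x * S ≤ ((46170898432 : ℤ) : ℝ) := by
  rw [S_val]
  constructor <;> push_cast <;> linarith

theorem so_box {x : ℝ} (h1 : 0 ≤ x) (h2 : x ≤ 65 / 2048) :
    ((0 : ℤ) : ℝ) ≤ x * S ∧ x * S ≤ ((34896609280 : ℤ) : ℝ) := by
  rw [S_val]
  constructor <;> push_cast <;> linarith

theorem z_box : ((0 : ℤ) : ℝ) ≤ (0 : ℝ) * S ∧ (0 : ℝ) * S ≤ ((0 : ℤ) : ℝ) := by simp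

theorem near_of {x : ℝ} (h : 0 < min ((1153 : ℝ) / 3072 - x) (x - 895 / 3072)) : Near x := by
  rw [lt_min_iff] at h
  rw [Near, abs_lt]
  constructor <;> linarith [h.1, h.2]

theorem skN_not (ρ : List ℝ) : ¬ 0 < skN.val ρ := by simp [skN, Fx.val]

theorem skip3 {r k l T : ℝ} {ρ : List ℝ} (h : 0 < (skD 1).val (r :: k :: l :: T :: ρ) ∨
    0 < skT3.val (r :: k :: l :: T :: ρ) ∨ 0 < skO.val (r :: k :: l :: T :: ρ)) :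
    l < k ∨ (Near r ∧ Near k ∧ Near l) ∨ (r < 65 / 2048 ∧ k < 65 / 2048 ∧ l < 65 / 2048) := by
  simp only [skD, skT3, skX, skO, Fx.val, List.getD_cons_succ, List.getD_cons_zero] at h
  norm_num only at h
  rcases h with h | h | h
  · exact Or.inl (by linarith)
  · rw [lt_min_iff, lt_min_iff (b := min _ _)] at h
    exact Or.inr (Or.inl ⟨near_of h.1, near_of h.2.1, near_of h.2.2⟩)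
  · rw [lt_min_iff, lt_min_iff] at h
    exact Or.inr (Or.inr ⟨by linarith [h.1], by linarith [h.2.1], by linarith [h.2.2]⟩)

theorem skip2 {k l x y : ℝ} {ρ : List ℝ} (h : 0 < (skD 0).val (k :: l :: x :: y :: ρ) ∨
    0 < skT2.val (k :: l :: x :: y :: ρ) ∨ 0 < skN.val (k :: l :: x :: y :: ρ)) :
    l < k ∨ (Near k ∧ Near l) := by
  rcases h with h | h | h
  · simp only [skD, Fx.val, List.getD_cons_succ, List.getD_cons_zero] at h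
    exact Or.inl (by linarith)
  · simp only [skT2, skX, Fx.val, List.getD_cons_succ, List.getD_cons_zero] at h
    norm_num only at h
    rw [lt_min_iff] at h
    exact Or.inr ⟨near_of h.1, near_of h.2⟩
  · exact absurd h (skN_not _)

theorem noskip {p : Fx} {ρ : List ℝ} (h : FGood p skN skN skN ρ) : 0 < p.val ρ := by
  rcases h with h | h | h | h
  · exact h
  all_goals exact absurd h (skN_not _)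

theorem allP : ∀ i < 6, ∀ m < 6, ∀ j ≤ m, ∀ p < 5, HP i j m p
    ⟨gl i, gh (i + 1), gl j, gh (j + 1), l3 j m, gh (m + 1), tl p, th (p + 1)⟩ := by
  intro i hi m hm j hj p hp
  interval_cases i <;> interval_cases m <;> interval_cases j <;> interval_cases p
  exacts [HP_0_0_0_0, HP_0_0_0_1, HP_0_0_0_2, HP_0_0_0_3, HP_0_0_0_4, HP_0_0_1_0, HP_0_0_1_1, 
    HP_0_0_1_2, HP_0_0_1_3, HP_0_0_1_4, HP_0_1_1_0, HP_0_1_1_1, HP_0_1_1_2, HP_0_1_1_3, 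
    HP_0_1_1_4, HP_0_0_2_0, HP_0_0_2_1, HP_0_0_2_2, HP_0_0_2_3, HP_0_0_2_4, HP_0_1_2_0, 
    HP_0_1_2_1, HP_0_1_2_2, HP_0_1_2_3, HP_0_1_2_4, HP_0_2_2_0, HP_0_2_2_1, HP_0_2_2_2, 
    HP_0_2_2_3, HP_0_2_2_4, HP_0_0_3_0, HP_0_0_3_1, HP_0_0_3_2, HP_0_0_3_3, HP_0_0_3_4, 
    HP_0_1_3_0, HP_0_1_3_1, HP_0_1_3_2, HP_0_1_3_3, HP_0_1_3_4, HP_0_2_3_0, HP_0_2_3_1, 
    HP_0_2_3_2, HP_0_2_3_3, HP_0_2_3_4, HP_0_3_3_0, HP_0_3_3_1, HP_0_3_3_2, HP_0_3_3_3, 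
    HP_0_3_3_4, HP_0_0_4_0, HP_0_0_4_1, HP_0_0_4_2, HP_0_0_4_3, HP_0_0_4_4, HP_0_1_4_0, 
    HP_0_1_4_1, HP_0_1_4_2, HP_0_1_4_3, HP_0_1_4_4, HP_0_2_4_0, HP_0_2_4_1, HP_0_2_4_2, 
    HP_0_2_4_3, HP_0_2_4_4, HP_0_3_4_0, HP_0_3_4_1, HP_0_3_4_2, HP_0_3_4_3, HP_0_3_4_4, 
    HP_0_4_4_0, HP_0_4_4_1, HP_0_4_4_2, HP_0_4_4_3, HP_0_4_4_4, HP_0_0_5_0, HP_0_0_5_1, 
    HP_0_0_5_2, HP_0_0_5_3, HP_0_0_5_4, HP_0_1_5_0, HP_0_1_5_1, HP_0_1_5_2, HP_0_1_5_3, 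
    HP_0_1_5_4, HP_0_2_5_0, HP_0_2_5_1, HP_0_2_5_2, HP_0_2_5_3, HP_0_2_5_4, HP_0_3_5_0, 
    HP_0_3_5_1, HP_0_3_5_2, HP_0_3_5_3, HP_0_3_5_4, HP_0_4_5_0, HP_0_4_5_1, HP_0_4_5_2, 
    HP_0_4_5_3, HP_0_4_5_4, HP_0_5_5_0, HP_0_5_5_1, HP_0_5_5_2, HP_0_5_5_3, HP_0_5_5_4, 
    HP_1_0_0_0, HP_1_0_0_1, HP_1_0_0_2, HP_1_0_0_3, HP_1_0_0_4, HP_1_0_1_0, HP_1_0_1_1, 
    HP_1_0_1_2, HP_1_0_1_3, HP_1_0_1_4, HP_1_1_1_0, HP_1_1_1_1, HP_1_1_1_2, HP_1_1_1_3, 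
    HP_1_1_1_4, HP_1_0_2_0, HP_1_0_2_1, HP_1_0_2_2, HP_1_0_2_3, HP_1_0_2_4, HP_1_1_2_0, 
    HP_1_1_2_1, HP_1_1_2_2, HP_1_1_2_3, HP_1_1_2_4, HP_1_2_2_0, HP_1_2_2_1, HP_1_2_2_2, 
    HP_1_2_2_3, HP_1_2_2_4, HP_1_0_3_0, HP_1_0_3_1, HP_1_0_3_2, HP_1_0_3_3, HP_1_0_3_4, 
    HP_1_1_3_0, HP_1_1_3_1, HP_1_1_3_2, HP_1_1_3_3, HP_1_1_3_4, HP_1_2_3_0, HP_1_2_3_1, 
    HP_1_2_3_2, HP_1_2_3_3, HP_1_2_3_4, HP_1_3_3_0, HP_1_3_3_1, HP_1_3_3_2, HP_1_3_3_3, 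
    HP_1_3_3_4, HP_1_0_4_0, HP_1_0_4_1, HP_1_0_4_2, HP_1_0_4_3, HP_1_0_4_4, HP_1_1_4_0, 
    HP_1_1_4_1, HP_1_1_4_2, HP_1_1_4_3, HP_1_1_4_4, HP_1_2_4_0, HP_1_2_4_1, HP_1_2_4_2, 
    HP_1_2_4_3, HP_1_2_4_4, HP_1_3_4_0, HP_1_3_4_1, HP_1_3_4_2, HP_1_3_4_3, HP_1_3_4_4, 
    HP_1_4_4_0, HP_1_4_4_1, HP_1_4_4_2, HP_1_4_4_3, HP_1_4_4_4, HP_1_0_5_0, HP_1_0_5_1, 
    HP_1_0_5_2, HP_1_0_5_3, HP_1_0_5_4, HP_1_1_5_0, HP_1_1_5_1, HP_1_1_5_2, HP_1_1_5_3, 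
    HP_1_1_5_4, HP_1_2_5_0, HP_1_2_5_1, HP_1_2_5_2, HP_1_2_5_3, HP_1_2_5_4, HP_1_3_5_0, 
    HP_1_3_5_1, HP_1_3_5_2, HP_1_3_5_3, HP_1_3_5_4, HP_1_4_5_0, HP_1_4_5_1, HP_1_4_5_2, 
    HP_1_4_5_3, HP_1_4_5_4, HP_1_5_5_0, HP_1_5_5_1, HP_1_5_5_2, HP_1_5_5_3, HP_1_5_5_4, 
    HP_2_0_0_0, HP_2_0_0_1, HP_2_0_0_2, HP_2_0_0_3, HP_2_0_0_4, HP_2_0_1_0, HP_2_0_1_1, 
    HP_2_0_1_2, HP_2_0_1_3, HP_2_0_1_4, HP_2_1_1_0, HP_2_1_1_1, HP_2_1_1_2, HP_2_1_1_3, 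
    HP_2_1_1_4, HP_2_0_2_0, HP_2_0_2_1, HP_2_0_2_2, HP_2_0_2_3, HP_2_0_2_4, HP_2_1_2_0, 
    HP_2_1_2_1, HP_2_1_2_2, HP_2_1_2_3, HP_2_1_2_4, HP_2_2_2_0, HP_2_2_2_1, HP_2_2_2_2, 
    HP_2_2_2_3, HP_2_2_2_4, HP_2_0_3_0, HP_2_0_3_1, HP_2_0_3_2, HP_2_0_3_3, HP_2_0_3_4, 
    HP_2_1_3_0, HP_2_1_3_1, HP_2_1_3_2, HP_2_1_3_3, HP_2_1_3_4, HP_2_2_3_0, HP_2_2_3_1, 
    HP_2_2_3_2, HP_2_2_3_3, HP_2_2_3_4, HP_2_3_3_0, HP_2_3_3_1, HP_2_3_3_2, HP_2_3_3_3, 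
    HP_2_3_3_4, HP_2_0_4_0, HP_2_0_4_1, HP_2_0_4_2, HP_2_0_4_3, HP_2_0_4_4, HP_2_1_4_0, 
    HP_2_1_4_1, HP_2_1_4_2, HP_2_1_4_3, HP_2_1_4_4, HP_2_2_4_0, HP_2_2_4_1, HP_2_2_4_2, 
    HP_2_2_4_3, HP_2_2_4_4, HP_2_3_4_0, HP_2_3_4_1, HP_2_3_4_2, HP_2_3_4_3, HP_2_3_4_4, 
    HP_2_4_4_0, HP_2_4_4_1, HP_2_4_4_2, HP_2_4_4_3, HP_2_4_4_4, HP_2_0_5_0, HP_2_0_5_1, 
    HP_2_0_5_2, HP_2_0_5_3, HP_2_0_5_4, HP_2_1_5_0, HP_2_1_5_1, HP_2_1_5_2, HP_2_1_5_3, 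
    HP_2_1_5_4, HP_2_2_5_0, HP_2_2_5_1, HP_2_2_5_2, HP_2_2_5_3, HP_2_2_5_4, HP_2_3_5_0, 
    HP_2_3_5_1, HP_2_3_5_2, HP_2_3_5_3, HP_2_3_5_4, HP_2_4_5_0, HP_2_4_5_1, HP_2_4_5_2, 
    HP_2_4_5_3, HP_2_4_5_4, HP_2_5_5_0, HP_2_5_5_1, HP_2_5_5_2, HP_2_5_5_3, HP_2_5_5_4, 
    HP_3_0_0_0, HP_3_0_0_1, HP_3_0_0_2, HP_3_0_0_3, HP_3_0_0_4, HP_3_0_1_0, HP_3_0_1_1, 
    HP_3_0_1_2, HP_3_0_1_3, HP_3_0_1_4, HP_3_1_1_0, HP_3_1_1_1, HP_3_1_1_2, HP_3_1_1_3, 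
    HP_3_1_1_4, HP_3_0_2_0, HP_3_0_2_1, HP_3_0_2_2, HP_3_0_2_3, HP_3_0_2_4, HP_3_1_2_0, 
    HP_3_1_2_1, HP_3_1_2_2, HP_3_1_2_3, HP_3_1_2_4, HP_3_2_2_0, HP_3_2_2_1, HP_3_2_2_2, 
    HP_3_2_2_3, HP_3_2_2_4, HP_3_0_3_0, HP_3_0_3_1, HP_3_0_3_2, HP_3_0_3_3, HP_3_0_3_4, 
    HP_3_1_3_0, HP_3_1_3_1, HP_3_1_3_2, HP_3_1_3_3, HP_3_1_3_4, HP_3_2_3_0, HP_3_2_3_1, 
    HP_3_2_3_2, HP_3_2_3_3, HP_3_2_3_4, HP_3_3_3_0, HP_3_3_3_1, HP_3_3_3_2, HP_3_3_3_3, 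
    HP_3_3_3_4, HP_3_0_4_0, HP_3_0_4_1, HP_3_0_4_2, HP_3_0_4_3, HP_3_0_4_4, HP_3_1_4_0, 
    HP_3_1_4_1, HP_3_1_4_2, HP_3_1_4_3, HP_3_1_4_4, HP_3_2_4_0, HP_3_2_4_1, HP_3_2_4_2, 
    HP_3_2_4_3, HP_3_2_4_4, HP_3_3_4_0, HP_3_3_4_1, HP_3_3_4_2, HP_3_3_4_3, HP_3_3_4_4, 
    HP_3_4_4_0, HP_3_4_4_1, HP_3_4_4_2, HP_3_4_4_3, HP_3_4_4_4, HP_3_0_5_0, HP_3_0_5_1, 
    HP_3_0_5_2, HP_3_0_5_3, HP_3_0_5_4, HP_3_1_5_0, HP_3_1_5_1, HP_3_1_5_2, HP_3_1_5_3, 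
    HP_3_1_5_4, HP_3_2_5_0, HP_3_2_5_1, HP_3_2_5_2, HP_3_2_5_3, HP_3_2_5_4, HP_3_3_5_0, 
    HP_3_3_5_1, HP_3_3_5_2, HP_3_3_5_3, HP_3_3_5_4, HP_3_4_5_0, HP_3_4_5_1, HP_3_4_5_2, 
    HP_3_4_5_3, HP_3_4_5_4, HP_3_5_5_0, HP_3_5_5_1, HP_3_5_5_2, HP_3_5_5_3, HP_3_5_5_4, 
    HP_4_0_0_0, HP_4_0_0_1, HP_4_0_0_2, HP_4_0_0_3, HP_4_0_0_4, HP_4_0_1_0, HP_4_0_1_1, 
    HP_4_0_1_2, HP_4_0_1_3, HP_4_0_1_4, HP_4_1_1_0, HP_4_1_1_1, HP_4_1_1_2, HP_4_1_1_3, 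
    HP_4_1_1_4, HP_4_0_2_0, HP_4_0_2_1, HP_4_0_2_2, HP_4_0_2_3, HP_4_0_2_4, HP_4_1_2_0, 
    HP_4_1_2_1, HP_4_1_2_2, HP_4_1_2_3, HP_4_1_2_4, HP_4_2_2_0, HP_4_2_2_1, HP_4_2_2_2, 
    HP_4_2_2_3, HP_4_2_2_4, HP_4_0_3_0, HP_4_0_3_1, HP_4_0_3_2, HP_4_0_3_3, HP_4_0_3_4, 
    HP_4_1_3_0, HP_4_1_3_1, HP_4_1_3_2, HP_4_1_3_3, HP_4_1_3_4, HP_4_2_3_0, HP_4_2_3_1, 
    HP_4_2_3_2, HP_4_2_3_3, HP_4_2_3_4, HP_4_3_3_0, HP_4_3_3_1, HP_4_3_3_2, HP_4_3_3_3, 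
    HP_4_3_3_4, HP_4_0_4_0, HP_4_0_4_1, HP_4_0_4_2, HP_4_0_4_3, HP_4_0_4_4, HP_4_1_4_0, 
    HP_4_1_4_1, HP_4_1_4_2, HP_4_1_4_3, HP_4_1_4_4, HP_4_2_4_0, HP_4_2_4_1, HP_4_2_4_2, 
    HP_4_2_4_3, HP_4_2_4_4, HP_4_3_4_0, HP_4_3_4_1, HP_4_3_4_2, HP_4_3_4_3, HP_4_3_4_4, 
    HP_4_4_4_0, HP_4_4_4_1, HP_4_4_4_2, HP_4_4_4_3, HP_4_4_4_4, HP_4_0_5_0, HP_4_0_5_1, 
    HP_4_0_5_2, HP_4_0_5_3, HP_4_0_5_4, HP_4_1_5_0, HP_4_1_5_1, HP_4_1_5_2, HP_4_1_5_3, 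
    HP_4_1_5_4, HP_4_2_5_0, HP_4_2_5_1, HP_4_2_5_2, HP_4_2_5_3, HP_4_2_5_4, HP_4_3_5_0, 
    HP_4_3_5_1, HP_4_3_5_2, HP_4_3_5_3, HP_4_3_5_4, HP_4_4_5_0, HP_4_4_5_1, HP_4_4_5_2, 
    HP_4_4_5_3, HP_4_4_5_4, HP_4_5_5_0, HP_4_5_5_1, HP_4_5_5_2, HP_4_5_5_3, HP_4_5_5_4, 
    HP_5_0_0_0, HP_5_0_0_1, HP_5_0_0_2, HP_5_0_0_3, HP_5_0_0_4, HP_5_0_1_0, HP_5_0_1_1, 
    HP_5_0_1_2, HP_5_0_1_3, HP_5_0_1_4, HP_5_1_1_0, HP_5_1_1_1, HP_5_1_1_2, HP_5_1_1_3, 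
    HP_5_1_1_4, HP_5_0_2_0, HP_5_0_2_1, HP_5_0_2_2, HP_5_0_2_3, HP_5_0_2_4, HP_5_1_2_0, 
    HP_5_1_2_1, HP_5_1_2_2, HP_5_1_2_3, HP_5_1_2_4, HP_5_2_2_0, HP_5_2_2_1, HP_5_2_2_2, 
    HP_5_2_2_3, HP_5_2_2_4, HP_5_0_3_0, HP_5_0_3_1, HP_5_0_3_2, HP_5_0_3_3, HP_5_0_3_4, 
    HP_5_1_3_0, HP_5_1_3_1, HP_5_1_3_2, HP_5_1_3_3, HP_5_1_3_4, HP_5_2_3_0, HP_5_2_3_1, 
    HP_5_2_3_2, HP_5_2_3_3, HP_5_2_3_4, HP_5_3_3_0, HP_5_3_3_1, HP_5_3_3_2, HP_5_3_3_3, 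
    HP_5_3_3_4, HP_5_0_4_0, HP_5_0_4_1, HP_5_0_4_2, HP_5_0_4_3, HP_5_0_4_4, HP_5_1_4_0, 
    HP_5_1_4_1, HP_5_1_4_2, HP_5_1_4_3, HP_5_1_4_4, HP_5_2_4_0, HP_5_2_4_1, HP_5_2_4_2, 
    HP_5_2_4_3, HP_5_2_4_4, HP_5_3_4_0, HP_5_3_4_1, HP_5_3_4_2, HP_5_3_4_3, HP_5_3_4_4, 
    HP_5_4_4_0, HP_5_4_4_1, HP_5_4_4_2, HP_5_4_4_3, HP_5_4_4_4, HP_5_0_5_0, HP_5_0_5_1, 
    HP_5_0_5_2, HP_5_0_5_3, HP_5_0_5_4, HP_5_1_5_0, HP_5_1_5_1, HP_5_1_5_2, HP_5_1_5_3, 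
    HP_5_1_5_4, HP_5_2_5_0, HP_5_2_5_1, HP_5_2_5_2, HP_5_2_5_3, HP_5_2_5_4, HP_5_3_5_0, 
    HP_5_3_5_1, HP_5_3_5_2, HP_5_3_5_3, HP_5_3_5_4, HP_5_4_5_0, HP_5_4_5_1, HP_5_4_5_2, 
    HP_5_4_5_3, HP_5_4_5_4, HP_5_5_5_0, HP_5_5_5_1, HP_5_5_5_2, HP_5_5_5_3, HP_5_5_5_4]
    

theorem allE : ∀ i < 6, ∀ m < 6, ∀ j ≤ m, HE i j m
    ⟨gl i, gh (i + 1), gl j, gh (j + 1), l3 j m, gh (m + 1), 0, 0⟩ := by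
  intro i hi m hm j hj
  interval_cases i <;> interval_cases m <;> interval_cases j
  exacts [HE_0_0_0, HE_0_0_1, HE_0_1_1, HE_0_0_2, HE_0_1_2, HE_0_2_2, HE_0_0_3, HE_0_1_3, HE_0_2_3, 
    HE_0_3_3, HE_0_0_4, HE_0_1_4, HE_0_2_4, HE_0_3_4, HE_0_4_4, HE_0_0_5, HE_0_1_5, HE_0_2_5, 
    HE_0_3_5, HE_0_4_5, HE_0_5_5, HE_1_0_0, HE_1_0_1, HE_1_1_1, HE_1_0_2, HE_1_1_2, HE_1_2_2, 
    HE_1_0_3, HE_1_1_3, HE_1_2_3, HE_1_3_3, HE_1_0_4, HE_1_1_4, HE_1_2_4, HE_1_3_4, HE_1_4_4, 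
    HE_1_0_5, HE_1_1_5, HE_1_2_5, HE_1_3_5, HE_1_4_5, HE_1_5_5, HE_2_0_0, HE_2_0_1, HE_2_1_1, 
    HE_2_0_2, HE_2_1_2, HE_2_2_2, HE_2_0_3, HE_2_1_3, HE_2_2_3, HE_2_3_3, HE_2_0_4, HE_2_1_4, 
    HE_2_2_4, HE_2_3_4, HE_2_4_4, HE_2_0_5, HE_2_1_5, HE_2_2_5, HE_2_3_5, HE_2_4_5, HE_2_5_5, 
    HE_3_0_0, HE_3_0_1, HE_3_1_1, HE_3_0_2, HE_3_1_2, HE_3_2_2, HE_3_0_3, HE_3_1_3, HE_3_2_3, 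
    HE_3_3_3, HE_3_0_4, HE_3_1_4, HE_3_2_4, HE_3_3_4, HE_3_4_4, HE_3_0_5, HE_3_1_5, HE_3_2_5, 
    HE_3_3_5, HE_3_4_5, HE_3_5_5, HE_4_0_0, HE_4_0_1, HE_4_1_1, HE_4_0_2, HE_4_1_2, HE_4_2_2, 
    HE_4_0_3, HE_4_1_3, HE_4_2_3, HE_4_3_3, HE_4_0_4, HE_4_1_4, HE_4_2_4, HE_4_3_4, HE_4_4_4, 
    HE_4_0_5, HE_4_1_5, HE_4_2_5, HE_4_3_5, HE_4_4_5, HE_4_5_5, HE_5_0_0, HE_5_0_1, HE_5_1_1, 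
    HE_5_0_2, HE_5_1_2, HE_5_2_2, HE_5_0_3, HE_5_1_3, HE_5_2_3, HE_5_3_3, HE_5_0_4, HE_5_1_4, 
    HE_5_2_4, HE_5_3_4, HE_5_4_4, HE_5_0_5, HE_5_1_5, HE_5_2_5, HE_5_3_5, HE_5_4_5, HE_5_5_5]
    

theorem allU : ∀ m < 6, ∀ j ≤ m, HU j m ⟨gl j, gh (j + 1), l3 j m, gh (m + 1), 0, 0, 0, 0⟩ := by
  intro m hm j hj
  interval_cases m <;> interval_cases j
  exacts [HU_0_0, HU_0_1, HU_1_1, HU_0_2, HU_1_2, HU_2_2, HU_0_3, HU_1_3, HU_2_3, HU_3_3, HU_0_4, 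
    HU_1_4, HU_2_4, HU_3_4, HU_4_4, HU_0_5, HU_1_5, HU_2_5, HU_3_5, HU_4_5, HU_5_5]

theorem allT : ∀ i ∈ [2, 3], ∀ m ∈ [2, 3], ∀ j ∈ [2, 3], j ≤ m → ∀ p < 5, ∀ fr fk fl, Face fr fk fl →
    HT i j m p fr fk fl ⟨0, 46170898432, 0, 1099511627776, 0, 1099511627776, tl p, th (p + 1)⟩ := by
  intro i hi m hm j hj hjm
  have hi2 : 2 ≤ i ∧ i ≤ 3 := by simp at hi; omega
  have hm2 : 2 ≤ m ∧ m ≤ 3 := by simp at hm; omega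
  have hj2 : 2 ≤ j := by simp at hj; omega
  obtain ⟨a1, a2⟩ := hi2
  obtain ⟨b1, b2⟩ := hm2
  intro p hp fr fk fl hf
  interval_cases i <;> interval_cases m <;> interval_cases j <;> interval_cases p <;>
    rcases hf with ⟨rfl, rfl, rfl⟩ | ⟨rfl, rfl, rfl⟩ | ⟨rfl, rfl, rfl⟩
  exacts [HT_2_2_2_0_t_f_f, HT_2_2_2_0_f_t_f, HT_2_2_2_0_f_f_t, HT_2_2_2_1_t_f_f, HT_2_2_2_1_f_t_f, 
    HT_2_2_2_1_f_f_t, HT_2_2_2_2_t_f_f, HT_2_2_2_2_f_t_f, HT_2_2_2_2_f_f_t, HT_2_2_2_3_t_f_f, 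
    HT_2_2_2_3_f_t_f, HT_2_2_2_3_f_f_t, HT_2_2_2_4_t_f_f, HT_2_2_2_4_f_t_f, HT_2_2_2_4_f_f_t, 
    HT_2_2_3_0_t_f_f, HT_2_2_3_0_f_t_f, HT_2_2_3_0_f_f_t, HT_2_2_3_1_t_f_f, HT_2_2_3_1_f_t_f, 
    HT_2_2_3_1_f_f_t, HT_2_2_3_2_t_f_f, HT_2_2_3_2_f_t_f, HT_2_2_3_2_f_f_t, HT_2_2_3_3_t_f_f, 
    HT_2_2_3_3_f_t_f, HT_2_2_3_3_f_f_t, HT_2_2_3_4_t_f_f, HT_2_2_3_4_f_t_f, HT_2_2_3_4_f_f_t, 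
    HT_2_3_3_0_t_f_f, HT_2_3_3_0_f_t_f, HT_2_3_3_0_f_f_t, HT_2_3_3_1_t_f_f, HT_2_3_3_1_f_t_f, 
    HT_2_3_3_1_f_f_t, HT_2_3_3_2_t_f_f, HT_2_3_3_2_f_t_f, HT_2_3_3_2_f_f_t, HT_2_3_3_3_t_f_f, 
    HT_2_3_3_3_f_t_f, HT_2_3_3_3_f_f_t, HT_2_3_3_4_t_f_f, HT_2_3_3_4_f_t_f, HT_2_3_3_4_f_f_t, 
    HT_3_2_2_0_t_f_f, HT_3_2_2_0_f_t_f, HT_3_2_2_0_f_f_t, HT_3_2_2_1_t_f_f, HT_3_2_2_1_f_t_f, 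
    HT_3_2_2_1_f_f_t, HT_3_2_2_2_t_f_f, HT_3_2_2_2_f_t_f, HT_3_2_2_2_f_f_t, HT_3_2_2_3_t_f_f, 
    HT_3_2_2_3_f_t_f, HT_3_2_2_3_f_f_t, HT_3_2_2_4_t_f_f, HT_3_2_2_4_f_t_f, HT_3_2_2_4_f_f_t, 
    HT_3_2_3_0_t_f_f, HT_3_2_3_0_f_t_f, HT_3_2_3_0_f_f_t, HT_3_2_3_1_t_f_f, HT_3_2_3_1_f_t_f, 
    HT_3_2_3_1_f_f_t, HT_3_2_3_2_t_f_f, HT_3_2_3_2_f_t_f, HT_3_2_3_2_f_f_t, HT_3_2_3_3_t_f_f, 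
    HT_3_2_3_3_f_t_f, HT_3_2_3_3_f_f_t, HT_3_2_3_4_t_f_f, HT_3_2_3_4_f_t_f, HT_3_2_3_4_f_f_t, 
    HT_3_3_3_0_t_f_f, HT_3_3_3_0_f_t_f, HT_3_3_3_0_f_f_t, HT_3_3_3_1_t_f_f, HT_3_3_3_1_f_t_f, 
    HT_3_3_3_1_f_f_t, HT_3_3_3_2_t_f_f, HT_3_3_3_2_f_t_f, HT_3_3_3_2_f_f_t, HT_3_3_3_3_t_f_f, 
    HT_3_3_3_3_f_t_f, HT_3_3_3_3_f_f_t, HT_3_3_3_4_t_f_f, HT_3_3_3_4_f_t_f, HT_3_3_3_4_f_f_t]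
    

theorem allTE : ∀ i ∈ [2, 3], ∀ m ∈ [2, 3], ∀ j ∈ [2, 3], j ≤ m → ∀ fr fk fl, Face fr fk fl →
    HTE i j m fr fk fl ⟨0, 46170898432, 0, 1099511627776, 0, 1099511627776, 0, 0⟩ := by
  intro i hi m hm j hj hjm
  have hi2 : 2 ≤ i ∧ i ≤ 3 := by simp at hi; omega
  have hm2 : 2 ≤ m ∧ m ≤ 3 := by simp at hm; omega
  have hj2 : 2 ≤ j := by simp at hj; omega
  obtain ⟨a1, a2⟩ := hi2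
  obtain ⟨b1, b2⟩ := hm2
  intro fr fk fl hf
  interval_cases i <;> interval_cases m <;> interval_cases j <;>
    rcases hf with ⟨rfl, rfl, rfl⟩ | ⟨rfl, rfl, rfl⟩ | ⟨rfl, rfl, rfl⟩
  exacts [HTE_2_2_2_t_f_f, HTE_2_2_2_f_t_f, HTE_2_2_2_f_f_t, HTE_2_2_3_t_f_f, HTE_2_2_3_f_t_f, 
    HTE_2_2_3_f_f_t, HTE_2_3_3_t_f_f, HTE_2_3_3_f_t_f, HTE_2_3_3_f_f_t, HTE_3_2_2_t_f_f, 
    HTE_3_2_2_f_t_f, HTE_3_2_2_f_f_t, HTE_3_2_3_t_f_f, HTE_3_2_3_f_t_f, HTE_3_2_3_f_f_t, 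
    HTE_3_3_3_t_f_f, HTE_3_3_3_f_t_f, HTE_3_3_3_f_f_t]

theorem allTU : ∀ m ∈ [2, 3], ∀ j ∈ [2, 3], j ≤ m → ∀ fk,
    HTU j m fk ⟨0, 46170898432, 0, 1099511627776, 0, 0, 0, 0⟩ := by
  intro m hm j hj hjm fk
  have hm2 : 2 ≤ m ∧ m ≤ 3 := by simp at hm; omega
  have hj2 : 2 ≤ j := by simp at hj; omega
  obtain ⟨b1, b2⟩ := hm2
  interval_cases m <;> interval_cases j <;> cases fk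
  exacts [HTU_2_2_f, HTU_2_2_t, HTU_2_3_f, HTU_2_3_t, HTU_3_3_f, HTU_3_3_t]

theorem allO : ∀ p < 5, ∀ fr fk fl, Face fr fk fl →
    HO p fr fk fl ⟨0, 34896609280, 0, 1099511627776, 0, 1099511627776, tl p, th (p + 1)⟩ := by
  intro p hp fr fk fl hf
  interval_cases p <;> rcases hf with ⟨rfl, rfl, rfl⟩ | ⟨rfl, rfl, rfl⟩ | ⟨rfl, rfl, rfl⟩
  exacts [HO_0_t_f_f, HO_0_f_t_f, HO_0_f_f_t, HO_1_t_f_f, HO_1_f_t_f, HO_1_f_f_t, HO_2_t_f_f, 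
    HO_2_f_t_f, HO_2_f_f_t, HO_3_t_f_f, HO_3_f_t_f, HO_3_f_f_t, HO_4_t_f_f, HO_4_f_t_f, 
    HO_4_f_f_t]

theorem allOE : ∀ fr fk fl, Face fr fk fl → HOE fr fk fl ⟨0, 34896609280, 0, 1099511627776, 0, 1099511627776, 0, 0⟩ := by
  intro fr fk fl hf
  rcases hf with ⟨rfl, rfl, rfl⟩ | ⟨rfl, rfl, rfl⟩ | ⟨rfl, rfl, rfl⟩
  exacts [HOE_t_f_f, HOE_f_t_f, HOE_f_f_t]

theorem mkIn {a b c d e f g h : ℤ} {x y z w : ℝ} (h1 : (a : ℝ) ≤ x * S ∧ x * S ≤ b)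
    (h2 : (c : ℝ) ≤ y * S ∧ y * S ≤ d) (h3 : (e : ℝ) ≤ z * S ∧ z * S ≤ f)
    (h4 : (g : ℝ) ≤ w * S ∧ w * S ≤ h) : Bx.In ⟨a, b, c, d, e, f, g, h⟩ x y z w :=
  ⟨h1.1, h1.2, h2.1, h2.2, h3.1, h3.2, h4.1, h4.2⟩

theorem inC_box3 (j : ℕ) {m : ℕ} (hm : m < 6) {x : ℝ} (h : InC m x) :
    (l3 j m : ℝ) ≤ x * S ∧ x * S ≤ (gh (m + 1) : ℝ) :=
  ⟨(l3_le j hm).trans (inC_box hm h).1, (inC_box hm h).2⟩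

theorem checks : Checks cf pq where
  cP i hi m hm j hj p hp r k l T hr hk hl hT := by
    have h := allP i hi m hm j hj p hp r k l T (mkIn (inC_box hi hr) (inC_box (by omega) hk)
      (inC_box3 j hm hl) (inT_box hp hT))
    exact h.imp (fun h => by rwa [tPE_val] at h) skip3
  cE i hi m hm j hj r k l hr hk hl := by
    have h := allE i hi m hm j hj r k l 0 (mkIn (inC_box hi hr) (inC_box (by omega) hk)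
      (inC_box3 j hm hl) z_box)
    exact h.imp (fun h => by rwa [tEE_val] at h) skip3
  cU m hm j hj k l hk hl := by
    have h := allU m hm j hj k l 0 0 (mkIn (inC_box (by omega) hk) (inC_box3 j hm hl) z_box z_box)
    exact h.imp (fun h => by rwa [tUE_val] at h) skip2
  cT i hi m hm j hj hjm p hp fr fk fl hf s x y T h0 h1 hx hy hT := by
    have h := noskip (allT i hi m hm j hj hjm p hp fr fk fl hf s x y T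
      (mkIn (st_box h0 h1) (u01_box hx) (u01_box hy) (inT_box hp hT)))
    rwa [tTE_val] at h
  cTE i hi m hm j hj hjm fr fk fl hf s x y h0 h1 hx hy := by
    have h := noskip (allTE i hi m hm j hj hjm fr fk fl hf s x y 0
      (mkIn (st_box h0 h1) (u01_box hx) (u01_box hy) z_box))
    rwa [tTEE_val] at h
  cTU m hm j hj hjm fk s x h0 h1 hx := by
    have h := noskip (allTU m hm j hj hjm fk s x 0 0 (mkIn (st_box h0 h1) (u01_box hx) z_box z_box))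
    rwa [tTUE_val] at h
  cO p hp fr fk fl hf s x y T h0 h1 hx hy hT := by
    have h := noskip (allO p hp fr fk fl hf s x y T
      (mkIn (so_box h0 h1) (u01_box hx) (u01_box hy) (inT_box hp hT)))
    rwa [tOE_val] at h
  cOE fr fk fl hf s x y h0 h1 hx hy := by
    have h := noskip (allOE fr fk fl hf s x y 0
      (mkIn (so_box h0 h1) (u01_box hx) (u01_box hy) z_box))
    rwa [tOEE_val] at h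

theorem cert_exists (g : ℚ) (hg : 1 + 2 / Real.exp 1 < (g : ℝ)) :
    ∃ (Kn : Kernel) (A g1 : ℚ), 0 ≤ A ∧ Cert Kn g A g1 := cert_of_checks tabOK checks g hg

end Crest.Agent.R310.Bx
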