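import Crest.Agent.R310.BxC
import Crest.Agent.R310.BxD
import Crest.Agent.R310.BxE
import Crest.Agent.R310.BxF

/-! Row 310: assembly of (P). -/

set_option autoImplicit false
set_option linter.dupNamespace false

namespace Crest.Agent.R310.Bx

open Finset Crest.Agent.Lib.IBox

private theorem h48_ratio {u s : ℝ} (h0 : 0 ≤ u) (h : u ≤ s) : ∃ x, U01 x ∧ u = s * x := by
  rcases (h0.trans h).eq_or_lt with hs | hs
  · exact ⟨0, ⟨le_rfl, zero_le_one⟩, by linarith⟩
  · exact ⟨u / s, ⟨div_nonneg h0 hs.le, (div_le_one hs).2 h⟩, by field_simp⟩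

/-- blow-up coordinates -/
private theorem h48_face {A B C S : ℝ} (hA : 0 ≤ A) (hB : 0 ≤ B) (hC : 0 ≤ C) (hA' : A ≤ S)
    (hB' : B ≤ S) (hC' : C ≤ S) : ∃ (s x y a b c : ℝ) (fr fk fl : Bool), 0 ≤ s ∧ s ≤ S ∧
      Face fr fk fl ∧ U01 x ∧ U01 y ∧ U01 a ∧ U01 b ∧ U01 c ∧ A = s * a ∧ B = s * b ∧ C = s * c ∧
      (∀ z : ℝ, cond fr z (z * x) = z * a) ∧
      (∀ z : ℝ, cond fk z (cond fr (z * x) (z * y)) = z * b) ∧
      ∀ z : ℝ, cond fl z (z * y) = z * c := by
  have h1 : U01 1 := ⟨zero_le_one, le_rfl⟩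
  by_cases h : B ≤ A ∧ C ≤ A
  · obtain ⟨x, hx, ex⟩ := h48_ratio hB h.1
    obtain ⟨y, hy, ey⟩ := h48_ratio hC h.2
    exact ⟨A, x, y, 1, x, y, true, false, false, hA, hA', Or.inl ⟨rfl, rfl, rfl⟩, hx, hy, h1, hx, hy,
      (mul_one _).symm, ex, ey, fun z => (mul_one z).symm, fun _ => rfl, fun _ => rfl⟩
  · rcases le_total C B with h' | h'
    · have h2 : A ≤ B := by
        by_contra hc
        exact h ⟨(not_le.1 hc).le, h'.trans (not_le.1 hc).le⟩
      obtain ⟨x, hx, ex⟩ := h48_ratio hA h2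
      obtain ⟨y, hy, ey⟩ := h48_ratio hC h'
      exact ⟨B, x, y, x, 1, y, false, true, false, hB, hB', Or.inr (Or.inl ⟨rfl, rfl, rfl⟩), hx, hy,
        hx, h1, hy, ex, (mul_one _).symm, ey, fun _ => rfl, fun z => (mul_one z).symm, fun _ => rfl⟩
    · have h2 : A ≤ C := by
        by_contra hc
        exact h ⟨h'.trans (not_le.1 hc).le, (not_le.1 hc).le⟩
      obtain ⟨x, hx, ex⟩ := h48_ratio hA h2
      obtain ⟨y, hy, ey⟩ := h48_ratio hB h'
      exact ⟨C, x, y, x, y, 1, false, false, true, hC, hC', Or.inr (Or.inr ⟨rfl, rfl, rfl⟩), hx, hy,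
        hx, hy, h1, ex, ey, (mul_one _).symm, fun _ => rfl, fun _ => rfl, fun z => (mul_one z).symm⟩

private theorem h48_sg (i : ℕ) {a : ℝ} (ha : U01 a) : |(sgZ i : ℝ) * a| ≤ 1 := by
  unfold sgZ
  rw [abs_le]
  split_ifs <;> push_cast <;> constructor <;> linarith [ha.1, ha.2]

theorem hP_of_checks {cf : ℕ → ℕ → Cf} {P : ℕ → List ℤ} (hT : TabOK cf P) (hC : Checks cf P)
    {r k l t μ ν : ℝ} (hr0 : 0 < r) (hr : r ≤ 7 / 12) (hk0 : 0 < k) (hkl : k ≤ l) (hl : l ≤ 7 / 12)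
    (h0 : tq 0 ≤ t) (h1 : t ≤ 0) (hμ : Cand r k μ) (hν : Cand r l ν) :
    0 ≤ sideT (cf (idx r) (idx k)) (cf (idx k) (idx l)) r k l t μ +
      sideT (cf (idx r) (idx l)) (cf (idx l) (idx k)) r l k t ν := by
  obtain ⟨p, hp, hpT⟩ := exists_inT h0 h1
  have hP := (inP_of_inT hp hpT).1
  have hl0 : 0 < l := hk0.trans_le hkl
  have hk : k ≤ 7 / 12 := hkl.trans hl
  have cr := inC_idx hr0.le hr
  have ck := inC_idx hk0.le hk
  have cl := inC_idx hl0.le hl
  have mkl := mono_of_corner (hT.corner _ (idx_lt k) _ (idx_lt l)) ck cl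
  have mlk := mono_of_corner (hT.corner _ (idx_lt l) _ (idx_lt k)) cl ck
  rcases hC.cP _ (idx_lt r) _ (idx_lt l) _ (idx_mono hkl) p hp r k l _ cr ck cl hpT with
    h | h | ⟨nr, nk, nl⟩ | ⟨nr, nk, nl⟩
  · simp only [tPR, Real.log_exp] at h
    exact h.le.trans (add_le_add
      (side_le _ _ _ _ hP h1 hr0.le hr hk0.le hk mkl (dpB_le cr ck) (dnB_le cr ck) hμ)
      (side_le _ _ _ _ hP h1 hr0.le hr hl0.le hl mlk (dpB_le cr cl) (dnB_le cr cl) hν))
  · exact absurd h (not_lt.2 hkl)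
  · obtain ⟨s, x, y, a, b, c, fr, fk, fl, hs0, hs, hf, hx, hy, ha, hb, hc, ea, eb, ec, f1, f2, f3⟩ :=
      h48_face (abs_nonneg _) (abs_nonneg _) (abs_nonneg _) (le_of_lt nr) (le_of_lt nk) (le_of_lt nl)
    obtain ⟨ir, er⟩ := idx_near nr
    obtain ⟨ik, ek⟩ := idx_near nk
    obtain ⟨il, el⟩ := idx_near nl
    have h := hC.cT _ ir _ il _ ik (idx_mono hkl) p hp fr fk fl hf s x y _ hs0 hs hx hy hpT
    simp only [tTR, Real.log_exp, f1, f2, f3] at h
    have tr := h48_sg (idx r) ha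
    have tk := h48_sg (idx k) hb
    have tl := h48_sg (idx l) hc
    have t1 := hT.tip _ ir _ ik
    have t2 := hT.tip _ ik _ il
    have t3 := hT.tip _ ir _ il
    have t4 := hT.tip _ il _ ik
    have d1 := dpB_le cr ck
    have d2 := dnB_le cr ck
    have d3 := dpB_le cr cl
    have d4 := dnB_le cr cl
    rw [ea, mul_left_comm] at er
    rw [eb, mul_left_comm] at ek
    rw [ec, mul_left_comm] at el
    generalize (sgZ (idx r) : ℝ) * a = a' at er h tr
    generalize (sgZ (idx k) : ℝ) * b = b' at ek h tk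
    generalize (sgZ (idx l) : ℝ) * c = c' at el h tl
    generalize idx r = i at *
    generalize idx k = j at *
    generalize idx l = m at *
    subst er ek el
    refine le_trans ?_ (add_le_add
      (tside_le t1 t2 (dpB i j) (dnB i j) hP h1 hs0 hs tr tk mkl
        (fun e => by linarith [d1 e]) (fun e => by linarith [d2 e]) hμ)
      (tside_le t3 t4 (dpB i m) (dnB i m) hP h1 hs0 hs tr tl mlk
        (fun e => by linarith [d3 e]) (fun e => by linarith [d4 e]) hν))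
    rw [← mul_add]
    exact mul_nonneg hs0 h.le
  · obtain ⟨s, x, y, a, b, c, fr, fk, fl, hs0, hs, hf, hx, hy, ha, hb, hc, ea, eb, ec, f1, f2, f3⟩ :=
      h48_face hr0.le hk0.le hl0.le nr.le nk.le nl.le
    have h := hC.cO p hp fr fk fl hf s x y _ hs0 hs hx hy hpT
    simp only [tOR, Real.log_exp, f1, f2, f3] at h
    simp only [Int.cast_one, one_mul] at h
    rw [idx_org nk, idx_org nl] at mkl mlk
    rw [idx_org nr, idx_org nk, idx_org nl]
    subst ea eb ec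
    refine le_trans ?_ (add_le_add (oside_le hT.org hP h1 hs0 hs ha hb mkl hμ)
      (oside_le hT.org hP h1 hs0 hs ha hc mlk hν))
    rw [← mul_add]
    exact mul_nonneg hs0 h.le

end Crest.Agent.R310.Bx
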