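import Crest.Agent.R310.Closed

/-! Row 310: exact zone formulas and the signed lower bound of the gain (weight one). -/

set_option autoImplicit false
set_option linter.dupNamespace false

namespace Crest.Agent.R310

open MeasureTheory

/-- tangent inequality for the primitive of a monotone function -/
theorem Prim.tangent {φ Φ : ℝ → ℝ} (h : Prim φ Φ) {τ0 τ1 x τ : ℝ}
    (hm : MonotoneOn φ (Set.Icc τ0 τ1)) (hx : τ0 ≤ x) (hx1 : x ≤ τ1) (h0 : τ0 ≤ τ) (h1 : τ ≤ τ1) :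
    Φ τ + (x - τ) * φ τ ≤ Φ x := by
  have e : Φ x - Φ τ - (x - τ) * φ τ = ∫ σ in τ..x, (φ σ - φ τ) := by
    rw [intervalIntegral.integral_sub (h.cont.intervalIntegrable _ _) intervalIntegrable_const, h.int,
      intervalIntegral.integral_const, smul_eq_mul]
  have : 0 ≤ ∫ σ in τ..x, (φ σ - φ τ) := by
    rcases le_total τ x with h2 | h2
    · exact intervalIntegral.integral_nonneg h2 fun s hs =>
        sub_nonneg.2 (hm ⟨h0, h1⟩ ⟨h0.trans hs.1, hs.2.trans hx1⟩ hs.1)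
    · rw [intervalIntegral.integral_symm, ← intervalIntegral.integral_neg]
      exact intervalIntegral.integral_nonneg h2 fun s hs => by
        have := hm ⟨hx.trans hs.1, hs.2.trans h1⟩ ⟨h0, h1⟩ hs.2
        linarith
  linarith

/-- upper end of the payment window -/
noncomputable def yEnd (τ lam μ : ℝ) : ℝ := lam - max 0 (min 1 (μ - τ))

theorem yEnd_ge {τ0 τ lam μ : ℝ} (h0 : τ0 ≤ τ) (hl : τ0 ≤ lam) (hμ : μ ≤ lam) :
    max (lam - 1) τ0 ≤ yEnd τ lam μ := by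
  rw [yEnd]
  refine max_le (by linarith [max_le zero_le_one (min_le_left 1 (μ - τ))]) ?_
  rcases le_total (μ - τ) 0 with h | h
  · rw [max_eq_left ((min_le_right _ _).trans h)]
    linarith
  · have := max_le h (min_le_right 1 (μ - τ))
    linarith

theorem yEnd_eq {τ lam μ : ℝ} (h : μ - 1 ≤ τ) : yEnd τ lam μ = lam + τ - max μ τ := by
  rw [yEnd, min_eq_right (by linarith)]
  rcases le_total μ τ with h1 | h1
  · rw [max_eq_left (by linarith), max_eq_right h1]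
    ring
  · rw [max_eq_right (by linarith), max_eq_left h1]
    ring

theorem yEnd_ge' (τ lam μ : ℝ) : lam + τ - max μ τ ≤ yEnd τ lam μ := by
  rw [yEnd]
  have h1 := le_max_left μ τ
  have h2 := le_max_right μ τ
  have := max_le (show 0 ≤ max μ τ - τ by linarith)
    ((min_le_right 1 (μ - τ)).trans (show μ - τ ≤ max μ τ - τ by linarith))
  linarith

/-- the exact gain with the frozen primitive, in terms of the two ends of the window -/
theorem gainV_one' {φ Φ : ℝ → ℝ} (h : Prim φ Φ) (c τ0 τ lam μ : ℝ) :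
    gainV (fun _ => 1) φ c τ0 τ lam μ = frz φ Φ τ (yEnd τ lam μ) - frz φ Φ τ (max (lam - 1) τ0) -
      c * (yEnd τ lam μ - max (lam - 1) τ0) := by
  rw [gainV_one h, ← sub_min_one, yEnd]
  ring

/-- exact gain through the median `x = max u (min τ y)` -/
theorem gainV_med {φ Φ : ℝ → ℝ} (h : Prim φ Φ) (c : ℝ) {τ0 τ lam μ : ℝ} (h0 : τ0 ≤ τ)
    (hl : τ0 ≤ lam) (hμ : μ ≤ lam) :
    gainV (fun _ => 1) φ c τ0 τ lam μ =
      Φ (max (max (lam - 1) τ0) (min τ (yEnd τ lam μ))) - Φ (max (lam - 1) τ0) +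
        φ τ * (yEnd τ lam μ - max (max (lam - 1) τ0) (min τ (yEnd τ lam μ))) -
        c * (yEnd τ lam μ - max (lam - 1) τ0) := by
  have hy := yEnd_ge h0 hl hμ
  rw [gainV_one' h]
  generalize yEnd τ lam μ = y at hy ⊢
  generalize max (lam - 1) τ0 = u at hy ⊢
  rcases le_total τ u with h1 | h1
  · rw [frz_of_ge _ _ h1, frz_of_ge _ _ (h1.trans hy), max_eq_left ((min_le_left _ _).trans h1)]
    ring
  · rw [frz_of_le _ _ h1]
    rcases le_total τ y with h2 | h2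
    · rw [frz_of_ge _ _ h2, min_eq_left h2, max_eq_right h1]
      ring
    · rw [frz_of_le _ _ h2, min_eq_right h2, max_eq_right hy]
      ring

/-- lower bound with the exact upper end, valid for every `τ` -/
theorem gainV_ge_y {φ Φ : ℝ → ℝ} (h : Prim φ Φ) (c : ℝ) {τ0 τ1 τ lam μ : ℝ}
    (hm : MonotoneOn φ (Set.Icc τ0 τ1)) (h0 : τ0 ≤ τ) (h1 : τ ≤ τ1) (hl : τ0 ≤ lam)
    (hl1 : lam - 1 ≤ τ1) (hμ : μ ≤ lam) :
    Φ τ - Φ (max (lam - 1) τ0) - c * (τ - max (lam - 1) τ0) + (φ τ - c) * (yEnd τ lam μ - τ) ≤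
      gainV (fun _ => 1) φ c τ0 τ lam μ := by
  have hy := yEnd_ge h0 hl hμ
  have hu0 : τ0 ≤ max (lam - 1) τ0 := le_max_right _ _
  have hu1 : max (lam - 1) τ0 ≤ τ1 := max_le hl1 (h0.trans h1)
  rw [gainV_med h c h0 hl hμ]
  have hx1 : max (max (lam - 1) τ0) (min τ (yEnd τ lam μ)) ≤ τ1 :=
    max_le hu1 ((min_le_left _ _).trans h1)
  have := h.tangent hm (hu0.trans (le_max_left _ _)) hx1 h0 h1
  linarith

/-- the signed formula -/
noncomputable def sgnS (φ Φ : ℝ → ℝ) (c τ0 τ lam μ : ℝ) : ℝ :=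
  Φ τ - Φ (max (lam - 1) τ0) - c * (τ - max (lam - 1) τ0) + (φ τ - c) * (lam - max μ τ)

/-- the signed formula is a lower bound of the gain once `μ - 1 ≤ τ` or `c ≤ φ τ` -/
theorem sgnS_le {φ Φ : ℝ → ℝ} (h : Prim φ Φ) (c : ℝ) {τ0 τ1 τ lam μ : ℝ}
    (hm : MonotoneOn φ (Set.Icc τ0 τ1)) (h0 : τ0 ≤ τ) (h1 : τ ≤ τ1) (hl : τ0 ≤ lam)
    (hl1 : lam - 1 ≤ τ1) (hμ : μ ≤ lam) (hc : μ - 1 ≤ τ ∨ c ≤ φ τ) :
    sgnS φ Φ c τ0 τ lam μ ≤ gainV (fun _ => 1) φ c τ0 τ lam μ := by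
  refine le_trans ?_ (gainV_ge_y h c hm h0 h1 hl hl1 hμ)
  rw [sgnS]
  rcases hc with hc | hc
  · rw [yEnd_eq hc]
    exact le_of_eq (by ring)
  · have := mul_le_mul_of_nonneg_left (show lam - max μ τ ≤ yEnd τ lam μ - τ by
      linarith [yEnd_ge' τ lam μ]) (sub_nonneg.2 hc)
    linarith

/-- a weaker signed formula: any `M ≥ max μ τ` when `c ≤ φ τ` -/
theorem sgnS_le' {φ Φ : ℝ → ℝ} (h : Prim φ Φ) (c : ℝ) {τ0 τ1 τ lam μ M : ℝ}
    (hm : MonotoneOn φ (Set.Icc τ0 τ1)) (h0 : τ0 ≤ τ) (h1 : τ ≤ τ1) (hl : τ0 ≤ lam)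
    (hl1 : lam - 1 ≤ τ1) (hμ : μ ≤ lam) (hc : c ≤ φ τ) (hM : μ ≤ M) (hM' : τ ≤ M) :
    Φ τ - Φ (max (lam - 1) τ0) - c * (τ - max (lam - 1) τ0) + (φ τ - c) * (lam - M) ≤
      gainV (fun _ => 1) φ c τ0 τ lam μ := by
  refine le_trans ?_ (sgnS_le h c hm h0 h1 hl hl1 hμ (Or.inr hc))
  have := mul_le_mul_of_nonneg_left (show lam - M ≤ lam - max μ τ by
    linarith [max_le hM hM']) (sub_nonneg.2 hc)
  rw [sgnS]
  linarith

/-- zone "not started": the gain vanishes -/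
theorem gainV_dead (χ φ : ℝ → ℝ) (c : ℝ) {τ0 τ lam μ : ℝ} (h0 : τ0 ≤ τ) (hμ : μ ≤ lam)
    (h1 : τ ≤ μ - 1) : gainV χ φ c τ0 τ lam μ = 0 := by
  rw [gainV, min_eq_left (show (1 : ℝ) ≤ μ - τ by linarith), max_eq_right zero_le_one,
    min_eq_left (by linarith), intervalIntegral.integral_same]

/-- zone "frozen": `τ ≤ lam - 1` -/
theorem gainV_frozen {φ Φ : ℝ → ℝ} (h : Prim φ Φ) (c : ℝ) {τ0 τ lam μ : ℝ} (h0 : τ0 ≤ τ)
    (h1 : τ ≤ lam - 1) :
    gainV (fun _ => 1) φ c τ0 τ lam μ = (φ τ - c) * (1 - max 0 (min 1 (μ - τ))) := by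
  have h2 : max 0 (min 1 (μ - τ)) ≤ 1 := max_le zero_le_one (min_le_left _ _)
  rw [gainV_one' h, max_eq_left (h0.trans h1), frz_of_ge _ _ h1, yEnd,
    frz_of_ge _ _ (by linarith)]
  ring

/-- zone "running": `lam - 1 ≤ τ ≤ lam` -/
theorem gainV_run {φ Φ : ℝ → ℝ} (h : Prim φ Φ) (c : ℝ) {τ0 τ lam μ : ℝ} (h0 : τ0 ≤ τ)
    (hμ : μ ≤ lam) (h1 : lam - 1 ≤ τ) (h2 : τ ≤ lam) :
    gainV (fun _ => 1) φ c τ0 τ lam μ = sgnS φ Φ c τ0 τ lam μ := by
  rw [gainV_one' h, yEnd_eq (by linarith), frz_of_le _ _ (max_le h1 h0),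
    frz_of_ge _ _ (by linarith [max_le hμ h2]), sgnS]
  ring

/-- zone "finished": `lam ≤ τ` -/
theorem gainV_done {φ Φ : ℝ → ℝ} (h : Prim φ Φ) (c : ℝ) {τ0 τ lam μ : ℝ} (h0 : τ0 ≤ τ)
    (hμ : μ ≤ lam) (h2 : lam ≤ τ) :
    gainV (fun _ => 1) φ c τ0 τ lam μ =
      Φ lam - Φ (max (lam - 1) τ0) - c * (lam - max (lam - 1) τ0) := by
  rw [gainV_one' h, yEnd_eq (by linarith), max_eq_right (hμ.trans h2),
    frz_of_le _ _ (max_le (by linarith) h0), frz_of_le _ _ (by linarith), add_sub_cancel_right]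

/-- the gain is nonnegative when the offer at the start of the window covers the charge -/
theorem gainV_nonneg {φ : ℝ → ℝ} (c : ℝ) {τ0 τ1 τ lam μ : ℝ}
    (hm : MonotoneOn φ (Set.Icc τ0 τ1)) (h0 : τ0 ≤ τ) (h1 : τ ≤ τ1) (hl : τ0 ≤ lam) (hμ : μ ≤ lam)
    (hc : c ≤ φ (min τ (max (lam - 1) τ0))) : 0 ≤ gainV (fun _ => 1) φ c τ0 τ lam μ := by
  have hy := yEnd_ge h0 hl hμ
  rw [yEnd, ← sub_min_one] at hy
  refine intervalIntegral.integral_nonneg (by linarith) fun s hs => ?_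
  have h2 : max (lam - 1) τ0 ≤ lam - s := by
    rw [← sub_min_one]
    linarith [hs.2]
  have h3 : τ0 ≤ min τ (max (lam - 1) τ0) := le_min h0 (le_max_right _ _)
  have := hm ⟨h3, (min_le_left _ _).trans h1⟩
    ⟨h3.trans (min_le_min_left _ h2), (min_le_left _ _).trans h1⟩ (min_le_min_left τ h2)
  simp only [one_mul]
  linarith

theorem yEnd_min (τ lam μ : ℝ) : yEnd τ lam μ = lam - 1 + (min τ μ - min τ (μ - 1)) := by
  rw [yEnd]
  rcases le_total μ τ with h | h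
  · rw [max_eq_left ((min_le_right _ _).trans (by linarith)), min_eq_right h,
      min_eq_right (by linarith)]
    ring
  · rcases le_total τ (μ - 1) with h1 | h1
    · rw [min_eq_left (show (1 : ℝ) ≤ μ - τ by linarith), max_eq_right zero_le_one, min_eq_left h,
        min_eq_left h1]
      ring
    · rw [min_eq_right (show μ - τ ≤ 1 by linarith), max_eq_right (by linarith), min_eq_left h,
        min_eq_right h1]
      ring

theorem gainV_early {φ Φ : ℝ → ℝ} (h : Prim φ Φ) (c : ℝ) {τ0 τ lam μ : ℝ} (h0 : τ0 ≤ τ)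
    (h1 : τ ≤ lam - 1) :
    gainV (fun _ => 1) φ c τ0 τ lam μ = (φ τ - c) * (min τ μ - min τ (μ - 1)) := by
  have := yEnd_min τ lam μ
  rw [yEnd] at this
  rw [gainV_frozen h c h0 h1]
  congr 1
  linarith

theorem gainV_ge {φ Φ : ℝ → ℝ} (h : Prim φ Φ) (c : ℝ) {τ0 τ1 τ lam μ : ℝ}
    (hm : MonotoneOn φ (Set.Icc τ0 τ1)) (h0 : τ0 ≤ τ) (h1 : τ ≤ τ1) (hμ : μ ≤ lam) (hl : τ0 ≤ lam)
    (hl1 : lam - 1 ≤ τ1) :
    Φ (min τ lam) - Φ (max (lam - 1) τ0) - c * (min τ lam - max (lam - 1) τ0) +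
      (φ τ - c) * (min τ μ - min τ lam + (lam - 1) - min τ (μ - 1)) ≤
      gainV (fun _ => 1) φ c τ0 τ lam μ := by
  rcases le_total τ lam with h2 | h2
  · have := gainV_ge_y h c hm h0 h1 hl hl1 hμ
    rw [yEnd_min] at this
    rw [min_eq_left h2]
    refine le_trans (le_of_eq ?_) this
    ring
  · rw [gainV_done h c h0 hμ h2, min_eq_right h2, min_eq_right (hμ.trans h2),
      min_eq_right (by linarith)]
    exact le_of_eq (by ring)

theorem Prim.tangent' {φ Φ : ℝ → ℝ} (h : Prim φ Φ) (hm : Monotone φ) (x τ : ℝ) :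
    Φ τ + (x - τ) * φ τ ≤ Φ x :=
  h.tangent (τ0 := Min.min x τ) (τ1 := Max.max x τ) (hm.monotoneOn _) (min_le_left _ _)
    (le_max_left _ _) (min_le_right _ _) (le_max_right _ _)

theorem Prim.shift_le {φ Φ : ℝ → ℝ} (h : Prim φ Φ) (hm : Monotone φ) {a b δ : ℝ} (hab : a ≤ b)
    (hδ : 0 ≤ δ) : Φ b - Φ a ≤ Φ (b + δ) - Φ (a + δ) := by
  rw [← h.int, ← h.int, ← intervalIntegral.integral_comp_add_right φ δ]
  exact intervalIntegral.integral_mono_on hab (h.cont.intervalIntegrable _ _)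
    ((h.cont.comp (continuous_id.add continuous_const)).intervalIntegrable _ _)
    fun x _ => hm (by linarith)

/-- the general lower estimate of the gain with relaxed levels `l' ≤ lam`, `μ ≤ m'`, `c ≤ c'` -/
noncomputable def Ghat (φ Φ : ℝ → ℝ) (τ0 τ l' m' c' : ℝ) : ℝ :=
  Φ (min τ l') - Φ (min τ (max (l' - 1) τ0)) +
    φ τ * ((l' - max 0 (m' - τ) - min τ l') - (max (l' - 1) τ0 - min τ (max (l' - 1) τ0))) -
    c' * (l' - max 0 (m' - τ) - max (l' - 1) τ0)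

theorem frz_min (φ Φ : ℝ → ℝ) (τ x : ℝ) : frz φ Φ τ x = Φ (min τ x) + φ τ * (x - min τ x) := by
  rcases le_total τ x with h | h
  · rw [frz_of_ge _ _ h, min_eq_left h]
    ring
  · rw [frz_of_le _ _ h, min_eq_right h]
    ring

/-- the upper end of `Ghat` is below the frozen primitive -/
theorem upper_le_frz {φ Φ : ℝ → ℝ} (h : Prim φ Φ) (hm : Monotone φ) (τ l' : ℝ) {s : ℝ} (hs : 0 ≤ s) :
    Φ (min τ l') + φ τ * (l' - s - min τ l') ≤ frz φ Φ τ (l' - s) := by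
  have hF : Prim (fun x => φ (min τ x)) (frz φ Φ τ) := h.min τ
  have hFm : Monotone fun x => φ (min τ x) := fun _ _ hx => hm (min_le_min_left _ hx)
  have h1 := hF.tangent' hFm (l' - s) l'
  have h2 := mul_le_mul_of_nonneg_left (hm (min_le_left τ l')) hs
  rw [frz_min φ Φ τ l'] at h1
  linarith

theorem Ghat_le_max {φ Φ : ℝ → ℝ} (h : Prim φ Φ) (hm : Monotone φ) {c c' τ0 τ lam μ l' m' : ℝ}
    (h0 : τ0 ≤ τ) (hμ : μ ≤ lam) (hl0 : τ0 ≤ l') (hl : l' ≤ lam) (hm' : μ ≤ m') (hc : c ≤ c')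
    (hx : c' ≤ φ (min τ (max (l' - 1) τ0))) :
    0 ≤ gainV (fun _ => 1) φ c τ0 τ lam μ ∧
      Ghat φ Φ τ0 τ l' m' c' ≤ gainV (fun _ => 1) φ c τ0 τ lam μ := by
  have hF : Prim (fun x => φ (min τ x)) (frz φ Φ τ) := h.min τ
  have hFm : Monotone fun x => φ (min τ x) := fun _ _ hx => hm (min_le_min_left _ hx)
  have hy := yEnd_ge h0 (hl0.trans hl) hμ
  have hs0 : 0 ≤ max 0 (m' - τ) := le_max_left _ _
  have hs : lam - max 0 (m' - τ) ≤ yEnd τ lam μ := by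
    have := max_le_max_left 0 ((min_le_right 1 (μ - τ)).trans (show μ - τ ≤ m' - τ by linarith))
    rw [yEnd]
    linarith
  have hu : max (l' - 1) τ0 ≤ max (lam - 1) τ0 := max_le_max_right _ (by linarith)
  have hu2 : max (lam - 1) τ0 ≤ max (l' - 1) τ0 + (lam - l') :=
    max_le (by linarith [le_max_left (l' - 1) τ0]) (by linarith [le_max_right (l' - 1) τ0])
  have hyl : max (l' - 1) τ0 ≤ l' := max_le (by linarith) hl0
  have hU := upper_le_frz h hm τ l' hs0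
  have hL := frz_min φ Φ τ (max (l' - 1) τ0)
  rw [gainV_one' h, Ghat]
  generalize yEnd τ lam μ = y at *
  generalize max (lam - 1) τ0 = u at *
  generalize max (l' - 1) τ0 = yl at *
  generalize max 0 (m' - τ) = s at *
  have mono : ∀ p q, yl ≤ p → p ≤ q → c' * (q - p) ≤ frz φ Φ τ q - frz φ Φ τ p := fun p q hp hq => by
    have h1 := hF.tangent' hFm q p
    have h2 := mul_le_mul_of_nonneg_left (hx.trans (hFm hp)) (sub_nonneg.2 hq)
    linarith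
  have hcc := mul_le_mul_of_nonneg_right hc (sub_nonneg.2 hy)
  have hpos := mono u y hu hy
  refine ⟨by linarith, ?_⟩
  rcases le_total yl (l' - s) with h1 | h1
  · have h2 := hF.shift_le hFm h1 (sub_nonneg.2 hu)
    have h3 := mono (l' - s + (u - yl)) y (by linarith) (by linarith)
    rw [add_sub_cancel] at h2
    linarith
  · have h2 : c' ≤ φ τ := hx.trans (hm (min_le_left _ _))
    have h3 := mul_nonneg (sub_nonneg.2 h1) (sub_nonneg.2 h2)
    have h4 := hF.tangent' hFm yl l'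
    have h5 := mul_le_mul_of_nonneg_left (hm (min_le_left τ l')) (sub_nonneg.2 hyl)
    rw [frz_min φ Φ τ l'] at h4
    linarith

/-- lemma `GL` -/
theorem Ghat_le {φ Φ : ℝ → ℝ} (h : Prim φ Φ) (hm : Monotone φ) {c c' τ0 τ lam μ l' m' θ : ℝ}
    (h0 : τ0 ≤ τ) (hμ : μ ≤ lam) (hl0 : τ0 ≤ l') (hl : l' ≤ lam) (hm' : μ ≤ m') (hc : c ≤ c')
    (hx : c' ≤ φ (min τ (max (l' - 1) τ0))) (hθ0 : 0 ≤ θ) (hθ1 : θ ≤ 1) :
    θ * Ghat φ Φ τ0 τ l' m' c' ≤ gainV (fun _ => 1) φ c τ0 τ lam μ := by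
  obtain ⟨h1, h2⟩ := Ghat_le_max h hm h0 hμ hl0 hl hm' hc hx
  nlinarith [mul_le_mul_of_nonneg_left h2 hθ0, mul_nonneg (sub_nonneg.2 hθ1) h1]

/-- no sign condition is needed with the exact levels once the window has started -/
theorem Ghat_le_exact {φ Φ : ℝ → ℝ} (h : Prim φ Φ) {c c' τ0 τ lam μ : ℝ}
    (h0 : τ0 ≤ τ) (hμ : μ ≤ lam) (hl0 : τ0 ≤ lam) (hc : c ≤ c') (hs : μ - 1 ≤ τ) :
    Ghat φ Φ τ0 τ lam μ c' ≤ gainV (fun _ => 1) φ c τ0 τ lam μ := by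
  have hy := yEnd_ge h0 hl0 hμ
  have e : yEnd τ lam μ = lam - max 0 (μ - τ) := by rw [yEnd, min_eq_right (by linarith)]
  have hcc := mul_le_mul_of_nonneg_right hc (sub_nonneg.2 hy)
  have e2 : min τ (lam - max 0 (μ - τ)) = min τ lam := by
    rcases le_total μ τ with h1 | h1
    · rw [max_eq_left (by linarith), sub_zero]
    · rw [max_eq_right (by linarith), min_eq_left (by linarith), min_eq_left (h1.trans hμ)]
  rw [gainV_one' h, Ghat, frz_min, frz_min]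
  rw [e] at hcc ⊢
  rw [e2]
  linarith

theorem gainV_chg {φ Φ : ℝ → ℝ} (h : Prim φ Φ) (c c' τ0 τ lam μ : ℝ) :
    gainV (fun _ => 1) φ c τ0 τ lam μ = gainV (fun _ => 1) φ c' τ0 τ lam μ -
      (c - c') * (min 1 (lam - τ0) - max 0 (min 1 (μ - τ))) := by
  rw [gainV_one h, gainV_one h]
  ring

theorem kapLen_nonneg {τ0 τ lam μ : ℝ} (h0 : τ0 ≤ τ) (hl : τ0 ≤ lam) (hμ : μ ≤ lam) :
    0 ≤ min 1 (lam - τ0) - max 0 (min 1 (μ - τ)) := by
  have := yEnd_ge h0 hl hμ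
  rw [yEnd, ← sub_min_one] at this
  linarith

/-- lemma `GL` without sign condition (spec v2): `c₂ = min c₁ (φ xl)` -/
theorem Ghat_le2 {φ Φ : ℝ → ℝ} (h : Prim φ Φ) (hm : Monotone φ) {c c₁ c₂ τ0 τ lam μ l' m' θ : ℝ}
    (h0 : τ0 ≤ τ) (hμ : μ ≤ lam) (hl0 : τ0 ≤ l') (hl : l' ≤ lam) (hm' : μ ≤ m') (hc : c ≤ c₁)
    (hx : c₂ ≤ φ (min τ (max (l' - 1) τ0))) (hθ0 : 0 ≤ θ) (hθ1 : θ ≤ 1) :
    θ * Ghat φ Φ τ0 τ l' m' c₂ - (c₁ - c₂) * (min 1 (lam - τ0) - max 0 (min 1 (μ - τ))) ≤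
      gainV (fun _ => 1) φ c τ0 τ lam μ := by
  have h1 := Ghat_le h hm h0 hμ hl0 hl hm' (le_refl c₂) hx hθ0 hθ1
  have h2 := mul_le_mul_of_nonneg_right hc (kapLen_nonneg h0 (hl0.trans hl) hμ)
  rw [gainV_chg h c c₂]
  linarith

end Crest.Agent.R310
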