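import Crest.Agent.R310.Anti

/-! Row 310: rational bounds for the levels and the time-shifted form of the certificates. -/

set_option autoImplicit false
set_option linter.dupNamespace false

namespace Crest.Agent.R310

open MeasureTheory

/-- upper Padé bound of `log (1 + u)` -/
noncomputable def padeU (u : ℝ) : ℝ := u * (6 + u) / (6 + 4 * u)

/-- lower Padé bound of `log (1 + u)` -/
noncomputable def padeL (u : ℝ) : ℝ := u * (6 + 5 * u) / ((1 + u) * (6 + 2 * u))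

theorem log_le_padeU {u : ℝ} (hu : -1 < u) : Real.log (1 + u) ≤ padeU u := by
  have hd : ∀ x : ℝ, -1 < x → HasDerivAt (fun x => padeU x - Real.log (1 + x))
      (4 * x ^ 3 / ((1 + x) * (6 + 4 * x) ^ 2)) x := fun x hx => by
    have h1 : (6 + 4 * x) ≠ 0 := by linarith
    have h2 : (1 + x) ≠ 0 := by linarith
    have a1 : HasDerivAt (fun x : ℝ => x * (6 + x)) (1 * (6 + x) + x * 1) x :=
      (hasDerivAt_id x).mul ((hasDerivAt_id x).const_add 6)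
    have a2 : HasDerivAt (fun x : ℝ => 6 + 4 * x) (4 * 1) x :=
      ((hasDerivAt_id x).const_mul 4).const_add 6
    have a3 : HasDerivAt (fun x : ℝ => Real.log (1 + x)) (1 / (1 + x)) x :=
      ((hasDerivAt_id x).const_add 1).log h2
    have e : 4 * x ^ 3 / ((1 + x) * (6 + 4 * x) ^ 2) =
        ((1 * (6 + x) + x * 1) * (6 + 4 * x) - x * (6 + x) * (4 * 1)) / (6 + 4 * x) ^ 2 -
          1 / (1 + x) := by
      field_simp
      ring
    rw [e]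
    exact (a1.div a2 h1).sub a3
  have h0 : padeU 0 - Real.log (1 + 0) = 0 := by simp [padeU]
  rcases le_total 0 u with h | h
  · have hm : MonotoneOn (fun x => padeU x - Real.log (1 + x)) (Set.Ici 0) := by
      refine monotoneOn_of_deriv_nonneg (convex_Ici 0)
        (fun x hx => (hd x (by linarith [Set.mem_Ici.1 hx])).continuousAt.continuousWithinAt)
        (fun x hx => (hd x (by
          rw [interior_Ici] at hx; linarith [Set.mem_Ioi.1 hx])).differentiableAt.differentiableWithinAt)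
        fun x hx => ?_
      rw [interior_Ici] at hx
      have hx' := Set.mem_Ioi.1 hx
      rw [(hd x (by linarith)).deriv]
      positivity
    have := hm (Set.mem_Ici.2 le_rfl) (Set.mem_Ici.2 h) h
    simp only at this
    linarith
  · have hm : AntitoneOn (fun x => padeU x - Real.log (1 + x)) (Set.Icc u 0) := by
      refine antitoneOn_of_deriv_nonpos (convex_Icc u 0)
        (fun x hx => (hd x (by linarith [hx.1])).continuousAt.continuousWithinAt)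
        (fun x hx => (hd x (by
          rw [interior_Icc] at hx; linarith [hx.1])).differentiableAt.differentiableWithinAt)
        fun x hx => ?_
      rw [interior_Icc] at hx
      rw [(hd x (by linarith [hx.1])).deriv]
      have h3 : 0 < 1 + x := by linarith [hx.1]
      refine div_nonpos_of_nonpos_of_nonneg ?_ (by positivity)
      have := Odd.pow_nonpos (show Odd 3 by decide) hx.2.le
      linarith
    have := hm ⟨le_rfl, h⟩ ⟨h, le_rfl⟩ h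
    simp only at this
    linarith

theorem padeL_le_log {u : ℝ} (hu : -1 < u) : padeL u ≤ Real.log (1 + u) := by
  have h1 : 0 < 1 + u := by linarith
  have h2 : -1 < -u / (1 + u) := by
    rw [lt_div_iff₀ h1]
    linarith
  have h3 := log_le_padeU h2
  have h4 : 1 + -u / (1 + u) = (1 + u)⁻¹ := by
    field_simp
    ring
  rw [h4, Real.log_inv] at h3
  have h5 : padeU (-u / (1 + u)) = -padeL u := by
    have h6 : (6 + 2 * u) ≠ 0 := by linarith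
    have h7 : 6 + 4 * (-u / (1 + u)) = (6 + 2 * u) / (1 + u) := by
      field_simp
      ring
    rw [padeU, padeL, h7]
    field_simp
    ring
  linarith

/-- the relative lower level `a * L((1 - 3k)/2)` -/
theorem lo_pade {a k : ℝ} (ha : 0 ≤ a) (hk : k < 1) :
    a * padeL ((1 - 3 * k) / 2) + a * Real.log (2 / 3) ≤ a * Real.log (1 - k) := by
  have h1 := padeL_le_log (u := (1 - 3 * k) / 2) (by linarith)
  have h2 : Real.log (1 - k) = Real.log (1 + (1 - 3 * k) / 2) + Real.log (2 / 3) := by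
    rw [← Real.log_mul (by linarith) (by norm_num)]
    congr 1
    ring
  rw [h2, mul_add]
  nlinarith

/-- the relative upper level `a * U((3z - 2)/2)` -/
theorem hi_pade {a z : ℝ} (ha : 0 ≤ a) (hz : 0 < z) :
    a * Real.log z ≤ a * padeU ((3 * z - 2) / 2) + a * Real.log (2 / 3) := by
  have h1 := log_le_padeU (u := (3 * z - 2) / 2) (by linarith)
  have h2 : Real.log z = Real.log (1 + (3 * z - 2) / 2) + Real.log (2 / 3) := by
    rw [← Real.log_mul (by linarith) (by norm_num)]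
    congr 1
    ring
  rw [h2, mul_add]
  nlinarith

theorem gainV_shift (χ v : ℝ → ℝ) (c τ0 τ lam μ d : ℝ) :
    gainV (fun σ => χ (σ - d)) (fun σ => v (σ - d)) c (τ0 + d) τ (lam + d) (μ + d) =
      gainV χ v c τ0 (τ - d) lam μ := by
  have e1 : μ + d - τ = μ - (τ - d) := by ring
  have e2 : lam + d - (τ0 + d) = lam - τ0 := by ring
  have e3 : ∀ s, min τ (lam + d - s) - d = min (τ - d) (lam - s) := fun s => by
    rw [← min_sub_sub_right]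
    congr 1
    ring
  simp only [gainV, e1, e2, e3]

/-- time shift of a pair certificate -/
theorem PairCertG.shift {g0 b τ0 τ1 : ℝ} {ub lo : ℝ → ℝ} {hi c : ℝ → ℝ → ℝ}
    {χ : ℝ → ℝ → ℝ → ℝ → ℝ → ℝ} {h : ℝ → ℝ → ℝ → ℝ} {QU : ℝ → ℝ → ℝ} {QE : ℝ → ℝ → ℝ → ℝ}
    {QP : ℝ → ℝ → ℝ × ℝ → ℝ × ℝ → ℝ} (H : PairCertG g0 b τ0 τ1 ub lo hi c χ h QU QE QP) (d : ℝ) :
    PairCertG g0 b (τ0 + d) (τ1 + d) ub (fun k => lo k + d) (fun r k => hi r k + d) c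
      (fun k r τ μ σ => χ k r (τ - d) (μ - d) (σ - d)) (fun r k τ => h r k (τ - d)) QU QE
      (fun r τ p q => QP r (τ - d) (p.1, p.2 - d) (q.1, q.2 - d)) := by
  have hUV : ∀ k l, UV g0 (τ0 + d) (τ1 + d) (fun k => lo k + d) (fun r k τ => h r k (τ - d)) k l =
      UV g0 τ0 τ1 lo h k l := fun k l => by
    have e2 : ∀ x : ℝ, x + d - (τ0 + d) = x - τ0 := fun x => by ring
    have e3 : ∀ x s : ℝ, min (τ1 + d) (x + d - s) - d = min τ1 (x - s) := fun x s => by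
      rw [← min_sub_sub_right]
      congr 1 <;> ring
    simp only [UV, e2, e3]
  refine ⟨H.coU, H.coE, fun r τ m x D hx => H.coP r (τ - d) m x (fun l => ((D l).1, (D l).2 - d)) hx,
    ?_, ?_, ?_, ?_, ?_⟩
  · intro r k h1 h2 h3 h4 τ hτ τ' hτ' ht
    exact H.mono r k h1 h2 h3 h4 ⟨by linarith [hτ.1], by linarith [hτ.2]⟩
      ⟨by linarith [hτ'.1], by linarith [hτ'.2]⟩ (by linarith)
  · intro r k h1 h2 h3 h4
    simpa using H.le_ub r k h1 h2 h3 h4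
  · intro k l h1 h2 h3
    rw [hUV]
    exact H.hU k l h1 h2 h3
  · intro r k l h1 h2 h3 h4 h5
    rw [hUV]
    simpa using H.hE r k l h1 h2 h3 h4 h5
  · intro r k l h1 h2 h3 h4 h5 τ h6 h7 μ ν hμ hν
    obtain ⟨μ, rfl⟩ : ∃ m, μ = m + d := ⟨μ - d, by ring⟩
    obtain ⟨ν, rfl⟩ : ∃ m, ν = m + d := ⟨ν - d, by ring⟩
    rw [min_add_add_right] at hμ hν
    simp only [add_left_inj] at hμ hν
    have := H.hP r k l h1 h2 h3 h4 h5 (τ - d) (by linarith) (by linarith) μ ν hμ hν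
    rw [max_add_add_right, max_add_add_right]
    simp only [add_sub_cancel_right]
    rw [gainV_shift (χ k r (τ - d) μ) (h k l), gainV_shift (χ l r (τ - d) ν) (h l k)]
    exact this

/-- `cert_exists_of_pairG` with all times measured from `d` (for example `d = a * log (2/3)`) -/
theorem cert_exists_of_pairG_shift {a b τ0 τ1 gc : ℝ} (d : ℝ) {A : ℚ} {lo : ℝ → ℝ}
    {hi : ℝ → ℝ → ℝ} {χ : ℝ → ℝ → ℝ → ℝ → ℝ → ℝ} {h : ℝ → ℝ → ℝ → ℝ} {QU : ℝ → ℝ → ℝ}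
    {QE : ℝ → ℝ → ℝ → ℝ} {QP : ℝ → ℝ → ℝ × ℝ → ℝ × ℝ → ℝ} (ha : 0 < a) (hA : 0 ≤ A)
    (hgc : 0 < gc) (hb : 29 / 50 ≤ b) (hτ : τ0 ≤ τ1) (hlo0 : ∀ k, 0 < k → k ≤ b → τ0 ≤ lo k)
    (hlo : ∀ k, 0 < k → k ≤ b → lo k + d ≤ a * Real.log (1 - k))
    (hhi : ∀ r k, 0 < r → r ≤ b → 0 < k → k ≤ b → a * Real.log (r + k) ≤ hi r k + d)
    (hχm : ∀ k r τ μ, Measurable (χ k r τ μ)) (hχ0 : ∀ k r τ μ σ, 0 ≤ χ k r τ μ σ)
    (hχ1 : ∀ k r τ μ σ, χ k r τ μ σ ≤ 1)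
    (H : PairCertG (1 + 2 / Real.exp 1) b τ0 τ1 (fun d => max 0 (A * (1 - gc * d))) lo hi
      (capR A gc) χ h QU QE QP) (g : ℚ) (hg : 1 + 2 / Real.exp 1 < (g : ℝ)) :
    ∃ (Kn : Kernel) (A g1 : ℚ), 0 ≤ A ∧ Cert Kn g A g1 :=
  cert_exists_of_pairG ha hA hgc hb (by linarith) (fun k h1 h2 => by linarith [hlo0 k h1 h2]) hlo hhi
    (fun k r τ μ => (hχm k r (τ - d) (μ - d)).comp (measurable_id.sub_const d))
    (fun _ _ _ _ _ => hχ0 _ _ _ _ _) (fun _ _ _ _ _ => hχ1 _ _ _ _ _) (H.shift d) g hg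

/-- relative Padé levels -/
noncomputable def loP (a k : ℝ) : ℝ := a * padeL ((1 - 3 * k) / 2)
noncomputable def hiP (a r k : ℝ) : ℝ := a * padeU ((3 * (r + k) - 2) / 2)

/-- pair certificate in relative time (the flat window is `[-1, 0]`) with the Padé levels -/
theorem cert_exists_of_pairG_pade {a b τ0 τ1 gc : ℝ} {A : ℚ} {χ : ℝ → ℝ → ℝ → ℝ → ℝ → ℝ}
    {h : ℝ → ℝ → ℝ → ℝ} {QU : ℝ → ℝ → ℝ} {QE : ℝ → ℝ → ℝ → ℝ}
    {QP : ℝ → ℝ → ℝ × ℝ → ℝ × ℝ → ℝ} (ha : 0 < a) (hA : 0 ≤ A) (hgc : 0 < gc)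
    (hb : 29 / 50 ≤ b) (hb1 : b < 1) (hτ : τ0 ≤ τ1) (hlo0 : ∀ k, 0 < k → k ≤ b → τ0 ≤ loP a k)
    (hχm : ∀ k r τ μ, Measurable (χ k r τ μ)) (hχ0 : ∀ k r τ μ σ, 0 ≤ χ k r τ μ σ)
    (hχ1 : ∀ k r τ μ σ, χ k r τ μ σ ≤ 1)
    (H : PairCertG (1 + 2 / Real.exp 1) b τ0 τ1 (fun d => max 0 (A * (1 - gc * d))) (loP a) (hiP a)
      (capR A gc) χ h QU QE QP) (g : ℚ) (hg : 1 + 2 / Real.exp 1 < (g : ℝ)) :
    ∃ (Kn : Kernel) (A g1 : ℚ), 0 ≤ A ∧ Cert Kn g A g1 :=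
  cert_exists_of_pairG_shift (a * Real.log (2 / 3)) ha hA hgc hb hτ hlo0
    (fun _ _ h2 => lo_pade ha.le (h2.trans_lt hb1))
    (fun _ _ h1 _ h3 _ => hi_pade ha.le (by linarith)) hχm hχ0 hχ1 H g hg

/-- column certificate in relative time with arbitrary relative levels -/
theorem cert_exists_of_col_shift {n : ℕ} {a b τ0 τ1 gc : ℝ} (d : ℝ) {A : ℚ} {lo : ℝ → ℝ}
    {hi : ℝ → ℝ → ℝ} {χ : ℝ → ℝ → ℝ → ℝ → ℝ → ℝ} {φ : ℕ → ℝ → ℝ} {H : ℕ → ℝ → ℝ → ℝ}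
    (ha : 0 < a) (hA : 0 ≤ A) (hgc : 0 < gc)
    (hb : 29 / 50 ≤ b) (hτ : τ0 ≤ τ1) (hlo0 : ∀ k, 0 < k → k ≤ b → τ0 ≤ lo k)
    (hlo : ∀ k, 0 < k → k ≤ b → lo k + d ≤ a * Real.log (1 - k))
    (hhi : ∀ r k, 0 < r → r ≤ b → 0 < k → k ≤ b → a * Real.log (r + k) ≤ hi r k + d)
    (hχm : ∀ k r τ μ, Measurable (χ k r τ μ)) (hχ0 : ∀ k r τ μ σ, 0 ≤ χ k r τ μ σ)
    (hχ1 : ∀ k r τ μ σ, χ k r τ μ σ ≤ 1)
    (C : ColCert n (1 + 2 / Real.exp 1) b τ0 τ1 (fun d => max 0 (A * (1 - gc * d))) lo hi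
      (capR A gc) χ φ H) (g : ℚ) (hg : 1 + 2 / Real.exp 1 < (g : ℝ)) :
    ∃ (Kn : Kernel) (A g1 : ℚ), 0 ≤ A ∧ Cert Kn g A g1 :=
  cert_exists_of_pairG_shift d ha hA hgc hb hτ hlo0 hlo hhi hχm hχ0 hχ1 (C.pairG hχm hχ0 hχ1) g hg

/-- column certificate in relative time with the Padé levels -/
theorem cert_exists_of_col_pade {n : ℕ} {a b τ0 τ1 gc : ℝ} {A : ℚ}
    {χ : ℝ → ℝ → ℝ → ℝ → ℝ → ℝ} {φ : ℕ → ℝ → ℝ} {H : ℕ → ℝ → ℝ → ℝ}
    (ha : 0 < a) (hA : 0 ≤ A) (hgc : 0 < gc) (hb : 29 / 50 ≤ b) (hb1 : b < 1) (hτ : τ0 ≤ τ1)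
    (hlo0 : ∀ k, 0 < k → k ≤ b → τ0 ≤ loP a k)
    (hχm : ∀ k r τ μ, Measurable (χ k r τ μ)) (hχ0 : ∀ k r τ μ σ, 0 ≤ χ k r τ μ σ)
    (hχ1 : ∀ k r τ μ σ, χ k r τ μ σ ≤ 1)
    (C : ColCert n (1 + 2 / Real.exp 1) b τ0 τ1 (fun d => max 0 (A * (1 - gc * d))) (loP a) (hiP a)
      (capR A gc) χ φ H) (g : ℚ) (hg : 1 + 2 / Real.exp 1 < (g : ℝ)) :
    ∃ (Kn : Kernel) (A g1 : ℚ), 0 ≤ A ∧ Cert Kn g A g1 :=
  cert_exists_of_pairG_pade ha hA hgc hb hb1 hτ hlo0 hχm hχ0 hχ1 (C.pairG hχm hχ0 hχ1) g hg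

end Crest.Agent.R310
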