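import Crest.Agent.R310.BxDefs
import Crest.Agent.R310.GainLB
import Crest.Agent.R310.Pade

/-! Row 310: the explicit pair certificate given by a table of cells; side conditions on the table and
the inequalities delivered by the box prover. -/

set_option autoImplicit false
set_option linter.dupNamespace false

namespace Crest.Agent.R310.Bx

open Finset

/-- time knots (relative time; `tq 5 = 0`) -/
noncomputable def tq (q : ℕ) : ℝ := Real.log ((tn q : ℝ) / 10)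

/-- time profile of basis function `b` and its primitive -/
noncomputable def Hb (C : Cf) (b : ℕ) (σ : ℝ) : ℝ :=
  ((C.n0 b : ℝ) + ∑ q ∈ range 5, (C.sq q b : ℝ) * ph (tq q) σ) / 30000
noncomputable def Pb (C : Cf) (b : ℕ) (x : ℝ) : ℝ :=
  ((C.n0 b : ℝ) * x + ∑ q ∈ range 5, (C.sq q b : ℝ) * Ph (tq q) x) / 30000

noncomputable def Hc (C : Cf) (hat : Bool) (u v w z σ : ℝ) : ℝ :=
  cmbR hat C.kk (Hb C 0 σ) (Hb C 1 σ) (Hb C 2 σ) (Hb C 3 σ) (Hb C 4 σ) u v w z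
noncomputable def Pc (C : Cf) (hat : Bool) (u v w z x : ℝ) : ℝ :=
  cmbR hat C.kk (Pb C 0 x) (Pb C 1 x) (Pb C 2 x) (Pb C 3 x) (Pb C 4 x) u v w z

/-- `x` lies in the time piece `p` (the last piece is unbounded) -/
def InP (p : ℕ) (x : ℝ) : Prop := p ≤ 4 ∧ tq p ≤ x ∧ (p < 4 → x ≤ tq (p + 1))

noncomputable def lateF (φ Φ : ℝ → ℝ) (c τ lam μ : ℝ) : ℝ :=
  Φ (min τ lam) - Φ (max (lam - 1) (tq 0)) - c * (min τ lam - max (lam - 1) (tq 0)) +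
    (φ τ - c) * (min τ μ - min τ lam + (lam - 1) - min τ (μ - 1))

noncomputable def gainF (φ Φ : ℝ → ℝ) (c τ lam μ : ℝ) : ℝ :=
  if τ ≤ lam - 1 - 1 / 32 then (φ τ - c) * (min τ μ - min τ (μ - 1)) else lateF φ Φ c τ lam μ

/-- the offer on one pair of cells -/
noncomputable def hC (C : Cf) (x y σ : ℝ) : ℝ :=
  Hc C false (x - C.xn / 48) (y - C.yn / 48) (y - C.yn / 48) (max (x + 2 * y - 1) 0) σ

noncomputable def loF (k : ℝ) : ℝ := 7 / 5 * Real.log (3 / 2 * (1 - k))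
noncomputable def hiF (r k : ℝ) : ℝ := 7 / 5 * Real.log (3 / 2 * max (r + k) (1 / 4))
noncomputable def g0 : ℝ := 1 + 2 / Real.exp 1

/-- one half of (P): right side minus left side -/
noncomputable def sideT (Ch Cg : Cf) (r k l τ μ : ℝ) : ℝ :=
  min 1 (g0 * k) - min r (g0 * k) - hC Ch r k τ +
    gainV (fun _ => 1) (hC Cg k l) (capR 2 (8 / 5) k r) (tq 0) τ (max (loF k) μ) μ

/-- one half of `UV` -/
noncomputable def usideT (C : Cf) (k l : ℝ) : ℝ :=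
  min 1 (g0 * k) + ∫ s in (0 : ℝ)..(min 1 (loF k - tq 0)), hC C k l (min 0 (loF k - s))

def Cand (r k μ : ℝ) : Prop := μ = min (loF k) (hiF r k) ∨ μ = hiF r k

def MonoAt (C : Cf) (x y : ℝ) : Prop := MonotoneOn (hC C x y) (Set.Icc (tq 0) 0)

/-- cells around the tip: the value at the base point `(1/3,1/3)` is `2/3 * T` -/
def TipC (C : Cf) : Prop :=
  C.xn = 16 ∧ C.yn = 16 ∧ C.n0 0 = 6000 ∧ C.sq 0 0 = 20000 ∧ C.sq 1 0 = 0 ∧ C.sq 2 0 = 0 ∧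
    C.sq 3 0 = 0 ∧ C.sq 4 0 = 0
/-- the cell at the origin: the value at `(0,0)` is constant after the knot `3` -/
def OrgC (C : Cf) : Prop := C.xn = 0 ∧ C.yn = 0 ∧ C.kk = false ∧ C.be 0 3 = 0 ∧ C.sq 4 0 = 0

/-- base points of the cells, over `48` -/
def bs : ℕ → ℤ
  | 0 => 0
  | 1 => 9
  | 2 => 16
  | 3 => 16
  | 4 => 22
  | _ => 26

noncomputable def idx (x : ℝ) : ℕ :=
  if x ≤ 1 / 8 then 0 else if x ≤ 1 / 4 then 1 else if x ≤ 1 / 3 then 2 else if x ≤ 5 / 12 then 3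
  else if x ≤ 1 / 2 then 4 else 5

def InC (i : ℕ) (x : ℝ) : Prop := (gn i : ℝ) / 48 ≤ x ∧ x ≤ (gn (i + 1) : ℝ) / 48
def InT (p : ℕ) (T : ℝ) : Prop := (tn p : ℝ) / 10 ≤ T ∧ T ≤ (tn (p + 1) : ℝ) / 10

/-- `48^2` times a bilinear form with integer coefficients at the point `(X/48, Y/48)`, without (`e = 0`)
or with (`e = 1`) the linear extension of the kink -/
def crn (C : Cf) (f : ℕ → ℤ) (X Y e : ℤ) : ℤ :=
  2304 * f 0 + 48 * (X - C.xn) * f 1 + 48 * (Y - C.yn) * f 2 + (X - C.xn) * (Y - C.yn) * f 3 +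
    cond C.kk (e * (48 * (X + 2 * Y - 48) * f 4)) 0

/-- corner conditions for monotonicity and for the upper bound `2 (1 - 8/5 r)` -/
def CornerOK (C : Cf) (i j : ℕ) : Prop :=
  ∀ X ∈ [gn i, gn (i + 1)], ∀ Y ∈ [gn j, gn (j + 1)], ∀ e ∈ [(0 : ℤ), 1],
    (∀ p ∈ [0, 1, 2, 3, 4], 0 ≤ crn C (fun b => C.be b p) X Y e) ∧
      crn C (fun b => C.al b 4 + C.be b 4) X Y e ≤ 2304 * 600000 - 48 * 960000 * X

instance (C : Cf) (i j : ℕ) : Decidable (CornerOK C i j) := by unfold CornerOK; infer_instance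
instance (C : Cf) : Decidable (TipC C) := by unfold TipC; infer_instance
instance (C : Cf) : Decidable (OrgC C) := by unfold OrgC; infer_instance

structure TabOK (cf : ℕ → ℕ → Cf) (P : ℕ → List ℤ) : Prop where
  base : ∀ i < 6, ∀ j < 6, (cf i j).xn = bs i ∧ (cf i j).yn = bs j
  corner : ∀ i < 6, ∀ j < 6, CornerOK (cf i j) i j
  tip : ∀ i ∈ [2, 3], ∀ j ∈ [2, 3], TipC (cf i j)
  org : OrgC (cf 0 0)
  ptip : ∀ i ∈ [2, 3], (P i).getD 0 0 = 0 ∧ (P i).getD 2 0 = 0 ∧ (P i).getD 4 0 = 0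

/-- the global offer and copositive kernel -/
noncomputable def hG (cf : ℕ → ℕ → Cf) (r k σ : ℝ) : ℝ := hC (cf (idx r) (idx k)) r k σ
noncomputable def QG (P : ℕ → List ℤ) (k l : ℝ) : ℝ :=
  qR (P (idx k)) (P (idx l)) (k - bs (idx k) / 48) (l - bs (idx l) / 48)

def Near (x : ℝ) : Prop := |x - 1 / 3| < 43 / 1024
def U01 (x : ℝ) : Prop := 0 ≤ x ∧ x ≤ 1
def Face (fr fk fl : Bool) : Prop :=
  (fr = true ∧ fk = false ∧ fl = false) ∨ (fr = false ∧ fk = true ∧ fl = false) ∨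
    (fr = false ∧ fk = false ∧ fl = true)

/-- what the box prover delivers -/
structure Checks (cf : ℕ → ℕ → Cf) (P : ℕ → List ℤ) : Prop where
  cP : ∀ i < 6, ∀ m < 6, ∀ j ≤ m, ∀ p < 5, ∀ r k l T : ℝ, InC i r → InC j k → InC m l → InT p T →
    0 < tPR (cf i j) (cf i m) (cf j m) (cf m j) p (dpB i j) (dnB i j) (dpB i m) (dnB i m) r k l T KK ∨
      l < k ∨ (Near r ∧ Near k ∧ Near l) ∨ (r < 65 / 2048 ∧ k < 65 / 2048 ∧ l < 65 / 2048)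
  cE : ∀ i < 6, ∀ m < 6, ∀ j ≤ m, ∀ r k l : ℝ, InC i r → InC j k → InC m l →
    0 < tER (cf i j) (cf i m) (cf j m) (cf m j) r k l 0 KK ∨
      l < k ∨ (Near r ∧ Near k ∧ Near l) ∨ (r < 65 / 2048 ∧ k < 65 / 2048 ∧ l < 65 / 2048)
  cU : ∀ m < 6, ∀ j ≤ m, ∀ k l : ℝ, InC j k → InC m l →
    0 < tUR (cf j m) (cf m j) (P j) (P m) k l 0 0 KK ∨ l < k ∨ (Near k ∧ Near l)
  cT : ∀ i ∈ [2, 3], ∀ m ∈ [2, 3], ∀ j ∈ [2, 3], j ≤ m → ∀ p < 5, ∀ fr fk fl, Face fr fk fl →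
    ∀ s x y T : ℝ, 0 ≤ s → s ≤ 43 / 1024 → U01 x → U01 y → InT p T →
    0 < tTR (cf i j) (cf i m) (cf j m) (cf m j) p (dpB i j) (dnB i j) (dpB i m) (dnB i m)
      (sgZ i) (sgZ j) (sgZ m) fr fk fl s x y T KK
  cTE : ∀ i ∈ [2, 3], ∀ m ∈ [2, 3], ∀ j ∈ [2, 3], j ≤ m → ∀ fr fk fl, Face fr fk fl →
    ∀ s x y : ℝ, 0 ≤ s → s ≤ 43 / 1024 → U01 x → U01 y →
    0 < tTER (cf i j) (cf i m) (cf j m) (cf m j) (sgZ i) (sgZ j) (sgZ m) fr fk fl s x y 0 KK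
  cTU : ∀ m ∈ [2, 3], ∀ j ∈ [2, 3], j ≤ m → ∀ fk, ∀ s x : ℝ, 0 ≤ s → s ≤ 43 / 1024 → U01 x →
    0 < tTUR (cf j m) (cf m j) (P j) (P m) (sgZ j) (sgZ m) fk s x 0 0 KK
  cO : ∀ p < 5, ∀ fr fk fl, Face fr fk fl → ∀ s x y T : ℝ, 0 ≤ s → s ≤ 65 / 2048 → U01 x → U01 y →
    InT p T → 0 < tOR (cf 0 0) p 1 1 1 fr fk fl s x y T KK
  cOE : ∀ fr fk fl, Face fr fk fl → ∀ s x y : ℝ, 0 ≤ s → s ≤ 65 / 2048 → U01 x → U01 y →
    0 < tOER (cf 0 0) 1 1 1 fr fk fl s x y 0 KK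

end Crest.Agent.R310.Bx
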