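import Crest.Agent.R310.ColGeom

/-! Row 310: cost of the collapse, savings, and the interface `II.Col`. -/

set_option autoImplicit false
set_option linter.dupNamespace false

namespace Crest.Agent.R310

open Finset Crest.Agent.Lib.PT

namespace Col

variable {I : II} {K : ℕ} {y : ℕ → ℚ} {c c' i j j0 : ℕ}

/-- `le_Dc_of_ball` with `R = ap j / K²` -/
lemma ap_le_Dc (h : Hyp I K y) (hc : ¬ conc I K y j) :
    (ap I K y j : ℚ) ≤ (K : ℚ) ^ 3 * I.Dc y j := by
  have hK : (100 : ℚ) ≤ K := by exact_mod_cast h.hK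
  have hK0 : 0 < K ^ 2 := pow_pos (by linarith [h.hK]) 2
  have h1 := II.le_Dc_of_ball h.hy (by linarith [h.two]) j (ap I K y j / K ^ 2)
  have h2 : I.ball y j (ap I K y j / K ^ 2) < 1 - 1 / (K : ℚ) := not_le.1 hc
  have h3 : ap I K y j ≤ K ^ 2 * (ap I K y j / K ^ 2 + 1) := (Nat.lt_mul_div_succ _ hK0).le
  have h4 : (ap I K y j : ℚ) ≤ (K : ℚ) ^ 2 * (((ap I K y j / K ^ 2 : ℕ) : ℚ) + 1) := by
    exact_mod_cast h3
  set R : ℚ := ((ap I K y j / K ^ 2 : ℕ) : ℚ) + 1 with hR
  have hR0 : 0 ≤ R := by positivity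
  have h5 : 1 / (K : ℚ) * R ≤ I.Dc y j :=
    le_trans (mul_le_mul_of_nonneg_right (by linarith) hR0) h1
  have h6 : (K : ℚ) ^ 2 * R = (K : ℚ) ^ 3 * (1 / (K : ℚ) * R) := by
    field_simp
  rw [h6] at h4
  exact h4.trans (mul_le_mul_of_nonneg_left h5 (by positivity))

/-- `Dc_y1_le`, `move` -/
lemma ncost (h : Hyp I K y) (hu : isU I K y j = false) :
    I.Dc (y1 I K y) j ≤ (1 + 6 / (K : ℚ)) * I.Dc y j := by
  have hK : (100 : ℚ) ≤ K := by exact_mod_cast h.hK
  have hn : ∀ c ∈ fam I K y, ¬ user I K y j c := fun c hc hcu => by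
    rw [isU_iff.2 ⟨c, hc, hcu⟩] at hu
    exact Bool.noConfusion hu
  refine (Dc_y1_le h j j).trans ?_
  unfold II.Dc
  rw [mul_sum]
  refine sum_le_sum fun a _ => ?_
  have h1 : (K : ℚ) * I.dd j (pi I K y a) ≤ ((K : ℚ) + 6) * I.dd j a := by
    exact_mod_cast move (i := a) h fun c hc _ => hn c hc
  have h2 : (I.dd j (pi I K y a) : ℚ) ≤ (1 + 6 / (K : ℚ)) * I.dd j a := by
    have e : (1 + 6 / (K : ℚ)) * I.dd j a = ((K : ℚ) + 6) * I.dd j a / K := by field_simp
    rw [e, le_div_iff₀ (by linarith)]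
    linarith
  have := mul_le_mul_of_nonneg_left h2 (II.nf_nonneg (I := I) (y := y) j a)
  linarith

/-- `ball_y1` at `c` (`user_unique`, `user_self`), `ball_le_ball`, `Dc_le_ball` -/
lemma Dc_star (h : Hyp I K y) (hc : c ∈ fam I K y) :
    I.Dc (y1 I K y) (star I K y c) ≤ (1 - y1 I K y (star I K y c)) * (3 * ap I K y c) := by
  have h1 := ball_y1 (j := c) h fun c' hc' hu => user_unique h hc' hc hu (user_self h hc)
  have h2 : K * I.dd c (star I K y c) ≤ ap I K y c := (star_spec h hc).2.1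
  have h3 : I.dd (star I K y c) c ≤ ap I K y c := by
    rw [h.hI.symm]
    have := h.hK
    nlinarith
  have h4 : 1 ≤ I.ball (y1 I K y) (star I K y c) (3 * ap I K y c) :=
    (h1.trans (II.ball_le_ball h.hI (y1_yok h) c (star I K y c) _)).trans
      (II.ball_mono (y1_yok h) _ (by omega))
  have h5 := II.Dc_le_ball h.hI (y1_yok h) h4
  push_cast at h5
  exact h5

/-- `dd j i ≤ dd j i' ≤ 2 ap j` (`ball_y1`, `dd_le_of_ball`), `dd j (star c) ≥ 0.48 ap c` (`far`),
`Dc_star`, `ap_le_Dc` (`conc_user`) -/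
lemma touch (h : Hyp I K y) (hj : j ∈ I.C) (hu : isU I K y j = false)
    (hi : core I K y i = true) {i' : ℕ} (hi' : i' < I.N) (hx : 0 < I.nf (y1 I K y) j i')
    (hd : I.dd j i ≤ I.dd j i') :
    I.Dc (y1 I K y) i ≤ 18 * (1 - y1 I K y i) * (K : ℚ) ^ 3 * I.Dc y j := by
  obtain ⟨c, hc, rfl⟩ := core_iff.1 hi
  have hn : ∀ c ∈ fam I K y, ¬ user I K y j c := fun c hc hcu => by
    rw [isU_iff.2 ⟨c, hc, hcu⟩] at hu
    exact Bool.noConfusion hu
  have h1 := II.dd_le_of_ball (y1_yok h) hi' hx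
    (ball_y1 (j := j) h fun c' hc' hcu => absurd hcu (hn c' hc'))
  have h2 := far h hc (hn c hc)
  have h3 : K * I.dd c (star I K y c) ≤ ap I K y c := (star_spec h hc).2.1
  have h4 := h.hI.tri j (star I K y c) c
  rw [h.hI.symm (star I K y c) c] at h4
  have h5 : 100 * I.dd c (star I K y c) ≤ ap I K y c :=
    (Nat.mul_le_mul_right _ h.hK).trans h3
  have h6 : 3 * ap I K y c ≤ 18 * ap I K y j := by omega
  have h7 : 3 * (ap I K y c : ℚ) ≤ 18 * ap I K y j := by exact_mod_cast h6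
  have h8 := ap_le_Dc (j := j) h fun hcc => by
    obtain ⟨c', hc', hcu⟩ := conc_user h hj hcc
    exact hn c' hc' hcu
  have h9 : 0 ≤ 1 - y1 I K y (star I K y c) := sub_nonneg.2 ((y1_yok h).le_one _)
  refine (Dc_star h hc).trans ?_
  have h10 : 3 * (ap I K y c : ℚ) ≤ 18 * ((K : ℚ) ^ 3 * I.Dc y j) := by linarith
  have := mul_le_mul_of_nonneg_left h10 h9
  linarith

/-- on `B_c`: `min a b ≥ a + b - y` -/
lemma overlap (h : Hyp I K y) (h1 : user I K y j c) (h2 : user I K y j0 c) :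
    1 - 5 / (K : ℚ) ≤ ∑ i ∈ range I.N, min (I.nf y j i) (I.nf y j0 i) := by
  have key : xB I K y j c + xB I K y j0 c - mB I K y c ≤
      ∑ i ∈ range I.N, min (I.nf y j i) (I.nf y j0 i) := by
    unfold xB mB
    rw [← sum_add_distrib, ← sum_sub_distrib]
    refine sum_le_sum fun i _ => ?_
    have a1 := II.nf_le h.hy j i
    have a2 := II.nf_le h.hy j0 i
    have a3 := II.nf_nonneg (I := I) (y := y) j i
    have a4 := II.nf_nonneg (I := I) (y := y) j0 i
    split_ifs
    · exact le_min (by linarith) (by linarith)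
    · exact le_min (by linarith) (by linarith)
  have h3 := mB_lt h c
  unfold user at h1 h2
  have e2 : 2 / (K : ℚ) = 2 * (1 / (K : ℚ)) := by ring
  have e5 : 5 / (K : ℚ) = 5 * (1 / (K : ℚ)) := by ring
  rw [e2] at h1 h2
  rw [e5]
  linarith

/-- `(1 - 5/K) dd j j0 ≤ D j + D j0`; with `δ = nf j0 - nf j`,
`∑ δ dd j ≤ ∑ δ dd j0 + ∑ |δ| dd j j0 ≤ 0 + (10/K) dd j j0` (`nf_opt` at `j0`, `overlap`) -/
lemma cross (h : Hyp I K y) (h1 : user I K y j c) (h2 : user I K y j0 c)
    (hD : I.Dc y j0 ≤ I.Dc y j) :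
    ∑ i ∈ range I.N, I.nf y j0 i * (I.dd j i : ℚ) ≤ (1 + 40 / (K : ℚ)) * I.Dc y j := by
  have hm : 1 ≤ I.mass y := by linarith [h.two]
  have hov := overlap h h1 h2
  have hK : (100 : ℚ) ≤ K := by exact_mod_cast h.hK
  have ht0 : 0 < 1 / (K : ℚ) := by positivity
  have ht1 : 1 / (K : ℚ) ≤ 1 / 100 := one_div_le_one_div_of_le (by norm_num) hK
  have hD0 : (0 : ℚ) ≤ I.dd j j0 := Nat.cast_nonneg _
  have t1 : ∀ i, (I.dd j j0 : ℚ) ≤ I.dd j i + I.dd j0 i := fun i => by
    have := h.hI.tri j i j0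
    rw [h.hI.symm i j0] at this
    exact_mod_cast this
  have t2 : ∀ i, (I.dd j i : ℚ) ≤ I.dd j j0 + I.dd j0 i := fun i => by
    exact_mod_cast h.hI.tri j j0 i
  have t3 : ∀ i, (I.dd j0 i : ℚ) ≤ I.dd j j0 + I.dd j i := fun i => by
    have := h.hI.tri j0 j i
    rw [h.hI.symm j0 j] at this
    exact_mod_cast this
  have k1 : (∑ i ∈ range I.N, min (I.nf y j i) (I.nf y j0 i)) * (I.dd j j0 : ℚ) ≤
      I.Dc y j + I.Dc y j0 := by
    unfold II.Dc
    rw [sum_mul, ← sum_add_distrib]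
    refine sum_le_sum fun i _ => ?_
    have a0 : 0 ≤ min (I.nf y j i) (I.nf y j0 i) :=
      le_min (II.nf_nonneg j i) (II.nf_nonneg j0 i)
    have a1 := mul_le_mul_of_nonneg_left (t1 i) a0
    have a2 := mul_le_mul_of_nonneg_right (min_le_left (I.nf y j i) (I.nf y j0 i))
      (Nat.cast_nonneg (α := ℚ) (I.dd j i))
    have a3 := mul_le_mul_of_nonneg_right (min_le_right (I.nf y j i) (I.nf y j0 i))
      (Nat.cast_nonneg (α := ℚ) (I.dd j0 i))
    linarith
  have k2 : I.Dc y j0 ≤ ∑ i ∈ range I.N, I.nf y j i * (I.dd j0 i : ℚ) :=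
    II.nf_opt h.hy hm j0 _ (fun i _ => II.nf_nonneg j i) (fun i _ => II.nf_le h.hy j i)
      (II.nf_sum h.hy hm j)
  have k3 : ∑ i ∈ range I.N, I.nf y j0 i * (I.dd j i : ℚ) +
      ∑ i ∈ range I.N, I.nf y j i * (I.dd j0 i : ℚ) ≤ I.Dc y j + I.Dc y j0 +
      (∑ i ∈ range I.N, I.nf y j i + ∑ i ∈ range I.N, I.nf y j0 i -
        2 * ∑ i ∈ range I.N, min (I.nf y j i) (I.nf y j0 i)) * (I.dd j j0 : ℚ) := by
    unfold II.Dc
    rw [mul_sum, ← sum_add_distrib, ← sum_add_distrib, ← sum_add_distrib, ← sum_sub_distrib,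
      sum_mul, ← sum_add_distrib]
    refine sum_le_sum fun i _ => ?_
    rcases le_total (I.nf y j i) (I.nf y j0 i) with hab | hab
    · rw [min_eq_left hab]
      have := mul_le_mul_of_nonneg_left (t2 i) (sub_nonneg.2 hab)
      linarith
    · rw [min_eq_right hab]
      have := mul_le_mul_of_nonneg_left (t3 i) (sub_nonneg.2 hab)
      linarith
  rw [II.nf_sum h.hy hm j, II.nf_sum h.hy hm j0] at k3
  have e5 : 5 / (K : ℚ) = 5 * (1 / (K : ℚ)) := by ring
  have e40 : 40 / (K : ℚ) = 40 * (1 / (K : ℚ)) := by ring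
  rw [e5] at hov
  rw [e40]
  have k4 := mul_le_mul_of_nonneg_right hov hD0
  have k5 : (1 / (K : ℚ)) * (I.dd j j0 : ℚ) ≤ 1 / 100 * (I.dd j j0 : ℚ) :=
    mul_le_mul_of_nonneg_right ht1 hD0
  have k6 : (I.dd j j0 : ℚ) ≤ 4 * I.Dc y j := by linarith
  have k7 := mul_le_mul_of_nonneg_left k6 ht0.le
  linarith

private lemma helper62_uc (c i : ℕ) : (uc I K y c i : ℚ) =
    ∑ j ∈ I.C.filter (fun j => user I K y j c), (I.dd j i : ℚ) := by
  rw [uc, II.C, Finset.filter_filter, Finset.sum_filter]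
  push_cast
  rfl

/-- `star_spec`, averaged with the weights `nf y j0` on `B_c` (positive weight ⇒ facility) -/
lemma star_avg (h : Hyp I K y) (hc : c ∈ fam I K y) (j0 : ℕ) :
    xB I K y j0 c * ∑ j ∈ I.C.filter (fun j => user I K y j c), (I.dd j (star I K y c) : ℚ) ≤
      ∑ j ∈ I.C.filter (fun j => user I K y j c), ∑ i ∈ range I.N,
        if inB I K y c i then I.nf y j0 i * (I.dd j i : ℚ) else 0 := by
  rw [Finset.sum_comm, xB, Finset.sum_mul]
  refine Finset.sum_le_sum fun i _ => ?_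
  by_cases hi : inB I K y c i
  · simp only [if_pos hi]
    rw [← Finset.mul_sum, ← helper62_uc, ← helper62_uc]
    rcases (II.nf_nonneg (I := I) (y := y) j0 i).eq_or_lt with h0 | h0
    · rw [← h0]; simp
    · have hF : i ∈ I.F := h.hy.mem_F (h0.trans_le (II.nf_le h.hy j0 i))
      exact mul_le_mul_of_nonneg_left (by exact_mod_cast (star_spec h hc).2.2 i hF hi) h0.le
  · simp [if_neg hi]

/-- `Dc_y1_le` with `p = j0`: points of `B_c` go to `star c` (cost `0`); for the others
`dd (star c) (pi a) ≤ dd j (star c) + (1 + 6/K) dd j a` (`move`, `user_unique`) -/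
lemma Dc_star_le (h : Hyp I K y) (hc : c ∈ fam I K y) (hu : user I K y j c) (j0 : ℕ) :
    I.Dc (y1 I K y) (star I K y c) ≤ (1 - xB I K y j0 c) * (I.dd j (star I K y c) : ℚ) +
      (1 + 6 / (K : ℚ)) * ∑ i ∈ range I.N,
        if inB I K y c i then 0 else I.nf y j0 i * (I.dd j i : ℚ) := by
  have hK : (0 : ℚ) < K := by have := h.hK; exact_mod_cast (by omega : 0 < K)
  have h1 : 1 - xB I K y j0 c =
      ∑ i ∈ range I.N, if inB I K y c i then 0 else I.nf y j0 i := by
    rw [← II.nf_sum h.hy (by linarith [h.two]) j0, xB, ← Finset.sum_sub_distrib]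
    refine Finset.sum_congr rfl fun i _ => ?_
    split_ifs <;> simp
  refine (Dc_y1_le h _ j0).trans ?_
  rw [h1, Finset.sum_mul, Finset.mul_sum, ← Finset.sum_add_distrib]
  refine Finset.sum_le_sum fun a _ => ?_
  by_cases ha : inB I K y c a
  · simp [if_pos ha, pi_of_inB h hc ha, h.hI.refl]
  · simp only [if_neg ha]
    have hm := move (i := a) (j := j) h fun c' hc' hin hu' =>
      ha (user_unique h hc' hc hu' hu ▸ hin)
    have hm' : (K : ℚ) * I.dd j (pi I K y a) ≤ ((K : ℚ) + 6) * I.dd j a := by exact_mod_cast hm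
    have h2 : (I.dd j (pi I K y a) : ℚ) ≤ (1 + 6 / (K : ℚ)) * I.dd j a := by
      rw [show (1 + 6 / (K : ℚ)) * I.dd j a = ((K : ℚ) + 6) * I.dd j a / K by field_simp,
        le_div_iff₀ hK]
      linarith
    have h3 : (I.dd (star I K y c) (pi I K y a) : ℚ) ≤
        I.dd j (star I K y c) + I.dd j (pi I K y a) := by
      rw [h.hI.symm j (star I K y c)]
      exact_mod_cast h.hI.tri _ j _
    have h4 := II.nf_nonneg (I := I) (y := y) j0 a
    nlinarith [mul_le_mul_of_nonneg_left (h3.trans (add_le_add_right h2 _)) h4]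

/-- Take `j0` minimising `Dc y` among the users (`c` is one), `β = 1 - xB j0 c ∈ [0, 2/K]`;
`1 + g β ≤ g (1 - β)`; `star_avg`, `Dc_star_le`, `cross`, `(1+6/K)(1+40/K) ≤ 1+50/K`. -/
lemma ucost_core (h : Hyp I K y) (hc : c ∈ fam I K y) {g : ℚ} (hg1 : 3 / 2 ≤ g) (hg2 : g ≤ 2) :
    ∑ j ∈ I.C.filter (fun j => user I K y j c),
        ((I.dd j (star I K y c) : ℚ) + g * I.Dc (y1 I K y) (star I K y c)) ≤
      g * (1 + 50 / (K : ℚ)) * ∑ j ∈ I.C.filter (fun j => user I K y j c), I.Dc y j := by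
  set U := I.C.filter (fun j => user I K y j c) with hU
  have hcU : c ∈ U := mem_filter.2 ⟨(fam_mem hc).1, user_self h hc⟩
  obtain ⟨j0, hj0, hmin⟩ := U.exists_min_image (fun j => I.Dc y j) ⟨c, hcU⟩
  have hu0 : user I K y j0 c := (mem_filter.1 hj0).2
  have hK : (100 : ℚ) ≤ K := by exact_mod_cast h.hK
  have hK0 : (0 : ℚ) < K := by linarith
  set t : ℚ := 1 / (K : ℚ) with ht
  have ht0 : 0 < t := by positivity
  have ht1 : t ≤ 1 / 100 := one_div_le_one_div_of_le (by norm_num) hK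
  have e : ∀ a : ℚ, a / K = a * t := fun a => by rw [ht]; ring
  set x := xB I K y j0 c with hx
  have hx1 : x ≤ 1 := xB_le_one h j0 c
  have hx2 : 1 - 2 * t ≤ x := by
    have : 1 - 2 / (K : ℚ) ≤ x := hu0
    rwa [e] at this
  set d : ℕ → ℚ := fun j => (I.dd j (star I K y c) : ℚ) with hd
  set A : ℕ → ℚ := fun j => ∑ i ∈ range I.N,
    if inB I K y c i then I.nf y j0 i * (I.dd j i : ℚ) else 0 with hA
  set B : ℕ → ℚ := fun j => ∑ i ∈ range I.N,
    if inB I K y c i then 0 else I.nf y j0 i * (I.dd j i : ℚ) with hB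
  have hA0 : 0 ≤ ∑ j ∈ U, A j := sum_nonneg fun j _ => sum_nonneg fun i _ => by
    have := II.nf_nonneg (I := I) (y := y) j0 i
    split_ifs <;> positivity
  have hd0 : 0 ≤ ∑ j ∈ U, d j := sum_nonneg fun j _ => by positivity
  have hD0 : 0 ≤ ∑ j ∈ U, I.Dc y j := sum_nonneg fun j _ => II.Dc_nonneg j
  have h1 : x * ∑ j ∈ U, d j ≤ ∑ j ∈ U, A j := star_avg h hc j0
  have h2 : ∑ j ∈ U, A j + ∑ j ∈ U, B j ≤ (1 + 40 * t) * ∑ j ∈ U, I.Dc y j := by
    rw [← sum_add_distrib, mul_sum]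
    refine sum_le_sum fun j hj => ?_
    have := cross h (mem_filter.1 hj).2 hu0 (hmin j hj)
    rw [e] at this
    refine le_trans (le_of_eq ?_) this
    rw [hA, hB, ← sum_add_distrib]
    refine sum_congr rfl fun i _ => ?_
    split_ifs <;> simp
  have h3 : ∑ j ∈ U, (d j + g * I.Dc (y1 I K y) (star I K y c)) ≤
      (1 + g * (1 - x)) * ∑ j ∈ U, d j + g * (1 + 6 * t) * ∑ j ∈ U, B j := by
    rw [mul_sum, mul_sum, ← sum_add_distrib]
    refine sum_le_sum fun j hj => ?_
    have := Dc_star_le h hc (mem_filter.1 hj).2 j0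
    rw [e] at this
    have h4 : g * I.Dc (y1 I K y) (star I K y c) ≤ g * ((1 - x) * d j + (1 + 6 * t) * B j) :=
      mul_le_mul_of_nonneg_left this (by linarith)
    linarith
  have h5 : 1 + g * (1 - x) ≤ g * x := by nlinarith
  have hg0 : 0 ≤ g := by linarith
  rw [e]
  calc ∑ j ∈ U, (d j + g * I.Dc (y1 I K y) (star I K y c))
      ≤ (1 + g * (1 - x)) * ∑ j ∈ U, d j + g * (1 + 6 * t) * ∑ j ∈ U, B j := h3
    _ ≤ g * x * ∑ j ∈ U, d j + g * (1 + 6 * t) * ∑ j ∈ U, B j := by gcongr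
    _ = g * (x * ∑ j ∈ U, d j + (1 + 6 * t) * ∑ j ∈ U, B j) := by ring
    _ ≤ g * ((1 + 6 * t) * ∑ j ∈ U, A j + (1 + 6 * t) * ∑ j ∈ U, B j) := by
        have : 0 ≤ t * ∑ j ∈ U, A j := by positivity
        refine mul_le_mul_of_nonneg_left ?_ hg0
        linarith
    _ = g * ((1 + 6 * t) * (∑ j ∈ U, A j + ∑ j ∈ U, B j)) := by ring
    _ ≤ g * ((1 + 6 * t) * ((1 + 40 * t) * ∑ j ∈ U, I.Dc y j)) := by gcongr
    _ = g * ((1 + 6 * t) * (1 + 40 * t)) * ∑ j ∈ U, I.Dc y j := by ring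
    _ ≤ g * (1 + 50 * t) * ∑ j ∈ U, I.Dc y j := by
        gcongr
        nlinarith

/-- partition of the users along `(fam I K y).toFinset` (`user_unique`, `isU_iff`) -/
lemma sum_users (h : Hyp I K y) (f : ℕ → ℚ) :
    ∑ j ∈ I.C, (if isU I K y j = true then f j else 0) =
      ∑ c ∈ (fam I K y).toFinset, ∑ j ∈ I.C.filter (fun j => user I K y j c), f j := by
  simp only [Finset.sum_filter]
  rw [Finset.sum_comm]
  refine Finset.sum_congr rfl fun j _ => ?_
  by_cases hu : isU I K y j = true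
  · obtain ⟨c, hc, hcu⟩ := isU_iff.1 hu
    rw [if_pos hu, Finset.sum_eq_single c, if_pos hcu]
    · intro c' hc' hne
      exact if_neg fun hu' => hne (user_unique h (List.mem_toFinset.1 hc') hc hu' hcu)
    · intro hn
      exact absurd (List.mem_toFinset.2 hc) hn
  · rw [if_neg hu]
    refine (Finset.sum_eq_zero fun c hc => if_neg fun hu' => hu ?_).symm
    exact isU_iff.2 ⟨c, List.mem_toFinset.1 hc, hu'⟩

lemma ucost (h : Hyp I K y) {g : ℚ} (hg1 : 3 / 2 ≤ g) (hg2 : g ≤ 2) :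
    ∑ j ∈ I.C, (if isU I K y j = true then
        (I.dd j (usr I K y j) : ℚ) + g * I.Dc (y1 I K y) (usr I K y j) else 0) ≤
      g * (1 + 50 / (K : ℚ)) * ∑ j ∈ I.C, (if isU I K y j = true then I.Dc y j else 0) := by
  rw [sum_users h, sum_users h, mul_sum]
  refine sum_le_sum fun c hc => ?_
  have hc' := List.mem_toFinset.1 hc
  refine le_trans (le_of_eq (sum_congr rfl fun j hj => ?_)) (ucost_core h hc' hg1 hg2)
  rw [usr_eq h hc' (mem_filter.1 hj).2]

/-! ### savings -/

/-- cores have `y1 ≥ 1 - 1/K` (`y1_star`, `le_mB`) and are facilities -/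
lemma ys_yok (h : Hyp I K y) : I.YOK (ys I K y) := by
  have hy := y1_yok h
  have hK : (100 : ℚ) ≤ K := by exact_mod_cast h.hK
  have hK0 : (0 : ℚ) < 1 / K := by positivity
  have hK1 : 1 / (K : ℚ) ≤ 1 / 100 := one_div_le_one_div_of_le (by norm_num) hK
  refine ⟨fun i => ?_, fun i => ?_, fun i hi => ?_⟩
  · unfold ys
    split_ifs with hc
    · obtain ⟨c, hcf, rfl⟩ := core_iff.1 hc
      have h1 : 1 - 1 / (K : ℚ) ≤ y1 I K y (star I K y c) := by
        rw [y1_star h hcf]
        exact le_min (by linarith) (le_mB h hcf)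
      linarith
    · exact div_nonneg (hy.nonneg i) (by linarith)
  · unfold ys
    have := hy.le_one i
    split_ifs with hc
    · linarith
    · exact (div_le_one (by linarith)).2 (by linarith)
  · unfold ys
    split_ifs with hc
    · obtain ⟨c, hcf, rfl⟩ := core_iff.1 hc
      exact absurd (star_spec h hcf).1 hi
    · rw [hy.supp i hi, zero_div]

lemma mass_ys (h : Hyp I K y) :
    I.mass (ys I K y) ≤ I.mass y - I.Wc (y1 I K y) (core I K y) / (2 * K) := by
  have hy := y1_yok h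
  have hK : (100 : ℚ) ≤ K := by exact_mod_cast h.hK
  have h1 : I.mass (ys I K y) ≤
      I.mass (y1 I K y) - I.Wc (y1 I K y) (core I K y) / (2 * K) := by
    unfold II.mass II.Wc
    rw [sum_div, ← sum_sub_distrib]
    refine sum_le_sum fun i _ => ?_
    unfold ys
    have h0 := hy.nonneg i
    have h1 := hy.le_one i
    split_ifs with hc
    · have : (1 - y1 I K y i) / (2 * K) ≤ (1 - y1 I K y i) / 2 :=
        div_le_div_of_nonneg_left (by linarith) (by norm_num) (by linarith)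
      linarith
    · have e : y1 I K y i / (1 + 1 / (K : ℚ)) = y1 I K y i - y1 I K y i / (K + 1) := by
        field_simp
        ring
      have : y1 I K y i / (2 * K) ≤ y1 I K y i / (K + 1) :=
        div_le_div_of_nonneg_left h0 (by linarith) (by linarith)
      linarith
  have := mass_y1_le h
  linarith

/-- Let `T` be the cores whose ball meets the ball of radius `ap j` (mass `≥ 1 + 1/K`); their stars
lie within `2 ap j` (`dd_pi_le`, `pi_of_inB`). Two such cores: two distinct stars with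
`ys ≥ 1 - 3/(2K)`. One core with deficiency `β = 1 - min 1 (mB c) ≤ 1/K`: if `β > 0` the free mass
in the ball is `≥ 1/K + β ≥ 2β`, after scaling `≥ 3β/2`, and `ys (star c) = 1 - 3β/2`. No core:
scaling. Points outside all balls are not cores and have `y1 = y` (`y1_free`). -/
lemma ball_ys (h : Hyp I K y) (hu : ∀ c ∈ fam I K y, user I K y j c → c = j) :
    1 ≤ I.ball (ys I K y) j (2 * ap I K y j) := by
  classical
  have hK : (100 : ℚ) ≤ K := by exact_mod_cast h.hK
  have hκ0 : 0 < 1 / (K : ℚ) := by positivity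
  have hκ1 : 1 / (K : ℚ) ≤ 1 / 100 := one_div_le_one_div_of_le (by norm_num) hK
  have hys := ys_yok h
  have hball : ∀ U : Finset ℕ, (∀ i ∈ U, i < I.N ∧ I.dd j i ≤ 2 * ap I K y j) →
      ∑ i ∈ U, ys I K y i ≤ I.ball (ys I K y) j (2 * ap I K y j) := by
    intro U hU
    unfold II.ball
    rw [← sum_filter]
    exact sum_le_sum_of_subset_of_nonneg
      (fun i hi => mem_filter.2 ⟨mem_range.2 (hU i hi).1, (hU i hi).2⟩)
      fun i _ _ => hys.nonneg i
  set S : Finset ℕ := (range I.N).filter fun i =>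
    I.dd j i ≤ ap I K y j ∧ ∀ c ∈ fam I K y, ¬ inB I K y c i with hSdef
  have hSU : ∀ i ∈ S, i < I.N ∧ I.dd j i ≤ 2 * ap I K y j := by
    intro i hi
    obtain ⟨h1, h2, _⟩ := mem_filter.1 hi
    exact ⟨mem_range.1 h1, by omega⟩
  have hS : ∑ i ∈ S, ys I K y i = (∑ i ∈ S, y i) / (1 + 1 / (K : ℚ)) := by
    rw [sum_div]
    refine sum_congr rfl fun i hi => ?_
    obtain ⟨_, _, h3⟩ := mem_filter.1 hi
    have hc : ¬ core I K y i = true := by
      intro hc
      obtain ⟨c, hc1, rfl⟩ := core_iff.1 hc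
      exact h3 c hc1 (star_spec h hc1).2.1
    unfold ys
    rw [if_neg hc, y1_free h h3]
  have hS0 : 0 ≤ ∑ i ∈ S, y i := sum_nonneg fun i _ => h.hy.nonneg i
  have hstar : ∀ c ∈ fam I K y, ys I K y (star I K y c) =
      min 1 (mB I K y c) - (1 - min 1 (mB I K y c)) / 2 := by
    intro c hc
    unfold ys
    rw [if_pos (core_iff.2 ⟨c, hc, rfl⟩), y1_star h hc]
  have hnear : ∀ c ∈ fam I K y, ∀ i, I.dd j i ≤ ap I K y j → inB I K y c i →
      star I K y c < I.N ∧ I.dd j (star I K y c) ≤ 2 * ap I K y j := by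
    intro c hc i hi1 hi2
    refine ⟨(II.mem_F.1 (star_spec h hc).1).1, ?_⟩
    rw [← pi_of_inB h hc hi2]
    exact dd_pi_le h hu hi1
  have hap := ap_ball h j
  have hSsum : ∑ i ∈ S, y i = ∑ i ∈ range I.N,
      if I.dd j i ≤ ap I K y j ∧ ∀ c ∈ fam I K y, ¬ inB I K y c i then y i else 0 := by
    rw [hSdef, sum_filter]
  by_cases h0 : ∃ c ∈ fam I K y, ∃ i, I.dd j i ≤ ap I K y j ∧ inB I K y c i
  · obtain ⟨c, hc, i, hi1, hi2⟩ := h0
    have hm := le_mB h hc
    by_cases h2 : ∃ c' ∈ fam I K y, c' ≠ c ∧ ∃ i', I.dd j i' ≤ ap I K y j ∧ inB I K y c' i'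
    · obtain ⟨c', hc', hne, i', hi1', hi2'⟩ := h2
      have hm' := le_mB h hc'
      have hsne : star I K y c ≠ star I K y c' := by
        intro he
        have e1 := (star_spec h hc).2.1
        have e2 := (star_spec h hc').2.1
        rw [← he] at e2
        exact hne (inB_unique h hc' hc e2 e1)
      have key := hball {star I K y c, star I K y c'} (by
        intro x hx
        rcases mem_insert.1 hx with rfl | hx
        · exact hnear c hc i hi1 hi2
        · rw [mem_singleton.1 hx]; exact hnear c' hc' i' hi1' hi2')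
      rw [sum_pair hsne, hstar c hc, hstar c' hc'] at key
      have e1 : 1 - 1 / (K : ℚ) ≤ min 1 (mB I K y c) := le_min (by linarith) hm
      have e2 : 1 - 1 / (K : ℚ) ≤ min 1 (mB I K y c') := le_min (by linarith) hm'
      linarith
    · have hnot : star I K y c ∉ S := fun hi =>
        (mem_filter.1 hi).2.2 c hc (star_spec h hc).2.1
      have key := hball (insert (star I K y c) S) (by
        intro x hx
        rcases mem_insert.1 hx with rfl | hx
        · exact hnear c hc i hi1 hi2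
        · exact hSU x hx)
      rw [sum_insert hnot, hstar c hc, hS] at key
      have hcover : I.ball y j (ap I K y j) ≤ ∑ i ∈ S, y i + mB I K y c := by
        rw [hSsum]
        unfold II.ball mB
        rw [← sum_add_distrib]
        refine sum_le_sum fun x _ => ?_
        have hx0 := h.hy.nonneg x
        by_cases hx1 : I.dd j x ≤ ap I K y j
        · by_cases hx2 : inB I K y c x
          · rw [if_pos hx1, if_pos hx2]
            split_ifs <;> linarith
          · have hx3 : ∀ c' ∈ fam I K y, ¬ inB I K y c' x := by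
              intro c' hc' hx4
              by_cases hcc : c' = c
              · exact hx2 (hcc ▸ hx4)
              · exact h2 ⟨c', hc', hcc, x, hx1, hx4⟩
            rw [if_pos hx1, if_pos ⟨hx1, hx3⟩, if_neg hx2, add_zero]
        · rw [if_neg hx1]
          split_ifs <;> linarith
      refine le_trans ?_ key
      rcases le_total 1 (mB I K y c) with h1 | h1
      · rw [min_eq_left h1]
        have : 0 ≤ (∑ i ∈ S, y i) / (1 + 1 / (K : ℚ)) := div_nonneg hS0 (by linarith)
        linarith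
      · rw [min_eq_right h1]
        have : 3 / 2 * (1 - mB I K y c) ≤ (∑ i ∈ S, y i) / (1 + 1 / (K : ℚ)) := by
          rw [le_div_iff₀ (by linarith)]
          nlinarith
        linarith
  · have hcover : I.ball y j (ap I K y j) ≤ ∑ i ∈ S, y i := by
      rw [hSsum]
      unfold II.ball
      refine sum_le_sum fun x _ => ?_
      have hx0 := h.hy.nonneg x
      by_cases hx1 : I.dd j x ≤ ap I K y j
      · rw [if_pos hx1, if_pos ⟨hx1, fun c hc hx => h0 ⟨c, hc, x, hx1, hx⟩⟩]
      · rw [if_neg hx1]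
        split_ifs <;> linarith
    refine le_trans ?_ (hball S hSU)
    rw [hS, le_div_iff₀ (by linarith)]
    linarith

/-- serve `j` like `q`: `nf_opt` with `nf z q`, triangle inequality, `Dc_le_ball` at `q` -/
lemma Dc_le_via (hI : I.Valid) {z : ℕ → ℚ} (hz : I.YOK z) {p q R : ℕ} (hq : I.dd q p ≤ R)
    (hR : 1 ≤ I.ball z p R) (j : ℕ) :
    I.Dc z j ≤ (I.dd j q : ℚ) + (1 - z q) * (2 * R) := by
  have h1 : 1 ≤ I.mass z := hR.trans (II.ball_le_mass hz p R)
  have h2 : 1 ≤ I.ball z q (2 * R) :=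
    (hR.trans (II.ball_le_ball hI hz p q R)).trans (II.ball_mono hz q (by omega))
  have h3 := II.Dc_le_ball hI hz h2
  have h4 := II.nf_opt hz h1 j (I.nf z q) (fun i _ => II.nf_nonneg _ _)
    (fun i _ => II.nf_le hz _ _) (II.nf_sum hz h1 q)
  have h5 : ∑ i ∈ range I.N, I.nf z q i * (I.dd j i : ℚ) ≤
      ∑ i ∈ range I.N, (I.nf z q i * (I.dd j q : ℚ) + I.nf z q i * (I.dd q i : ℚ)) := by
    refine sum_le_sum fun i _ => ?_
    rw [← mul_add]
    exact mul_le_mul_of_nonneg_left (by exact_mod_cast hI.tri j q i) (II.nf_nonneg _ _)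
  rw [sum_add_distrib, ← sum_mul, II.nf_sum hz h1 q, one_mul] at h5
  push_cast at h3
  unfold II.Dc at h3
  linarith

/-- With `a = dd j c`, `β = 1 - y1 (star c) ≤ min (1/K) (1 - xB j c)`: the mass of `j` outside `B_c`
(at least `β`) is at distance `≥ ap c / K - a`, and `j` has mass `≥ 1 - 4/K ≥ 1/2` in the small
ball, at distance `≥ a - ap c / K²`. Cases `2 K a ≤ ap c` or not. -/
lemma user_beta (h : Hyp I K y) (hc : c ∈ fam I K y) (hu : user I K y j c) :
    (1 - y1 I K y (star I K y c)) * (ap I K y c : ℚ) ≤ 2 * K * I.Dc y j := by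
  have hK : (100 : ℚ) ≤ K := by exact_mod_cast h.hK
  have hK0 : (0 : ℚ) < K := by linarith
  have hK0' : 0 < K := by have := h.hK; omega
  have hA0 : (0 : ℚ) ≤ (ap I K y c : ℚ) := Nat.cast_nonneg _
  have hx1 := xB_le_one h j c
  have hx2 := xB_le_mB h j c
  have hm1 := le_mB h hc
  have hm2 := mB_lt h c
  have hb1 : 1 - y1 I K y (star I K y c) ≤ 1 - xB I K y j c := by
    rw [y1_star h hc]
    have := le_min hx1 hx2
    linarith
  have hb2 : 1 - y1 I K y (star I K y c) ≤ 1 / (K : ℚ) := by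
    rw [y1_star h hc]
    have h0 : (0 : ℚ) ≤ 1 / (K : ℚ) := by positivity
    have := le_min (show 1 - 1 / (K : ℚ) ≤ 1 by linarith) hm1
    linarith
  have hsum := II.nf_sum h.hy (by linarith [h.two]) j
  have htri : ∀ i, (I.dd c i : ℚ) ≤ I.dd j c + I.dd j i := by
    intro i
    have := h.hI.tri c j i
    rw [h.hI.symm c j] at this
    exact_mod_cast this
  have htri' : ∀ i, (I.dd j c : ℚ) ≤ I.dd j i + I.dd c i := by
    intro i
    have := h.hI.tri j i c
    rw [h.hI.symm i c] at this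
    exact_mod_cast this
  by_cases hcase : 2 * (K : ℚ) * I.dd j c ≤ ap I K y c
  · have h1 : (1 - xB I K y j c) * (ap I K y c : ℚ) ≤ 2 * K * I.Dc y j := by
      rw [← hsum]
      unfold xB II.Dc
      rw [← sum_sub_distrib, sum_mul, mul_sum]
      refine sum_le_sum fun i _ => ?_
      have hn := II.nf_nonneg (I := I) (y := y) j i
      have hd : (0 : ℚ) ≤ I.dd j i := Nat.cast_nonneg _
      split_ifs with hi
      · rw [sub_self, zero_mul]; positivity
      · have h2 : (ap I K y c : ℚ) < K * I.dd c i := by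
          unfold inB at hi
          exact_mod_cast not_le.1 hi
        have h3 : (ap I K y c : ℚ) ≤ 2 * K * I.dd j i := by nlinarith [htri i]
        rw [sub_zero]
        nlinarith
    exact (mul_le_mul_of_nonneg_right hb1 hA0).trans h1
  · have hcase' := not_le.1 hcase
    have hconc : 1 - 1 / (K : ℚ) ≤ I.ball y c (ap I K y c / K ^ 2) := (fam_mem hc).2
    have hu' : 1 - 2 / (K : ℚ) ≤ xB I K y j c := hu
    have h1 : (xB I K y j c - mB I K y c + I.ball y c (ap I K y c / K ^ 2)) *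
        (((K : ℚ) - 2) * ap I K y c) ≤ 2 * (K : ℚ) ^ 2 * I.Dc y j := by
      unfold xB mB II.ball II.Dc
      rw [← sum_sub_distrib, ← sum_add_distrib, sum_mul, mul_sum]
      refine sum_le_sum fun i _ => ?_
      have hn := II.nf_nonneg (I := I) (y := y) j i
      have hn' := II.nf_le h.hy j i
      have hd : (0 : ℚ) ≤ I.dd j i := Nat.cast_nonneg _
      have hc0 : (0 : ℚ) ≤ ((K : ℚ) - 2) * ap I K y c := mul_nonneg (by linarith) hA0
      have hr : 0 ≤ 2 * (K : ℚ) ^ 2 * (I.nf y j i * (I.dd j i : ℚ)) := by positivity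
      by_cases hS : I.dd c i ≤ ap I K y c / K ^ 2
      · have hS' : K ^ 2 * I.dd c i ≤ ap I K y c := by
          rw [mul_comm]
          exact (Nat.le_div_iff_mul_le (by positivity)).1 hS
        have hB : inB I K y c i := by
          unfold inB
          refine le_trans (Nat.mul_le_mul_right _ ?_) hS'
          exact Nat.le_self_pow (by norm_num) K
        have hS'' : (K : ℚ) ^ 2 * I.dd c i ≤ ap I K y c := by exact_mod_cast hS'
        have h3 : ((K : ℚ) - 2) * ap I K y c ≤ 2 * (K : ℚ) ^ 2 * I.dd j i := by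
          have h4 := mul_le_mul_of_nonneg_left (htri' i) (sq_nonneg (K : ℚ))
          have h5 := mul_le_mul_of_nonneg_left hcase'.le hK0.le
          nlinarith
        rw [if_pos hB, if_pos hB, if_pos hS, sub_add_cancel]
        nlinarith
      · rw [if_neg hS, add_zero]
        split_ifs with hB
        · exact (mul_nonpos_of_nonpos_of_nonneg (by linarith) hc0).trans hr
        · rw [sub_self, zero_mul]; exact hr
    have h4 : 4 / (K : ℚ) ≤ 1 / 2 := by
      rw [div_le_div_iff₀ hK0 (by norm_num)]; linarith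
    have e2 : 2 / (K : ℚ) = 2 * (1 / K) := by ring
    have e4 : 4 / (K : ℚ) = 4 * (1 / K) := by ring
    have h5 : (1 / 2 : ℚ) ≤ xB I K y j c - mB I K y c + I.ball y c (ap I K y c / K ^ 2) := by
      linarith
    have h6 : (ap I K y c : ℚ) ≤ 2 * (K : ℚ) ^ 2 * I.Dc y j := by
      have h7 := mul_le_mul_of_nonneg_right h5 (mul_nonneg (show (0 : ℚ) ≤ K - 2 by linarith) hA0)
      nlinarith
    calc _ ≤ 1 / (K : ℚ) * ap I K y c := mul_le_mul_of_nonneg_right hb2 hA0
      _ ≤ 1 / (K : ℚ) * (2 * (K : ℚ) ^ 2 * I.Dc y j) :=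
        mul_le_mul_of_nonneg_left h6 (by positivity)
      _ = 2 * K * I.Dc y j := by field_simp

/-- Non-users: `Dc ys j ≤ 2 ap j ≤ 2 K³ Dc y j` (`ball_ys`, `Dc_le_ball`, `ap_le_Dc`). Users of `c`:
`Dc ys j ≤ dd j (star c) + (3β/2)(4 ap c) ≤ dd j (usr j) + 12 K Dc y j` (`Dc_le_via` with `p = c`,
`user_beta`), and the `dd j (usr j)` sum to at most `3 ∑ Dc y j` by `ucost` with `g = 2`. -/
lemma lpcost_ys (h : Hyp I K y) : I.lpcost (ys I K y) ≤ 2 * (K : ℚ) ^ 3 * I.lpcost y := by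
  have hK : (100 : ℚ) ≤ K := by exact_mod_cast h.hK
  have hys := ys_yok h
  have key : ∀ j ∈ I.C, I.Dc (ys I K y) j ≤
      (if isU I K y j = true then
        (I.dd j (usr I K y j) : ℚ) + 2 * I.Dc (y1 I K y) (usr I K y j) else 0) +
      12 * K * (if isU I K y j = true then I.Dc y j else 0) +
      2 * (K : ℚ) ^ 3 * (if isU I K y j = true then 0 else I.Dc y j) := by
    intro j hj
    by_cases hU : isU I K y j = true
    · simp only [hU, if_true]
      obtain ⟨c, hc, hcu⟩ := isU_iff.1 hU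
      rw [usr_eq h hc hcu]
      have hb : 1 ≤ I.ball (ys I K y) c (2 * ap I K y c) :=
        ball_ys h fun c' hc' hu' => user_unique h hc' hc hu' (user_self h hc)
      have hq : I.dd (star I K y c) c ≤ 2 * ap I K y c := by
        have h1 : K * I.dd c (star I K y c) ≤ ap I K y c := (star_spec h hc).2.1
        have h2 := h.hK
        rw [h.hI.symm]
        nlinarith
      have h1 := Dc_le_via h.hI hys hq hb j
      have h2 := user_beta h hc hcu
      have h3 : ys I K y (star I K y c) =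
          y1 I K y (star I K y c) - (1 - y1 I K y (star I K y c)) / 2 := by
        unfold ys
        rw [if_pos (core_iff.2 ⟨c, hc, rfl⟩)]
      have h4 : 0 ≤ I.Dc (y1 I K y) (star I K y c) := II.Dc_nonneg _
      rw [h3] at h1
      push_cast at h1
      nlinarith
    · simp only [hU, if_false, Bool.false_eq_true]
      have hn : ∀ c ∈ fam I K y, ¬ user I K y j c := fun c hc hu => hU (isU_iff.2 ⟨c, hc, hu⟩)
      have hb : 1 ≤ I.ball (ys I K y) j (2 * ap I K y j) :=
        ball_ys h fun c hc hu => absurd hu (hn c hc)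
      have h1 := II.Dc_le_ball h.hI hys hb
      have hnc : ¬ conc I K y j := fun hc => by
        obtain ⟨c, hc, hu⟩ := conc_user h hj hc
        exact hn c hc hu
      have h2 := ap_le_Dc h hnc
      have h3 := hys.nonneg j
      have h4 : (0 : ℚ) ≤ ap I K y j := Nat.cast_nonneg _
      push_cast at h1
      nlinarith
  have hu := ucost h (g := 2) (by norm_num) le_rfl
  set A := ∑ j ∈ I.C, (if isU I K y j = true then I.Dc y j else 0) with hA
  set B := ∑ j ∈ I.C, (if isU I K y j = true then 0 else I.Dc y j) with hB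
  have hA0 : 0 ≤ A := sum_nonneg fun j _ => by
    split_ifs
    · exact II.Dc_nonneg _
    · exact le_rfl
  have hAB : I.lpcost y = A + B := by
    rw [hA, hB, ← sum_add_distrib]
    refine sum_congr rfl fun j _ => ?_
    split_ifs <;> simp
  have hsum := sum_le_sum key
  rw [sum_add_distrib, sum_add_distrib, ← mul_sum, ← mul_sum, ← hA, ← hB] at hsum
  have h50 : 50 / (K : ℚ) ≤ 1 / 2 := by
    rw [div_le_iff₀ (by linarith)]
    linarith
  have h3 : 2 * (1 + 50 / (K : ℚ)) * A ≤ 3 * A := mul_le_mul_of_nonneg_right (by linarith) hA0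
  have hK3 : 3 + 12 * (K : ℚ) ≤ 2 * (K : ℚ) ^ 3 := by
    have : (100 : ℚ) * K ≤ K ^ 2 := by nlinarith
    nlinarith
  have h5 : (3 + 12 * (K : ℚ)) * A ≤ 2 * (K : ℚ) ^ 3 * A := mul_le_mul_of_nonneg_right hK3 hA0
  rw [hAB]
  unfold II.lpcost
  linarith

/-- some ball has mass one: `ball_ys` at a core, or at `0` if there is no core -/
lemma one_le_mass_ys (h : Hyp I K y) : 1 ≤ I.mass (ys I K y) := by
  by_cases hf : ∃ c, c ∈ fam I K y
  · obtain ⟨c, hc⟩ := hf
    exact (ball_ys h (j := c) fun c' hc' hu => user_unique h hc' hc hu (user_self h hc)).trans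
      (II.ball_le_mass (ys_yok h) _ _)
  · exact (ball_ys h (j := 0) fun c hc _ => absurd ⟨c, hc⟩ hf).trans
      (II.ball_le_mass (ys_yok h) _ _)

theorem col_spec (h : Hyp I K y) :
    I.Col K y (y1 I K y) (core I K y) (isU I K y) (usr I K y) where
  yok := y1_yok h
  one_le := one_le_mass_y1 h
  mass_le := mass_y1_le h
  usr_core j _ hu := by
    obtain ⟨c, hc, hcu⟩ := isU_iff.1 hu
    rw [usr_eq h hc hcu]
    exact ⟨(II.mem_F.1 (star_spec h hc).1).1, core_iff.2 ⟨c, hc, rfl⟩⟩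
  sav := ⟨_, _, II.feas_nf (ys_yok h) (one_le_mass_ys h), mass_ys h, lpcost_ys h⟩
  ucost _ hg1 hg2 := ucost h hg1 hg2
  ncost _ _ hu := ncost h hu
  touch _ hj hu _ _ hi _ hi' hx hd := touch h hj hu hi hi' hx hd

end Col

end Crest.Agent.R310
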