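import Crest.Agent.R310.NF

/-! Row 310: cores of a fractional opening and their collapse (definitions, polynomial time). -/

set_option autoImplicit false
set_option linter.dupNamespace false

namespace Crest.Agent.R310

open Finset Crest.Agent.Lib.PT

namespace Col

variable (I : II) (K : ℕ) (y : ℕ → ℚ)

/-- smallest radius around `j` with mass at least `1 + 1/K` -/
def ap (j : ℕ) : ℕ :=
  (List.range (I.L + 1)).findIdx fun R => decide (1 + 1 / (K : ℚ) ≤ I.ball y j R)
/-- concentrated points -/
def conc (j : ℕ) : Prop := 1 - 1 / (K : ℚ) ≤ I.ball y j (ap I K y j / K ^ 2)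
/-- the small balls may meet -/
def confl (j c : ℕ) : Prop := K ^ 2 * I.dd j c ≤ ap I K y j + ap I K y c

instance (j : ℕ) : Decidable (conc I K y j) := by unfold conc; infer_instance
instance (j c : ℕ) : Decidable (confl I K y j c) := by unfold confl; infer_instance

/-- greedy maximal family of concentrated clients without conflicts -/
def fam : List ℕ :=
  (List.range I.N).foldl (fun acc j =>
    if I.cl j = true ∧ conc I K y j ∧ ∀ c ∈ acc, ¬ confl I K y j c then j :: acc else acc) []
/-- the ball `B_c` -/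
def inB (c i : ℕ) : Prop := K * I.dd c i ≤ ap I K y c

instance (c i : ℕ) : Decidable (inB I K y c i) := by unfold inB; infer_instance

/-- mass of `B_c` -/
def mB (c : ℕ) : ℚ := ∑ i ∈ range I.N, if inB I K y c i then y i else 0
/-- share of `B_c` in the assignment of `j` -/
def xB (j c : ℕ) : ℚ := ∑ i ∈ range I.N, if inB I K y c i then I.nf y j i else 0
/-- users of a core -/
def user (j c : ℕ) : Prop := 1 - 2 / (K : ℚ) ≤ xB I K y j c

instance (j c : ℕ) : Decidable (user I K y j c) := by unfold user; infer_instance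

def ctr (j : ℕ) : Option ℕ := (fam I K y).find? fun c => decide (user I K y j c)
/-- cost of serving all users of `c` from `i` -/
def uc (c i : ℕ) : ℕ :=
  ∑ j ∈ range I.N, if I.cl j = true ∧ user I K y j c then I.dd j i else 0
/-- best facility of `B_c` for the users of `c` -/
def star (c : ℕ) : ℕ :=
  (((List.range I.N).filter fun i => decide (I.fa i = true ∧ inB I K y c i)).argmin
    (uc I K y c)).getD c
def own (i : ℕ) : Option ℕ := (fam I K y).find? fun c => decide (inB I K y c i)
/-- the collapse map -/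
def pi (i : ℕ) : ℕ := if (own I K y i).isSome = true then star I K y ((own I K y i).getD 0) else i
/-- push-forward along the collapse map -/
def px (x : ℕ → ℚ) (i : ℕ) : ℚ := ∑ a ∈ range I.N, if pi I K y a = i then x a else 0
/-- the collapsed opening -/
def y1 (i : ℕ) : ℚ := min 1 (px I K y y i)
def core (i : ℕ) : Bool := decide (∃ c ∈ fam I K y, star I K y c = i)
def isU (j : ℕ) : Bool := (ctr I K y j).isSome
def usr (j : ℕ) : ℕ := star I K y ((ctr I K y j).getD 0)
/-- the opening with savings (analysis only) -/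
def ys (i : ℕ) : ℚ :=
  if core I K y i = true then y1 I K y i - (1 - y1 I K y i) / 2 else y1 I K y i / (1 + 1 / (K : ℚ))

/-- standing hypotheses -/
structure Hyp : Prop where
  hI : I.Valid
  hy : I.YOK y
  two : 2 ≤ I.mass y
  hK : 100 ≤ K

section PT
variable {α : Type} [Enc α] {I : α → II} {y : α → ℕ → ℚ} {i j c : α → ℕ}

@[fun_prop] lemma pt_ap (hI : II.PTF I) (hy : PT fun p : α × ℕ => y p.1 p.2) (hj : PT j) :
    PT fun a => ap (I a) K (y a) (j a) := by
  simp only [ap]; fun_prop
@[fun_prop] lemma pt_conc (hI : II.PTF I) (hy : PT fun p : α × ℕ => y p.1 p.2) (hj : PT j) :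
    PT fun a => decide (conc (I a) K (y a) (j a)) := by
  simp only [conc]; fun_prop
@[fun_prop] lemma pt_confl (hI : II.PTF I) (hy : PT fun p : α × ℕ => y p.1 p.2) (hj : PT j)
    (hc : PT c) : PT fun a => decide (confl (I a) K (y a) (j a) (c a)) := by
  simp only [confl]; fun_prop
@[fun_prop] lemma pt_fam (hI : II.PTF I) (hy : PT fun p : α × ℕ => y p.1 p.2) :
    PT fun a => fam (I a) K (y a) := by
  simp only [fam]
  refine PT.foldl_add (fun p => sz p.2 + 1) (by fun_prop) (by fun_prop) (by fun_prop)
    (by fun_prop) fun a acc x _ => ?_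
  split_ifs
  · simp only [sz_cons]; omega
  · omega
@[fun_prop] lemma pt_inB (hI : II.PTF I) (hy : PT fun p : α × ℕ => y p.1 p.2) (hc : PT c)
    (hi : PT i) : PT fun a => decide (inB (I a) K (y a) (c a) (i a)) := by
  simp only [inB]; fun_prop
@[fun_prop] lemma pt_xB (hI : II.PTF I) (hy : PT fun p : α × ℕ => y p.1 p.2) (hj : PT j)
    (hc : PT c) : PT fun a => xB (I a) K (y a) (j a) (c a) := by
  simp only [xB]; fun_prop
@[fun_prop] lemma pt_user (hI : II.PTF I) (hy : PT fun p : α × ℕ => y p.1 p.2) (hj : PT j)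
    (hc : PT c) : PT fun a => decide (user (I a) K (y a) (j a) (c a)) := by
  simp only [user]; fun_prop
@[fun_prop] lemma pt_ctr (hI : II.PTF I) (hy : PT fun p : α × ℕ => y p.1 p.2) (hj : PT j) :
    PT fun a => ctr (I a) K (y a) (j a) := by
  simp only [ctr]; fun_prop
@[fun_prop] lemma pt_uc (hI : II.PTF I) (hy : PT fun p : α × ℕ => y p.1 p.2) (hc : PT c)
    (hi : PT i) : PT fun a => uc (I a) K (y a) (c a) (i a) := by
  simp only [uc]; fun_prop
@[fun_prop] lemma pt_star (hI : II.PTF I) (hy : PT fun p : α × ℕ => y p.1 p.2) (hc : PT c) :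
    PT fun a => star (I a) K (y a) (c a) := by
  simp only [star]; fun_prop
@[fun_prop] lemma pt_own (hI : II.PTF I) (hy : PT fun p : α × ℕ => y p.1 p.2) (hi : PT i) :
    PT fun a => own (I a) K (y a) (i a) := by
  simp only [own]; fun_prop
@[fun_prop] lemma pt_pi (hI : II.PTF I) (hy : PT fun p : α × ℕ => y p.1 p.2) (hi : PT i) :
    PT fun a => pi (I a) K (y a) (i a) := by
  simp only [pi]; fun_prop
@[fun_prop] lemma pt_y1 (hI : II.PTF I) (hy : PT fun p : α × ℕ => y p.1 p.2) (hi : PT i) :
    PT fun a => y1 (I a) K (y a) (i a) := by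
  simp only [y1, px]; fun_prop
@[fun_prop] lemma pt_core (hI : II.PTF I) (hy : PT fun p : α × ℕ => y p.1 p.2) (hi : PT i) :
    PT fun a => core (I a) K (y a) (i a) := by
  simp only [core]; fun_prop
@[fun_prop] lemma pt_isU (hI : II.PTF I) (hy : PT fun p : α × ℕ => y p.1 p.2) (hj : PT j) :
    PT fun a => isU (I a) K (y a) (j a) := by
  simp only [isU]; fun_prop
@[fun_prop] lemma pt_usr (hI : II.PTF I) (hy : PT fun p : α × ℕ => y p.1 p.2) (hj : PT j) :
    PT fun a => usr (I a) K (y a) (j a) := by
  simp only [usr]; fun_prop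

end PT

end Col

end Crest.Agent.R310
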