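import Crest.Agent.R310.ColDefs

/-! Row 310: geometry of the cores. -/

set_option autoImplicit false
set_option linter.dupNamespace false

namespace Crest.Agent.R310

open Finset Crest.Agent.Lib.PT

namespace Col

variable {I : II} {K : ℕ} {y : ℕ → ℚ} {c c' i j : ℕ}

/-! ### the radius `ap` -/

private lemma helper5_inv (h : Hyp I K y) : 0 < 1 / (K : ℚ) ∧ 1 / (K : ℚ) ≤ 1 / 100 := by
  have hK : (100 : ℚ) ≤ K := by exact_mod_cast h.hK
  exact ⟨by positivity, one_div_le_one_div_of_le (by norm_num) hK⟩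

private lemma helper5_ap_lt (h : Hyp I K y) (j : ℕ) :
    ap I K y j < (List.range (I.L + 1)).length := by
  refine List.findIdx_lt_length_of_exists ⟨I.L, by simp, ?_⟩
  rw [decide_eq_true_iff, II.ball_L h.hI]
  linarith [h.two, (helper5_inv h).2]

/-- `ball_L`: the radius `L` qualifies, so `findIdx` finds something -/
lemma ap_ball (h : Hyp I K y) (j : ℕ) : 1 + 1 / (K : ℚ) ≤ I.ball y j (ap I K y j) := by
  have h0 := helper5_ap_lt h j
  unfold ap at h0 ⊢
  have h1 := List.findIdx_getElem (w := h0)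
  rw [List.getElem_range, decide_eq_true_iff] at h1
  exact h1

lemma ball_lt_ap (h : Hyp I K y) {R : ℕ} (hR : R < ap I K y j) :
    I.ball y j R < 1 + 1 / (K : ℚ) := by
  have h1 := List.not_of_lt_findIdx hR
  rw [List.getElem_range, decide_eq_false_iff_not, not_le] at h1
  exact h1

lemma ap_le_of_ball (h : Hyp I K y) {R : ℕ} (hR : 1 + 1 / (K : ℚ) ≤ I.ball y j R) :
    ap I K y j ≤ R := by
  by_contra hc
  exact absurd (ball_lt_ap h (not_le.1 hc)) (not_lt.2 hR)

/-- the ball of radius `0` contains at most the point `j` -/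
lemma ap_pos (h : Hyp I K y) (j : ℕ) : 0 < ap I K y j := by
  by_contra hc
  have h0 : ap I K y j = 0 := by omega
  have h1 := ap_ball h j
  rw [h0] at h1
  have h2 : I.ball y j 0 ≤ ∑ i ∈ range I.N, if j = i then (1 : ℚ) else 0 := by
    refine Finset.sum_le_sum fun i _ => ?_
    by_cases hji : j = i
    · rw [if_pos hji]
      split_ifs
      · exact h.hy.le_one i
      · exact zero_le_one
    · rw [if_neg hji, if_neg (not_le.2 (h.hI.pos j i hji))]
  rw [Finset.sum_ite_eq] at h2
  have h3 : (if j ∈ range I.N then (1 : ℚ) else 0) ≤ 1 := by split_ifs <;> norm_num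
  linarith [(helper5_inv h).1]

lemma ap_lip (h : Hyp I K y) (j c : ℕ) : ap I K y j ≤ I.dd j c + ap I K y c :=
  ap_le_of_ball h ((ap_ball h c).trans (II.ball_le_ball h.hI h.hy c j _))

/-- the nearest-first support lies within `ap` -/
lemma dd_le_ap (h : Hyp I K y) (hi : i < I.N) (hx : 0 < I.nf y j i) : I.dd j i ≤ ap I K y j := by
  refine II.dd_le_of_ball h.hy hi hx ?_
  linarith [ap_ball h j, (helper5_inv h).1]

/-! ### the family -/

private lemma helper38_fold (I : II) (K : ℕ) (y : ℕ → ℚ) (l : List ℕ) (F : List ℕ)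
    (hF : F = l.foldl (fun acc j =>
      if I.cl j = true ∧ conc I K y j ∧ ∀ c ∈ acc, ¬ confl I K y j c then j :: acc else acc) []) :
    (∀ c ∈ F, c ∈ l ∧ I.cl c = true ∧ conc I K y c) ∧
      F.Pairwise (fun a b => ¬ confl I K y a b) ∧
      ∀ j ∈ l, I.cl j = true → conc I K y j → j ∈ F ∨ ∃ c ∈ F, confl I K y j c := by
  induction l using List.reverseRecOn generalizing F with
  | nil => subst hF; simp
  | append_singleton l a ih =>
    rw [List.foldl_append, List.foldl_cons, List.foldl_nil] at hF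
    obtain ⟨h1, h2, h3⟩ := ih _ rfl
    generalize l.foldl _ [] = G at hF h1 h2 h3
    split_ifs at hF with hc
    · subst hF
      refine ⟨fun c hc' => ?_, List.pairwise_cons.2 ⟨hc.2.2, h2⟩, fun j hj h4 h5 => ?_⟩
      · rcases List.mem_cons.1 hc' with rfl | hc'
        · exact ⟨by simp, hc.1, hc.2.1⟩
        · exact ⟨List.mem_append_left _ (h1 c hc').1, (h1 c hc').2⟩
      · rcases List.mem_append.1 hj with hj | hj
        · rcases h3 j hj h4 h5 with h | ⟨c, h, h'⟩
          · exact Or.inl (List.mem_cons_of_mem _ h)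
          · exact Or.inr ⟨c, List.mem_cons_of_mem _ h, h'⟩
        · rw [List.mem_singleton.1 hj]
          exact Or.inl List.mem_cons_self
    · subst hF
      refine ⟨fun c hc' => ⟨List.mem_append_left _ (h1 c hc').1, (h1 c hc').2⟩, h2,
        fun j hj h4 h5 => ?_⟩
      rcases List.mem_append.1 hj with hj | hj
      · exact h3 j hj h4 h5
      · rw [List.mem_singleton.1 hj] at h4 h5 ⊢
        right
        by_contra hn
        exact hc ⟨h4, h5, fun c h h' => hn ⟨c, h, h'⟩⟩

lemma fam_mem (hc : c ∈ fam I K y) : c ∈ I.C ∧ conc I K y c := by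
  obtain ⟨h1, h2, h3⟩ := (helper38_fold I K y _ (fam I K y) rfl).1 c hc
  exact ⟨mem_filter.2 ⟨mem_range.2 (List.mem_range.1 h1), h2⟩, h3⟩

/-- invariant of the fold; `confl` is symmetric -/
lemma fam_pair (h : Hyp I K y) (hc : c ∈ fam I K y) (hc' : c' ∈ fam I K y) (hne : c ≠ c') :
    ¬ confl I K y c c' := by
  have hs : Std.Symm fun a b => ¬ confl I K y a b := ⟨fun a b hab hba => hab (by
    unfold confl at hba ⊢
    rw [h.hI.symm a b]
    omega)⟩
  exact (helper38_fold I K y _ (fam I K y) rfl).2.1.forall hc hc' hne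

/-- either `j` was added (`confl j j` holds) or it was blocked; the accumulator only grows -/
lemma fam_max (h : Hyp I K y) (hj : j ∈ I.C) (hc : conc I K y j) :
    ∃ c ∈ fam I K y, confl I K y j c := by
  obtain ⟨h1, h2⟩ := mem_filter.1 hj
  rcases (helper38_fold I K y _ (fam I K y) rfl).2.2 j (List.mem_range.2 (mem_range.1 h1)) h2 hc
    with h3 | h3
  · refine ⟨j, h3, ?_⟩
    unfold confl
    rw [h.hI.refl]
    simp
  · exact h3

/-- The small balls are disjoint and both lie in the ball around `c` of radius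
`max (ap c / K²) (dd c c' + ap c' / K²)`, of mass `≥ 2 - 2/K ≥ 1 + 1/K`; hence
`ap c ≤ dd + ap c' / K²`, and symmetrically. -/
lemma fam_sep (h : Hyp I K y) (hc : c ∈ fam I K y) (hc' : c' ∈ fam I K y) (hne : c ≠ c') :
    ap I K y c ≤ 2 * I.dd c c' := by
  have hK := h.hK
  have hn : ap I K y c + ap I K y c' < K ^ 2 * I.dd c c' := not_le.1 (fam_pair h hc hc' hne)
  have h1 : 1 - 1 / (K : ℚ) ≤ I.ball y c (ap I K y c / K ^ 2) := (fam_mem hc).2
  have h2 : 1 - 1 / (K : ℚ) ≤ I.ball y c' (ap I K y c' / K ^ 2) := (fam_mem hc').2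
  have hp := ap_pos h c
  have hK2 : 1 < K ^ 2 := by nlinarith
  have ha : K ^ 2 * (ap I K y c / K ^ 2) ≤ ap I K y c := Nat.mul_div_le _ _
  have ha' : K ^ 2 * (ap I K y c' / K ^ 2) ≤ ap I K y c' := Nat.mul_div_le _ _
  have hlt : ap I K y c / K ^ 2 < ap I K y c := Nat.div_lt_self hp hK2
  generalize ap I K y c / K ^ 2 = a at h1 ha hlt
  generalize ap I K y c' / K ^ 2 = a' at h2 ha'
  have hd : a + a' < I.dd c c' := by
    refine Nat.lt_of_mul_lt_mul_left (a := K ^ 2) ?_
    rw [Nat.mul_add]; omega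
  have hsum : I.ball y c a + I.ball y c' a' ≤ I.ball y c (max a (I.dd c c' + a')) := by
    unfold II.ball
    rw [← Finset.sum_add_distrib]
    refine Finset.sum_le_sum fun i _ => ?_
    have t1 := h.hI.tri c i c'
    have t2 := h.hI.tri c c' i
    have t3 := h.hI.symm i c'
    have t4 := h.hy.nonneg i
    by_cases e1 : I.dd c i ≤ a
    · rw [if_pos e1, if_neg (by omega), if_pos (le_max_of_le_left e1), add_zero]
    · rw [if_neg e1, zero_add]
      by_cases e2 : I.dd c' i ≤ a'
      · rw [if_pos e2, if_pos (le_max_of_le_right (by omega))]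
      · rw [if_neg e2]
        split_ifs
        · exact t4
        · exact le_rfl
  have hKq : (100 : ℚ) ≤ K := by exact_mod_cast hK
  have hinv : 1 / (K : ℚ) ≤ 1 / 100 := one_div_le_one_div_of_le (by norm_num) hKq
  have h3 : ap I K y c ≤ max a (I.dd c c' + a') := ap_le_of_ball h (by linarith)
  rcases le_max_iff.1 h3 with h4 | h4 <;> omega

lemma inB_unique (h : Hyp I K y) (hc : c ∈ fam I K y) (hc' : c' ∈ fam I K y)
    (h1 : inB I K y c i) (h2 : inB I K y c' i) : c = c' := by
  by_contra hne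
  have a1 := fam_sep h hc hc' hne
  have a2 := fam_sep h hc' hc (Ne.symm hne)
  have a3 := h.hI.pos c c' hne
  have a4 := h.hI.tri c i c'
  have a5 := h.hI.symm i c'
  have a6 := h.hI.symm c' c
  have b1 : 100 * I.dd c i ≤ K * I.dd c i := Nat.mul_le_mul_right _ h.hK
  have b2 : 100 * I.dd c' i ≤ K * I.dd c' i := Nat.mul_le_mul_right _ h.hK
  unfold inB at h1 h2
  omega

lemma inB_iff (h : Hyp I K y) : inB I K y c i ↔ I.dd c i ≤ ap I K y c / K := by
  have hK : 0 < K := by have := h.hK; omega
  rw [inB, Nat.le_div_iff_mul_le hK, mul_comm]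

lemma mB_eq (h : Hyp I K y) (c : ℕ) : mB I K y c = I.ball y c (ap I K y c / K) := by
  simp only [mB, II.ball, inB_iff h]

lemma mB_lt (h : Hyp I K y) (c : ℕ) : mB I K y c < 1 + 1 / (K : ℚ) := by
  rw [mB_eq h]
  exact ball_lt_ap h (Nat.div_lt_self (ap_pos h c) (by have := h.hK; omega))

private lemma helper5_le_ball (h : Hyp I K y) (hc : c ∈ fam I K y) :
    1 - 1 / (K : ℚ) ≤ I.ball y c (ap I K y c / K) := by
  have hK := h.hK
  refine le_trans (fam_mem hc).2 (II.ball_mono h.hy c ?_)
  exact Nat.div_le_div_left (Nat.le_self_pow two_ne_zero K) (by omega)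

lemma le_mB (h : Hyp I K y) (hc : c ∈ fam I K y) : 1 - 1 / (K : ℚ) ≤ mB I K y c := by
  rw [mB_eq h]
  exact helper5_le_ball h hc

/-! ### users -/

lemma xB_le_one (h : Hyp I K y) (j c : ℕ) : xB I K y j c ≤ 1 := by
  rw [← II.nf_sum h.hy (by linarith [h.two]) j]
  refine Finset.sum_le_sum fun i _ => ?_
  split_ifs
  · exact le_rfl
  · exact II.nf_nonneg j i

lemma xB_le_mB (h : Hyp I K y) (j c : ℕ) : xB I K y j c ≤ mB I K y c := by
  refine Finset.sum_le_sum fun i _ => ?_
  split_ifs
  · exact II.nf_le h.hy j i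
  · exact le_rfl

/-- `ball_nf` -/
lemma user_self (h : Hyp I K y) (hc : c ∈ fam I K y) : user I K y c c := by
  have h1 : xB I K y c c = I.ball (I.nf y c) c (ap I K y c / K) := by
    simp only [xB, II.ball, inB_iff h]
  have h2 := helper5_le_ball h hc
  have h3 := (helper5_inv h).1
  have h4 : 2 / (K : ℚ) = 2 * (1 / (K : ℚ)) := by ring
  rw [user, h1, II.ball_nf h.hy, h4]
  exact le_min (by linarith) (by linarith)

lemma user_unique (h : Hyp I K y) (hc : c ∈ fam I K y) (hc' : c' ∈ fam I K y)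
    (h1 : user I K y j c) (h2 : user I K y j c') : c = c' := by
  by_contra hne
  have hs : xB I K y j c + xB I K y j c' ≤ ∑ i ∈ range I.N, I.nf y j i := by
    unfold xB
    rw [← Finset.sum_add_distrib]
    refine Finset.sum_le_sum fun i _ => ?_
    have t4 := II.nf_nonneg (I := I) (y := y) j i
    by_cases e1 : inB I K y c i
    · rw [if_pos e1, if_neg (fun e2 => hne (inB_unique h hc hc' e1 e2)), add_zero]
    · rw [if_neg e1, zero_add]
      split_ifs
      · exact le_rfl
      · exact t4
  rw [II.nf_sum h.hy (le_trans (by norm_num) h.two) j] at hs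
  have hKq : (100 : ℚ) ≤ K := by exact_mod_cast h.hK
  have hinv : 2 / (K : ℚ) ≤ 2 / 100 := div_le_div_of_nonneg_left (by norm_num) (by norm_num) hKq
  unfold user at h1 h2
  linarith

/-- Some point `i₁` of the small ball of `c` is not used fully by `j` (else `j` is a user), so the
support of `j` lies within `R = 2 dd j c + ap c / K²` of `c` (`dd_le_of_nf_lt`); the ball of radius
`max R (ap c / K)` has mass `≥ mB c + (1 - xB j c) > 1 + 1/K`, hence `ap c ≤ R`. -/
lemma far (h : Hyp I K y) (hc : c ∈ fam I K y) (hu : ¬ user I K y j c) :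
    49 * ap I K y c ≤ 100 * I.dd j c := by
  have hK := h.hK
  have hKq : (0 : ℚ) < 1 / (K : ℚ) := by
    have : (0 : ℚ) < K := by exact_mod_cast (by omega : 0 < K)
    positivity
  have h2K : 2 / (K : ℚ) = 2 * (1 / (K : ℚ)) := by ring
  have hcon : 1 - 1 / (K : ℚ) ≤ I.ball y c (ap I K y c / K ^ 2) := (fam_mem hc).2
  have hu' : xB I K y j c < 1 - 2 / (K : ℚ) := not_le.1 hu
  have hsmall : ap I K y c / K ^ 2 ≤ ap I K y c / K :=
    Nat.div_le_div_left (by nlinarith) (by omega)
  obtain ⟨i₁, hi₁, hd₁, hlt⟩ : ∃ i₁ < I.N, I.dd c i₁ ≤ ap I K y c / K ^ 2 ∧ I.nf y j i₁ < y i₁ := by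
    by_contra hne
    push Not at hne
    have : I.ball y c (ap I K y c / K ^ 2) ≤ xB I K y j c := by
      unfold II.ball xB
      refine sum_le_sum fun i hi => ?_
      by_cases hd : I.dd c i ≤ ap I K y c / K ^ 2
      · rw [if_pos hd, if_pos ((inB_iff h).2 (hd.trans hsmall))]
        exact hne i (mem_range.1 hi) hd
      · rw [if_neg hd]
        split_ifs
        · exact II.nf_nonneg j i
        · exact le_rfl
    linarith
  have hsupp : ∀ i < I.N, 0 < I.nf y j i → I.dd c i ≤ 2 * I.dd j c + ap I K y c / K ^ 2 := by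
    intro i hi hx
    have a1 := II.dd_le_of_nf_lt h.hy hi hi₁ hx hlt
    have a2 := h.hI.tri j c i₁
    have a3 := h.hI.tri c j i
    have a4 := h.hI.symm c j
    omega
  have hsum := II.nf_sum h.hy (by linarith [h.two]) j
  have hball : mB I K y c + (1 - xB I K y j c) ≤
      I.ball y c (max (2 * I.dd j c + ap I K y c / K ^ 2) (ap I K y c / K)) := by
    rw [← hsum]
    unfold II.ball mB xB
    rw [← sum_sub_distrib, ← sum_add_distrib]
    refine sum_le_sum fun i hi => ?_
    by_cases hb : inB I K y c i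
    · rw [if_pos hb, if_pos hb, if_pos (((inB_iff h).1 hb).trans (le_max_right _ _))]
      linarith
    · rw [if_neg hb, if_neg hb]
      rcases (II.nf_nonneg (I := I) (y := y) j i).lt_or_eq with hx | hx
      · rw [if_pos ((hsupp i (mem_range.1 hi) hx).trans (le_max_left _ _))]
        linarith [II.nf_le h.hy j i]
      · rw [← hx]
        split_ifs
        · linarith [h.hy.nonneg i]
        · linarith
  have hle := ap_le_of_ball h (j := c) (R := max (2 * I.dd j c + ap I K y c / K ^ 2)
    (ap I K y c / K)) (by linarith [le_mB h hc])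
  have hpos := ap_pos h c
  have hlt' : ap I K y c / K < ap I K y c := Nat.div_lt_self hpos (by omega)
  have hr : ap I K y c / K ^ 2 * 10000 ≤ ap I K y c :=
    (Nat.mul_le_mul_left _ (by nlinarith)).trans (Nat.div_mul_le_self _ (K ^ 2))
  rcases le_max_iff.1 hle with h1 | h1 <;> omega

/-- `fam_max`, `ap_lip`, `far`, `ap_pos` -/
lemma conc_user (h : Hyp I K y) (hj : j ∈ I.C) (hc : conc I K y j) :
    ∃ c ∈ fam I K y, user I K y j c := by
  obtain ⟨c, hcf, hcon⟩ := fam_max h hj hc
  refine ⟨c, hcf, ?_⟩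
  by_contra hu
  have a1 := far h hcf hu
  have a2 := ap_lip h j c
  have a3 := ap_pos h c
  have hK := h.hK
  have a4 : 100 * I.dd j c ≤ K ^ 2 * I.dd j c := Nat.mul_le_mul_right _ (by nlinarith)
  unfold confl at hcon
  omega

lemma isU_iff : isU I K y j = true ↔ ∃ c ∈ fam I K y, user I K y j c := by
  simp [isU, ctr]

lemma usr_eq (h : Hyp I K y) (hc : c ∈ fam I K y) (hu : user I K y j c) :
    usr I K y j = star I K y c := by
  unfold usr
  rcases e : ctr I K y j with _ | d
  · exact absurd hu (by simpa using List.find?_eq_none.1 e c hc)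
  · have h1 : d ∈ fam I K y := List.mem_of_find?_eq_some e
    have h2 : user I K y j d := by simpa using List.find?_some e
    rw [Option.getD_some, user_unique h h1 hc h2 hu]

lemma core_iff : core I K y i = true ↔ ∃ c ∈ fam I K y, star I K y c = i := by simp [core]

/-! ### the collapse map -/

/-- `B_c` has positive mass, so the filtered list is nonempty (`List.argmin_mem`,
`List.le_of_mem_argmin`) -/
lemma star_spec (h : Hyp I K y) (hc : c ∈ fam I K y) : star I K y c ∈ I.F ∧
    inB I K y c (star I K y c) ∧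
      ∀ i ∈ I.F, inB I K y c i → uc I K y c (star I K y c) ≤ uc I K y c i := by
  have hm : ∀ i, i ∈ ((List.range I.N).filter fun i => decide (I.fa i = true ∧ inB I K y c i)) ↔
      i ∈ I.F ∧ inB I K y c i := fun i => by
    simp [II.F, and_assoc]
  unfold star
  rcases e : ((List.range I.N).filter fun i =>
      decide (I.fa i = true ∧ inB I K y c i)).argmin (uc I K y c) with _ | d
  · exfalso
    rw [List.argmin_eq_none] at e
    have h0 : mB I K y c = 0 := by
      refine sum_eq_zero fun i _ => ?_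
      split_ifs with hi
      · refine h.hy.supp i fun hF => ?_
        have := (hm i).2 ⟨hF, hi⟩
        rw [e] at this
        exact List.not_mem_nil this
      · rfl
    have h1 := le_mB h hc
    have h2 : (100 : ℚ) ≤ K := by exact_mod_cast h.hK
    have h3 : 1 / (K : ℚ) ≤ 1 / 100 := one_div_le_one_div_of_le (by norm_num) h2
    linarith
  · rw [Option.getD_some]
    have h1 := (hm d).1 (List.argmin_mem e)
    exact ⟨h1.1, h1.2, fun i hi hi' => List.le_of_mem_argmin ((hm i).2 ⟨hi, hi'⟩) e⟩

lemma pi_of_inB (h : Hyp I K y) (hc : c ∈ fam I K y) (hi : inB I K y c i) :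
    pi I K y i = star I K y c := by
  unfold pi own
  cases hf : (fam I K y).find? fun c => decide (inB I K y c i) with
  | none => exact absurd (List.find?_eq_none.1 hf c hc) (by simpa using hi)
  | some c' =>
    have h1 := List.mem_of_find?_eq_some hf
    have h2 : inB I K y c' i := by simpa using List.find?_some hf
    simp [inB_unique h h1 hc h2 hi]

lemma pi_of_not (hi : ∀ c ∈ fam I K y, ¬ inB I K y c i) : pi I K y i = i := by
  have hf : own I K y i = none := List.find?_eq_none.2 fun c hc => by simpa using hi c hc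
  simp [pi, hf]

lemma pi_lt (h : Hyp I K y) (hi : i < I.N) : pi I K y i < I.N := by
  by_cases hb : ∃ c ∈ fam I K y, inB I K y c i
  · obtain ⟨c, hc, hci⟩ := hb
    rw [pi_of_inB h hc hci]
    exact (II.mem_F.1 (star_spec h hc).1).1
  · rw [pi_of_not fun c hc hci => hb ⟨c, hc, hci⟩]
    exact hi

lemma pi_mem_F (h : Hyp I K y) (hi : i ∈ I.F) : pi I K y i ∈ I.F := by
  by_cases hb : ∃ c ∈ fam I K y, inB I K y c i
  · obtain ⟨c, hc, hci⟩ := hb
    rw [pi_of_inB h hc hci]
    exact (star_spec h hc).1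
  · rw [pi_of_not fun c hc hci => hb ⟨c, hc, hci⟩]
    exact hi

/-- `dd j (star c) ≤ dd j i + 2 ap c / K` and `dd j i ≥ dd j c - ap c / K ≥ 0.48 ap c` (`far`) -/
lemma move (h : Hyp I K y) (hu : ∀ c ∈ fam I K y, inB I K y c i → ¬ user I K y j c) :
    K * I.dd j (pi I K y i) ≤ (K + 6) * I.dd j i := by
  by_cases hex : ∃ c ∈ fam I K y, inB I K y c i
  · obtain ⟨c, hc, hb⟩ := hex
    have hf := far h hc (hu c hc hb)
    have hs : K * I.dd c (star I K y c) ≤ ap I K y c := (star_spec h hc).2.1
    have hb' : K * I.dd c i ≤ ap I K y c := hb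
    rw [pi_of_inB h hc hb]
    have a1 := h.hI.tri j i (star I K y c)
    have a2 := h.hI.tri i c (star I K y c)
    have a3 := h.hI.symm i c
    have a4 := h.hI.tri j i c
    have a5 : 100 * I.dd c i ≤ K * I.dd c i := Nat.mul_le_mul_right _ h.hK
    have a6 : K * I.dd j (star I K y c) ≤ K * (I.dd j i + I.dd c i + I.dd c (star I K y c)) :=
      Nat.mul_le_mul_left _ (by omega)
    rw [mul_add, mul_add] at a6
    rw [add_mul]
    omega
  · push Not at hex
    rw [pi_of_not hex]
    exact Nat.mul_le_mul_right _ (by omega)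

/-- the fibre of `star c` is `B_c` -/
lemma y1_star (h : Hyp I K y) (hc : c ∈ fam I K y) :
    y1 I K y (star I K y c) = min 1 (mB I K y c) := by
  unfold y1 px mB
  congr 1
  refine Finset.sum_congr rfl fun a _ => if_congr ⟨fun e => ?_, pi_of_inB h hc⟩ rfl rfl
  by_cases hb : ∃ c' ∈ fam I K y, inB I K y c' a
  · obtain ⟨c', hc', hca⟩ := hb
    rw [pi_of_inB h hc' hca] at e
    have h1 := (star_spec h hc').2.1
    rw [e] at h1
    rwa [← inB_unique h hc' hc h1 (star_spec h hc).2.1]
  · rw [pi_of_not fun c hc hci => hb ⟨c, hc, hci⟩] at e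
    rw [e]
    exact (star_spec h hc).2.1

/-- the fibre of a point outside all balls is the point itself -/
lemma y1_free (h : Hyp I K y) (hi : ∀ c ∈ fam I K y, ¬ inB I K y c i) : y1 I K y i = y i := by
  have e : px I K y y i = ∑ a ∈ range I.N, if a = i then y a else 0 := by
    refine Finset.sum_congr rfl fun a _ => if_congr ⟨fun e => ?_, fun e => ?_⟩ rfl rfl
    · by_cases hb : ∃ c' ∈ fam I K y, inB I K y c' a
      · obtain ⟨c', hc', hca⟩ := hb
        rw [pi_of_inB h hc' hca] at e
        exact absurd (e ▸ (star_spec h hc').2.1) (hi c' hc')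
      · rwa [pi_of_not fun c hc hci => hb ⟨c, hc, hci⟩] at e
    · rw [e, pi_of_not hi]
  rw [y1, e, Finset.sum_ite_eq' (range I.N) i]
  split_ifs with hN
  · exact min_eq_right (h.hy.le_one i)
  · rw [h.hy.zero_of_ge (not_lt.1 fun hlt => hN (mem_range.2 hlt))]
    exact min_eq_right zero_le_one

lemma y1_yok (h : Hyp I K y) : I.YOK (y1 I K y) := by
  refine ⟨fun i => le_min zero_le_one (Finset.sum_nonneg fun a _ => ?_), fun i => min_le_left _ _,
    fun i hi => ?_⟩
  · split_ifs
    · exact h.hy.nonneg a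
    · exact le_rfl
  · have e : px I K y y i = 0 := by
      refine Finset.sum_eq_zero fun a _ => ?_
      split_ifs with ha
      · exact h.hy.supp a fun haF => hi (ha ▸ pi_mem_F h haF)
      · rfl
    rw [y1, e]
    exact min_eq_right zero_le_one

lemma sum_px (h : Hyp I K y) (x : ℕ → ℚ) (f : ℕ → ℚ) :
    ∑ i ∈ range I.N, px I K y x i * f i = ∑ a ∈ range I.N, x a * f (pi I K y a) := by
  simp only [px, Finset.sum_mul, ite_mul, zero_mul]
  rw [Finset.sum_comm]
  refine Finset.sum_congr rfl fun a ha => ?_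
  rw [Finset.sum_ite_eq (range I.N) (pi I K y a),
    if_pos (mem_range.2 (pi_lt h (mem_range.1 ha)))]

lemma mass_y1_le (h : Hyp I K y) : I.mass (y1 I K y) ≤ I.mass y := by
  have h1 := sum_px h y fun _ => 1
  simp only [mul_one] at h1
  unfold II.mass
  rw [← h1]
  exact sum_le_sum fun i _ => min_le_right _ _

/-- push-forwards of nearest-first assignments are feasible for `y1` -/
lemma px_nf (h : Hyp I K y) (p : ℕ) : (∀ i, 0 ≤ px I K y (I.nf y p) i) ∧
    (∀ i, px I K y (I.nf y p) i ≤ y1 I K y i) ∧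
      ∑ i ∈ range I.N, px I K y (I.nf y p) i = 1 := by
  have h0 : ∀ i, 0 ≤ px I K y (I.nf y p) i := fun i =>
    sum_nonneg fun a _ => by
      split_ifs
      · exact II.nf_nonneg _ _
      · exact le_rfl
  have hn : ∑ a ∈ range I.N, I.nf y p a = 1 := II.nf_sum h.hy (by linarith [h.two]) p
  refine ⟨h0, fun i => le_min ?_ ?_, ?_⟩
  · rw [← hn]
    refine sum_le_sum fun a _ => ?_
    split_ifs
    · exact le_rfl
    · exact II.nf_nonneg _ _
  · refine sum_le_sum fun a _ => ?_
    split_ifs
    · exact II.nf_le h.hy _ _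
    · exact le_rfl
  · have h1 := sum_px h (I.nf y p) fun _ => 1
    simp only [mul_one] at h1
    rw [h1, hn]

lemma one_le_mass_y1 (h : Hyp I K y) : 1 ≤ I.mass (y1 I K y) := by
  obtain ⟨_, h2, h3⟩ := px_nf h 0
  rw [← h3]
  exact sum_le_sum fun i _ => h2 i

/-- `nf_opt`, `px_nf`, `sum_px` -/
lemma Dc_y1_le (h : Hyp I K y) (q p : ℕ) :
    I.Dc (y1 I K y) q ≤ ∑ a ∈ range I.N, I.nf y p a * (I.dd q (pi I K y a) : ℚ) := by
  obtain ⟨h1, h2, h3⟩ := px_nf h p
  rw [← sum_px h (I.nf y p) fun i => (I.dd q i : ℚ)]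
  exact II.nf_opt (y1_yok h) (one_le_mass_y1 h) q _ (fun i _ => h1 i) (fun i _ => h2 i) h3

/-- points of the ball of radius `ap j` are moved within `2 ap j` (`move`; for `j = c` itself
`star c ∈ B_c`) -/
lemma dd_pi_le (h : Hyp I K y) (hu : ∀ c ∈ fam I K y, user I K y j c → c = j)
    (hi : I.dd j i ≤ ap I K y j) : I.dd j (pi I K y i) ≤ 2 * ap I K y j := by
  have hK := h.hK
  by_cases hex : ∃ c ∈ fam I K y, inB I K y c i ∧ user I K y j c
  · obtain ⟨c, hc, hb, hus⟩ := hex
    have hs : K * I.dd c (star I K y c) ≤ ap I K y c := (star_spec h hc).2.1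
    rw [pi_of_inB h hc hb]
    obtain rfl := hu c hc hus
    have : 1 * I.dd c (star I K y c) ≤ K * I.dd c (star I K y c) :=
      Nat.mul_le_mul_right _ (by omega)
    omega
  · push Not at hex
    have h1 := move (j := j) h hex
    have h2 : (K + 6) * I.dd j i ≤ K * (2 * ap I K y j) := by
      calc (K + 6) * I.dd j i ≤ (K * 2) * ap I K y j := Nat.mul_le_mul (by omega) hi
        _ = K * (2 * ap I K y j) := by ring
    exact Nat.le_of_mul_le_mul_left (h1.trans h2) (by omega)

/-- the push-forward of `nf y j` lives in this ball (`sum_px` with an indicator, `dd_le_ap`) -/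
lemma ball_y1 (h : Hyp I K y) (hu : ∀ c ∈ fam I K y, user I K y j c → c = j) :
    1 ≤ I.ball (y1 I K y) j (2 * ap I K y j) := by
  obtain ⟨_, h2, _⟩ := px_nf h j
  have hn : ∑ a ∈ range I.N, I.nf y j a = 1 := II.nf_sum h.hy (by linarith [h.two]) j
  have h4 := sum_px h (I.nf y j) fun i => if I.dd j i ≤ 2 * ap I K y j then 1 else 0
  calc (1 : ℚ) = ∑ a ∈ range I.N, I.nf y j a *
        (if I.dd j (pi I K y a) ≤ 2 * ap I K y j then 1 else 0) := by
        refine hn.symm.trans (sum_congr rfl fun a ha => ?_)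
        rcases (II.nf_nonneg (I := I) (y := y) j a).eq_or_lt with h0 | h0
        · rw [← h0, zero_mul]
        · rw [if_pos (dd_pi_le h hu (dd_le_ap h (mem_range.1 ha) h0)), mul_one]
    _ ≤ _ := by
        rw [← h4]
        refine sum_le_sum fun i _ => ?_
        split_ifs
        · rw [mul_one]; exact h2 i
        · rw [mul_zero]

end Col

end Crest.Agent.R310
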