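import Crest.Agent.Lib.PT.Mat

/-!
Row 310 (metric k-median, `1 + 2/e + ε`): shared definitions and interfaces.

All objects are `ℕ`-indexed functions; sums run over `Finset.range`.  "Polynomial-time families" of
such objects are the `fun_prop` predicates `II.PTF`, `Prof.PTF`, `VI.PTF`.
-/

set_option autoImplicit false
set_option linter.dupNamespace false

namespace Crest.Agent.R310

open Finset Crest.Agent.Lib.PT

/-! ### integer instances -/

/-- An integer k-median instance on the points `0, …, N-1`. -/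
structure II where
  N : ℕ
  L : ℕ
  k : ℕ
  dd : ℕ → ℕ → ℕ
  cl : ℕ → Bool
  fa : ℕ → Bool

namespace II

variable (I : II)

/-- the clients -/
def C : Finset ℕ := (range I.N).filter fun j => I.cl j = true
/-- the facilities -/
def F : Finset ℕ := (range I.N).filter fun i => I.fa i = true

/-- `dd` is a metric on all of `ℕ`, bounded by `L`; `1 ≤ k ≤ |F|`. -/
structure Valid : Prop where
  refl : ∀ a, I.dd a a = 0
  pos : ∀ a b, a ≠ b → 0 < I.dd a b
  symm : ∀ a b, I.dd a b = I.dd b a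
  tri : ∀ a b c, I.dd a c ≤ I.dd a b + I.dd b c
  le_L : ∀ a b, I.dd a b ≤ I.L
  k_pos : 1 ≤ I.k
  k_le : I.k ≤ I.F.card

/-- distance from `j` to the set `T` (`L` for the empty set) -/
def dset (j : ℕ) (T : Finset ℕ) : ℕ := T.fold min I.L (I.dd j)

/-- connection cost of `T` -/
def cost (T : Finset ℕ) : ℕ := ∑ j ∈ I.C, I.dset j T

/-- total mass of a fractional opening -/
def mass (y : ℕ → ℚ) : ℚ := ∑ i ∈ range I.N, y i

/-- fractional openings: values in `[0,1]`, supported on the facilities -/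
structure YOK (y : ℕ → ℚ) : Prop where
  nonneg : ∀ i, 0 ≤ y i
  le_one : ∀ i, y i ≤ 1
  supp : ∀ i, i ∉ I.F → y i = 0

/-- feasible points of the LP relaxation (no constraint on the mass of `y`) -/
structure Feas (x : ℕ → ℕ → ℚ) (y : ℕ → ℚ) : Prop where
  yok : I.YOK y
  nonneg : ∀ j ∈ I.C, ∀ i, 0 ≤ x j i
  le : ∀ j ∈ I.C, ∀ i, x j i ≤ y i
  sum : ∀ j ∈ I.C, ∑ i ∈ range I.N, x j i = 1

/-- LP objective -/
def xcost (x : ℕ → ℕ → ℚ) : ℚ := ∑ j ∈ I.C, ∑ i ∈ range I.N, x j i * (I.dd j i : ℚ)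

/-- `a` comes before `b` in the nearest-first order seen from `j` -/
def bef (j a b : ℕ) : Prop := I.dd j a < I.dd j b ∨ (I.dd j a = I.dd j b ∧ a < b)

instance (j a b : ℕ) : Decidable (I.bef j a b) := by unfold bef; infer_instance

/-- mass strictly before `i` in the nearest-first order of `j` -/
def cum (y : ℕ → ℚ) (j i : ℕ) : ℚ := ∑ a ∈ range I.N, if I.bef j a i then y a else 0

/-- nearest-first assignment of the point `j` -/
def nf (y : ℕ → ℚ) (j i : ℕ) : ℚ := max 0 (min (y i) (1 - I.cum y j i))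

/-- nearest-first connection cost of the point `j` -/
def Dc (y : ℕ → ℚ) (j : ℕ) : ℚ := ∑ i ∈ range I.N, I.nf y j i * (I.dd j i : ℚ)

/-- nearest-first cost of a fractional opening -/
def lpcost (y : ℕ → ℚ) : ℚ := ∑ j ∈ I.C, I.Dc y j

/-- mass of the closed ball of radius `R` around `p` -/
def ball (y : ℕ → ℚ) (p R : ℕ) : ℚ := ∑ i ∈ range I.N, if I.dd p i ≤ R then y i else 0

end II

/-- Polynomial-time family of integer instances (`N`, `L` polynomially bounded). -/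
@[fun_prop] structure II.PTF {α : Type} [Enc α] (I : α → II) : Prop where
  N : PT fun a => (I a).N
  Nb : PB fun a => (I a).N
  L : PT fun a => (I a).L
  Lb : PB fun a => (I a).L
  k : PT fun a => (I a).k
  dd : PT fun p : α × ℕ × ℕ => (I p.1).dd p.2.1 p.2.2
  cl : PT fun p : α × ℕ => (I p.1).cl p.2
  fa : PT fun p : α × ℕ => (I p.1).fa p.2

section PTF
variable {α β : Type} [Enc α] [Enc β]

@[fun_prop] lemma II.PTF.comp {I : β → II} {f : α → β} (hI : II.PTF I) (hf : PT f) :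
    II.PTF fun a => I (f a) where
  N := hI.N.comp hf
  Nb := hI.Nb.comp hf
  L := hI.L.comp hf
  Lb := hI.Lb.comp hf
  k := hI.k.comp hf
  dd := hI.dd.comp (f := fun p : α × ℕ × ℕ => (f p.1, p.2)) (by fun_prop)
  cl := hI.cl.comp (f := fun p : α × ℕ => (f p.1, p.2)) (by fun_prop)
  fa := hI.fa.comp (f := fun p : α × ℕ => (f p.1, p.2)) (by fun_prop)

@[fun_prop] lemma pt_II_N {I : α → II} (hI : II.PTF I) : PT fun a => (I a).N := hI.N
@[fun_prop] lemma pb_II_N {I : α → II} (hI : II.PTF I) : PB fun a => (I a).N := hI.Nb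
@[fun_prop] lemma pt_II_L {I : α → II} (hI : II.PTF I) : PT fun a => (I a).L := hI.L
@[fun_prop] lemma pb_II_L {I : α → II} (hI : II.PTF I) : PB fun a => (I a).L := hI.Lb
@[fun_prop] lemma pt_II_k {I : α → II} (hI : II.PTF I) : PT fun a => (I a).k := hI.k
@[fun_prop] lemma pt_II_dd {I : α → II} {i j : α → ℕ} (hI : II.PTF I) (hi : PT i) (hj : PT j) :
    PT fun a => (I a).dd (i a) (j a) := hI.dd.comp (f := fun a => (a, i a, j a)) (by fun_prop)
@[fun_prop] lemma pt_II_cl {I : α → II} {i : α → ℕ} (hI : II.PTF I) (hi : PT i) :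
    PT fun a => (I a).cl (i a) := hI.cl.comp (f := fun a => (a, i a)) (by fun_prop)
@[fun_prop] lemma pt_II_fa {I : α → II} {i : α → ℕ} (hI : II.PTF I) (hi : PT i) :
    PT fun a => (I a).fa (i a) := hI.fa.comp (f := fun a => (a, i a)) (by fun_prop)

end PTF

/-- What the LP solver has to deliver (additive error `1`). -/
def LPSpec (lp : II → ℕ → ℕ → ℚ) : Prop :=
  (∀ {α : Type} [Enc α] {I : α → II} {κ i : α → ℕ}, II.PTF I → PT κ → PT i →
      PT fun a => lp (I a) (κ a) (i a)) ∧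
  ∀ (I : II) (κ : ℕ), I.Valid → 1 ≤ κ → κ ≤ I.F.card →
    I.YOK (lp I κ) ∧ I.mass (lp I κ) = κ ∧
      ∀ x y, I.Feas x y → I.mass y ≤ κ → I.lpcost (lp I κ) ≤ I.xcost x + 1

/-- Pseudo-approximation with ratio `r`, `c` extra facilities, for budgets `B ≥ K * #clients`. -/
def PseudoSpec (r : ℝ) (c K : ℕ) (alg : II → ℚ → List (List ℕ)) : Prop :=
  (∀ {α : Type} [Enc α] {I : α → II} {B : α → ℚ}, II.PTF I → PT B → PT fun a => alg (I a) (B a)) ∧
  ∀ (I : II) (B : ℚ) (O : Finset ℕ), I.Valid → O ⊆ I.F → O.Nonempty → O.card ≤ I.k →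
    (I.cost O : ℚ) ≤ B → ((K * I.C.card : ℕ) : ℚ) ≤ B →
    ∃ T ∈ alg I B, T.toFinset ⊆ I.F ∧ T ≠ [] ∧ T.toFinset.card ≤ I.k + c ∧
      (I.cost T.toFinset : ℝ) ≤ r * (B : ℝ)

/-! ### client profiles, kill kernel, offers -/

/-- A client profile: masses `x l` at distances `d l`, `l < m`. -/
structure Prof where
  m : ℕ
  L : ℕ
  x : ℕ → ℚ
  d : ℕ → ℕ

structure Prof.Valid (P : Prof) : Prop where
  nonneg : ∀ l < P.m, 0 ≤ P.x l
  sum : ∑ l ∈ range P.m, P.x l = 1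
  d_pos : ∀ l < P.m, 1 ≤ P.d l
  d_le : ∀ l < P.m, P.d l ≤ P.L

/-- average distance of a profile -/
def Prof.D (P : Prof) : ℚ := ∑ l ∈ range P.m, P.x l * (P.d l : ℚ)

@[fun_prop] structure Prof.PTF {α : Type} [Enc α] (P : α → Prof) : Prop where
  m : PT fun a => (P a).m
  mb : PB fun a => (P a).m
  L : PT fun a => (P a).L
  Lb : PB fun a => (P a).L
  x : PT fun p : α × ℕ => (P p.1).x p.2
  d : PT fun p : α × ℕ => (P p.1).d p.2

section PTF
variable {α β : Type} [Enc α] [Enc β]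

@[fun_prop] lemma Prof.PTF.comp {P : β → Prof} {f : α → β} (hP : Prof.PTF P) (hf : PT f) :
    Prof.PTF fun a => P (f a) where
  m := hP.m.comp hf
  mb := hP.mb.comp hf
  L := hP.L.comp hf
  Lb := hP.Lb.comp hf
  x := hP.x.comp (f := fun p : α × ℕ => (f p.1, p.2)) (by fun_prop)
  d := hP.d.comp (f := fun p : α × ℕ => (f p.1, p.2)) (by fun_prop)

@[fun_prop] lemma pt_Prof_m {P : α → Prof} (hP : Prof.PTF P) : PT fun a => (P a).m := hP.m
@[fun_prop] lemma pb_Prof_m {P : α → Prof} (hP : Prof.PTF P) : PB fun a => (P a).m := hP.mb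
@[fun_prop] lemma pt_Prof_L {P : α → Prof} (hP : Prof.PTF P) : PT fun a => (P a).L := hP.L
@[fun_prop] lemma pb_Prof_L {P : α → Prof} (hP : Prof.PTF P) : PB fun a => (P a).L := hP.Lb
@[fun_prop] lemma pt_Prof_x {P : α → Prof} {l : α → ℕ} (hP : Prof.PTF P) (hl : PT l) :
    PT fun a => (P a).x (l a) := hP.x.comp (f := fun a => (a, l a)) (by fun_prop)
@[fun_prop] lemma pt_Prof_d {P : α → Prof} {l : α → ℕ} (hP : Prof.PTF P) (hl : PT l) :
    PT fun a => (P a).d (l a) := hP.d.comp (f := fun a => (a, l a)) (by fun_prop)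

end PTF

/-- Number of particles (out of `M`) of a facility with level `lam` alive at time `t`:
particle `u + 1` (`u < M`) dies at time `lam - (u + 1)`. -/
def mm (M t lam : ℕ) : ℕ := min M (lam - t)

/-- Offers collected by the dead particles `u + 1`, `mu ≤ u < M`, at their virtual death times. -/
def Isum {R : Type} [Field R] (M : ℕ) (v : ℕ → R) (lam mu : ℕ) : R :=
  (∑ u ∈ range M, if mu ≤ u then v (lam - (u + 1)) else 0) / (M : R)

/-- The discrete kill kernel: `M` particles, level `lev z` at distance `z` from the open set. -/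
structure Kernel where
  M : ℕ
  lev : ℕ → ℕ
  M_pos : 0 < M
  lev_zero : lev 0 = 0
  lev_mono : Monotone lev
  lev_one : M ≤ lev 1
  lev_pt : ∀ {α : Type} [Enc α] {z : α → ℕ}, PT z → PB z → PT fun a => lev (z a)
  lev_pb : ∀ {α : Type} [Enc α] {z : α → ℕ}, PB z → PB fun a => lev (z a)

/-- Offer system: `off P l ρ t` is the offer of a client with profile `P`, at distance `ρ` from the
open set, to the entry `l` at time `t`; `G P ρ` is the budget. -/
structure OfferSys (g : ℚ) extends Kernel where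
  off : Prof → ℕ → ℕ → ℕ → ℚ
  G : Prof → ℕ → ℚ
  off_pt : ∀ {α : Type} [Enc α] {P : α → Prof} {l ρ t : α → ℕ}, Prof.PTF P → PT l → PT ρ → PT t →
    PT fun a => off (P a) (l a) (ρ a) (t a)
  G_pt : ∀ {α : Type} [Enc α] {P : α → Prof} {ρ : α → ℕ}, Prof.PTF P → PT ρ →
    PT fun a => G (P a) (ρ a)
  off_nonneg : ∀ P : Prof, P.Valid → ∀ l < P.m, ∀ ρ ≤ P.L, ∀ t, 0 ≤ off P l ρ t
  off_mono : ∀ P : Prof, P.Valid → ∀ l < P.m, ∀ ρ ≤ P.L, ∀ ρ' ≤ ρ, ∀ t, ∀ t' ≤ t,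
    off P l ρ' t' ≤ off P l ρ t
  off_zero : ∀ P : Prof, P.Valid → ∀ l < P.m, ∀ ρ ≤ P.d l, ∀ t, off P l ρ t = 0
  G_mono : ∀ P : Prof, P.Valid → ∀ ρ ≤ P.L, ∀ ρ' ≤ ρ, G P ρ' ≤ G P ρ
  G_le : ∀ P : Prof, P.Valid → ∀ ρ ≤ P.L, G P ρ ≤ g * P.D + 1
  /-- (U): at the end of time the wealth covers the connection cost -/
  hU : ∀ P : Prof, P.Valid → ∀ ρ ≤ P.L,
    (ρ : ℚ) ≤ G P ρ + ∑ l ∈ range P.m, P.x l * Isum M (off P l ρ) (lev (ρ - P.d l)) 0
  /-- (P): opening of the entry `o` at time `t`, levels drop from `lam` to `lam'` -/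
  hP : ∀ P : Prof, P.Valid → ∀ ρ ≤ P.L, ∀ o < P.m, 0 < P.x o → P.d o < ρ →
    ∀ t < lev P.L, ∀ lam lam' : ℕ → ℕ,
    (∀ l < P.m, 0 < P.x l → lev (ρ - P.d l) ≤ lam l ∧ lam l ≤ lev P.L ∧ lam' l ≤ lam l ∧
      lev (P.d o - P.d l) ≤ lam' l ∧ lam' l ≤ lev (P.d o + P.d l)) →
    off P o ρ t + G P (P.d o) +
        ∑ l ∈ range P.m, P.x l * Isum M (off P l (P.d o)) (lam' l) (mm M t (lam' l)) ≤
      G P ρ + ∑ l ∈ range P.m, P.x l * (Isum M (off P l ρ) (lam l) (mm M t (lam l)) +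
        off P l ρ t * ((mm M t (lam l) : ℚ) - (mm M t (lam' l) : ℚ)) / (M : ℚ))

/-- budget of the decoupled certificate -/
def Prof.G0 (g : ℚ) (P : Prof) (ρ : ℕ) : ℚ :=
  ∑ l ∈ range P.m, P.x l * min (ρ : ℚ) (g * (P.d l : ℚ))

/-- cap on the offers to the entry `l` at distance `r` from the open set -/
def Prof.cap (A g1 : ℚ) (P : Prof) (l r : ℕ) : ℚ :=
  max 0 (min ((r : ℚ) - (P.d l : ℚ)) (A * ((r : ℚ) - g1 * (P.d l : ℚ))))

/-- Net gain on the particles of one entry that are dead after an opening at time `t`: they were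
(or are now) paid `v` at time `min t (lam - (u + 1))` and will be charged at most `c` (and at most
what they were paid). -/
noncomputable def gain (M : ℕ) (v : ℕ → ℝ) (c : ℝ) (t lam lam' : ℕ) : ℝ :=
  (∑ u ∈ range M, if mm M t lam' ≤ u then max 0 (v (min t (lam - (u + 1))) - c) else 0) / (M : ℝ)

/-- The decoupled real certificate (one `ρ` at a time). -/
def Cert (Kn : Kernel) (g A g1 : ℚ) : Prop :=
  ∀ P : Prof, P.Valid → ∀ ρ ≤ P.L, ∃ v : ℕ → ℕ → ℝ,
    (∀ l < P.m, ∀ t, 0 ≤ v l t ∧ v l t ≤ (P.cap A g1 l ρ : ℝ)) ∧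
    (∀ l < P.m, Monotone (v l)) ∧
    ((ρ : ℝ) ≤ (P.G0 g ρ : ℝ) +
      ∑ l ∈ range P.m, (P.x l : ℝ) * Isum Kn.M (v l) (Kn.lev (ρ - P.d l)) 0) ∧
    ∀ o < P.m, 0 < P.x o → P.d o < ρ → ∀ t, v o t = 0 ∨ ∀ lam' : ℕ → ℕ,
      (∀ l < P.m, Kn.lev (P.d o - P.d l) ≤ lam' l ∧ lam' l ≤ Kn.lev (P.d o + P.d l)) →
      v o t + (P.G0 g (P.d o) : ℝ) ≤ (P.G0 g ρ : ℝ) + ∑ l ∈ range P.m, (P.x l : ℝ) *
        gain Kn.M (v l) (P.cap A g1 l (P.d o)) t (max (Kn.lev (ρ - P.d l)) (lam' l)) (lam' l)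

/-! ### virtual instances (input of the rounding process) -/

/-- Virtual instance: facilities `i < n`, clients `j < nc`. -/
structure VI where
  n : ℕ
  nc : ℕ
  L : ℕ
  y : ℕ → ℚ
  x : ℕ → ℕ → ℚ
  x0 : ℕ → ℚ
  r0 : ℕ → ℕ
  dist : ℕ → ℕ → ℕ
  D : ℕ → ℕ → ℕ
  /-- `J o i`: an opening of `o` lowers the level of `i` at once -/
  J : ℕ → ℕ → Bool
  free : ℕ → Bool
  w : ℕ → ℚ

namespace VI

variable (V : VI)

structure Valid (Hd : ℕ) : Prop where
  y_nonneg : ∀ i < V.n, 0 ≤ V.y i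
  y_le : ∀ i < V.n, V.y i ≤ 1
  x_nonneg : ∀ j < V.nc, ∀ i < V.n, 0 ≤ V.x j i
  x_le : ∀ j < V.nc, ∀ i < V.n, V.x j i ≤ V.y i
  x0_nonneg : ∀ j < V.nc, 0 ≤ V.x0 j
  x_sum : ∀ j < V.nc, ∑ i ∈ range V.n, V.x j i + V.x0 j = 1
  w_nonneg : ∀ j < V.nc, 0 ≤ V.w j
  L_pos : 1 ≤ V.L
  r0_pos : ∀ j < V.nc, 1 ≤ V.r0 j
  r0_le : ∀ j < V.nc, V.r0 j ≤ V.L
  dist_pos : ∀ j < V.nc, ∀ i < V.n, 1 ≤ V.dist j i
  dist_le : ∀ j < V.nc, ∀ i < V.n, V.dist j i ≤ V.L
  D_self : ∀ i < V.n, V.D i i = 0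
  D_pos : ∀ i < V.n, ∀ o < V.n, i ≠ o → 1 ≤ V.D i o
  J_self : ∀ i < V.n, V.J i i = true
  jump : ∀ j < V.nc, ∀ i < V.n, ∀ o < V.n, 0 < V.x j i → 0 < V.x j o →
    V.J o i = true ∧ V.D i o ≤ V.dist j o + V.dist j i
  tri : ∀ j < V.nc, ∀ i < V.n, ∀ o < V.n, 0 < V.x j i → V.dist j o ≤ V.dist j i + V.D i o
  deg : ∀ o < V.n, ((range V.n).filter fun i => V.free i = false ∧ V.J o i = true).card ≤ Hd

/-- the profile of client `j`: entries `i < n`, and the inactive entry `n` -/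
def prof (j : ℕ) : Prof where
  m := V.n + 1
  L := V.L
  x l := if l < V.n then V.x j l else V.x0 j
  d l := if l < V.n then V.dist j l else V.r0 j

/-- total mass -/
def mass : ℚ := ∑ i ∈ range V.n, V.y i

/-- the fractionality that drives the variance -/
def W : ℚ := ∑ i ∈ range V.n, if V.free i = true then V.y i else 1 - V.y i

/-- initial budget -/
def C0 (g : ℚ) : ℚ := ∑ j ∈ range V.nc, V.w j * (g * (V.prof j).D + 1)

/-- virtual connection cost of client `j` -/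
def rho (S : List ℕ) (j : ℕ) : ℕ := (S.map (V.dist j)).foldr min (V.r0 j)

end VI

@[fun_prop] structure VI.PTF {α : Type} [Enc α] (V : α → VI) : Prop where
  n : PT fun a => (V a).n
  nb : PB fun a => (V a).n
  nc : PT fun a => (V a).nc
  ncb : PB fun a => (V a).nc
  L : PT fun a => (V a).L
  Lb : PB fun a => (V a).L
  y : PT fun p : α × ℕ => (V p.1).y p.2
  x : PT fun p : α × ℕ × ℕ => (V p.1).x p.2.1 p.2.2
  x0 : PT fun p : α × ℕ => (V p.1).x0 p.2
  r0 : PT fun p : α × ℕ => (V p.1).r0 p.2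
  dist : PT fun p : α × ℕ × ℕ => (V p.1).dist p.2.1 p.2.2
  D : PT fun p : α × ℕ × ℕ => (V p.1).D p.2.1 p.2.2
  J : PT fun p : α × ℕ × ℕ => (V p.1).J p.2.1 p.2.2
  free : PT fun p : α × ℕ => (V p.1).free p.2
  w : PT fun p : α × ℕ => (V p.1).w p.2

section PTF
variable {α β : Type} [Enc α] [Enc β]

@[fun_prop] lemma VI.PTF.comp {V : β → VI} {f : α → β} (hV : VI.PTF V) (hf : PT f) :
    VI.PTF fun a => V (f a) where
  n := hV.n.comp hf
  nb := hV.nb.comp hf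
  nc := hV.nc.comp hf
  ncb := hV.ncb.comp hf
  L := hV.L.comp hf
  Lb := hV.Lb.comp hf
  y := hV.y.comp (f := fun p : α × ℕ => (f p.1, p.2)) (by fun_prop)
  x := hV.x.comp (f := fun p : α × ℕ × ℕ => (f p.1, p.2)) (by fun_prop)
  x0 := hV.x0.comp (f := fun p : α × ℕ => (f p.1, p.2)) (by fun_prop)
  r0 := hV.r0.comp (f := fun p : α × ℕ => (f p.1, p.2)) (by fun_prop)
  dist := hV.dist.comp (f := fun p : α × ℕ × ℕ => (f p.1, p.2)) (by fun_prop)
  D := hV.D.comp (f := fun p : α × ℕ × ℕ => (f p.1, p.2)) (by fun_prop)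
  J := hV.J.comp (f := fun p : α × ℕ × ℕ => (f p.1, p.2)) (by fun_prop)
  free := hV.free.comp (f := fun p : α × ℕ => (f p.1, p.2)) (by fun_prop)
  w := hV.w.comp (f := fun p : α × ℕ => (f p.1, p.2)) (by fun_prop)

variable {V : α → VI} {i j : α → ℕ}

@[fun_prop] lemma pt_VI_n (hV : VI.PTF V) : PT fun a => (V a).n := hV.n
@[fun_prop] lemma pb_VI_n (hV : VI.PTF V) : PB fun a => (V a).n := hV.nb
@[fun_prop] lemma pt_VI_nc (hV : VI.PTF V) : PT fun a => (V a).nc := hV.nc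
@[fun_prop] lemma pb_VI_nc (hV : VI.PTF V) : PB fun a => (V a).nc := hV.ncb
@[fun_prop] lemma pt_VI_L (hV : VI.PTF V) : PT fun a => (V a).L := hV.L
@[fun_prop] lemma pb_VI_L (hV : VI.PTF V) : PB fun a => (V a).L := hV.Lb
@[fun_prop] lemma pt_VI_y (hV : VI.PTF V) (hi : PT i) : PT fun a => (V a).y (i a) :=
  hV.y.comp (f := fun a => (a, i a)) (by fun_prop)
@[fun_prop] lemma pt_VI_x (hV : VI.PTF V) (hj : PT j) (hi : PT i) :
    PT fun a => (V a).x (j a) (i a) := hV.x.comp (f := fun a => (a, j a, i a)) (by fun_prop)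
@[fun_prop] lemma pt_VI_x0 (hV : VI.PTF V) (hi : PT i) : PT fun a => (V a).x0 (i a) :=
  hV.x0.comp (f := fun a => (a, i a)) (by fun_prop)
@[fun_prop] lemma pt_VI_r0 (hV : VI.PTF V) (hi : PT i) : PT fun a => (V a).r0 (i a) :=
  hV.r0.comp (f := fun a => (a, i a)) (by fun_prop)
@[fun_prop] lemma pt_VI_dist (hV : VI.PTF V) (hj : PT j) (hi : PT i) :
    PT fun a => (V a).dist (j a) (i a) := hV.dist.comp (f := fun a => (a, j a, i a)) (by fun_prop)
@[fun_prop] lemma pt_VI_D (hV : VI.PTF V) (hj : PT j) (hi : PT i) :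
    PT fun a => (V a).D (j a) (i a) := hV.D.comp (f := fun a => (a, j a, i a)) (by fun_prop)
@[fun_prop] lemma pt_VI_J (hV : VI.PTF V) (hj : PT j) (hi : PT i) :
    PT fun a => (V a).J (j a) (i a) := hV.J.comp (f := fun a => (a, j a, i a)) (by fun_prop)
@[fun_prop] lemma pt_VI_free (hV : VI.PTF V) (hi : PT i) : PT fun a => (V a).free (i a) :=
  hV.free.comp (f := fun a => (a, i a)) (by fun_prop)
@[fun_prop] lemma pt_VI_w (hV : VI.PTF V) (hi : PT i) : PT fun a => (V a).w (i a) :=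
  hV.w.comp (f := fun a => (a, i a)) (by fun_prop)

@[fun_prop] lemma ptf_VI_prof (hV : VI.PTF V) (hj : PT j) : Prof.PTF fun a => (V a).prof (j a) where
  m := by simp only [VI.prof]; fun_prop
  mb := by simp only [VI.prof]; fun_prop
  L := by simp only [VI.prof]; fun_prop
  Lb := by simp only [VI.prof]; fun_prop
  x := by simp only [VI.prof]; fun_prop
  d := by simp only [VI.prof]; fun_prop

end PTF

/-- What the rounding process delivers on a virtual instance. -/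
def ProcSpec (g : ℚ) (proc : VI → ℕ → ℕ → ℚ → List ℕ) : Prop :=
  (∀ (Hd Θ : ℕ) {α : Type} [Enc α] {V : α → VI} {pen : α → ℚ}, VI.PTF V → PT pen →
      PT fun a => proc (V a) Hd Θ (pen a)) ∧
  ∀ (V : VI) (Hd Θ : ℕ) (pen : ℚ), V.Valid Hd → 0 < Θ → 0 ≤ pen →
    (∀ o ∈ proc V Hd Θ pen, o < V.n ∧ 0 < V.y o) ∧
    ∃ z : ℚ, ((proc V Hd Θ pen).length : ℚ) ≤ V.mass + V.W / Θ + z ∧
      ∑ j ∈ range V.nc, V.w j * (V.rho (proc V Hd Θ pen) j : ℚ) + pen * z ^ 2 ≤
        V.C0 g + pen * ((2 * Hd + 2 * Θ + 6 : ℕ) * V.W)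

/-! ### the collapse of the cores -/

/-- free mass plus deficiency of the cores -/
def II.Wc (I : II) (y1 : ℕ → ℚ) (core : ℕ → Bool) : ℚ :=
  ∑ i ∈ range I.N, if core i = true then 1 - y1 i else y1 i

/-- What the collapse of `y` delivers: new opening `y1`, core points, users and their cores. -/
structure II.Col (I : II) (K : ℕ) (y y1 : ℕ → ℚ) (core isU : ℕ → Bool) (usr : ℕ → ℕ) : Prop where
  yok : I.YOK y1
  one_le : 1 ≤ I.mass y1
  mass_le : I.mass y1 ≤ I.mass y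
  usr_core : ∀ j ∈ I.C, isU j = true → usr j < I.N ∧ core (usr j) = true
  sav : ∃ x' y', I.Feas x' y' ∧ I.mass y' ≤ I.mass y - I.Wc y1 core / (2 * K) ∧
    I.xcost x' ≤ 2 * (K : ℚ) ^ 3 * I.lpcost y
  ucost : ∀ g : ℚ, 3 / 2 ≤ g → g ≤ 2 →
    ∑ j ∈ I.C, (if isU j = true then (I.dd j (usr j) : ℚ) + g * I.Dc y1 (usr j) else 0) ≤
      g * (1 + 50 / K) * ∑ j ∈ I.C, (if isU j = true then I.Dc y j else 0)
  ncost : ∀ j ∈ I.C, isU j = false → I.Dc y1 j ≤ (1 + 6 / K) * I.Dc y j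
  touch : ∀ j ∈ I.C, isU j = false → ∀ i < I.N, core i = true → ∀ i' < I.N, 0 < I.nf y1 j i' →
    I.dd j i ≤ I.dd j i' → I.Dc y1 i ≤ 18 * (1 - y1 i) * (K : ℚ) ^ 3 * I.Dc y j

end Crest.Agent.R310
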