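import Crest.Agent.R310.Defs

/-!
Row 310: from a continuous certificate (`ρ = 1`, logarithmic kernel with any real exponent) to the
discrete certificate.
-/

set_option autoImplicit false
set_option linter.dupNamespace false

namespace Crest.Agent.R310

open Finset Crest.Agent.Lib.PT

/-- admissible post-processing of the gain (`id` or the positive part) -/
structure Psi (ψ : ℝ → ℝ) : Prop where
  mono : Monotone ψ
  zero : ψ 0 = 0
  lip : ∀ y δ : ℝ, 0 ≤ δ → ψ y - δ ≤ ψ (y - δ)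
  hom : ∀ c y : ℝ, 0 ≤ c → ψ (c * y) = c * ψ y

theorem psi_id : Psi id := ⟨monotone_id, rfl, fun _ _ _ => le_rfl, fun _ _ _ => rfl⟩

theorem psi_pos : Psi (fun y => max 0 y) where
  mono := fun _ _ h => max_le_max_left _ h
  zero := max_self _
  lip := fun y δ h => by
    rcases le_total y 0 with h1 | h1
    · rw [max_eq_left h1]
      exact le_trans (by linarith) (le_max_left _ _)
    · rw [max_eq_right h1]
      exact le_max_right _ _
  hom := fun c y h => by rw [mul_max_of_nonneg _ _ h, mul_zero]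

/-- continuous gain: particle `s ∈ [0,1]` has virtual death time `lam - s`, and is dead after the
opening at time `τ` iff `lam' - s ≤ τ`. -/
noncomputable def gainR (ψ : ℝ → ℝ) (v : ℝ → ℝ) (c τ lam lam' : ℝ) : ℝ :=
  ∫ s in (max 0 (min 1 (lam' - τ)))..1, ψ (v (min τ (lam - s)) - c)

/-- The continuous certificate at `ρ = 1`; time is logarithmic, the level at distance `z` is
`a * log z`; `cR d r` caps the offers to distance `d` at radius `r`. -/
def CertR (ψ : ℝ → ℝ) (a g0 : ℝ) (cR : ℝ → ℝ → ℝ) : Prop :=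
  ∀ (m : ℕ) (x d : ℕ → ℝ), (∀ l < m, 0 ≤ x l) → ∑ l ∈ range m, x l = 1 → (∀ l < m, 0 < d l) →
    ∃ v : ℕ → ℝ → ℝ,
      (∀ l < m, ∀ τ, 0 ≤ v l τ ∧ v l τ ≤ cR (d l) 1) ∧
      (∀ l < m, Monotone (v l)) ∧
      (1 ≤ ∑ l ∈ range m, x l * min 1 (g0 * d l) +
        ∑ l ∈ range m, x l * ∫ s in (0 : ℝ)..1, v l (a * Real.log (1 - d l) - s)) ∧
      ∀ o < m, 0 < x o → d o < 1 → ∀ τ, v o τ = 0 ∨ ∀ lam' : ℕ → ℝ,
        (∀ l < m, lam' l ≤ a * Real.log (d o + d l)) →
        v o τ + ∑ l ∈ range m, x l * min (d o) (g0 * d l) ≤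
          ∑ l ∈ range m, x l * min 1 (g0 * d l) + ∑ l ∈ range m, x l *
            gainR ψ (v l) (cR (d l) (d o)) τ (max (a * Real.log (1 - d l)) (lam' l)) (lam' l)

/-- discrete gain with post-processing `ψ` -/
noncomputable def gainG (ψ : ℝ → ℝ) (M : ℕ) (v : ℕ → ℝ) (c : ℝ) (t lam lam' : ℕ) : ℝ :=
  (∑ u ∈ range M, if mm M t lam' ≤ u then ψ (v (min t (lam - (u + 1))) - c) else 0) / (M : ℝ)

/-- The discrete certificate with a general cap `cp d r`. -/
def CertG (ψ : ℝ → ℝ) (Kn : Kernel) (g : ℚ) (cp : ℕ → ℕ → ℝ) : Prop :=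
  ∀ P : Prof, P.Valid → ∀ ρ ≤ P.L, ∃ v : ℕ → ℕ → ℝ,
    (∀ l < P.m, ∀ t, 0 ≤ v l t ∧ v l t ≤ cp (P.d l) ρ) ∧
    (∀ l < P.m, Monotone (v l)) ∧
    ((ρ : ℝ) ≤ (P.G0 g ρ : ℝ) +
      ∑ l ∈ range P.m, (P.x l : ℝ) * Isum Kn.M (v l) (Kn.lev (ρ - P.d l)) 0) ∧
    ∀ o < P.m, 0 < P.x o → P.d o < ρ → ∀ t, v o t = 0 ∨ ∀ lam' : ℕ → ℕ,
      (∀ l < P.m, lam' l ≤ Kn.lev (P.d o + P.d l)) →
      v o t + (P.G0 g (P.d o) : ℝ) ≤ (P.G0 g ρ : ℝ) + ∑ l ∈ range P.m, (P.x l : ℝ) *
        gainG ψ Kn.M (v l) (cp (P.d l) (P.d o)) t (max (Kn.lev (ρ - P.d l)) (lam' l)) (lam' l)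

/-- the kernel `M + ⌊p log₂ z⌋` -/
def logKer (M p : ℕ) (hM : 0 < M) : Kernel where
  M := M
  lev z := if z = 0 then 0 else M + Nat.log 2 (z ^ p)
  M_pos := hM
  lev_zero := by simp
  lev_mono := by
    intro y z h
    by_cases hy : y = 0
    · simp [hy]
    · have hz : z ≠ 0 := by omega
      simp only [hy, hz, if_false]
      exact Nat.add_le_add_left (Nat.log_mono_right (Nat.pow_le_pow_left h p)) M
  lev_one := by simp
  lev_pt := by
    intro α _ z hz hb
    fun_prop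
  lev_pb := by
    intro α _ z hb
    have h : PB fun a => M + z a ^ p := by fun_prop
    refine h.of_le fun a => ?_
    split_ifs
    · exact Nat.zero_le _
    · exact Nat.add_le_add_left (Nat.log_le_self _ _) M

theorem logKer_lev (M p : ℕ) (hM : 0 < M) {z : ℕ} (hz : 1 ≤ z) :
    M ≤ (logKer M p hM).lev z ∧
    (M : ℝ) + p / Real.log 2 * Real.log z - 1 ≤ ((logKer M p hM).lev z : ℝ) ∧
      ((logKer M p hM).lev z : ℝ) ≤ M + p / Real.log 2 * Real.log z := by
  have hz0 : z ≠ 0 := by omega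
  have hl : (0 : ℝ) < Real.log 2 := Real.log_pos (by norm_num)
  have e : (logKer M p hM).lev z = M + Nat.log 2 (z ^ p) := by simp [logKer, hz0]
  have hp : z ^ p ≠ 0 := pow_ne_zero _ hz0
  have h1 : (2 : ℝ) ^ Nat.log 2 (z ^ p) ≤ (z : ℝ) ^ p := by
    exact_mod_cast Nat.pow_log_le_self 2 hp
  have h2 : (z : ℝ) ^ p ≤ (2 : ℝ) ^ (Nat.log 2 (z ^ p) + 1) := by
    exact_mod_cast (Nat.lt_pow_succ_log_self (by norm_num : 1 < 2) (z ^ p)).le
  have hz' : (0 : ℝ) < z := by exact_mod_cast hz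
  have h3 := Real.log_le_log (by positivity) h1
  have h4 := Real.log_le_log (by positivity) h2
  rw [Real.log_pow, Real.log_pow] at h3 h4
  push_cast at h4
  rw [e]
  push_cast
  refine ⟨Nat.le_add_right _ _, ?_, ?_⟩
  · have : p / Real.log 2 * Real.log z ≤ (Nat.log 2 (z ^ p) : ℝ) + 1 := by
      rw [div_mul_eq_mul_div, div_le_iff₀ hl]
      exact h4
    linarith
  · have : (Nat.log 2 (z ^ p) : ℝ) ≤ p / Real.log 2 * Real.log z := by
      rw [div_mul_eq_mul_div, le_div_iff₀ hl]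
      exact h3
    linarith

/-- left Riemann sums bound the integral of an antitone function -/
theorem int_le_sum {f : ℝ → ℝ} (hf : Antitone f) {M k : ℕ} (hM : 0 < M) (hk : k ≤ M) :
    ∫ s in ((k : ℝ) / M)..1, f s ≤
      (∑ u ∈ range M, if k ≤ u then f ((u : ℝ) / M) else 0) / (M : ℝ) := by
  have hM' : (0 : ℝ) < M := by exact_mod_cast hM
  have h1 : AntitoneOn (fun y : ℝ => f (y / M)) (Set.Icc (k : ℝ) (M : ℝ)) :=
    fun y _ z _ h => hf (div_le_div_of_nonneg_right h hM'.le)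
  have h2 := AntitoneOn.integral_le_sum_Ico hk h1
  rw [intervalIntegral.integral_comp_div _ hM'.ne', div_self hM'.ne', smul_eq_mul] at h2
  rw [le_div_iff₀ hM', mul_comm, ← Finset.sum_filter]
  refine h2.trans (le_of_eq ?_)
  refine Finset.sum_congr ?_ fun _ _ => rfl
  ext u
  simp [and_comm]

theorem shift_sum {w : ℤ → ℝ} {M k : ℕ} (hk : k ≤ M) {lo : ℝ} (h1 : ∀ i, lo ≤ w i)
    (h2 : ∀ i, w i ≤ lo + 1) :
    (∑ u ∈ range M, if k ≤ u then w ((u : ℤ) - 1) else 0) ≤
      (∑ u ∈ range M, if k ≤ u then w u else 0) + 1 := by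
  have key : ∀ n : ℕ, k ≤ n → (∑ u ∈ range n, if k ≤ u then w ((u : ℤ) - 1) else 0) +
      w ((n : ℤ) - 1) = (∑ u ∈ range n, if k ≤ u then w u else 0) + w ((k : ℤ) - 1) := by
    intro n hn
    induction n, hn using Nat.le_induction with
    | base =>
      rw [Finset.sum_eq_zero, Finset.sum_eq_zero] <;>
        exact fun u hu => if_neg (by simpa using hu)
    | succ n hn ih =>
      rw [Finset.sum_range_succ, Finset.sum_range_succ, if_pos hn, if_pos hn]
      have : ((n + 1 : ℕ) : ℤ) - 1 = n := by push_cast; ring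
      rw [this]
      linarith
  have := key M hk
  linarith [h1 ((M : ℤ) - 1), h2 ((k : ℤ) - 1)]

/-- comparison of the gains of one entry -/
theorem gain_cmp {ψ : ℝ → ℝ} (hψ : Psi ψ) {M : ℕ} (hM : 0 < M) {v : ℝ → ℝ} (hv : Monotone v)
    (hv0 : ∀ τ, 0 ≤ v τ) (hv1 : ∀ τ, v τ ≤ 1) {ρ e c cD B lamR E : ℝ} (hρ : 0 ≤ ρ) (he : 0 ≤ e)
    (hc : cD ≤ ρ * c) (t lam lam' : ℕ) (hlam : M ≤ lam)
    (hE : (lamR ≤ (lam - B) / M ∧ 0 ≤ E) ∨ (lamR ≤ (lam + 1 - B) / M ∧ ρ / M ≤ E)) :
    ρ * gainR ψ v c ((t + 1 - B) / M) lamR ((lam' + 1 - B) / M) - e - E ≤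
      gainG ψ M (fun t => max 0 (ρ * v ((t + 1 - B) / M) - e)) cD t lam lam' := by
  have hM' : (0 : ℝ) < M := by exact_mod_cast hM
  have hk : mm M t lam' ≤ M := min_le_left _ _
  have e1 : max 0 (min 1 (((lam' : ℝ) + 1 - B) / M - (t + 1 - B) / M)) =
      ((mm M t lam' : ℕ) : ℝ) / M := by
    have e2 : ((lam' : ℝ) + 1 - B) / M - (t + 1 - B) / M = ((lam' : ℝ) - t) / M := by ring
    rw [e2, mm]
    rcases le_total lam' t with h | h
    · have h' : (lam' : ℝ) ≤ t := by exact_mod_cast h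
      have h3 : ((lam' : ℝ) - t) / M ≤ 0 := div_nonpos_of_nonpos_of_nonneg (by linarith) hM'.le
      rw [Nat.sub_eq_zero_of_le h, min_eq_right (h3.trans zero_le_one), max_eq_left h3]
      simp
    · have h' : (t : ℝ) ≤ lam' := by exact_mod_cast h
      have h3 : 0 ≤ ((lam' : ℝ) - t) / M := div_nonneg (by linarith) hM'.le
      rw [max_eq_right (le_min zero_le_one h3), Nat.cast_min, Nat.cast_sub h,
        ← min_div_div_right hM'.le, div_self hM'.ne']
  set τ : ℝ := (t + 1 - B) / M with hτ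
  set w : ℤ → ℝ := fun i => ψ (v (min τ ((lam - i - B) / M)) - c) with hw
  have hanti : Antitone fun s : ℝ => ψ (v (min τ (lamR - s)) - c) := fun s s' h =>
    hψ.mono (sub_le_sub_right (hv (min_le_min_left _ (by linarith))) _)
  have h1 := int_le_sum hanti hM hk
  have hw1 : ∀ i, ψ (0 - c) ≤ w i := fun i => hψ.mono (sub_le_sub_right (hv0 _) _)
  have hw2 : ∀ i, w i ≤ ψ (0 - c) + 1 := fun i => by
    have h2 := hψ.lip (1 - c) 1 zero_le_one
    have h3 : w i ≤ ψ (1 - c) := hψ.mono (sub_le_sub_right (hv1 _) _)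
    have h4 : 1 - c - 1 = 0 - c := by ring
    rw [h4] at h2
    linarith
  have h2 : ρ * gainR ψ v c τ lamR ((lam' + 1 - B) / M) ≤
      ρ * ((∑ u ∈ range M, if mm M t lam' ≤ u then w u else 0) / M) + E := by
    rw [gainR, e1]
    rcases hE with ⟨h3, h4⟩ | ⟨h3, h4⟩
    · refine le_trans (mul_le_mul_of_nonneg_left (h1.trans ?_) hρ) (le_add_of_nonneg_right h4)
      refine div_le_div_of_nonneg_right (Finset.sum_le_sum fun u _ => ?_) hM'.le
      split_ifs
      · refine hψ.mono (sub_le_sub_right (hv (min_le_min_left _ ?_)) _)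
        have : ((lam : ℝ) - ((u : ℤ) : ℝ) - B) / M = (lam - B) / M - u / M := by
          push_cast; ring
        linarith
      · exact le_rfl
    · have h5 : (∑ u ∈ range M, if mm M t lam' ≤ u then ψ (v (min τ (lamR - u / M)) - c) else 0) ≤
          ∑ u ∈ range M, if mm M t lam' ≤ u then w ((u : ℤ) - 1) else 0 := by
        refine Finset.sum_le_sum fun u _ => ?_
        split_ifs
        · refine hψ.mono (sub_le_sub_right (hv (min_le_min_left _ ?_)) _)
          have : ((lam : ℝ) - (((u : ℤ) - 1 : ℤ) : ℝ) - B) / M = (lam + 1 - B) / M - u / M := by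
            push_cast; ring
          linarith
        · exact le_rfl
      have h6 := (h5.trans (shift_sum hk hw1 hw2))
      have h7 := mul_le_mul_of_nonneg_left
        (h1.trans (div_le_div_of_nonneg_right h6 hM'.le)) hρ
      rw [add_div, mul_add, mul_one_div] at h7
      linarith
  have h3 : (∑ u ∈ range M, ((if mm M t lam' ≤ u then ρ * w u else 0) - e)) ≤
      ∑ u ∈ range M, if mm M t lam' ≤ u then
        ψ (max 0 (ρ * v (((min t (lam - (u + 1)) : ℕ) + 1 - B) / M) - e) - cD) else 0 := by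
    refine Finset.sum_le_sum fun u hu => ?_
    have hu' : u + 1 ≤ lam := by have := Finset.mem_range.1 hu; omega
    split_ifs
    · have e3 : (((min t (lam - (u + 1)) : ℕ) : ℝ) + 1 - B) / M =
          min τ ((lam - ((u : ℤ) : ℝ) - B) / M) := by
        rw [hτ, min_div_div_right hM'.le, Nat.cast_min, Nat.cast_sub hu']
        congr 1
        push_cast
        rcases le_total (t : ℝ) (lam - (u + 1)) with h | h
        · rw [min_eq_left h, min_eq_left (by linarith)]
        · rw [min_eq_right h, min_eq_right (by linarith)]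
          ring
      rw [e3, hw]
      dsimp only
      rw [← hψ.hom _ _ hρ]
      refine (hψ.lip _ _ he).trans (hψ.mono ?_)
      have := le_max_right 0 (ρ * v (min τ ((lam - ((u : ℤ) : ℝ) - B) / M)) - e)
      rw [mul_sub]
      linarith
    · linarith
  rw [Finset.sum_sub_distrib, Finset.sum_const, Finset.card_range, nsmul_eq_mul] at h3
  have h4 : (∑ u ∈ range M, if mm M t lam' ≤ u then ρ * w u else 0) =
      ρ * ∑ u ∈ range M, if mm M t lam' ≤ u then w u else 0 := by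
    rw [Finset.mul_sum]
    exact Finset.sum_congr rfl fun u _ => by split_ifs <;> simp
  rw [h4] at h3
  have h5 := div_le_div_of_nonneg_right h3 hM'.le
  rw [sub_div, mul_div_cancel_left₀ _ hM'.ne', mul_div_assoc] at h5
  rw [gainG]
  linarith

theorem isum_cmp {M : ℕ} (hM : 0 < M) {v : ℝ → ℝ} (hv : Monotone v)
    (hv0 : ∀ τ, 0 ≤ v τ) (hv1 : ∀ τ, v τ ≤ 1) {ρ e B lamR : ℝ} (hρ : 0 ≤ ρ) (he : 0 ≤ e)
    (lam : ℕ) (hlam : M ≤ lam) (hE : lamR ≤ (lam - B) / M) :
    ρ * (∫ s in (0 : ℝ)..1, v (lamR - s)) - e ≤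
      Isum M (fun t => max 0 (ρ * v ((t + 1 - B) / M) - e)) lam 0 := by
  have hM' : (0 : ℝ) < M := by exact_mod_cast hM
  have h := gain_cmp psi_id hM hv hv0 hv1 (c := 0) (cD := 0) (B := B) (lamR := lamR) (E := 0) hρ he
    (by simp) lam lam 0 hlam (Or.inl ⟨hE, le_rfl⟩)
  have e1 : gainR id v 0 ((lam + 1 - B) / M) lamR ((((0 : ℕ) : ℝ) + 1 - B) / M) =
      ∫ s in (0 : ℝ)..1, v (lamR - s) := by
    have h1 : (((0 : ℕ) : ℝ) + 1 - B) / M - (lam + 1 - B) / M ≤ 0 := by
      rw [← sub_div]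
      refine div_nonpos_of_nonpos_of_nonneg ?_ hM'.le
      have : (0 : ℝ) ≤ lam := Nat.cast_nonneg _
      push_cast
      linarith
    rw [gainR, max_eq_left ((min_le_right _ _).trans h1)]
    refine intervalIntegral.integral_congr fun s hs => ?_
    rw [Set.uIcc_of_le zero_le_one] at hs
    have h2 : ((lam : ℝ) - B) / M ≤ (lam + 1 - B) / M :=
      div_le_div_of_nonneg_right (by linarith) hM'.le
    simp only [id, sub_zero]
    rw [min_eq_right (by linarith [hs.1])]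
  have e2 : gainG id M (fun t : ℕ => max 0 (ρ * v ((t + 1 - B) / M) - e)) 0 lam lam 0 =
      Isum M (fun t : ℕ => max 0 (ρ * v ((t + 1 - B) / M) - e)) lam 0 := by
    rw [gainG, Isum]
    congr 1
    refine Finset.sum_congr rfl fun u _ => ?_
    rw [min_eq_right (Nat.sub_le _ _)]
    simp [mm]
  rw [e1, e2] at h
  linarith

theorem gainR_nonpos {ψ : ℝ → ℝ} (hψ : Psi ψ) {v : ℝ → ℝ} (hv : ∀ τ, v τ ≤ 0) {c : ℝ} (hc : 0 ≤ c)
    (τ lam lam' : ℝ) : gainR ψ v c τ lam lam' ≤ 0 := by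
  have h : 0 ≤ ∫ s in (max 0 (min 1 (lam' - τ)))..1, -ψ (v (min τ (lam - s)) - c) := by
    refine intervalIntegral.integral_nonneg (max_le zero_le_one (min_le_left _ _)) fun s _ => ?_
    have := hψ.mono (show v (min τ (lam - s)) - c ≤ 0 by linarith [hv (min τ (lam - s))])
    rw [hψ.zero] at this
    linarith
  rw [intervalIntegral.integral_neg] at h
  rw [gainR]
  linarith

theorem gainG_nonneg {ψ : ℝ → ℝ} (hψ : Psi ψ) (M : ℕ) {v : ℕ → ℝ} (hv : ∀ t, 0 ≤ v t) {c : ℝ}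
    (hc : c ≤ 0) (t lam lam' : ℕ) : 0 ≤ gainG ψ M v c t lam lam' := by
  refine div_nonneg (Finset.sum_nonneg fun u _ => ?_) (Nat.cast_nonneg _)
  split_ifs
  · have := hψ.mono (show 0 ≤ v (min t (lam - (u + 1))) - c by linarith [hv (min t (lam - (u + 1)))])
    rwa [hψ.zero] at this
  · exact le_rfl

theorem isum_nonneg (M : ℕ) {v : ℕ → ℝ} (hv : ∀ t, 0 ≤ v t) (lam mu : ℕ) :
    0 ≤ Isum M v lam mu := by
  refine div_nonneg (Finset.sum_nonneg fun u _ => ?_) (Nat.cast_nonneg _)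
  split_ifs
  · exact hv _
  · exact le_rfl

theorem lev_lower {M p : ℕ} (hM : 0 < M) {a θ : ℝ} (ha : 0 < a) (hθ : 1 ≤ θ)
    (hp : p / Real.log 2 ≤ M * a * θ) {d ρ : ℕ} (hd : θ * d < ρ) :
    M ≤ (logKer M p hM).lev (ρ - d) ∧ a * Real.log (1 - θ * d / ρ) ≤
      (((logKer M p hM).lev (ρ - d) : ℝ) - (M + p / Real.log 2 * Real.log ρ - 1)) / M := by
  have hM' : (0 : ℝ) < M := by exact_mod_cast hM
  have hd0 : (0 : ℝ) ≤ d := Nat.cast_nonneg _
  have hd1 : (d : ℝ) < ρ := by nlinarith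
  have hd2 : d < ρ := by exact_mod_cast hd1
  have hρ : (0 : ℝ) < ρ := by linarith
  obtain ⟨h1, h2, -⟩ := logKer_lev M p hM (z := ρ - d) (by omega)
  refine ⟨h1, ?_⟩
  rw [Nat.cast_sub hd2.le] at h2
  have h3 : (d : ℝ) / ρ < 1 := (div_lt_one hρ).2 hd1
  have h4 : θ * d / ρ < 1 := (div_lt_one hρ).2 hd
  have h5 : Real.log (ρ - d) = Real.log ρ + Real.log (1 - d / ρ) := by
    rw [← Real.log_mul hρ.ne' (by linarith)]
    congr 1
    field_simp
  have h6 : Real.log (1 - θ * d / ρ) ≤ θ * Real.log (1 - d / ρ) := by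
    rw [← Real.log_rpow (by linarith)]
    refine Real.log_le_log (by linarith) ?_
    have := one_add_mul_self_le_rpow_one_add (s := -(d / ρ : ℝ)) (by linarith) hθ
    rw [mul_div_assoc]
    rwa [mul_neg, ← sub_eq_add_neg, ← sub_eq_add_neg] at this
  have h7 : Real.log (1 - d / ρ) ≤ 0 :=
    Real.log_nonpos (by linarith) (by have := div_nonneg hd0 hρ.le; linarith)
  rw [le_div_iff₀ hM']
  have h8 := mul_le_mul_of_nonneg_left h6 (mul_pos hM' ha).le
  have h9 := mul_le_mul_of_nonpos_right hp h7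
  rw [h5] at h2
  nlinarith

theorem lev_upper {M p : ℕ} (hM : 0 < M) {a θ : ℝ} (hθ : 0 < θ)
    (hp : M * a ≤ p / Real.log 2) (hp' : p / Real.log 2 ≤ M * a + 2)
    (hMa : 4 ≤ M * a * Real.log θ) {z ρ lam' : ℕ} (hz : 1 ≤ z) (hzρ : z ≤ 2 * ρ)
    (hl : lam' ≤ (logKer M p hM).lev z) :
    ((lam' : ℝ) + 1 - (M + p / Real.log 2 * Real.log ρ - 1)) / M ≤ a * Real.log (θ * z / ρ) := by
  have hM' : (0 : ℝ) < M := by exact_mod_cast hM
  have hz' : (0 : ℝ) < z := by exact_mod_cast hz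
  have hρ : (0 : ℝ) < ρ := by exact_mod_cast (show 0 < ρ by omega)
  obtain ⟨-, -, h2⟩ := logKer_lev M p hM hz
  have hl' : (lam' : ℝ) ≤ (logKer M p hM).lev z := by exact_mod_cast hl
  have h3 : Real.log z - Real.log ρ ≤ 1 := by
    rw [← Real.log_div hz'.ne' hρ.ne']
    have h4 : (z : ℝ) / ρ ≤ 2 := by
      rw [div_le_iff₀ hρ]
      exact_mod_cast hzρ
    have := Real.log_le_sub_one_of_pos (div_pos hz' hρ)
    linarith
  rw [Real.log_div (by positivity) hρ.ne', Real.log_mul hθ.ne' hz'.ne', div_le_iff₀ hM']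
  have h5 := mul_le_mul_of_nonneg_left h3 (sub_nonneg.2 hp)
  nlinarith

set_option maxHeartbeats 1600000 in
/-- **Discretisation.** -/
theorem disc {ψ : ℝ → ℝ} (hψ : Psi ψ) {a g0 g1 : ℝ} {g : ℚ} (ha : 0 < a) (hg0 : 3 / 2 ≤ g0)
    (h01 : g0 < g1) (h1 : g1 < g) (hg2 : g1 ≤ 2) {cR : ℝ → ℝ → ℝ} {cp : ℕ → ℕ → ℝ}
    (cR0 : ∀ d r, 0 ≤ cR d r) (cR1 : ∀ d, 0 < d → cR d 1 ≤ 1) (cRz : ∀ d, 1 ≤ d → cR d 1 ≤ 0)
    (cp0 : ∀ d r, 0 ≤ cp d r) (cpz : ∀ d r, r ≤ d → cp d r ≤ 0)
    (H1 : ∀ d ρ : ℕ, (g : ℝ) * d < ρ → ρ * cR (g1 / g0 * d / ρ) 1 ≤ cp d ρ)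
    (H2 : ∀ d r ρ : ℕ, 0 < ρ → cp d r ≤ ρ * cR (g1 / g0 * d / ρ) (g1 / g0 * r / ρ))
    (h : CertR ψ a g0 cR) : ∃ Kn, CertG ψ Kn g cp := by
  obtain ⟨θ, hθ⟩ : ∃ θ : ℝ, θ = g1 / g0 := ⟨_, rfl⟩
  rw [← hθ] at H1 H2
  have hg0' : 0 < g0 := by linarith
  have hθg : g0 * θ = g1 := by rw [hθ]; field_simp
  have hθ1 : 1 < θ := by rw [hθ]; exact (one_lt_div hg0').2 h01
  have hθ2 : θ ≤ 4 / 3 := by nlinarith
  have hlθ : 0 < Real.log θ := Real.log_pos hθ1
  have hl2 : (1 : ℝ) / 2 < Real.log 2 := by linarith [Real.log_two_gt_d9]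
  obtain ⟨η, hη⟩ : ∃ η : ℝ, η = (g - g1) / 2 := ⟨_, rfl⟩
  have hη0 : 0 < η := by linarith
  obtain ⟨M, hM1⟩ := exists_nat_ge (max (18 / η) (4 / (a * Real.log θ)))
  have hMη : 18 ≤ M * η := (div_le_iff₀ hη0).1 ((le_max_left _ _).trans hM1)
  have hMa : 4 ≤ M * a * Real.log θ := by
    rw [mul_assoc]
    exact (div_le_iff₀ (mul_pos ha hlθ)).1 ((le_max_right _ _).trans hM1)
  have hM' : (0 : ℝ) < M := by
    by_contra hc
    nlinarith
  have hM : 0 < M := by exact_mod_cast hM'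
  obtain ⟨p, hp⟩ : ∃ p : ℕ, p = ⌈M * a * Real.log 2⌉₊ := ⟨_, rfl⟩
  have hp1 : M * a ≤ p / Real.log 2 := by
    rw [le_div_iff₀ (by linarith), hp]
    exact Nat.le_ceil _
  have hp2 : p / Real.log 2 ≤ M * a + 2 := by
    rw [div_le_iff₀ (by linarith), hp]
    have := Nat.ceil_lt_add_one (show 0 ≤ M * a * Real.log 2 by positivity)
    nlinarith
  have hp3 : p / Real.log 2 ≤ M * a * θ := by
    have := mul_le_mul_of_nonneg_left (Real.log_le_sub_one_of_pos (by linarith : 0 < θ))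
      (mul_pos hM' ha).le
    nlinarith
  refine ⟨logKer M p hM, fun P hP ρ _ => ?_⟩
  have hG : ∀ r : ℕ, (P.G0 g r : ℝ) = ∑ l ∈ range P.m, (P.x l : ℝ) * min (r : ℝ) (g * P.d l) := by
    intro r
    rw [Prof.G0]
    push_cast
    rfl
  have hx : ∀ l < P.m, (0 : ℝ) ≤ P.x l := fun l hl => by exact_mod_cast hP.nonneg l hl
  have hxs : ∑ l ∈ range P.m, (P.x l : ℝ) = 1 := by exact_mod_cast hP.sum
  have hd : ∀ l < P.m, (1 : ℝ) ≤ P.d l := fun l hl => by exact_mod_cast hP.d_pos l hl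
  rcases Nat.eq_zero_or_pos ρ with rfl | hρ0
  · refine ⟨fun _ _ => 0, fun l _ t => ⟨le_rfl, cp0 _ _⟩, fun l _ => monotone_const, ?_,
      fun o _ _ ho => absurd ho (Nat.not_lt_zero _)⟩
    rw [hG, Nat.cast_zero]
    refine add_nonneg (Finset.sum_nonneg fun l hl => ?_) (Finset.sum_nonneg fun l hl => ?_)
    · have := hd l (Finset.mem_range.1 hl)
      exact mul_nonneg (hx l (Finset.mem_range.1 hl)) (le_min le_rfl (by nlinarith))
    · exact mul_nonneg (hx l (Finset.mem_range.1 hl)) (isum_nonneg _ (fun _ => le_rfl) _ _)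
  have hρ : (0 : ℝ) < ρ := by exact_mod_cast hρ0
  obtain ⟨dt, hdt⟩ : ∃ dt : ℕ → ℝ, ∀ l, dt l =
      if (g : ℝ) * P.d l < ρ then θ * P.d l / ρ else max (θ * P.d l / ρ) 1 := ⟨_, fun _ => rfl⟩
  have hpoor : ∀ l, (g : ℝ) * P.d l < ρ → dt l = θ * P.d l / ρ := fun l hl => by
    rw [hdt, if_pos hl]
  have hrich : ∀ l, ¬ (g : ℝ) * P.d l < ρ → 1 ≤ dt l := fun l hl => by
    rw [hdt, if_neg hl]
    exact le_max_right _ _
  have hdt0 : ∀ l < P.m, 0 < dt l := fun l hl => by
    have := hd l hl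
    by_cases hc : (g : ℝ) * P.d l < ρ
    · rw [hpoor l hc]
      positivity
    · linarith [hrich l hc]
  obtain ⟨v, hv1, hv2, hv3, hv4⟩ := h P.m (fun l => P.x l) dt hx hxs hdt0
  have hvz : ∀ l < P.m, ¬ (g : ℝ) * P.d l < ρ → ∀ τ, v l τ ≤ 0 := fun l hl hc τ =>
    (hv1 l hl τ).2.trans (cRz _ (hrich l hc))
  have hv1' : ∀ l < P.m, ∀ τ, v l τ ≤ 1 := fun l hl τ => (hv1 l hl τ).2.trans (cR1 _ (hdt0 l hl))
  have hθd : ∀ l, (g : ℝ) * P.d l < ρ → θ * P.d l < ρ := fun l hl => by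
    have : (0 : ℝ) ≤ P.d l := Nat.cast_nonneg _
    nlinarith
  have hmin : ∀ l, (g : ℝ) * P.d l < ρ → ∀ y : ℝ,
      ρ * min y (g0 * dt l) = min (ρ * y) (g1 * P.d l) := fun l hl y => by
    rw [mul_min_of_nonneg _ _ hρ.le, hpoor l hl, ← hθg]
    congr 1
    field_simp
  obtain ⟨B, hB⟩ : ∃ B : ℝ, B = M + p / Real.log 2 * Real.log ρ - 1 := ⟨_, rfl⟩
  refine ⟨fun l t => max 0 (ρ * v l ((t + 1 - B) / M) - η * P.d l), fun l hl t =>
    ⟨le_max_left _ _, max_le (cp0 _ _) ?_⟩, fun l hl t t' htt => ?_, ?_, ?_⟩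
  · have h2 : 0 ≤ η * P.d l := by positivity
    by_cases hc : (g : ℝ) * P.d l < ρ
    · have h3 := mul_le_mul_of_nonneg_left (hv1 l hl ((t + 1 - B) / M)).2 hρ.le
      rw [hpoor l hc] at h3
      linarith [H1 _ _ hc]
    · have h3 := mul_le_mul_of_nonneg_left (hvz l hl hc ((t + 1 - B) / M)) hρ.le
      linarith [cp0 (P.d l) ρ]
  · have h2 : (t : ℝ) ≤ t' := by exact_mod_cast htt
    exact max_le_max_left _ (sub_le_sub_right (mul_le_mul_of_nonneg_left
      (hv2 l hl (div_le_div_of_nonneg_right (by linarith) hM'.le)) hρ.le) _)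
  · have h2 := mul_le_mul_of_nonneg_left hv3 hρ.le
    rw [mul_one, ← Finset.sum_add_distrib, Finset.mul_sum] at h2
    rw [hG, ← Finset.sum_add_distrib]
    refine h2.trans (Finset.sum_le_sum fun l hl => ?_)
    have hl' := Finset.mem_range.1 hl
    rw [← mul_add, ← mul_add, mul_left_comm]
    refine mul_le_mul_of_nonneg_left ?_ (hx l hl')
    by_cases hc : (g : ℝ) * P.d l < ρ
    · obtain ⟨h3, h4⟩ := lev_lower hM ha hθ1.le hp3 (hθd l hc)
      rw [← hB, ← hpoor l hc] at h4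
      have h5 := isum_cmp hM (hv2 l hl') (fun τ => (hv1 l hl' τ).1) (hv1' l hl') hρ.le
        (show 0 ≤ η * P.d l by positivity) _ h3 h4
      have h6 := min_le_right (ρ * 1 : ℝ) (g1 * P.d l)
      rw [mul_add, hmin l hc, min_eq_right hc.le]
      have h7 : (0 : ℝ) ≤ P.d l := Nat.cast_nonneg _
      change _ ≤ _ + Isum M _ _ _
      nlinarith
    · have h3 : ∫ s in (0 : ℝ)..1, v l (a * Real.log (1 - dt l) - s) = 0 := by
        rw [intervalIntegral.integral_congr (g := fun _ => 0)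
          fun s _ => le_antisymm (hvz l hl' hc _) (hv1 l hl' _).1]
        simp
      rw [h3, add_zero, min_eq_left (not_lt.1 hc)]
      have h4 := mul_le_mul_of_nonneg_left (min_le_left 1 (g0 * dt l)) hρ.le
      refine le_trans (by linarith) (le_add_of_nonneg_right (isum_nonneg _ (fun _ => ?_) _ _))
      exact le_max_left _ _
  · intro o ho hxo _ t
    by_cases hz : ρ * v o ((t + 1 - B) / M) - η * P.d o ≤ 0
    · exact Or.inl (max_eq_left hz)
    refine Or.inr fun lam' hlam' => ?_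
    have hdo := hd o ho
    have hvo : 0 < v o ((t + 1 - B) / M) := by
      by_contra hc
      have h2 := mul_le_mul_of_nonneg_left (not_lt.1 hc) hρ.le
      have h3 : 0 ≤ η * P.d o := by positivity
      linarith
    have hoc : (g : ℝ) * P.d o < ρ := by
      by_contra hc
      linarith [hvz o ho hc ((t + 1 - B) / M)]
    have hlt : ∀ l, (g : ℝ) * P.d l < ρ → P.d l < ρ := fun l hl => by
      have h2 : (0 : ℝ) ≤ P.d l := Nat.cast_nonneg _
      have h3 : (P.d l : ℝ) < ρ := by nlinarith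
      exact_mod_cast h3
    have hup : ∀ l < P.m, (g : ℝ) * P.d l < ρ →
        ((lam' l : ℝ) + 1 - B) / M ≤ a * Real.log (dt o + dt l) := fun l hl hc => by
      have h2 := lev_upper hM (by linarith : 0 < θ) hp1 hp2 hMa (z := P.d o + P.d l) (ρ := ρ)
        (by have := hP.d_pos o ho; omega) (by have := hlt o hoc; have := hlt l hc; omega)
        (hlam' l hl)
      rw [← hB] at h2
      rw [hpoor o hoc, hpoor l hc, ← add_div, ← mul_add]
      exact_mod_cast h2
    have h2 := (hv4 o ho (by exact_mod_cast hxo)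
      (by rw [hpoor o hoc]; exact (div_lt_one hρ).2 (hθd o hoc)) ((t + 1 - B) / M)).resolve_left
      hvo.ne' (fun l => if (g : ℝ) * P.d l < ρ then ((lam' l : ℝ) + 1 - B) / M
        else a * Real.log (dt o + dt l)) (fun l hl => by
          by_cases hc : (g : ℝ) * P.d l < ρ
          · rw [if_pos hc]
            exact hup l hl hc
          · rw [if_neg hc])
    have h3 := mul_le_mul_of_nonneg_left h2 hρ.le
    rw [mul_add, mul_add, Finset.mul_sum, Finset.mul_sum, Finset.mul_sum] at h3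
    have h4 : η * P.d o = ∑ l ∈ range P.m, (P.x l : ℝ) * (η * P.d o) := by
      rw [← Finset.sum_mul, hxs, one_mul]
    rw [hG, hG]
    change max 0 _ + _ ≤ _
    rw [max_eq_right (not_le.1 hz).le]
    have key : ∀ l ∈ range P.m, ρ * ((P.x l : ℝ) * min 1 (g0 * dt l)) +
        ρ * ((P.x l : ℝ) * gainR ψ (v l) (cR (dt l) (dt o)) ((t + 1 - B) / M)
          (max (a * Real.log (1 - dt l)) (if (g : ℝ) * P.d l < ρ then ((lam' l : ℝ) + 1 - B) / M
            else a * Real.log (dt o + dt l)))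
          (if (g : ℝ) * P.d l < ρ then ((lam' l : ℝ) + 1 - B) / M
            else a * Real.log (dt o + dt l))) +
        (P.x l : ℝ) * min (P.d o : ℝ) (g * P.d l) ≤
        (P.x l : ℝ) * min (ρ : ℝ) (g * P.d l) + (P.x l : ℝ) *
          gainG ψ M (fun t => max 0 (ρ * v l ((t + 1 - B) / M) - η * P.d l)) (cp (P.d l) (P.d o)) t
            (max ((logKer M p hM).lev (ρ - P.d l)) (lam' l)) (lam' l) +
        ρ * ((P.x l : ℝ) * min (dt o) (g0 * dt l)) + (P.x l : ℝ) * (η * P.d o) := by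
      intro l hl
      have hl' := Finset.mem_range.1 hl
      have hdl := hd l hl'
      rw [mul_left_comm (ρ : ℝ), mul_left_comm (ρ : ℝ), mul_left_comm (ρ : ℝ), ← mul_add (P.x l : ℝ),
        ← mul_add (P.x l : ℝ), ← mul_add (P.x l : ℝ), ← mul_add (P.x l : ℝ), ← mul_add (P.x l : ℝ)]
      refine mul_le_mul_of_nonneg_left ?_ (hx l hl')
      have hρo : ρ * dt o = θ * P.d o := by
        rw [hpoor o hoc]
        field_simp
      by_cases hc : (g : ℝ) * P.d l < ρ
      · rw [if_pos hc, hmin l hc, hmin l hc, min_eq_right hc.le, hρo, mul_one]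
        obtain ⟨h5, h6⟩ := lev_lower hM ha hθ1.le hp3 (hθd l hc)
        rw [← hB, ← hpoor l hc] at h6
        have h7 : (((logKer M p hM).lev (ρ - P.d l) : ℝ) - B) / M ≤
            (((max ((logKer M p hM).lev (ρ - P.d l)) (lam' l) : ℕ) : ℝ) - B) / M := by
          refine div_le_div_of_nonneg_right (sub_le_sub_right ?_ _) hM'.le
          exact_mod_cast le_max_left _ _
        have hcc : cp (P.d l) (P.d o) ≤ ρ * cR (dt l) (dt o) := by
          rw [hpoor o hoc, hpoor l hc]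
          exact H2 _ _ _ hρ0
        have m1 := min_le_right (ρ : ℝ) (g1 * P.d l)
        have m2 := min_le_left (P.d o : ℝ) (g * P.d l)
        have m3 := min_le_right (P.d o : ℝ) (g * P.d l)
        have hge : 0 ≤ η * P.d l := by positivity
        have hgo : 0 ≤ η * P.d o := by positivity
        have hθo : (P.d o : ℝ) ≤ θ * P.d o := by nlinarith
        have hgd : (g : ℝ) * P.d l = g1 * P.d l + 2 * (η * P.d l) := by rw [hη]; ring
        by_cases hi : θ * (P.d o + 2 * P.d l) ≤ ρ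
        · have h8 : dt o + dt l ≤ 1 - dt l := by
            rw [hpoor o hoc, hpoor l hc, ← add_div, le_sub_iff_add_le, ← add_div, div_le_one hρ]
            linarith
          have h9 : ((lam' l : ℝ) + 1 - B) / M ≤ a * Real.log (1 - dt l) :=
            (hup l hl' hc).trans (mul_le_mul_of_nonneg_left
              (Real.log_le_log (add_pos (hdt0 o ho) (hdt0 l hl')) h8) ha.le)
          have h10 := gain_cmp hψ hM (hv2 l hl') (fun τ => (hv1 l hl' τ).1) (hv1' l hl') hρ.le hge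
            hcc t (max ((logKer M p hM).lev (ρ - P.d l)) (lam' l)) (lam' l)
            (h5.trans (le_max_left _ _)) (Or.inl ⟨max_le (h6.trans h7) (h9.trans (h6.trans h7)),
              le_refl (0 : ℝ)⟩)
          rcases le_total (P.d o : ℝ) (g1 * P.d l) with h11 | h11
          · have := le_min hθo h11
            linarith
          · rw [min_eq_right (h11.trans hθo)]
            have : η * P.d l ≤ η * P.d o := mul_le_mul_of_nonneg_left (by nlinarith) hη0.le
            linarith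
        · have h8 : (((max ((logKer M p hM).lev (ρ - P.d l)) (lam' l) : ℕ) : ℝ) - B) / M ≤
              (((max ((logKer M p hM).lev (ρ - P.d l)) (lam' l) : ℕ) : ℝ) + 1 - B) / M :=
            div_le_div_of_nonneg_right (by linarith) hM'.le
          have h9 : ((lam' l : ℝ) + 1 - B) / M ≤
              (((max ((logKer M p hM).lev (ρ - P.d l)) (lam' l) : ℕ) : ℝ) + 1 - B) / M := by
            refine div_le_div_of_nonneg_right (sub_le_sub_right (add_le_add_left ?_ _) _) hM'.le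
            exact_mod_cast le_max_right _ _
          have h10 := gain_cmp hψ hM (hv2 l hl') (fun τ => (hv1 l hl' τ).1) (hv1' l hl') hρ.le hge
            hcc t (max ((logKer M p hM).lev (ρ - P.d l)) (lam' l)) (lam' l)
            (h5.trans (le_max_left _ _)) (Or.inr ⟨max_le (h6.trans (h7.trans h8)) h9,
              le_refl (ρ / M : ℝ)⟩)
          have h12 : (ρ : ℝ) / M ≤ η * ρ / 18 := by
            rw [div_le_div_iff₀ hM' (by norm_num)]
            nlinarith
          have h13 : (ρ : ℝ) ≤ 4 / 3 * (P.d o + 2 * P.d l) := by nlinarith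
          have h14 := mul_le_mul_of_nonneg_left h13 hη0.le
          rcases le_total (P.d o : ℝ) (g1 * P.d l) with h11 | h11
          · have h15 := le_min hθo h11
            have h16 : η * P.d o ≤ η * (2 * P.d l) :=
              mul_le_mul_of_nonneg_left (by nlinarith) hη0.le
            linarith
          · rw [min_eq_right (h11.trans hθo)]
            have h16 : η * (3 / 2 * P.d l) ≤ η * P.d o :=
              mul_le_mul_of_nonneg_left (by nlinarith) hη0.le
            linarith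
      · rw [if_neg hc, min_eq_left (not_lt.1 hc)]
        have h5 := mul_le_mul_of_nonneg_left (gainR_nonpos hψ (hvz l hl' hc) (cR0 (dt l) (dt o))
          ((t + 1 - B) / M) (max (a * Real.log (1 - dt l)) (a * Real.log (dt o + dt l)))
          (a * Real.log (dt o + dt l))) hρ.le
        have h6 : P.d o ≤ P.d l := by
          have h7 : (P.d o : ℝ) ≤ P.d l := by
            by_contra h8
            nlinarith
          exact_mod_cast h7
        have h7 := gainG_nonneg hψ M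
          (v := fun t => max 0 (ρ * v l ((t + 1 - B) / M) - η * P.d l))
          (fun _ => le_max_left _ _) (cpz _ _ h6) t
          (max ((logKer M p hM).lev (ρ - P.d l)) (lam' l)) (lam' l)
        have h8 := mul_le_mul_of_nonneg_left (min_le_left 1 (g0 * dt l)) hρ.le
        have h9 : (P.d o : ℝ) ≤ ρ * min (dt o) (g0 * dt l) := by
          rw [mul_min_of_nonneg _ _ hρ.le, hρo]
          refine le_min (by nlinarith) ?_
          have h10 : (P.d o : ℝ) < ρ := by exact_mod_cast hlt o hoc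
          have h11 : 1 ≤ g0 * dt l := by nlinarith [hrich l hc]
          nlinarith
        have h10 := min_le_left (P.d o : ℝ) (g * P.d l)
        have hgo : 0 ≤ η * P.d o := by positivity
        linarith
    have h5 := Finset.sum_le_sum key
    rw [Finset.sum_add_distrib, Finset.sum_add_distrib, Finset.sum_add_distrib,
      Finset.sum_add_distrib, Finset.sum_add_distrib, ← h4] at h5
    change _ ≤ _ + ∑ l ∈ range P.m, (P.x l : ℝ) * gainG ψ M _ _ _ _ _
    linarith

/-- the continuous cap `(min (r - d) (A (r - gc d)))₊` -/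
noncomputable def capR (A gc d r : ℝ) : ℝ := max 0 (min (r - d) (A * (r - gc * d)))

/-- The continuous certificate with positive part in the gain and the smooth cap gives `Cert`. -/
theorem cert_of_certR {a g0 gc : ℝ} {A : ℚ} (ha : 0 < a) (hg0 : 3 / 2 ≤ g0) (hg2 : g0 < 2)
    (hA : 0 ≤ A) (hgc : 0 < gc) (h : CertR (fun y => max 0 y) a g0 (capR A gc)) (g : ℚ)
    (hg : g0 < g) : ∃ (Kn : Kernel) (g1 : ℚ), Cert Kn g A g1 := by
  obtain ⟨g1, h01, h1⟩ := exists_between (lt_min hg hg2)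
  have hθ : 1 < g1 / g0 := (one_lt_div (by linarith)).2 h01
  obtain ⟨q, hq1, hq2⟩ := exists_rat_btwn (show gc < gc * (g1 / g0) by nlinarith)
  have hA' : (0 : ℝ) ≤ A := by exact_mod_cast hA
  have hsc : ∀ (c d r : ℝ), 0 ≤ c → capR A gc (c * d) (c * r) = c * capR A gc d r := by
    intro c d r hc
    rw [capR, capR, mul_max_of_nonneg _ _ hc, mul_min_of_nonneg _ _ hc, mul_zero]
    congr 2 <;> ring
  obtain ⟨Kn, hK⟩ := disc (g := g) psi_pos ha hg0 h01 (h1.trans_le (min_le_left _ _))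
    (h1.le.trans (min_le_right _ _)) (cR := capR A gc) (cp := fun d r => capR A q d r)
    (fun _ _ => le_max_left _ _)
    (fun d hd => max_le zero_le_one ((min_le_left _ _).trans (by linarith)))
    (fun d hd => max_le le_rfl ((min_le_left _ _).trans (by linarith)))
    (fun _ _ => le_max_left _ _)
    (fun d r hr => max_le le_rfl ((min_le_left _ _).trans (sub_nonpos.2 (by exact_mod_cast hr))))
    (fun d ρ hd => by
      have hd0 : (0 : ℝ) ≤ d := Nat.cast_nonneg _
      have hρ : (0 : ℝ) < ρ := by nlinarith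
      rw [← hsc _ _ _ hρ.le, mul_div_cancel₀ _ hρ.ne', mul_one]
      refine max_le_max_left _ (min_le_min (by nlinarith) (mul_le_mul_of_nonneg_left ?_ hA'))
      nlinarith)
    (fun d r ρ hρ0 => by
      have hd0 : (0 : ℝ) ≤ d := Nat.cast_nonneg _
      have hρ : (0 : ℝ) < ρ := by exact_mod_cast hρ0
      rw [← hsc _ _ _ hρ.le, mul_div_cancel₀ _ hρ.ne', mul_div_cancel₀ _ hρ.ne',
        hsc _ _ _ (by linarith)]
      have h2 : capR A q d r ≤ capR A gc d r :=
        max_le_max_left _ (min_le_min le_rfl (mul_le_mul_of_nonneg_left (by nlinarith) hA'))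
      have h3 : 0 ≤ capR A gc d r := le_max_left _ _
      nlinarith) h
  refine ⟨Kn, q, fun P hP ρ hρ => ?_⟩
  have hc : ∀ l r : ℕ, (P.cap A q l r : ℝ) = capR A q (P.d l) r := by
    intro l r
    rw [Prof.cap, capR]
    push_cast
    rfl
  obtain ⟨v, h2, h3, h4, h5⟩ := hK P hP ρ hρ
  refine ⟨v, fun l hl t => by rw [hc]; exact h2 l hl t, h3, h4, fun o ho hx hd t => ?_⟩
  refine (h5 o ho hx hd t).imp id fun h6 lam' hl => ?_
  simp only [hc]
  exact h6 lam' fun l hl' => (hl l hl').2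

/-- the form asked for by the owner of the row -/
theorem cert_exists_of_certR {a gc : ℝ} {A : ℚ} (ha : 0 < a) (hA : 0 ≤ A) (hgc : 0 < gc)
    (h : CertR (fun y => max 0 y) a (1 + 2 / Real.exp 1) (capR A gc)) (g : ℚ)
    (hg : 1 + 2 / Real.exp 1 < (g : ℝ)) :
    ∃ (Kn : Kernel) (A g1 : ℚ), 0 ≤ A ∧ Cert Kn g A g1 := by
  have h1 := Real.exp_one_gt_d9
  have h2 := Real.exp_one_lt_d9
  have h3 : 1 / 2 ≤ 2 / Real.exp 1 := by
    rw [le_div_iff₀ (by linarith)]
    linarith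
  have h4 : 2 / Real.exp 1 < 1 := by
    rw [div_lt_one (by linarith)]
    linarith
  obtain ⟨Kn, g1, hK⟩ := cert_of_certR ha (by linarith) (by linarith) hA hgc h g hg
  exact ⟨Kn, A, g1, hA, hK⟩

/-- version for certificates that depend on the slack -/
theorem cert_exists_of_certR_eps
    (h : ∀ g0 : ℝ, 1 + 2 / Real.exp 1 < g0 → g0 < 2 → ∃ (a gc : ℝ) (A : ℚ), 0 < a ∧ 0 ≤ A ∧ 0 < gc ∧
      CertR (fun y => max 0 y) a g0 (capR A gc)) (g : ℚ) (hg : 1 + 2 / Real.exp 1 < (g : ℝ)) :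
    ∃ (Kn : Kernel) (A g1 : ℚ), 0 ≤ A ∧ Cert Kn g A g1 := by
  have h1 := Real.exp_one_gt_d9
  have h2 := Real.exp_one_lt_d9
  have h3 : 1 / 2 ≤ 2 / Real.exp 1 := by
    rw [le_div_iff₀ (by linarith)]
    linarith
  have h4 : 2 / Real.exp 1 < 1 := by
    rw [div_lt_one (by linarith)]
    linarith
  obtain ⟨g0, h5, h6⟩ := exists_between (lt_min hg (show 1 + 2 / Real.exp 1 < 2 by linarith))
  obtain ⟨a, gc, A, ha, hA, hgc, hC⟩ := h g0 h5 (h6.trans_le (min_le_right _ _))
  obtain ⟨Kn, g1, hK⟩ := cert_of_certR ha (by linarith) (h6.trans_le (min_le_right _ _)) hA hgc hC g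
    (h6.trans_le (min_le_left _ _))
  exact ⟨Kn, A, g1, hA, hK⟩

end Crest.Agent.R310
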