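import Crest.Agent.R310.ProcDefs

/-! Row 310: from the decoupled real certificate to a computable offer system
(greatest grid sub-solution by Kleene iteration from the top). -/

set_option autoImplicit false
set_option linter.dupNamespace false

namespace Crest.Agent.R310

open Finset Crest.Agent.Lib.PT

namespace Kl

/-- rational version of `gain` -/
def gainQ (M : ℕ) (v : ℕ → ℚ) (c : ℚ) (t lam lam' : ℕ) : ℚ :=
  (∑ u ∈ range M, if mm M t lam' ≤ u then max 0 (v (min t (lam - (u + 1))) - c) else 0) / (M : ℚ)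

def ent (tb : List (List ℕ)) (l t : ℕ) : ℕ := (tb.getD l []).getD t 0

def mkTab (m T : ℕ) (f : ℕ → ℕ → ℕ) : List (List ℕ) :=
  (List.range m).map fun l => (List.range (T + 1)).map fun t => f l t

lemma ent_mkTab {m T l t : ℕ} (f : ℕ → ℕ → ℕ) (hl : l < m) (ht : t ≤ T) :
    ent (mkTab m T f) l t = f l t := by
  simp [ent, mkTab, hl, Nat.lt_succ_of_le ht]

variable (Kn : Kernel) (g A g1 : ℚ) (P : Prof)

/-- end of time -/
def TT : ℕ := Kn.lev P.L
/-- grid denominator -/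
def RR : ℕ := 2 * P.L
/-- cap rounded up to the grid -/
def capN (l r : ℕ) : ℕ := ⌈(RR P : ℚ) * P.cap A g1 l (min r P.L)⌉₊
/-- budget with the extra allowance for rounding -/
def GG (ρ : ℕ) : ℚ := P.G0 g ρ + (ρ : ℚ) / (P.L : ℚ)
/-- value of a table -/
def tv (tb : List (List ℕ)) (l t : ℕ) : ℚ := (ent tb l (min t (TT Kn P)) : ℚ) / (RR P : ℚ)
/-- gain of the entry `l` when an entry at distance `r` opens and the new level is `lam'` -/
def gl (ρ : ℕ) (tb : List (List ℕ)) (r l t lam' : ℕ) : ℚ :=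
  gainQ Kn.M (tv Kn P tb l) ((capN A g1 P l r : ℚ) / (RR P : ℚ)) t
    (max (Kn.lev (min (ρ - P.d l) P.L)) lam') lam'
/-- worst case over the new level -/
def mg (ρ : ℕ) (tb : List (List ℕ)) (r l t : ℕ) : ℚ :=
  (((List.range (Kn.lev (min (r + P.d l) (2 * P.L)) + 1)).filter
      fun lam' => decide (Kn.lev (min (r - P.d l) P.L) ≤ lam')).map
    fun lam' => gl Kn A g1 P ρ tb r l t lam').foldr min
    (gl Kn A g1 P ρ tb r l t (Kn.lev (min (r + P.d l) (2 * P.L))))
/-- right-hand side of (P) -/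
def rhs (ρ : ℕ) (tb : List (List ℕ)) (o t : ℕ) : ℚ :=
  GG g P ρ - GG g P (P.d o) + ∑ l ∈ range P.m, P.x l * mg Kn A g1 P ρ tb (P.d o) l t
/-- one round -/
def upd (ρ : ℕ) (tb : List (List ℕ)) : List (List ℕ) :=
  mkTab P.m (TT Kn P) fun o t =>
    if 0 < P.x o ∧ P.d o < ρ then
      (((List.range (TT Kn P + 1)).filter fun t' => decide (t ≤ t')).map
        fun t' => ⌊(RR P : ℚ) * rhs Kn g A g1 P ρ tb o t'⌋₊).foldr min (ent tb o t)
    else ent tb o t
def top (ρ : ℕ) : List (List ℕ) := mkTab P.m (TT Kn P) fun l _ => capN A g1 P l ρ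
def cnt : ℕ := P.m * (TT Kn P + 1) * (RR P * P.L)
/-- the greatest grid sub-solution for `ρ` -/
def sol (ρ : ℕ) : List (List ℕ) := (upd Kn g A g1 P ρ)^[cnt Kn P] (top Kn A g1 P ρ)
/-- offers: the maximum over all smaller `ρ'` -/
def off (l ρ t : ℕ) : ℚ :=
  ((List.range (min ρ P.L + 1)).map fun ρ' => tv Kn P (sol Kn g A g1 P ρ') l t).foldr max 0

variable {Kn g A g1 P}

/-! ### elementary facts -/

/-- `cap ≤ min r L ≤ L` -/
lemma capN_le (l r : ℕ) : capN A g1 P l r ≤ RR P * P.L := by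
  unfold capN
  rw [Nat.ceil_le]
  push_cast
  refine mul_le_mul_of_nonneg_left ?_ (Nat.cast_nonneg _)
  unfold Prof.cap
  have h1 : (0 : ℚ) ≤ (P.d l : ℚ) := Nat.cast_nonneg _
  have h2 : ((min r P.L : ℕ) : ℚ) ≤ (P.L : ℚ) := by exact_mod_cast min_le_right _ _
  refine max_le (Nat.cast_nonneg _) ((min_le_left _ _).trans ?_)
  linarith

lemma capN_mono (hA : 0 ≤ A) (l : ℕ) {r r' : ℕ} (h : r ≤ r') :
    capN A g1 P l r ≤ capN A g1 P l r' := by
  unfold capN
  refine Nat.ceil_mono (mul_le_mul_of_nonneg_left ?_ (Nat.cast_nonneg _))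
  unfold Prof.cap
  have h2 : ((min r P.L : ℕ) : ℚ) ≤ ((min r' P.L : ℕ) : ℚ) := by
    exact_mod_cast min_le_min_right _ h
  refine max_le_max le_rfl (min_le_min (by linarith) ?_)
  exact mul_le_mul_of_nonneg_left (by linarith) hA

lemma capN_zero {l r : ℕ} (h : r ≤ P.d l) : capN A g1 P l r = 0 := by
  unfold capN
  have h2 : ((min r P.L : ℕ) : ℚ) ≤ (P.d l : ℚ) := by
    exact_mod_cast (min_le_left _ _).trans h
  have h3 : P.cap A g1 l (min r P.L) = 0 := by
    unfold Prof.cap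
    exact max_eq_left ((min_le_left _ _).trans (by linarith))
  rw [h3, mul_zero, Nat.ceil_zero]

lemma L_pos (hP : P.Valid) : 1 ≤ P.L := by
  have hm : 0 < P.m := by
    rcases Nat.eq_zero_or_pos P.m with h | h
    · have := hP.sum
      rw [h] at this
      simp at this
    · exact h
  exact (hP.d_pos 0 hm).trans (hP.d_le 0 hm)

lemma GG_mono (hP : P.Valid) {ρ ρ' : ℕ} (h : ρ' ≤ ρ) : GG g P ρ' ≤ GG g P ρ := by
  unfold GG Prof.G0
  have h' : (ρ' : ℚ) ≤ (ρ : ℚ) := by exact_mod_cast h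
  refine add_le_add (sum_le_sum fun l hl => ?_) (div_le_div_of_nonneg_right h' (Nat.cast_nonneg _))
  exact mul_le_mul_of_nonneg_left (min_le_min_right _ h') (hP.nonneg l (mem_range.mp hl))

lemma GG_le (hP : P.Valid) {ρ : ℕ} (h : ρ ≤ P.L) : GG g P ρ ≤ g * P.D + 1 := by
  unfold GG Prof.G0 Prof.D
  have h' : (ρ : ℚ) ≤ (P.L : ℚ) := by exact_mod_cast h
  refine add_le_add ?_ (div_le_one_of_le₀ h' (Nat.cast_nonneg _))
  rw [mul_sum]
  refine sum_le_sum fun l hl => ?_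
  rw [mul_left_comm]
  exact mul_le_mul_of_nonneg_left (min_le_right _ _) (hP.nonneg l (mem_range.mp hl))

lemma gainQ_mono {M : ℕ} {v v' : ℕ → ℚ} (h : ∀ s, v s ≤ v' s) (c : ℚ) (t lam lam' : ℕ) :
    gainQ M v c t lam lam' ≤ gainQ M v' c t lam lam' := by
  unfold gainQ
  refine div_le_div_of_nonneg_right (sum_le_sum fun u _ => ?_) (Nat.cast_nonneg _)
  split_ifs
  · exact max_le_max le_rfl (sub_le_sub_right (h _) _)
  · exact le_rfl

private lemma h52_foldr_min_le {β : Type} [LinearOrder β] (L : List β) (a : β) {b : β}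
    (hb : b ∈ L) : L.foldr min a ≤ b := by
  induction L with
  | nil => simp at hb
  | cons c L ih =>
    rw [List.foldr_cons]
    rcases List.mem_cons.mp hb with rfl | hb
    · exact min_le_left _ _
    · exact (min_le_right _ _).trans (ih hb)

private lemma h52_foldr_min_mem {β : Type} [LinearOrder β] (L : List β) (a : β) :
    L.foldr min a = a ∨ L.foldr min a ∈ L := by
  induction L with
  | nil => simp
  | cons c L ih =>
    rw [List.foldr_cons]
    rcases min_choice c (L.foldr min a) with h | h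
    · rw [h]; exact Or.inr List.mem_cons_self
    · rw [h]
      rcases ih with ih | ih
      · exact Or.inl ih
      · exact Or.inr (List.mem_cons_of_mem _ ih)

lemma mg_le (hP : P.Valid) (ρ : ℕ) (tb : List (List ℕ)) {r l : ℕ} (hr : r ≤ P.L) (hl : l < P.m)
    (t : ℕ) {lam' : ℕ} (h1 : Kn.lev (r - P.d l) ≤ lam') (h2 : lam' ≤ Kn.lev (r + P.d l)) :
    mg Kn A g1 P ρ tb r l t ≤ gl Kn A g1 P ρ tb r l t lam' := by
  have hd := hP.d_le l hl
  have e1 : min (r + P.d l) (2 * P.L) = r + P.d l := min_eq_left (by omega)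
  have e2 : min (r - P.d l) P.L = r - P.d l := min_eq_left (by omega)
  unfold mg
  rw [e1, e2]
  refine h52_foldr_min_le _ _ (List.mem_map.mpr ⟨lam', ?_, rfl⟩)
  rw [List.mem_filter, List.mem_range]
  exact ⟨Nat.lt_succ_of_le h2, decide_eq_true h1⟩

lemma exists_mg (hP : P.Valid) (ρ : ℕ) (tb : List (List ℕ)) {r l : ℕ} (hr : r ≤ P.L)
    (hl : l < P.m) (t : ℕ) : ∃ lam', Kn.lev (r - P.d l) ≤ lam' ∧ lam' ≤ Kn.lev (r + P.d l) ∧
      mg Kn A g1 P ρ tb r l t = gl Kn A g1 P ρ tb r l t lam' := by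
  have hd := hP.d_le l hl
  have e1 : min (r + P.d l) (2 * P.L) = r + P.d l := min_eq_left (by omega)
  have e2 : min (r - P.d l) P.L = r - P.d l := min_eq_left (by omega)
  unfold mg
  rw [e1, e2]
  rcases h52_foldr_min_mem (((List.range (Kn.lev (r + P.d l) + 1)).filter
      fun lam' => decide (Kn.lev (r - P.d l) ≤ lam')).map
    fun lam' => gl Kn A g1 P ρ tb r l t lam') (gl Kn A g1 P ρ tb r l t (Kn.lev (r + P.d l)))
    with h | h
  · exact ⟨_, Kn.lev_mono (by omega), le_rfl, h⟩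
  · obtain ⟨lam', h1, h2⟩ := List.mem_map.mp h
    rw [List.mem_filter, List.mem_range] at h1
    exact ⟨lam', of_decide_eq_true h1.2, Nat.le_of_lt_succ h1.1, h2.symm⟩

/-- `exists_mg` for `tb'`, `mg_le` for `tb`, `gainQ_mono` -/
lemma rhs_mono (hP : P.Valid) (ρ : ℕ) {tb tb' : List (List ℕ)}
    (h : ∀ l < P.m, ∀ t ≤ TT Kn P, ent tb l t ≤ ent tb' l t) {o : ℕ} (ho : o < P.m) (t : ℕ) :
    rhs Kn g A g1 P ρ tb o t ≤ rhs Kn g A g1 P ρ tb' o t := by
  unfold rhs
  refine add_le_add le_rfl (sum_le_sum fun l hl => ?_)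
  have hl' := mem_range.mp hl
  refine mul_le_mul_of_nonneg_left ?_ (hP.nonneg l hl')
  obtain ⟨lam', h1, h2, h3⟩ := exists_mg (Kn := Kn) (A := A) (g1 := g1) hP ρ tb' (hP.d_le o ho) hl' t
  rw [h3]
  refine (mg_le hP ρ tb (hP.d_le o ho) hl' t h1 h2).trans ?_
  unfold gl
  refine gainQ_mono (fun s => ?_) _ _ _ _
  unfold tv
  refine div_le_div_of_nonneg_right ?_ (Nat.cast_nonneg _)
  exact_mod_cast h l hl' _ (min_le_right _ _)

private lemma h50_count (M a b : ℕ) (hab : a ≤ b) (hb : b ≤ M) (x : ℚ) :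
    (∑ u ∈ range M, if a ≤ u ∧ u < b then x else 0) = x * ((b : ℚ) - (a : ℚ)) := by
  rw [← Finset.sum_filter]
  have : (range M).filter (fun u => a ≤ u ∧ u < b) = Finset.Ico a b := by
    ext u
    simp only [Finset.mem_filter, Finset.mem_range, Finset.mem_Ico]
    omega
  rw [this, Finset.sum_const, Nat.card_Ico, nsmul_eq_mul, Nat.cast_sub hab, mul_comm]

/-- The termwise comparison behind (P): the right side is
`(1/M) ∑_{u ≥ mm t lam'} (V (min t (lam - (u+1))) - V' (lam' - (u+1)))`. -/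
lemma gainQ_le {M : ℕ} {v V V' : ℕ → ℚ} {c : ℚ} {t lam0 lam lam' : ℕ}
    (hv : ∀ s s', s' ≤ s → v s' ≤ V s) (hV : ∀ s s', s' ≤ s → V' s' ≤ V s) (hc : ∀ s, V' s ≤ c)
    (h0 : lam0 ≤ lam) (h1 : lam' ≤ lam) :
    gainQ M v c t lam0 lam' + Isum M V' lam' (mm M t lam') ≤
      Isum M V lam (mm M t lam) + V t * ((mm M t lam : ℚ) - (mm M t lam' : ℚ)) / (M : ℚ) := by
  have hm : mm M t lam' ≤ mm M t lam := by unfold mm; omega
  have hM : mm M t lam ≤ M := by unfold mm; omega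
  unfold gainQ Isum
  rw [← add_div, ← add_div, ← h50_count M _ _ hm hM (V t), ← Finset.sum_add_distrib,
    ← Finset.sum_add_distrib]
  refine div_le_div_of_nonneg_right (Finset.sum_le_sum fun u hu => ?_) (Nat.cast_nonneg M)
  have hu' : u < M := Finset.mem_range.1 hu
  have key : ∀ s, lam' - (u + 1) ≤ s → min t (lam0 - (u + 1)) ≤ s →
      max 0 (v (min t (lam0 - (u + 1))) - c) + V' (lam' - (u + 1)) ≤ V s := by
    intro s hs1 hs2
    have e1 := hV s _ hs1
    have e2 := hv s _ hs2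
    have e3 := hc (lam' - (u + 1))
    rcases le_total 0 (v (min t (lam0 - (u + 1))) - c) with h | h
    · rw [max_eq_right h]; linarith
    · rw [max_eq_left h]; linarith
  by_cases h2 : mm M t lam' ≤ u
  · by_cases h3 : mm M t lam ≤ u
    · rw [if_pos h2, if_pos h2, if_pos h3, if_neg (by omega), add_zero]
      exact key _ (by omega) (by omega)
    · rw [if_pos h2, if_pos h2, if_neg h3, if_pos ⟨h2, by omega⟩, zero_add]
      refine key _ ?_ (min_le_left _ _)
      unfold mm at h2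
      omega
  · rw [if_neg h2, if_neg h2, if_neg (by omega), if_neg (by omega)]

/-! ### the iteration -/

private lemma h50_le_foldr_min (l : List ℕ) (b a : ℕ) :
    a ≤ l.foldr min b ↔ a ≤ b ∧ ∀ x ∈ l, a ≤ x := by
  induction l with
  | nil => simp
  | cons y l ih =>
    simp only [List.foldr_cons, le_min_iff, ih, List.mem_cons, forall_eq_or_imp]
    tauto

private lemma h50_le_upd_iff (ρ : ℕ) (tb : List (List ℕ)) {o t : ℕ} (a : ℕ) (ho : o < P.m)
    (ht : t ≤ TT Kn P) :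
    a ≤ ent (upd Kn g A g1 P ρ tb) o t ↔ a ≤ ent tb o t ∧
      (0 < P.x o → P.d o < ρ → ∀ t', t ≤ t' → t' ≤ TT Kn P →
        a ≤ ⌊(RR P : ℚ) * rhs Kn g A g1 P ρ tb o t'⌋₊) := by
  unfold upd
  rw [ent_mkTab _ ho ht]
  split_ifs with hc
  · rw [h50_le_foldr_min]
    refine and_congr_right fun _ => ⟨fun h _ _ t' h1 h2 => ?_, fun h x hx => ?_⟩
    · refine h _ (List.mem_map.2 ⟨t', ?_, rfl⟩)
      simp only [List.mem_filter, List.mem_range, decide_eq_true_eq]
      exact ⟨by omega, h1⟩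
    · obtain ⟨t', ht', rfl⟩ := List.mem_map.1 hx
      simp only [List.mem_filter, List.mem_range, decide_eq_true_eq] at ht'
      exact h hc.1 hc.2 t' ht'.2 (by omega)
  · exact ⟨fun h => ⟨h, fun h1 h2 => absurd ⟨h1, h2⟩ hc⟩, fun h => h.1⟩

lemma ent_upd_le (ρ : ℕ) (tb : List (List ℕ)) {l t : ℕ} (hl : l < P.m) (ht : t ≤ TT Kn P) :
    ent (upd Kn g A g1 P ρ tb) l t ≤ ent tb l t := by
  exact ((h50_le_upd_iff ρ tb _ hl ht).1 le_rfl).1

lemma ent_upd_le_rhs (ρ : ℕ) (tb : List (List ℕ)) {o t : ℕ} (ho : o < P.m) (ht : t ≤ TT Kn P)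
    (hx : 0 < P.x o) (hd : P.d o < ρ) :
    ent (upd Kn g A g1 P ρ tb) o t ≤ ⌊(RR P : ℚ) * rhs Kn g A g1 P ρ tb o t⌋₊ := by
  exact ((h50_le_upd_iff ρ tb _ ho ht).1 le_rfl).2 hx hd t le_rfl ht

lemma le_ent_upd (ρ : ℕ) (tb : List (List ℕ)) {o t a : ℕ} (ho : o < P.m) (ht : t ≤ TT Kn P)
    (h1 : a ≤ ent tb o t) (h2 : 0 < P.x o → P.d o < ρ → ∀ t', t ≤ t' → t' ≤ TT Kn P →
      a ≤ ⌊(RR P : ℚ) * rhs Kn g A g1 P ρ tb o t'⌋₊) : a ≤ ent (upd Kn g A g1 P ρ tb) o t := by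
  exact (h50_le_upd_iff ρ tb a ho ht).2 ⟨h1, h2⟩

lemma sol_le_cap (ρ : ℕ) {l t : ℕ} (hl : l < P.m) (ht : t ≤ TT Kn P) :
    ent (sol Kn g A g1 P ρ) l t ≤ capN A g1 P l ρ := by
  unfold sol
  induction cnt Kn P with
  | zero =>
    simp only [Function.iterate_zero, id_eq, top]
    rw [ent_mkTab _ hl ht]
  | succ n ih =>
    rw [Function.iterate_succ_apply']
    exact (ent_upd_le ρ _ hl ht).trans ih

/-- monotonicity in time is preserved by `upd` (`le_ent_upd`, `ent_upd_le`, and the minimum over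
`t' ≥ t` grows with `t`) -/
lemma sol_mono (ρ : ℕ) {l t t' : ℕ} (hl : l < P.m) (h : t ≤ t') (ht : t' ≤ TT Kn P) :
    ent (sol Kn g A g1 P ρ) l t ≤ ent (sol Kn g A g1 P ρ) l t' := by
  unfold sol
  induction cnt Kn P with
  | zero =>
    simp only [Function.iterate_zero, id_eq, top]
    rw [ent_mkTab _ hl ht, ent_mkTab _ hl (h.trans ht)]
  | succ n ih =>
    rw [Function.iterate_succ_apply']
    have h0 := (h50_le_upd_iff (Kn := Kn) (g := g) (A := A) (g1 := g1) ρ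
      ((upd Kn g A g1 P ρ)^[n] (top Kn A g1 P ρ)) _ hl (h.trans ht)).1 le_rfl
    exact le_ent_upd ρ _ hl ht (h0.1.trans ih)
      fun hx hd s hs1 hs2 => h0.2 hx hd s (h.trans hs1) hs2

private lemma h32_fix {T : Type} (f : T → T) (μ : T → ℕ) (Inv : T → Prop)
    (h1 : ∀ x, Inv x → Inv (f x)) (h2 : ∀ x, Inv x → f x ≠ x → μ (f x) < μ x) :
    ∀ (n : ℕ) (x : T), Inv x → μ x ≤ n → f (f^[n] x) = f^[n] x := by
  intro n
  induction n with
  | zero =>
    intro x hx hμ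
    by_contra h
    have := h2 x hx h
    omega
  | succ n ih =>
    intro x hx hμ
    by_cases h : f x = x
    · rw [Function.iterate_fixed h, h]
    · rw [Function.iterate_succ_apply]
      have := h2 x hx h
      exact ih _ (h1 x hx) (by omega)

private lemma h32_mkTab_congr {m T : ℕ} {f f' : ℕ → ℕ → ℕ}
    (h : ∀ l < m, ∀ t ≤ T, f l t = f' l t) : mkTab m T f = mkTab m T f' := by
  unfold mkTab
  refine List.map_congr_left fun l hl => List.map_congr_left fun t ht => ?_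
  exact h l (List.mem_range.1 hl) t (Nat.lt_succ_iff.1 (List.mem_range.1 ht))

/-- All iterates are of the form `mkTab`; the sum of the entries (at most `cnt` at the start) drops
in every round that changes the table, so after `cnt` rounds the table is a fixed point (a table
with entry sum `0` is fixed as well). -/
lemma upd_sol (ρ : ℕ) : upd Kn g A g1 P ρ (sol Kn g A g1 P ρ) = sol Kn g A g1 P ρ := by
  refine h32_fix (upd Kn g A g1 P ρ)
    (fun tb => ∑ p ∈ range P.m ×ˢ range (TT Kn P + 1), ent tb p.1 p.2)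
    (fun tb => ∃ f, tb = mkTab P.m (TT Kn P) f) (fun _ _ => ⟨_, rfl⟩) ?_ _ _ ⟨_, rfl⟩ ?_
  · rintro tb ⟨f, hf⟩ hne
    have hle : ∀ p ∈ range P.m ×ˢ range (TT Kn P + 1),
        ent (upd Kn g A g1 P ρ tb) p.1 p.2 ≤ ent tb p.1 p.2 := fun p hp =>
      ent_upd_le ρ tb (mem_range.1 (mem_product.1 hp).1)
        (Nat.lt_succ_iff.1 (mem_range.1 (mem_product.1 hp).2))
    refine sum_lt_sum hle ?_
    by_contra hcon
    apply hne
    have heq : ∀ l < P.m, ∀ t ≤ TT Kn P, ent (upd Kn g A g1 P ρ tb) l t = ent tb l t := by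
      intro l hl t ht
      have hp : (l, t) ∈ range P.m ×ˢ range (TT Kn P + 1) :=
        mem_product.2 ⟨mem_range.2 hl, mem_range.2 (Nat.lt_succ_of_le ht)⟩
      exact le_antisymm (hle _ hp) (not_lt.1 fun h => hcon ⟨(l, t), hp, h⟩)
    obtain ⟨f', hf'⟩ : ∃ f', upd Kn g A g1 P ρ tb = mkTab P.m (TT Kn P) f' := ⟨_, rfl⟩
    rw [hf'] at heq ⊢
    rw [hf] at heq ⊢
    refine h32_mkTab_congr fun l hl t ht => ?_
    have := heq l hl t ht
    rwa [ent_mkTab _ hl ht, ent_mkTab _ hl ht] at this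
  · refine (sum_le_card_nsmul _ _ (RR P * P.L) fun p hp => ?_).trans ?_
    · rw [top, ent_mkTab _ (mem_range.1 (mem_product.1 hp).1)
        (Nat.lt_succ_iff.1 (mem_range.1 (mem_product.1 hp).2))]
      exact capN_le _ _
    · simp [cnt]

/-- grid sub-solutions stay below all iterates (`le_ent_upd`, `rhs_mono`) -/
lemma le_sol (hP : P.Valid) (ρ : ℕ) (w : ℕ → ℕ → ℕ)
    (h1 : ∀ l < P.m, ∀ t ≤ TT Kn P, w l t ≤ capN A g1 P l ρ)
    (h2 : ∀ l < P.m, ∀ t t', t ≤ t' → t' ≤ TT Kn P → w l t ≤ w l t')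
    (h3 : ∀ o < P.m, 0 < P.x o → P.d o < ρ → ∀ t ≤ TT Kn P,
      w o t ≤ ⌊(RR P : ℚ) * rhs Kn g A g1 P ρ (mkTab P.m (TT Kn P) w) o t⌋₊)
    {l t : ℕ} (hl : l < P.m) (ht : t ≤ TT Kn P) : w l t ≤ ent (sol Kn g A g1 P ρ) l t := by
  have key : ∀ n : ℕ, ∀ l < P.m, ∀ t ≤ TT Kn P,
      w l t ≤ ent ((upd Kn g A g1 P ρ)^[n] (top Kn A g1 P ρ)) l t := by
    intro n
    induction n with
    | zero =>
      intro l hl t ht
      rw [Function.iterate_zero_apply, top, ent_mkTab _ hl ht]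
      exact h1 l hl t ht
    | succ n ih =>
      intro o ho t ht
      rw [Function.iterate_succ_apply']
      refine le_ent_upd ρ _ ho ht (ih o ho t ht) fun hx hd t' htt ht' => ?_
      refine (h2 o ho t t' htt ht').trans ((h3 o ho hx hd t' ht').trans (Nat.floor_mono ?_))
      refine mul_le_mul_of_nonneg_left (rhs_mono hP ρ (fun l hl s hs => ?_) ho t')
        (Nat.cast_nonneg _)
      rw [ent_mkTab _ hl hs]
      exact ih l hl s hs
  exact key _ l hl t ht

private lemma helper40_gain {M : ℕ} (hM : 0 < M) {v : ℕ → ℝ} {vq : ℕ → ℚ} {c e : ℝ} {cq : ℚ}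
    {t lam lam' : ℕ} (hv : ∀ s ≤ t, v s ≤ (vq s : ℝ)) (hc : (cq : ℝ) ≤ c + e) (he : 0 ≤ e) :
    gain M v c t lam lam' - e ≤ (gainQ M vq cq t lam lam' : ℝ) := by
  have hM' : (0 : ℝ) < M := by exact_mod_cast hM
  unfold gain gainQ
  push_cast
  rw [sub_le_iff_le_add, div_le_iff₀ hM', add_mul, div_mul_cancel₀ _ hM'.ne']
  have e1 : e * M = ∑ _u ∈ range M, e := by
    rw [Finset.sum_const, Finset.card_range, nsmul_eq_mul, mul_comm]
  rw [e1, ← Finset.sum_add_distrib]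
  refine Finset.sum_le_sum fun u _ => ?_
  split_ifs with h
  · push_cast
    have h1 := hv (min t (lam - (u + 1))) (min_le_left _ _)
    have h2 := le_max_left (0 : ℝ) ((vq (min t (lam - (u + 1))) : ℝ) - cq)
    have h3 := le_max_right (0 : ℝ) ((vq (min t (lam - (u + 1))) : ℝ) - cq)
    exact max_le (by linarith) (by linarith)
  · simpa using he

/-- `w l t = ⌈R v l t⌉₊` is a grid sub-solution: with `lam'` from `exists_mg`, each `mg` is at least
the real `gain` minus `1/R` (values went up, the cap went up by at most `1/R`), `w / R < v + 1/R`,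
and the extra budget is `(ρ - d o) / L ≥ 2/R`. Hence `v ≤ tv (sol ρ)` by `le_sol`. -/
lemma real_le_sol (hC : Cert Kn g A g1) (hP : P.Valid) {ρ : ℕ} (hρ : ρ ≤ P.L) :
    ∃ v : ℕ → ℕ → ℝ, ((ρ : ℝ) ≤ (P.G0 g ρ : ℝ) +
      ∑ l ∈ range P.m, (P.x l : ℝ) * Isum Kn.M (v l) (Kn.lev (ρ - P.d l)) 0) ∧
      ∀ l < P.m, ∀ t ≤ TT Kn P, v l t ≤ (tv Kn P (sol Kn g A g1 P ρ) l t : ℝ) := by
  classical
  obtain ⟨v, hv0, hvm, hU, hPv⟩ := hC P hP ρ hρ
  refine ⟨v, hU, ?_⟩
  have hL : (0 : ℝ) < P.L := by exact_mod_cast L_pos hP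
  have hRR : ((RR P : ℕ) : ℝ) = 2 * P.L := by simp [RR]
  have hR : (0 : ℝ) < (RR P : ℕ) := by rw [hRR]; positivity
  set w : ℕ → ℕ → ℕ := fun l t => ⌈((RR P : ℕ) : ℝ) * v l t⌉₊ with hw
  have hvw : ∀ l t, v l t ≤ (w l t : ℝ) / (RR P : ℕ) := fun l t => by
    rw [le_div_iff₀ hR, mul_comm]
    exact Nat.le_ceil _
  have key : ∀ l < P.m, ∀ t ≤ TT Kn P, w l t ≤ ent (sol Kn g A g1 P ρ) l t := by
    intro l hl t ht
    refine le_sol hP ρ w ?_ ?_ ?_ hl ht
    · intro l hl t _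
      refine Nat.ceil_le.2 ?_
      have h1 : ((RR P : ℚ) * P.cap A g1 l (min ρ P.L)) ≤ (capN A g1 P l ρ : ℚ) := Nat.le_ceil _
      rw [min_eq_left hρ] at h1
      have h2 : ((RR P : ℕ) : ℝ) * (P.cap A g1 l ρ : ℝ) ≤ (capN A g1 P l ρ : ℝ) := by
        exact_mod_cast h1
      exact (mul_le_mul_of_nonneg_left (hv0 l hl t).2 hR.le).trans h2
    · intro l hl t t' h _
      exact Nat.ceil_mono (mul_le_mul_of_nonneg_left (hvm l hl h) hR.le)
    · intro o ho hx hd t ht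
      rcases hPv o ho hx hd t with h0 | hin
      · simp [hw, h0]
      have hdo : P.d o ≤ P.L := hP.d_le o ho
      choose! lam' h1 h2 h3 using fun l (hl : l < P.m) =>
        exists_mg (Kn := Kn) (A := A) (g1 := g1) hP ρ (mkTab P.m (TT Kn P) w) hdo hl t
      have H := hin lam' fun l hl => ⟨h1 l hl, h2 l hl⟩
      have hg : ∀ l < P.m, gain Kn.M (v l) (P.cap A g1 l (P.d o)) t
          (max (Kn.lev (ρ - P.d l)) (lam' l)) (lam' l) - 1 / (RR P : ℕ) ≤
          (mg Kn A g1 P ρ (mkTab P.m (TT Kn P) w) (P.d o) l t : ℝ) := by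
        intro l hl
        rw [h3 l hl, gl, min_eq_left (by omega : ρ - P.d l ≤ P.L)]
        refine helper40_gain Kn.M_pos (fun s hs => ?_) ?_ (by positivity)
        · rw [tv, min_eq_left (hs.trans ht), ent_mkTab w hl (hs.trans ht)]
          push_cast
          exact hvw l s
        · have c0 : (0 : ℚ) ≤ (RR P : ℚ) * P.cap A g1 l (P.d o) :=
            mul_nonneg (Nat.cast_nonneg _) (le_max_left _ _)
          have c1 := (Nat.ceil_lt_add_one c0).le
          have c2 : (capN A g1 P l (P.d o) : ℝ) ≤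
              ((RR P : ℕ) : ℝ) * (P.cap A g1 l (P.d o) : ℝ) + 1 := by
            rw [capN, min_eq_left hdo]
            exact_mod_cast c1
          push_cast
          rw [div_le_iff₀ hR, add_mul, div_mul_cancel₀ _ hR.ne', mul_comm]
          exact c2
      have hsum : ∑ l ∈ range P.m, (P.x l : ℝ) = 1 := by exact_mod_cast hP.sum
      have hS : ∑ l ∈ range P.m, (P.x l : ℝ) * gain Kn.M (v l) (P.cap A g1 l (P.d o)) t
          (max (Kn.lev (ρ - P.d l)) (lam' l)) (lam' l) - 1 / (RR P : ℕ) ≤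
          ∑ l ∈ range P.m, (P.x l : ℝ) *
            (mg Kn A g1 P ρ (mkTab P.m (TT Kn P) w) (P.d o) l t : ℝ) := by
        have e : (1 : ℝ) / (RR P : ℕ) = ∑ l ∈ range P.m, (P.x l : ℝ) * (1 / (RR P : ℕ)) := by
          rw [← Finset.sum_mul, hsum, one_mul]
        rw [e, ← Finset.sum_sub_distrib]
        refine Finset.sum_le_sum fun l hl => ?_
        have hl' := Finset.mem_range.1 hl
        rw [← mul_sub]
        exact mul_le_mul_of_nonneg_left (hg l hl') (by exact_mod_cast hP.nonneg l hl')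
      have hw1 : (w o t : ℝ) ≤ ((RR P : ℕ) : ℝ) * v o t + 1 :=
        (Nat.ceil_lt_add_one (mul_nonneg hR.le (hv0 o ho t).1)).le
      have hd1 : (P.d o : ℝ) + 1 ≤ ρ := by exact_mod_cast hd
      have hq : 2 / ((RR P : ℕ) : ℝ) ≤ (ρ : ℝ) / P.L - (P.d o : ℝ) / P.L := by
        rw [hRR, ← sub_div, div_le_div_iff₀ (by positivity) hL]
        nlinarith
      refine Nat.le_floor ?_
      have hfin : (w o t : ℝ) ≤ ((RR P : ℕ) : ℝ) *
          (rhs Kn g A g1 P ρ (mkTab P.m (TT Kn P) w) o t : ℝ) := by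
        rw [rhs, GG, GG]
        push_cast
        have h5 : v o t + 1 / ((RR P : ℕ) : ℝ) ≤ (P.G0 g ρ : ℝ) + (ρ : ℝ) / P.L -
            ((P.G0 g (P.d o) : ℝ) + (P.d o : ℝ) / P.L) + ∑ l ∈ range P.m, (P.x l : ℝ) *
              (mg Kn A g1 P ρ (mkTab P.m (TT Kn P) w) (P.d o) l t : ℝ) := by
          have e : 2 / ((RR P : ℕ) : ℝ) = 1 / ((RR P : ℕ) : ℝ) + 1 / ((RR P : ℕ) : ℝ) := by ring
          linarith
        have h6 := mul_le_mul_of_nonneg_left h5 hR.le
        rw [mul_add, mul_one_div_cancel hR.ne'] at h6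
        exact hw1.trans h6
      exact_mod_cast hfin
  intro l hl t ht
  rw [tv, min_eq_left ht]
  push_cast
  refine (hvw l t).trans (div_le_div_of_nonneg_right ?_ hR.le)
  exact_mod_cast key l hl t ht

/-! ### the offers -/

private lemma h48_le_foldr {L : List ℚ} {a : ℚ} (h : a ∈ L) : a ≤ L.foldr max 0 := by
  induction L with
  | nil => simp at h
  | cons b L ih =>
    rw [List.foldr_cons]
    rcases List.mem_cons.1 h with rfl | h
    · exact le_max_left _ _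
    · exact (ih h).trans (le_max_right _ _)

private lemma h48_foldr_cases (L : List ℚ) : L.foldr max 0 = 0 ∨ L.foldr max 0 ∈ L := by
  induction L with
  | nil => exact Or.inl rfl
  | cons b L ih =>
    rw [List.foldr_cons]
    rcases le_total b (L.foldr max 0) with h | h
    · rw [max_eq_right h]
      exact ih.imp id (List.mem_cons_of_mem _)
    · rw [max_eq_left h]
      exact Or.inr List.mem_cons_self

private lemma h48_foldr_nonneg (L : List ℚ) : 0 ≤ L.foldr max 0 := by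
  induction L with
  | nil => exact le_rfl
  | cons b L ih => exact ih.trans (le_max_right _ _)

lemma tv_le_off {l ρ ρ' : ℕ} (h : ρ' ≤ ρ) (hρ : ρ ≤ P.L) (t : ℕ) :
    tv Kn P (sol Kn g A g1 P ρ') l t ≤ off Kn g A g1 P l ρ t := by
  refine h48_le_foldr (List.mem_map.2 ⟨ρ', List.mem_range.2 ?_, rfl⟩)
  omega

lemma off_nonneg (l ρ t : ℕ) : 0 ≤ off Kn g A g1 P l ρ t := by
  exact h48_foldr_nonneg _

lemma off_cases (l ρ t : ℕ) : off Kn g A g1 P l ρ t = 0 ∨
    ∃ ρ' ≤ ρ, ρ' ≤ P.L ∧ off Kn g A g1 P l ρ t = tv Kn P (sol Kn g A g1 P ρ') l t := by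
  refine (h48_foldr_cases _).imp id fun h => ?_
  obtain ⟨ρ', h1, h2⟩ := List.mem_map.1 h
  rw [List.mem_range] at h1
  exact ⟨ρ', by omega, by omega, h2.symm⟩

lemma off_mono {l ρ ρ' t t' : ℕ} (hl : l < P.m) (hρ : ρ ≤ P.L) (h : ρ' ≤ ρ) (ht : t' ≤ t) :
    off Kn g A g1 P l ρ' t' ≤ off Kn g A g1 P l ρ t := by
  rcases off_cases (Kn := Kn) (g := g) (A := A) (g1 := g1) (P := P) l ρ' t' with h0 | ⟨r, hr, -, he⟩
  · rw [h0]
    exact off_nonneg _ _ _
  · rw [he]
    refine le_trans ?_ (tv_le_off (hr.trans h) hρ t)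
    unfold tv
    refine div_le_div_of_nonneg_right ?_ (Nat.cast_nonneg _)
    exact_mod_cast sol_mono r hl (min_le_min_right _ ht) (min_le_right _ _)

lemma off_le_cap (hA : 0 ≤ A) {l : ℕ} (hl : l < P.m) (ρ t : ℕ) :
    off Kn g A g1 P l ρ t ≤ (capN A g1 P l ρ : ℚ) / (RR P : ℚ) := by
  rcases off_cases (Kn := Kn) (g := g) (A := A) (g1 := g1) (P := P) l ρ t with h0 | ⟨r, hr, -, he⟩
  · rw [h0]
    positivity
  · rw [he]
    unfold tv
    refine div_le_div_of_nonneg_right ?_ (Nat.cast_nonneg _)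
    exact_mod_cast (sol_le_cap r hl (min_le_right _ _)).trans (capN_mono hA l hr)

lemma off_zero (hA : 0 ≤ A) {l ρ : ℕ} (hl : l < P.m) (h : ρ ≤ P.d l) (t : ℕ) :
    off Kn g A g1 P l ρ t = 0 := by
  refine le_antisymm ((off_le_cap hA hl ρ t).trans ?_) (off_nonneg _ _ _)
  rw [capN_zero h, Nat.cast_zero, zero_div]

/-- `real_le_sol`, `tv_le_off`; all times involved are at most `lev (ρ - d) ≤ TT`; cast to `ℝ` -/
lemma off_U (hC : Cert Kn g A g1) (hP : P.Valid) {ρ : ℕ} (hρ : ρ ≤ P.L) :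
    (ρ : ℚ) ≤ GG g P ρ + ∑ l ∈ range P.m,
      P.x l * Isum Kn.M (off Kn g A g1 P l ρ) (Kn.lev (ρ - P.d l)) 0 := by
  obtain ⟨v, hv1, hv2⟩ := real_le_sol hC hP hρ
  have hG : P.G0 g ρ ≤ GG g P ρ := le_add_of_nonneg_right (by positivity)
  have key : (ρ : ℝ) ≤ ((GG g P ρ + ∑ l ∈ range P.m,
      P.x l * Isum Kn.M (off Kn g A g1 P l ρ) (Kn.lev (ρ - P.d l)) 0 : ℚ) : ℝ) := by
    rw [Rat.cast_add, Rat.cast_sum]
    refine hv1.trans (add_le_add (by exact_mod_cast hG) (Finset.sum_le_sum fun l hl => ?_))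
    have hl' := Finset.mem_range.1 hl
    rw [Rat.cast_mul]
    refine mul_le_mul_of_nonneg_left ?_ (by exact_mod_cast hP.nonneg l hl')
    unfold Isum
    rw [Rat.cast_div, Rat.cast_sum, Rat.cast_natCast]
    refine div_le_div_of_nonneg_right (Finset.sum_le_sum fun u _ => ?_) (Nat.cast_nonneg _)
    rw [if_pos (Nat.zero_le u), if_pos (Nat.zero_le u)]
    refine (hv2 l hl' _ ?_).trans (by exact_mod_cast tv_le_off le_rfl hρ _)
    exact (Nat.sub_le _ _).trans (Kn.lev_mono ((Nat.sub_le _ _).trans hρ))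
  exact_mod_cast key

/-- If the offer is `0`: `GG_mono` and `Isum_step` termwise. Otherwise it is a positive entry of
`sol ρ'`, so `d o < ρ'` (`sol_le_cap`, `capN_zero`) and it is at most `rhs ρ' (sol ρ') o t`
(`upd_sol`, `ent_upd_le_rhs`); then `mg_le`, `gainQ_le` (`tv_le_off`, `off_mono`, `off_le_cap`). -/
lemma off_P (hA : 0 ≤ A) (hP : P.Valid) {ρ : ℕ} (hρ : ρ ≤ P.L) {o : ℕ} (ho : o < P.m)
    (hx : 0 < P.x o) (hd : P.d o < ρ) {t : ℕ} (ht : t < Kn.lev P.L) (lam lam' : ℕ → ℕ)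
    (h : ∀ l < P.m, 0 < P.x l → Kn.lev (ρ - P.d l) ≤ lam l ∧ lam l ≤ Kn.lev P.L ∧
      lam' l ≤ lam l ∧ Kn.lev (P.d o - P.d l) ≤ lam' l ∧ lam' l ≤ Kn.lev (P.d o + P.d l)) :
    off Kn g A g1 P o ρ t + GG g P (P.d o) + ∑ l ∈ range P.m,
        P.x l * Isum Kn.M (off Kn g A g1 P l (P.d o)) (lam' l) (mm Kn.M t (lam' l)) ≤
      GG g P ρ + ∑ l ∈ range P.m,
        P.x l * (Isum Kn.M (off Kn g A g1 P l ρ) (lam l) (mm Kn.M t (lam l)) +
          off Kn g A g1 P l ρ t * ((mm Kn.M t (lam l) : ℚ) - (mm Kn.M t (lam' l) : ℚ)) /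
            (Kn.M : ℚ)) := by
  have hV : ∀ l < P.m, ∀ s s', s' ≤ s →
      off Kn g A g1 P l (P.d o) s' ≤ off Kn g A g1 P l ρ s := fun l hl s s' hs =>
    off_mono hl hρ hd.le hs
  have key : ∀ c : ℕ → ℚ, (∀ l < P.m, 0 < P.x l →
      c l + Isum Kn.M (off Kn g A g1 P l (P.d o)) (lam' l) (mm Kn.M t (lam' l)) ≤
        Isum Kn.M (off Kn g A g1 P l ρ) (lam l) (mm Kn.M t (lam l)) +
          off Kn g A g1 P l ρ t * ((mm Kn.M t (lam l) : ℚ) - (mm Kn.M t (lam' l) : ℚ)) /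
            (Kn.M : ℚ)) →
      ∑ l ∈ range P.m, P.x l * c l + ∑ l ∈ range P.m,
        P.x l * Isum Kn.M (off Kn g A g1 P l (P.d o)) (lam' l) (mm Kn.M t (lam' l)) ≤
      ∑ l ∈ range P.m, P.x l * (Isum Kn.M (off Kn g A g1 P l ρ) (lam l) (mm Kn.M t (lam l)) +
          off Kn g A g1 P l ρ t * ((mm Kn.M t (lam l) : ℚ) - (mm Kn.M t (lam' l) : ℚ)) /
            (Kn.M : ℚ)) := by
    intro c hc
    rw [← Finset.sum_add_distrib]
    refine Finset.sum_le_sum fun l hl => ?_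
    have hl' := Finset.mem_range.1 hl
    rw [← mul_add]
    rcases (hP.nonneg l hl').eq_or_lt with h0 | h0
    · rw [← h0, zero_mul, zero_mul]
    · exact mul_le_mul_of_nonneg_left (hc l hl' h0) h0.le
  by_cases h0 : off Kn g A g1 P o ρ t = 0
  · have h1 := key (fun _ => 0) fun l hl hxl => by
      rw [zero_add]
      exact Isum_step (hV l hl) (h l hl hxl).2.2.1 (mm_mono _ (Nat.le_succ t) le_rfl)
        (mm_mono _ le_rfl (h l hl hxl).2.2.1) (mm_le _ _ _)
    have h2 := GG_mono (g := g) hP hd.le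
    simp only [mul_zero, Finset.sum_const_zero, zero_add] at h1
    rw [h0]
    linarith
  · obtain ⟨ρ', hρ', hρL, e⟩ := (off_cases (Kn := Kn) (g := g) (A := A) (g1 := g1) (P := P)
      o ρ t).resolve_left h0
    have htT : t ≤ TT Kn P := ht.le
    have e2 : tv Kn P (sol Kn g A g1 P ρ') o t =
        (ent (sol Kn g A g1 P ρ') o t : ℚ) / (RR P : ℚ) := by
      unfold tv
      rw [min_eq_left htT]
    have hpos : 0 < ent (sol Kn g A g1 P ρ') o t := by
      refine Nat.pos_of_ne_zero fun hz => h0 ?_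
      rw [e, e2, hz, Nat.cast_zero, zero_div]
    have hd' : P.d o < ρ' := by
      by_contra hn
      have a1 := sol_le_cap (Kn := Kn) (g := g) (A := A) (g1 := g1) ρ' ho htT
      rw [capN_zero (not_lt.1 hn)] at a1
      omega
    have a2 := ent_upd_le_rhs (g := g) (A := A) (g1 := g1) ρ' (sol Kn g A g1 P ρ') ho htT hx hd'
    rw [upd_sol] at a2
    have a3 : (1 : ℚ) ≤ (RR P : ℚ) * rhs Kn g A g1 P ρ' (sol Kn g A g1 P ρ') o t :=
      Nat.floor_pos.1 (hpos.trans_le a2)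
    have a4 : (ent (sol Kn g A g1 P ρ') o t : ℚ) ≤
        (RR P : ℚ) * rhs Kn g A g1 P ρ' (sol Kn g A g1 P ρ') o t :=
      (Nat.cast_le.2 a2).trans (Nat.floor_le (zero_le_one.trans a3))
    have hR : (0 : ℚ) < (RR P : ℚ) := by
      have := L_pos hP
      unfold RR
      positivity
    have a5 : off Kn g A g1 P o ρ t ≤ rhs Kn g A g1 P ρ' (sol Kn g A g1 P ρ') o t := by
      rw [e, e2, div_le_iff₀ hR, mul_comm]
      exact a4
    have h1 := key (fun l => mg Kn A g1 P ρ' (sol Kn g A g1 P ρ') (P.d o) l t) fun l hl hxl => by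
      obtain ⟨b1, -, b3, b4, b5⟩ := h l hl hxl
      have c1 := mg_le (A := A) (g1 := g1) hP ρ' (sol Kn g A g1 P ρ') (hP.d_le o ho) hl t b4 b5
      refine le_trans (add_le_add_left c1 _) ?_
      unfold gl
      refine gainQ_le (fun s s' hs => (tv_le_off hρ' hρ s').trans (off_mono hl hρ le_rfl hs))
        (hV l hl) (fun s => off_le_cap hA hl _ s) (max_le (le_trans (Kn.lev_mono ?_) b1) b3) b3
      exact (min_le_left _ _).trans (Nat.sub_le_sub_right hρ' _)
    have h2 := GG_mono (g := g) hP hρ'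
    unfold rhs at a5
    linarith

/-! ### polynomial time -/

section PT
variable {α : Type} [Enc α] (Kn g A g1) {P : α → Prof} {tb : α → List (List ℕ)}
  {l r ρ t lam lam' o : α → ℕ}

@[fun_prop] lemma pt_gainQ (M : ℕ) {v : α → ℕ → ℚ} {c : α → ℚ}
    (hv : PT fun p : α × ℕ => v p.1 p.2) (hc : PT c) (ht : PT t) (h1 : PT lam) (h2 : PT lam') :
    PT fun a => gainQ M (v a) (c a) (t a) (lam a) (lam' a) := by
  simp only [gainQ]; fun_prop
@[fun_prop] lemma pt_ent (htb : PT tb) (hl : PT l) (ht : PT t) :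
    PT fun a => ent (tb a) (l a) (t a) := by
  simp only [ent]; fun_prop
@[fun_prop] lemma pt_mkTab {m T : α → ℕ} {f : α → ℕ → ℕ → ℕ} (hm : PT m) (hmb : PB m) (hT : PT T)
    (hTb : PB T) (hf : PT fun p : (α × ℕ) × ℕ => f p.1.1 p.1.2 p.2) :
    PT fun a => mkTab (m a) (T a) (f a) := by
  simp only [mkTab]
  exact PT.map (by fun_prop) (PT.map (g := fun (p : α × ℕ) t => f p.1 p.2 t) (by fun_prop) hf)
@[fun_prop] lemma pt_TT (hP : Prof.PTF P) : PT fun a => TT Kn (P a) := by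
  simp only [TT]; fun_prop
@[fun_prop] lemma pb_TT (hP : Prof.PTF P) : PB fun a => TT Kn (P a) := by
  simp only [TT]; fun_prop
@[fun_prop] lemma pt_RR (hP : Prof.PTF P) : PT fun a => RR (P a) := by
  simp only [RR]; fun_prop
@[fun_prop] lemma pb_RR (hP : Prof.PTF P) : PB fun a => RR (P a) := by
  simp only [RR]; fun_prop
@[fun_prop] lemma pt_capN (hP : Prof.PTF P) (hl : PT l) (hr : PT r) :
    PT fun a => capN A g1 (P a) (l a) (r a) := by
  simp only [capN, Prof.cap]; fun_prop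
@[fun_prop] lemma pt_GG (hP : Prof.PTF P) (hρ : PT ρ) : PT fun a => GG g (P a) (ρ a) := by
  simp only [GG, Prof.G0]; fun_prop
@[fun_prop] lemma pt_tv (hP : Prof.PTF P) (htb : PT tb) (hl : PT l) (ht : PT t) :
    PT fun a => tv Kn (P a) (tb a) (l a) (t a) := by
  simp only [tv]; fun_prop
@[fun_prop] lemma pt_gl (hP : Prof.PTF P) (hρ : PT ρ) (htb : PT tb) (hr : PT r) (hl : PT l)
    (ht : PT t) (h2 : PT lam') :
    PT fun a => gl Kn A g1 (P a) (ρ a) (tb a) (r a) (l a) (t a) (lam' a) := by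
  simp only [gl]; fun_prop
@[fun_prop] lemma pt_mg (hP : Prof.PTF P) (hρ : PT ρ) (htb : PT tb) (hr : PT r) (hl : PT l)
    (ht : PT t) : PT fun a => mg Kn A g1 (P a) (ρ a) (tb a) (r a) (l a) (t a) := by
  simp only [mg]; fun_prop
@[fun_prop] lemma pt_rhs (hP : Prof.PTF P) (hρ : PT ρ) (htb : PT tb) (ho : PT o) (ht : PT t) :
    PT fun a => rhs Kn g A g1 (P a) (ρ a) (tb a) (o a) (t a) := by
  simp only [rhs]; fun_prop
@[fun_prop] lemma pt_upd (hP : Prof.PTF P) (hρ : PT ρ) (htb : PT tb) :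
    PT fun a => upd Kn g A g1 (P a) (ρ a) (tb a) := by
  simp only [upd]; fun_prop
@[fun_prop] lemma pt_top (hP : Prof.PTF P) (hρ : PT ρ) :
    PT fun a => top Kn A g1 (P a) (ρ a) := by
  simp only [top]; fun_prop

/-- size invariant of the tables -/
def Small (P : Prof) (tb : List (List ℕ)) : Prop :=
  tb.length ≤ P.m ∧ ∀ row ∈ tb, row.length ≤ TT Kn P + 1 ∧ ∀ e ∈ row, e ≤ RR P * P.L

private lemma h32_small_mkTab (P : Prof) (f : ℕ → ℕ → ℕ)
    (h : ∀ l < P.m, ∀ t ≤ TT Kn P, f l t ≤ RR P * P.L) : Small Kn P (mkTab P.m (TT Kn P) f) := by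
  refine ⟨by simp [mkTab], fun row hrow => ?_⟩
  obtain ⟨l, hl, rfl⟩ := List.mem_map.1 hrow
  refine ⟨by simp, fun e he => ?_⟩
  obtain ⟨t, ht, rfl⟩ := List.mem_map.1 he
  exact h l (List.mem_range.1 hl) t (Nat.lt_succ_iff.1 (List.mem_range.1 ht))

private lemma h32_ent_le (P : Prof) (tb : List (List ℕ)) (h : Small Kn P tb) (l t : ℕ) :
    ent tb l t ≤ RR P * P.L := by
  unfold ent
  by_cases hl : l < tb.length
  · rw [List.getD_eq_getElem _ _ hl]
    by_cases ht : t < tb[l].length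
    · rw [List.getD_eq_getElem _ _ ht]
      exact (h.2 _ (List.getElem_mem hl)).2 _ (List.getElem_mem ht)
    · rw [List.getD_eq_default _ _ (not_lt.1 ht)]; exact Nat.zero_le _
  · rw [List.getD_eq_default _ _ (not_lt.1 hl)]; simp

lemma small_top (P : Prof) (ρ : ℕ) : Small Kn P (top Kn A g1 P ρ) := by
  exact h32_small_mkTab Kn P _ fun l _ _ _ => capN_le l ρ

lemma small_upd (P : Prof) (ρ : ℕ) (tb : List (List ℕ)) (h : Small Kn P tb) :
    Small Kn P (upd Kn g A g1 P ρ tb) := by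
  obtain ⟨f, hf⟩ : ∃ f, upd Kn g A g1 P ρ tb = mkTab P.m (TT Kn P) f := ⟨_, rfl⟩
  rw [hf]
  refine h32_small_mkTab Kn P _ fun l hl t ht => ?_
  rw [← ent_mkTab f hl ht, ← hf]
  exact (ent_upd_le ρ tb hl ht).trans (h32_ent_le Kn P tb h l t)

lemma small_sz (P : Prof) (tb : List (List ℕ)) (h : Small Kn P tb) :
    sz tb ≤ 100 * (P.m + 1) * (TT Kn P + 2) * (RR P * P.L + 1) := by
  set B := RR P * P.L with hB
  set T := TT Kn P with hT
  have h1 : ∀ row ∈ tb, sz row ≤ (T + 1) * (6 * B + 2) + 1 := by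
    intro row hrow
    obtain ⟨hlen, he⟩ := h.2 row hrow
    have := sz_list_le row (6 * B + 1) fun e he' =>
      (sz_nat_le_self e).trans (by have := he e he'; omega)
    refine this.trans ?_
    have := Nat.mul_le_mul_right (6 * B + 2) hlen
    nlinarith
  have h2 := sz_list_le tb _ h1
  have h3 := Nat.mul_le_mul_right ((T + 1) * (6 * B + 2) + 2) h.1
  have h4 : (T + 1) * (6 * B + 2) + 2 ≤ 6 * ((T + 2) * (B + 1)) := by nlinarith
  have h5 := Nat.mul_le_mul_left P.m h4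
  have h6 : 1 ≤ (T + 2) * (B + 1) := Nat.succ_le_of_lt (by positivity)
  have e : 100 * (P.m + 1) * (T + 2) * (B + 1) = 100 * (P.m * ((T + 2) * (B + 1))) +
      100 * ((T + 2) * (B + 1)) := by ring
  rw [e]
  nlinarith

@[fun_prop] lemma pt_sol (hP : Prof.PTF P) (hρ : PT ρ) :
    PT fun a => sol Kn g A g1 (P a) (ρ a) :=
  PT.iterate_inv (f := fun a tb => upd Kn g A g1 (P a) (ρ a) tb) (fun a tb => Small Kn (P a) tb)
    (fun a => 100 * ((P a).m + 1) * (TT Kn (P a) + 2) * (RR (P a) * (P a).L + 1)) (by fun_prop)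
    (by simp only [cnt]; fun_prop) (by simp only [cnt]; fun_prop) (by fun_prop) (by fun_prop)
    (fun a => small_top Kn A g1 _ _) (fun a tb h => small_upd Kn g A g1 _ _ tb h)
    (fun a tb h => small_sz Kn _ tb h)

lemma pt_off (hP : Prof.PTF P) (hl : PT l) (hρ : PT ρ) (ht : PT t) :
    PT fun a => off Kn g A g1 (P a) (l a) (ρ a) (t a) := by
  simp only [off]; fun_prop

end PT

end Kl

/-- The offer system of a certificate. -/
def offerSysOfCert (Kn : Kernel) (g A g1 : ℚ) (hA : 0 ≤ A) (hC : Cert Kn g A g1) : OfferSys g where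
  toKernel := Kn
  off P l ρ t := Kl.off Kn g A g1 P l ρ t
  G P ρ := Kl.GG g P ρ
  off_pt hP hl hρ ht := Kl.pt_off Kn g A g1 hP hl hρ ht
  G_pt hP hρ := Kl.pt_GG g hP hρ
  off_nonneg _ _ l _ ρ _ t := Kl.off_nonneg l ρ t
  off_mono _ _ _ hl _ hρ _ h _ _ ht := Kl.off_mono hl hρ h ht
  off_zero _ _ _ hl _ h t := Kl.off_zero hA hl h t
  G_mono _ hP _ _ _ h := Kl.GG_mono hP h
  G_le _ hP _ h := Kl.GG_le hP h
  hU _ hP _ h := Kl.off_U hC hP h
  hP _ hP _ hρ _ ho hx hd _ ht lam lam' h := Kl.off_P hA hP hρ ho hx hd ht lam lam' h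

end Crest.Agent.R310
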