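import Crest.Agent.R310.Pseudo
import Crest.Agent.R310.Kleene
import Crest.Agent.R310.Disc

/-! Row 310: the theorem from the existence of discrete certificates. -/

set_option autoImplicit false
set_option linter.dupNamespace false

namespace Crest.Agent.R310

open Crest.LogicCS.KMedian

theorem main_of_cert
    (h : ∀ g : ℚ, 1 + 2 / Real.exp 1 < (g : ℝ) →
      ∃ (Kn : Kernel) (A g1 : ℚ), 0 ≤ A ∧ Cert Kn g A g1) (ε : ℝ) (hε : 0 < ε) :
    ∃ f : List Bool → List Bool, Crest.Complexity.PolyTime f ∧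
      ∀ I : Instance, I.Valid →
        I.opened f ⊆ I.facilities ∧ (I.opened f).Nonempty ∧ (I.opened f).card ≤ I.k ∧
        ∀ S : Finset (Fin I.N), S ⊆ I.facilities → S.Nonempty → S.card ≤ I.k →
          (I.cost (I.opened f) : ℝ) ≤ (1 + 2 / Real.exp 1 + ε) * (I.cost S : ℝ) :=
  main_of_pseudo (pseudo_of_offers fun g hg => by
    obtain ⟨Kn, A, g1, hA, hC⟩ := h g hg
    exact ⟨offerSysOfCert Kn g A g1 hA hC⟩) ε hε

end Crest.Agent.R310
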