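import Crest.Agent.Lib.PT.Mat

/-!
Row 310 (k-median): integer instances, costs, the specifications linking the layers of the
algorithm, and their polynomial-time computability.
-/

set_option autoImplicit false

namespace Crest.Agent.R310.A

open Crest.Agent.Lib.PT

/-- An integer instance: the diameter bound `L` in unary, the distance table, the clients, the
facilities and the budget `k`. Points are natural numbers. -/
abbrev Inst : Type := List Unit × List (List ℕ) × List ℕ × List ℕ × ℕ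

namespace Inst

/-- The bound on all distances. -/
def L (I : Inst) : ℕ := I.1.length
/-- The number of points. -/
def n (I : Inst) : ℕ := I.2.1.length
/-- The distance, defined on all natural numbers. -/
def d (I : Inst) (a b : ℕ) : ℕ := if a = b then 0 else (I.2.1.getD a []).getD b I.L
/-- The clients. -/
def C (I : Inst) : List ℕ := I.2.2.1
/-- The facilities. -/
def F (I : Inst) : List ℕ := I.2.2.2.1
/-- The budget. -/
def k (I : Inst) : ℕ := I.2.2.2.2
/-- The distance from `j` to the list `S` (`L` for the empty list). -/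
def dS (I : Inst) (j : ℕ) (S : List ℕ) : ℕ := (S.map (I.d j)).foldr min I.L
/-- The connection cost of `S`. -/
def cost (I : Inst) (S : List ℕ) : ℕ := (I.C.map fun j => I.dS j S).sum
/-- The same metric and clients with other facilities and another budget. -/
def withF (I : Inst) (F' : List ℕ) (k' : ℕ) : Inst := (I.1, I.2.1, I.2.2.1, F', k')

/-- Valid instances: `d` is a metric on `ℕ` with values at most `L`. -/
structure Valid (I : Inst) : Prop where
  d_comm : ∀ a b, I.d a b = I.d b a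
  d_tri : ∀ a b c, I.d a c ≤ I.d a b + I.d b c
  d_pos : ∀ a b, a ≠ b → 1 ≤ I.d a b
  d_le : ∀ a b, I.d a b ≤ I.L
  C_nodup : I.C.Nodup
  F_nodup : I.F.Nodup
  C_lt : ∀ j ∈ I.C, j < I.n
  F_lt : ∀ i ∈ I.F, i < I.n
  k_pos : 1 ≤ I.k
  k_le : I.k ≤ I.F.length

/-- `S` is a nonempty list of facilities with at most `m` distinct members. -/
def Feas (I : Inst) (m : ℕ) (S : List ℕ) : Prop :=
  S ≠ [] ∧ (∀ i ∈ S, i ∈ I.F) ∧ S.toFinset.card ≤ m

/-- The mass of `y` on the facilities within distance `t` of `j`. -/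
noncomputable def ball (I : Inst) (y : ℕ → ℝ) (j t : ℕ) : ℝ :=
  ∑ i ∈ I.F.toFinset.filter (fun i => I.d j i ≤ t), y i
/-- The fractional connection cost of the client `j`. -/
noncomputable def lpClient (I : Inst) (y : ℕ → ℝ) (j : ℕ) : ℝ :=
  ∑ t ∈ Finset.range I.L, max 0 (1 - I.ball y j t)
/-- The fractional connection cost. -/
noncomputable def lpCost (I : Inst) (y : ℕ → ℝ) : ℝ := ∑ j ∈ I.C.toFinset, I.lpClient y j
/-- Fractional openings of total mass `m`. -/
def LPFeas (I : Inst) (m : ℝ) (y : ℕ → ℝ) : Prop :=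
  (∀ i ∈ I.F, 0 ≤ y i ∧ y i ≤ 1) ∧ ∑ i ∈ I.F.toFinset, y i = m

end Inst

/-- `A` lists, on every valid instance with a budget `B` met by some feasible set, a set of at most
`k + c` facilities of cost at most `α B`. -/
def Spec (α : ℝ) (c K : ℕ) (A : Inst × ℕ → List (List ℕ)) : Prop :=
  ∀ (I : Inst) (B : ℕ), I.Valid → K * I.n ≤ B → B ≤ I.n * I.L →
    (∃ S, I.Feas I.k S ∧ I.cost S ≤ B) →
    ∃ T ∈ A (I, B), I.Feas (I.k + c) T ∧ (I.cost T : ℝ) ≤ α * B

/-- Pseudo-approximation with ratio `g + ε` and `k + c(ε)` facilities. -/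
def Pseudo (g : ℝ) : Prop :=
  ∀ ε : ℝ, 0 < ε → ∃ (c K : ℕ) (A : Inst × ℕ → List (List ℕ)), PT A ∧ Spec (g + ε) c K A

/-- Approximation with ratio `g + ε` and `k` facilities. -/
def Exact (g : ℝ) : Prop :=
  ∀ ε : ℝ, 0 < ε → ∃ (K : ℕ) (A : Inst × ℕ → List (List ℕ)), PT A ∧ Spec (g + ε) 0 K A

/-- All lists of length at most `t` with entries in `l`. -/
def tuples {β : Type} : ℕ → List β → List (List β)
  | 0, _ => [[]]
  | t + 1, l => [] :: l.flatMap fun a => (tuples t l).map fun u => a :: u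

lemma mem_tuples {β : Type} (t : ℕ) (l u : List β) :
    u ∈ tuples t l ↔ u.length ≤ t ∧ ∀ x ∈ u, x ∈ l := by
  induction t generalizing u with
  | zero => cases u <;> simp [tuples]
  | succ t ih =>
    cases u with
    | nil => simp [tuples]
    | cons a u =>
      simp only [tuples, List.mem_cons, List.mem_flatMap, List.mem_map, ih, List.length_cons]
      constructor
      · rintro (h | ⟨b, hb, v, ⟨hv1, hv2⟩, h⟩)
        · cases h
        · obtain ⟨rfl, rfl⟩ := List.cons.inj h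
          refine ⟨by omega, ?_⟩
          rintro x (rfl | hx)
          · exact hb
          · exact hv2 x hx
      · rintro ⟨h1, h2⟩
        exact Or.inr ⟨a, h2 a (Or.inl rfl), u, ⟨by omega, fun x hx => h2 x (Or.inr hx)⟩, rfl⟩

section PTlemmas

variable {α β : Type} [Enc α] [Enc β]

@[fun_prop] lemma pt_tuples (t : ℕ) {l : α → List β} (hl : PT l) :
    PT (fun a => tuples t (l a)) := by
  induction t with
  | zero => exact PT.const _
  | succ t ih =>
    have h : PT (fun p : α × β => tuples t (l p.1)) := ih.comp (by fun_prop)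
    simp only [tuples]
    fun_prop

@[fun_prop] lemma pt_L {I : α → Inst} (hI : PT I) : PT (fun a => (I a).L) := by
  unfold Inst.L; fun_prop
@[fun_prop] lemma pb_L {I : α → Inst} (hI : PT I) : PB (fun a => (I a).L) := by
  unfold Inst.L; fun_prop
@[fun_prop] lemma pt_n {I : α → Inst} (hI : PT I) : PT (fun a => (I a).n) := by
  unfold Inst.n; fun_prop
@[fun_prop] lemma pb_n {I : α → Inst} (hI : PT I) : PB (fun a => (I a).n) := by
  unfold Inst.n; fun_prop
@[fun_prop] lemma pt_C {I : α → Inst} (hI : PT I) : PT (fun a => (I a).C) := by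
  unfold Inst.C; fun_prop
@[fun_prop] lemma pt_F {I : α → Inst} (hI : PT I) : PT (fun a => (I a).F) := by
  unfold Inst.F; fun_prop
@[fun_prop] lemma pt_k {I : α → Inst} (hI : PT I) : PT (fun a => (I a).k) := by
  unfold Inst.k; fun_prop
@[fun_prop] lemma pt_d {I : α → Inst} {x y : α → ℕ} (hI : PT I) (hx : PT x) (hy : PT y) :
    PT (fun a => (I a).d (x a) (y a)) := by
  unfold Inst.d; fun_prop
@[fun_prop] lemma pt_dS {I : α → Inst} {x : α → ℕ} {S : α → List ℕ} (hI : PT I) (hx : PT x)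
    (hS : PT S) : PT (fun a => (I a).dS (x a) (S a)) := by
  unfold Inst.dS; fun_prop
@[fun_prop] lemma pt_cost {I : α → Inst} {S : α → List ℕ} (hI : PT I) (hS : PT S) :
    PT (fun a => (I a).cost (S a)) := by
  unfold Inst.cost; fun_prop
@[fun_prop] lemma pt_withF {I : α → Inst} {F' : α → List ℕ} {k' : α → ℕ} (hI : PT I)
    (hF : PT F') (hk : PT k') : PT (fun a => (I a).withF (F' a) (k' a)) := by
  unfold Inst.withF; fun_prop

end PTlemmas

namespace Inst

variable {I : Inst}

@[simp] lemma d_self (I : Inst) (a : ℕ) : I.d a a = 0 := by simp [d]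
@[simp] lemma withF_L (F' : List ℕ) (k' : ℕ) : (I.withF F' k').L = I.L := rfl
@[simp] lemma withF_n (F' : List ℕ) (k' : ℕ) : (I.withF F' k').n = I.n := rfl
@[simp] lemma withF_d (F' : List ℕ) (k' : ℕ) : (I.withF F' k').d = I.d := rfl
@[simp] lemma withF_C (F' : List ℕ) (k' : ℕ) : (I.withF F' k').C = I.C := rfl
@[simp] lemma withF_F (F' : List ℕ) (k' : ℕ) : (I.withF F' k').F = F' := rfl
@[simp] lemma withF_k (F' : List ℕ) (k' : ℕ) : (I.withF F' k').k = k' := rfl
@[simp] lemma withF_dS (F' : List ℕ) (k' : ℕ) : (I.withF F' k').dS = I.dS := rfl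
@[simp] lemma withF_cost (F' : List ℕ) (k' : ℕ) : (I.withF F' k').cost = I.cost := rfl

@[simp] lemma dS_nil (I : Inst) (j : ℕ) : I.dS j [] = I.L := rfl
@[simp] lemma dS_cons (I : Inst) (j i : ℕ) (S : List ℕ) :
    I.dS j (i :: S) = min (I.d j i) (I.dS j S) := rfl

lemma dS_le_L (I : Inst) (j : ℕ) (S : List ℕ) : I.dS j S ≤ I.L := by
  induction S with
  | nil => simp
  | cons i S ih => simp [ih]

lemma dS_le (I : Inst) (j : ℕ) {S : List ℕ} {i : ℕ} (hi : i ∈ S) : I.dS j S ≤ I.d j i := by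
  induction S with
  | nil => cases hi
  | cons a S ih =>
    rcases List.mem_cons.1 hi with rfl | h
    · simp
    · simp [ih h]

lemma le_dS (I : Inst) (j : ℕ) {S : List ℕ} {r : ℕ} (hL : r ≤ I.L) (h : ∀ i ∈ S, r ≤ I.d j i) :
    r ≤ I.dS j S := by
  induction S with
  | nil => simpa
  | cons a S ih =>
    simp only [dS_cons, le_min_iff]
    exact ⟨h a (by simp), ih fun i hi => h i (by simp [hi])⟩

lemma Valid.exists_dS (hI : I.Valid) (j : ℕ) {S : List ℕ} (hS : S ≠ []) :
    ∃ i ∈ S, I.dS j S = I.d j i := by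
  induction S with
  | nil => exact absurd rfl hS
  | cons a S ih =>
    by_cases h : S = []
    · subst h
      exact ⟨a, by simp, by simp [hI.d_le]⟩
    · obtain ⟨i, hi, e⟩ := ih h
      rcases le_total (I.d j a) (I.dS j S) with h' | h'
      · exact ⟨a, by simp, by simp [h']⟩
      · exact ⟨i, by simp [hi], by rw [dS_cons, min_eq_right h', e]⟩

lemma dS_mono (I : Inst) (j : ℕ) {S T : List ℕ} (h : ∀ i ∈ S, i ∈ T) : I.dS j T ≤ I.dS j S :=
  I.le_dS j (I.dS_le_L j T) fun i hi => I.dS_le j (h i hi)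

lemma dS_congr (I : Inst) (j : ℕ) {S T : List ℕ} (h : ∀ i, i ∈ S ↔ i ∈ T) :
    I.dS j S = I.dS j T :=
  le_antisymm (I.dS_mono j fun i hi => (h i).2 hi) (I.dS_mono j fun i hi => (h i).1 hi)

lemma Valid.dS_tri (hI : I.Valid) (a b : ℕ) (S : List ℕ) : I.dS a S ≤ I.d a b + I.dS b S := by
  by_cases hS : S = []
  · subst hS; simp
  · obtain ⟨i, hi, e⟩ := hI.exists_dS b hS
    rw [e]
    exact (I.dS_le a hi).trans (hI.d_tri a b i)

lemma cost_mono (I : Inst) {S T : List ℕ} (h : ∀ i ∈ S, i ∈ T) : I.cost T ≤ I.cost S :=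
  List.sum_le_sum fun j _ => I.dS_mono j h

lemma cost_congr (I : Inst) {S T : List ℕ} (h : ∀ i, i ∈ S ↔ i ∈ T) : I.cost S = I.cost T :=
  le_antisymm (I.cost_mono fun i hi => (h i).2 hi) (I.cost_mono fun i hi => (h i).1 hi)

lemma Valid.cost_eq_sum (hI : I.Valid) (S : List ℕ) :
    I.cost S = ∑ j ∈ I.C.toFinset, I.dS j S :=
  (List.sum_toFinset _ hI.C_nodup).symm

lemma length_le_of_nodup_lt {l : List ℕ} {n : ℕ} (h : l.Nodup) (hl : ∀ x ∈ l, x < n) :
    l.length ≤ n := by
  rw [← List.toFinset_card_of_nodup h]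
  calc l.toFinset.card ≤ (Finset.range n).card :=
        Finset.card_le_card fun x hx => Finset.mem_range.2 (hl x (List.mem_toFinset.1 hx))
    _ = n := Finset.card_range n

lemma Valid.C_length_le (hI : I.Valid) : I.C.length ≤ I.n :=
  length_le_of_nodup_lt hI.C_nodup hI.C_lt

lemma Valid.F_length_le (hI : I.Valid) : I.F.length ≤ I.n :=
  length_le_of_nodup_lt hI.F_nodup hI.F_lt

lemma Valid.n_pos (hI : I.Valid) : 1 ≤ I.n :=
  hI.k_pos.trans (hI.k_le.trans hI.F_length_le)

lemma Valid.L_pos (hI : I.Valid) : 1 ≤ I.L :=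
  (hI.d_pos 0 1 (by omega)).trans (hI.d_le 0 1)

lemma Valid.cost_le (hI : I.Valid) (S : List ℕ) : I.cost S ≤ I.n * I.L := by
  rw [hI.cost_eq_sum]
  calc ∑ j ∈ I.C.toFinset, I.dS j S ≤ ∑ _j ∈ I.C.toFinset, I.L :=
        Finset.sum_le_sum fun j _ => I.dS_le_L j S
    _ = I.C.length * I.L := by simp [List.toFinset_card_of_nodup hI.C_nodup]
    _ ≤ I.n * I.L := Nat.mul_le_mul_right _ hI.C_length_le

lemma Valid.withF (hI : I.Valid) {F' : List ℕ} {k' : ℕ} (h1 : F'.Nodup) (h2 : ∀ i ∈ F', i ∈ I.F)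
    (h3 : 1 ≤ k') (h4 : k' ≤ F'.length) : (I.withF F' k').Valid :=
  ⟨hI.d_comm, hI.d_tri, hI.d_pos, hI.d_le, hI.C_nodup, h1, hI.C_lt,
    fun i hi => hI.F_lt i (h2 i hi), h3, h4⟩

lemma Feas.mono {m m' : ℕ} {S : List ℕ} (h : I.Feas m S) (hm : m ≤ m') : I.Feas m' S :=
  ⟨h.1, h.2.1, h.2.2.trans hm⟩

end Inst

end Crest.Agent.R310.A
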