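import Crest.Agent.R310.IDefs

/-!
Row 310: the Li–Svensson reduction from `k + c` facilities to `k` facilities, definitions.
-/

set_option autoImplicit false

namespace Crest.Agent.R310.A

open Crest.Agent.Lib.PT

/-- The clients at distance less than `r / 3` from `i`. -/
def cball (I : Inst) (i r : ℕ) : List ℕ := I.C.filter fun j => decide (3 * I.d i j < r)
/-- The facilities outside the open balls `(centre, radius)` of `τ`. -/
def resid (I : Inst) (τ : List (ℕ × ℕ)) : List ℕ :=
  I.F.filter fun f => τ.all fun p => decide (p.2 ≤ I.d p.1 f)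
/-- The residual instance. -/
def residInst (I : Inst) (τ : List (ℕ × ℕ)) : Inst :=
  I.withF (resid I τ) (min I.k (resid I τ).length)
/-- Sparsity with respect to the reference solution `S`. -/
def Sparse (I : Inst) (S : List ℕ) (t B : ℕ) : Prop :=
  ∀ i ∈ I.F, t * (2 * I.dS i S * (cball I i (I.dS i S)).length) ≤ 3 * B
/-- Delete one facility if there are too many and the cost grows by at most `B / P`. -/
def pruneStep (I : Inst) (P B : ℕ) (T : List ℕ) : List ℕ :=
  if I.k < T.length then
    (T.find? fun i => decide (P * I.cost (T.erase i) ≤ P * I.cost T + B)).elim T fun i => T.erase i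
  else T
/-- `c` rounds of deletion. -/
def prune (I : Inst) (P B c : ℕ) (T : List ℕ) : List ℕ := (pruneStep I P B)^[c] T.dedup
/-- The distance from `i` to the other members of `T`. -/
def gap (I : Inst) (T : List ℕ) (i : ℕ) : ℕ := I.dS i (T.erase i)
/-- The undetermined members of `T`. -/
def undet (I : Inst) (R : ℕ) (S T : List ℕ) : List ℕ :=
  T.filter fun i => decide (gap I T i ≤ R * I.dS i S)
/-- The cost of the clients near `i` when `f` is added to `V`. -/
def localCost (I : Inst) (T V : List ℕ) (i f : ℕ) : ℕ :=
  ((cball I i (gap I T i)).map fun j => min (I.d j f) (I.dS j V)).sum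
/-- The best facility close to `i`. -/
def pick (I : Inst) (R : ℕ) (T V : List ℕ) (i : ℕ) : ℕ :=
  ((I.F.filter fun f => decide (R * I.d i f < gap I T i)).argmin (localCost I T V i)).getD i
/-- Drop `U` from `T`, move the rest to the picked facilities and add `V`. -/
def repair (I : Inst) (R : ℕ) (T U V : List ℕ) : List ℕ :=
  V ++ (T.filter fun i => decide (i ∉ U)).map (pick I R T V)
/-- All candidates produced from the pruned list `T`. -/
def repairs (I : Inst) (R t' : ℕ) (T : List ℕ) : List (List ℕ) :=
  T :: (tuples t' T).flatMap fun U => (tuples t' I.F).map fun V => repair I R T U V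
/-- The reduction. -/
def lsCands (t t' c P R : ℕ) (A : Inst × ℕ → List (List ℕ)) (p : Inst × ℕ) : List (List ℕ) :=
  (tuples t (p.1.F.product (List.range (p.1.L + 1)))).flatMap fun τ =>
    (A (residInst p.1 τ, p.2)).flatMap fun T =>
      repairs (residInst p.1 τ) R t' (prune (residInst p.1 τ) P p.2 c T)

end Crest.Agent.R310.A
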