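import Crest.Agent.R310.LSDefs

/-!
Row 310: sparse residual instances and pruning.
-/

set_option autoImplicit false

namespace Crest.Agent.R310.A

/-- Some residual instance keeps `S` and is sparse. Write `ℓ i = dS i S`; call `i ∈ F` dense if
`3 B < t * (2 ℓ i * |cball i (ℓ i)|)` (so `ℓ i > 0`). Take `X` of largest cardinality among the
finsets of dense facilities with `ℓ a + ℓ b ≤ 3 d a b` for distinct members
(`Finset.exists_max_image` on a filter of the powerset). The `cball a (ℓ a)`, `a ∈ X`, are disjoint,
and `j ∈ cball a (ℓ a)` has `2 ℓ a ≤ 3 dS j S` (`dS_tri`), so `B < t ∑_{j ∈ cball a} dS j S`; summing,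
`|X| B < t cost S ≤ t B` if `X` is nonempty, hence `|X| ≤ t`. Put `τ = X.toList.map (a, ℓ a)`.
Members of `S` stay (`dS_le`). A dense `i` that stays has `ℓ a ≤ d a i`, `ℓ i ≤ d i a + ℓ a`, and
`i ∉ X`, so `insert i X` contradicts maximality. -/
theorem exists_sparse {I : Inst} (hI : I.Valid) {S : List ℕ} (hS : I.Feas I.k S) (t B : ℕ)
    (hB : I.cost S ≤ B) :
    ∃ τ ∈ tuples t (I.F.product (List.range (I.L + 1))),
      (residInst I τ).Valid ∧ (residInst I τ).Feas (residInst I τ).k S ∧
        Sparse (residInst I τ) S t B := by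
  classical
  obtain ⟨good, hgood⟩ : ∃ good : Finset ℕ → Prop, ∀ X, good X ↔
      (∀ a ∈ X, 3 * B < t * (2 * I.dS a S * (cball I a (I.dS a S)).length)) ∧
        ∀ a ∈ X, ∀ b ∈ X, a ≠ b → I.dS a S + I.dS b S ≤ 3 * I.d a b := ⟨_, fun _ => Iff.rfl⟩
  obtain ⟨X, hX, hmax⟩ := Finset.exists_max_image (I.F.toFinset.powerset.filter good) Finset.card
    ⟨∅, Finset.mem_filter.mpr ⟨Finset.empty_mem_powerset _, (hgood _).mpr ⟨by simp, by simp⟩⟩⟩
  obtain ⟨hXF, hXg⟩ := Finset.mem_filter.mp hX
  rw [Finset.mem_powerset] at hXF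
  obtain ⟨hdense, hsep⟩ := (hgood X).mp hXg
  -- the size of `X`
  have hball : ∀ a, (cball I a (I.dS a S)).length =
      (I.C.toFinset.filter fun j => 3 * I.d a j < I.dS a S).card := by
    intro a
    rw [← List.toFinset_card_of_nodup (show (cball I a (I.dS a S)).Nodup from hI.C_nodup.filter _)]
    congr 1
    ext j
    simp [cball]
  have h1 : ∀ a ∈ X, B + 1 ≤
      t * ∑ j ∈ I.C.toFinset.filter (fun j => 3 * I.d a j < I.dS a S), I.dS j S := by
    intro a ha
    have h2 := hdense a ha
    rw [hball] at h2
    have h3 : (I.C.toFinset.filter fun j => 3 * I.d a j < I.dS a S).card • (2 * I.dS a S) ≤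
        ∑ j ∈ I.C.toFinset.filter (fun j => 3 * I.d a j < I.dS a S), 3 * I.dS j S := by
      refine Finset.card_nsmul_le_sum _ _ _ fun j hj => ?_
      have h4 := (Finset.mem_filter.mp hj).2
      have h5 := hI.dS_tri a j S
      omega
    rw [smul_eq_mul, ← Finset.mul_sum, mul_comm] at h3
    have h6 := Nat.mul_le_mul_left t h3
    rw [mul_left_comm t 3] at h6
    omega
  have hdisj : (X : Set ℕ).PairwiseDisjoint
      (fun a => I.C.toFinset.filter fun j => 3 * I.d a j < I.dS a S) := by
    intro a ha b hb hab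
    rw [Function.onFun, Finset.disjoint_left]
    intro j hj hj'
    have h2 := (Finset.mem_filter.mp hj).2
    have h3 := (Finset.mem_filter.mp hj').2
    have h4 := hsep a ha b hb hab
    have h5 := hI.d_tri a j b
    have h6 := hI.d_comm j b
    omega
  have hcard : X.card ≤ t := by
    have h2 : X.card • (B + 1) ≤ ∑ a ∈ X,
        t * ∑ j ∈ I.C.toFinset.filter (fun j => 3 * I.d a j < I.dS a S), I.dS j S :=
      Finset.card_nsmul_le_sum _ _ _ h1
    rw [← Finset.mul_sum, ← Finset.sum_biUnion hdisj, smul_eq_mul] at h2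
    have h3 : ∑ j ∈ X.biUnion (fun a => I.C.toFinset.filter fun j => 3 * I.d a j < I.dS a S),
        I.dS j S ≤ ∑ j ∈ I.C.toFinset, I.dS j S :=
      Finset.sum_le_sum_of_subset
        (Finset.biUnion_subset.mpr fun a _ => Finset.filter_subset _ _)
    rw [← hI.cost_eq_sum] at h3
    have h4 : X.card * (B + 1) ≤ t * (B + 1) :=
      h2.trans (Nat.mul_le_mul_left t (by omega))
    exact Nat.le_of_mul_le_mul_right h4 (by omega)
  have hmem : ∀ f, f ∈ resid I (X.toList.map fun a => (a, I.dS a S)) ↔
      f ∈ I.F ∧ ∀ a ∈ X, I.dS a S ≤ I.d a f := by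
    intro f
    simp [resid]
  have hSin : ∀ i ∈ S, i ∈ resid I (X.toList.map fun a => (a, I.dS a S)) := fun i hi =>
    (hmem i).mpr ⟨hS.2.1 i hi, fun a _ => I.dS_le a hi⟩
  have hScard : S.toFinset.card ≤ (resid I (X.toList.map fun a => (a, I.dS a S))).length :=
    le_trans (Finset.card_le_card fun i hi =>
      List.mem_toFinset.mpr (hSin i (List.mem_toFinset.mp hi))) (List.toFinset_card_le _)
  have hSpos : 1 ≤ S.toFinset.card := by
    obtain ⟨i, hi⟩ := List.exists_mem_of_ne_nil S hS.1
    exact Finset.card_pos.mpr ⟨i, List.mem_toFinset.mpr hi⟩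
  refine ⟨X.toList.map fun a => (a, I.dS a S), ?_, ?_, ?_, ?_⟩
  · rw [mem_tuples]
    refine ⟨by simpa using hcard, fun x hx => ?_⟩
    obtain ⟨a, ha, rfl⟩ := List.mem_map.mp hx
    refine List.pair_mem_product.mpr ⟨?_, List.mem_range.mpr ?_⟩
    · exact List.mem_toFinset.mp (hXF (Finset.mem_toList.mp ha))
    · exact Nat.lt_succ_of_le (I.dS_le_L a S)
  · exact hI.withF (hI.F_nodup.filter _) (fun i hi => ((hmem i).mp hi).1)
      (le_min hI.k_pos (hSpos.trans hScard)) (min_le_right _ _)
  · exact ⟨hS.1, hSin, le_min hS.2.2 hScard⟩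
  · intro i hi
    obtain ⟨hiF, hia⟩ := (hmem i).mp hi
    show t * (2 * I.dS i S * (cball I i (I.dS i S)).length) ≤ 3 * B
    by_contra hcon
    rw [not_le] at hcon
    have hiX : i ∉ X := by
      intro h
      have h2 := hia i h
      rw [I.d_self, Nat.le_zero] at h2
      rw [h2] at hcon
      simp at hcon
    have hkey : ∀ a ∈ X, I.dS i S + I.dS a S ≤ 3 * I.d i a := by
      intro a ha
      have h2 := hia a ha
      have h3 := hI.dS_tri i a S
      have h4 := hI.d_comm i a
      omega
    have hins : insert i X ∈ I.F.toFinset.powerset.filter good := by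
      refine Finset.mem_filter.mpr ⟨Finset.mem_powerset.mpr
        (Finset.insert_subset (List.mem_toFinset.mpr hiF) hXF), (hgood _).mpr ⟨?_, ?_⟩⟩
      · intro a ha
        rcases Finset.mem_insert.mp ha with rfl | ha
        · exact hcon
        · exact hdense a ha
      · intro a ha b hb hab
        rcases Finset.mem_insert.mp ha with ha1 | ha1
        · rcases Finset.mem_insert.mp hb with hb1 | hb1
          · exact absurd (ha1.trans hb1.symm) hab
          · rw [ha1]; exact hkey b hb1
        · rcases Finset.mem_insert.mp hb with hb1 | hb1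
          · have h2 := hkey a ha1
            have h3 := hI.d_comm a i
            rw [hb1]; omega
          · exact hsep a ha1 b hb1 hab
    have h2 := hmax _ hins
    rw [Finset.card_insert_of_notMem hiX] at h2
    omega

theorem h49_prune_aux {I : Inst} (hI : I.Valid) (P B c : ℕ) : ∀ T : List ℕ, T.Nodup → T ≠ [] →
    (∀ i ∈ T, i ∈ I.F) → T.length ≤ I.k + c →
    ((pruneStep I P B)^[c] T).Nodup ∧ (pruneStep I P B)^[c] T ≠ [] ∧
      (∀ i ∈ (pruneStep I P B)^[c] T, i ∈ I.F) ∧
      P * I.cost ((pruneStep I P B)^[c] T) ≤ P * I.cost T + c * B ∧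
      (((pruneStep I P B)^[c] T).length ≤ I.k ∨ (I.k < ((pruneStep I P B)^[c] T).length ∧
        ∀ i ∈ (pruneStep I P B)^[c] T, P * I.cost ((pruneStep I P B)^[c] T) + B <
          P * I.cost (((pruneStep I P B)^[c] T).erase i))) := by
  induction c with
  | zero =>
    intro T h1 h2 h3 h4
    exact ⟨h1, h2, h3, by simp, Or.inl h4⟩
  | succ c ih =>
    intro T h1 h2 h3 h4
    by_cases hk : I.k < T.length
    · cases hf : T.find? fun i => decide (P * I.cost (T.erase i) ≤ P * I.cost T + B) with
      | none =>
        have e : pruneStep I P B T = T := by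
          unfold pruneStep
          rw [if_pos hk, hf]
          rfl
        rw [Function.iterate_fixed e]
        refine ⟨h1, h2, h3, Nat.le_add_right _ _, Or.inr ⟨hk, fun i hi => ?_⟩⟩
        have := List.find?_eq_none.1 hf i hi
        simpa using this
      | some i =>
        have e : pruneStep I P B T = T.erase i := by
          unfold pruneStep
          rw [if_pos hk, hf]
          rfl
        have hi : i ∈ T := List.mem_of_find?_eq_some hf
        have hc : P * I.cost (T.erase i) ≤ P * I.cost T + B := by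
          simpa using List.find?_some hf
        have hl : (T.erase i).length = T.length - 1 := List.length_erase_of_mem hi
        have hkp := hI.k_pos
        rw [Function.iterate_succ_apply, e]
        obtain ⟨a1, a2, a3, a4, a5⟩ := ih (T.erase i) (h1.erase i)
          (List.ne_nil_of_length_pos (by omega)) (fun j hj => h3 j (List.mem_of_mem_erase hj))
          (by omega)
        refine ⟨a1, a2, a3, ?_, a5⟩
        rw [Nat.succ_mul]
        omega
    · have e : pruneStep I P B T = T := by
        unfold pruneStep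
        rw [if_neg hk]
      rw [Function.iterate_fixed e]
      exact ⟨h1, h2, h3, Nat.le_add_right _ _, Or.inl (not_lt.1 hk)⟩

/-- Induction on `c` for nodup lists `T` with `T.length ≤ k + c`: a round either fixes the list (and
then all later rounds do) or erases one member at a price of at most `B`. -/
theorem prune_spec {I : Inst} (hI : I.Valid) (P B c : ℕ) {T : List ℕ}
    (hT : I.Feas (I.k + c) T) :
    (prune I P B c T).Nodup ∧ prune I P B c T ≠ [] ∧ (∀ i ∈ prune I P B c T, i ∈ I.F) ∧
      P * I.cost (prune I P B c T) ≤ P * I.cost T + c * B ∧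
      ((prune I P B c T).length ≤ I.k ∨ (I.k < (prune I P B c T).length ∧
        ∀ i ∈ prune I P B c T,
          P * I.cost (prune I P B c T) + B < P * I.cost ((prune I P B c T).erase i))) := by
  obtain ⟨h1, h2, h3⟩ := hT
  have := h49_prune_aux hI P B c T.dedup (List.nodup_dedup T) (by simpa using h1)
    (fun i hi => h2 i (List.mem_dedup.1 hi)) (by rwa [List.card_toFinset] at h3)
  rw [I.cost_congr (S := T.dedup) (T := T) fun i => List.mem_dedup] at this
  exact this

/-- Few undetermined facilities. Choose `σ j ∈ T` with `dS j T = d j (σ j)`. For `i ∈ T`, clients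
with `σ j ≠ i` keep their cost in `T.erase i`, the others pay at most `gap i` more (`dS_tri`). Let
`i` be undetermined, `ℓ = dS i S`, `gap i ≤ R ℓ`. Clients in `cball i ℓ` contribute at most
`R ℓ |cball| ≤ 3 R B / (2 t)`, the others have `gap i ≤ R ℓ ≤ 3 R d i j`. With `3 R P ≤ t` this
gives `B < 6 R P conn i`, `conn i = ∑_{σ j = i} d j i` (for `R P = 0` argue directly). Summing over
the undetermined `i`, `u B < 6 R P cost T ≤ 6 R P G B` when `u > 0`. -/
theorem undet_length_le {I : Inst} (hI : I.Valid) {S T : List ℕ} {t B P R G : ℕ}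
    (hsp : Sparse I S t B) (ht : 3 * R * P ≤ t) (hP : 1 ≤ P) (hR : 1 ≤ R) (hnd : T.Nodup)
    (hTF : ∀ i ∈ T, i ∈ I.F) (hne : T ≠ []) (hc : I.cost T ≤ G * B)
    (hmin : ∀ i ∈ T, P * I.cost T + B < P * I.cost (T.erase i)) :
    (undet I R S T).length ≤ 6 * R * P * G := by
  classical
  choose σ hσT hσ using fun j => hI.exists_dS j hne
  have key : ∀ i ∈ (undet I R S T).toFinset,
      B + 1 ≤ 6 * R * P * ∑ j ∈ I.C.toFinset with σ j = i, I.dS j T := by
    intro i hi
    obtain ⟨hiT, hg⟩ := List.mem_filter.1 (List.mem_toFinset.1 hi)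
    have hg' : gap I T i ≤ R * I.dS i S := by simpa using hg
    have h1 : I.cost (T.erase i) ≤ I.cost T + (R * I.dS i S * (cball I i (I.dS i S)).length +
        3 * R * ∑ j ∈ I.C.toFinset with σ j = i, I.dS j T) := by
      have e : (cball I i (I.dS i S)).length =
          ∑ j ∈ I.C.toFinset, if 3 * I.d i j < I.dS i S then 1 else 0 := by
        rw [← List.toFinset_card_of_nodup (l := cball I i (I.dS i S)) (hI.C_nodup.filter _),
          ← Finset.card_filter]
        congr 1
        ext j
        simp [cball]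
      rw [e, hI.cost_eq_sum, hI.cost_eq_sum, Finset.sum_filter, Finset.mul_sum, Finset.mul_sum,
        ← Finset.sum_add_distrib, ← Finset.sum_add_distrib]
      refine Finset.sum_le_sum fun j _ => ?_
      by_cases hj : σ j = i
      · have a1 := hI.dS_tri j i (T.erase i)
        have a2 : I.dS j T = I.d i j := by rw [hσ j, hj, hI.d_comm]
        have a3 : gap I T i = I.dS i (T.erase i) := rfl
        rw [hI.d_comm j i] at a1
        rw [if_pos hj, a2]
        split_ifs with hb
        · omega
        · have a4 : R * I.dS i S ≤ R * (3 * I.d i j) := Nat.mul_le_mul_left _ (not_lt.1 hb)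
          have a5 : R * (3 * I.d i j) = 3 * R * I.d i j := by ring
          omega
      · have a1 : I.dS j (T.erase i) ≤ I.dS j T := by
          rw [hσ j]
          exact I.dS_le j ((List.mem_erase_of_ne hj).2 (hσT j))
        omega
    have h2 := hmin i hiT
    have h3 := hsp i (hTF i hiT)
    have h4 : 3 * R * P * (2 * I.dS i S * (cball I i (I.dS i S)).length) ≤ 3 * B :=
      (Nat.mul_le_mul_right _ ht).trans h3
    have h5 := Nat.mul_le_mul_left P h1
    generalize (∑ j ∈ I.C.toFinset with σ j = i, I.dS j T) = x at *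
    generalize (cball I i (I.dS i S)).length = y at *
    nlinarith
  have h6 := Finset.sum_le_sum key
  rw [Finset.sum_const, ← Finset.mul_sum, Finset.sum_fiberwise_eq_sum_filter,
    List.toFinset_card_of_nodup (l := undet I R S T) (hnd.filter _), smul_eq_mul] at h6
  have h7 : ∑ j ∈ I.C.toFinset with σ j ∈ (undet I R S T).toFinset, I.dS j T ≤ G * (B + 1) := by
    refine (Finset.sum_le_sum_of_subset (Finset.filter_subset _ _)).trans ?_
    rw [← hI.cost_eq_sum]
    exact hc.trans (Nat.mul_le_mul_left _ (Nat.le_succ _))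
  have h8 := h6.trans (Nat.mul_le_mul_left _ h7)
  rw [← mul_assoc] at h8
  exact Nat.le_of_mul_le_mul_right h8 (Nat.succ_pos _)

end Crest.Agent.R310.A
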