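import Crest.Agent.R310.Defs

/-! Row 310: M-matrix invariant, its decidable test, and the two averaging lemmas. -/

set_option autoImplicit false
set_option linter.dupNamespace false

namespace Crest.Agent.R310

open Finset Crest.Agent.Lib.PT

/-- `I - A` is a nonsingular M-matrix, witnessed by `w ≥ 0` with `(I - A) w ≥ 1`. -/
def MInv (n : ℕ) (A : ℕ → ℕ → ℚ) : Prop :=
  ∃ w : ℕ → ℚ, (∀ i < n, 0 ≤ w i) ∧ ∀ i < n, 1 + ∑ k ∈ range n, A i k * w k ≤ w i

/-- the matrix `I - A` -/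
def mat1 (n : ℕ) (A : ℕ → ℕ → ℚ) : Matrix (Fin n) (Fin n) ℚ :=
  Matrix.of fun i k => (if (i : ℕ) = k then 1 else 0) - A i k

/-- the candidate witness `(I - A)⁻¹ 1` -/
noncomputable def mw (n : ℕ) (A : ℕ → ℕ → ℚ) (i : Fin n) : ℚ := ∑ k : Fin n, (mat1 n A)⁻¹ i k

/-- decidable test for `MInv` -/
noncomputable def mchk (n : ℕ) (A : ℕ → ℕ → ℚ) : Bool :=
  decide (∀ i : Fin n, 0 ≤ mw n A i ∧ 1 + ∑ k : Fin n, A i k * mw n A k ≤ mw n A i)

variable {n : ℕ} {A A' : ℕ → ℕ → ℚ}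

/-- Maximum principle: if `u ≥ A u` on `range n` then `u ≥ 0`. (Take `i` minimising `u i / w i`,
`w i ≥ 1`; if the minimum `-c` is negative, `u i ≥ ∑ A i k u k ≥ -c ∑ A i k w k ≥ -c (w i - 1)`.) -/
lemma MInv.max_principle (h : MInv n A) (h0 : ∀ i < n, ∀ k < n, 0 ≤ A i k) {u : ℕ → ℚ}
    (hu : ∀ i < n, ∑ k ∈ range n, A i k * u k ≤ u i) : ∀ i < n, 0 ≤ u i := by
  obtain ⟨w, hw0, hw⟩ := h
  have hwpos : ∀ i < n, 0 < w i := by
    intro i hi
    have h1 : 0 ≤ ∑ k ∈ range n, A i k * w k :=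
      sum_nonneg fun k hk => mul_nonneg (h0 i hi k (mem_range.mp hk)) (hw0 k (mem_range.mp hk))
    linarith [hw i hi]
  intro i hi
  obtain ⟨j, hj, hmin⟩ := exists_min_image (range n) (fun k => u k / w k) ⟨i, mem_range.mpr hi⟩
  have hj' := mem_range.mp hj
  obtain ⟨c, hc⟩ : ∃ c, c = u j / w j := ⟨_, rfl⟩
  have hcj : c * w j = u j := by rw [hc]; exact div_mul_cancel₀ _ (hwpos j hj').ne'
  have hck : ∀ k < n, c * w k ≤ u k := by
    intro k hk
    have h1 := hmin k (mem_range.mpr hk)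
    rw [← hc, le_div_iff₀ (hwpos k hk)] at h1
    exact h1
  have hc0 : 0 ≤ c := by
    by_contra hneg
    rw [not_le] at hneg
    have h1 : c * ∑ k ∈ range n, A j k * w k ≤ ∑ k ∈ range n, A j k * u k := by
      rw [mul_sum]
      refine sum_le_sum fun k hk => ?_
      rw [mul_left_comm]
      exact mul_le_mul_of_nonneg_left (hck k (mem_range.mp hk)) (h0 j hj' k (mem_range.mp hk))
    have h2 := mul_le_mul_of_nonpos_left (hw j hj') hneg.le
    have h3 := hu j hj'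
    rw [mul_add] at h2
    linarith
  exact (mul_nonneg hc0 (hw0 i hi)).trans (hck i hi)

/-- extension by zero -/
def h85_ext {n : ℕ} (v : Fin n → ℚ) (k : ℕ) : ℚ := if h : k < n then v ⟨k, h⟩ else 0

lemma h85_ext_lt (v : Fin n → ℚ) {k : ℕ} (hk : k < n) : h85_ext v k = v ⟨k, hk⟩ := dif_pos hk

lemma h85_sum_ext (a : ℕ → ℚ) (v : Fin n → ℚ) :
    ∑ k ∈ range n, a k * h85_ext v k = ∑ k : Fin n, a k * v k := by
  rw [Finset.sum_range]
  exact Finset.sum_congr rfl fun k _ => by rw [h85_ext_lt v k.2]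

lemma h85_mulVec (A : ℕ → ℕ → ℚ) (v : Fin n → ℚ) (i : Fin n) :
    (mat1 n A).mulVec v i = v i - ∑ k : Fin n, A i k * v k := by
  simp only [Matrix.mulVec, dotProduct, mat1, Matrix.of_apply, sub_mul, Finset.sum_sub_distrib,
    Fin.val_inj, ite_mul, one_mul, zero_mul, Finset.sum_ite_eq, Finset.mem_univ, if_true]

/-- `mat1 n A` is invertible (trivial kernel by the maximum principle for `u` and `-u`,
`Matrix.exists_mulVec_eq_zero_iff`). -/
lemma MInv.isUnit_det (h : MInv n A) (h0 : ∀ i < n, ∀ k < n, 0 ≤ A i k) :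
    IsUnit (mat1 n A).det := by
  rw [isUnit_iff_ne_zero]
  intro hdet
  obtain ⟨v, hv0, hv⟩ := Matrix.exists_mulVec_eq_zero_iff.mpr hdet
  have key : ∀ v : Fin n → ℚ, (mat1 n A).mulVec v = 0 → ∀ i, 0 ≤ v i := by
    intro v hv i
    have h1 := h.max_principle h0 (u := h85_ext v) (fun k hk => by
      have h2 := congrFun hv ⟨k, hk⟩
      rw [h85_mulVec] at h2
      rw [h85_sum_ext, h85_ext_lt v hk]
      simp only [Pi.zero_apply] at h2
      linarith) i i.2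
    rwa [h85_ext_lt v i.2] at h1
  refine hv0 (funext fun i => le_antisymm ?_ (key v hv i))
  have h1 := key (-v) (by rw [Matrix.mulVec_neg, hv, neg_zero]) i
  simpa using h1

lemma h85_solve (h : MInv n A) (h0 : ∀ i < n, ∀ k < n, 0 ≤ A i k) (b : Fin n → ℚ)
    (hb : ∀ i, 0 ≤ b i) : (∀ i, 0 ≤ (mat1 n A)⁻¹.mulVec b i) ∧
      ∀ i, (mat1 n A)⁻¹.mulVec b i = b i + ∑ k : Fin n, A i k * (mat1 n A)⁻¹.mulVec b k := by
  obtain ⟨v, hv⟩ : ∃ v, v = (mat1 n A)⁻¹.mulVec b := ⟨_, rfl⟩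
  have h1 : (mat1 n A).mulVec v = b := by
    rw [hv, Matrix.mulVec_mulVec, Matrix.mul_nonsing_inv _ (h.isUnit_det h0), Matrix.one_mulVec]
  rw [← hv]
  have h2 : ∀ i, v i = b i + ∑ k : Fin n, A i k * v k := by
    intro i
    have h3 := congrFun h1 i
    rw [h85_mulVec] at h3
    linarith
  refine ⟨fun i => ?_, h2⟩
  have h3 := h.max_principle h0 (u := h85_ext v) (fun k hk => by
    rw [h85_sum_ext, h85_ext_lt v hk]
    have h4 := h2 ⟨k, hk⟩
    have h5 := hb ⟨k, hk⟩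
    simp only at h4
    linarith) i i.2
  rwa [h85_ext_lt v i.2] at h3

/-- `⇐`: extend `mw` by zero. `⇒`: `mw` solves `(I - A) w = 1`, nonnegative by the maximum
principle. -/
lemma mchk_iff (h0 : ∀ i < n, ∀ k < n, 0 ≤ A i k) : mchk n A = true ↔ MInv n A := by
  rw [mchk, decide_eq_true_iff]
  constructor
  · intro h
    refine ⟨h85_ext (mw n A), fun i hi => ?_, fun i hi => ?_⟩
    · rw [h85_ext_lt _ hi]; exact (h _).1
    · rw [h85_sum_ext, h85_ext_lt _ hi]; exact (h ⟨i, hi⟩).2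
  · intro h
    have e : mw n A = (mat1 n A)⁻¹.mulVec fun _ => 1 := by
      funext i
      simp [mw, Matrix.mulVec, dotProduct]
    obtain ⟨h1, h2⟩ := h85_solve h h0 (fun _ => 1) fun _ => zero_le_one
    rw [← e] at h1 h2
    exact fun i => ⟨h1 i, (h2 i).ge⟩

lemma MInv.mono (h : MInv n A) (hle : ∀ i < n, ∀ k < n, A' i k ≤ A i k) : MInv n A' := by
  obtain ⟨w, hw0, hw⟩ := h
  refine ⟨w, hw0, fun i hi => le_trans ?_ (hw i hi)⟩
  have h1 : ∑ k ∈ range n, A' i k * w k ≤ ∑ k ∈ range n, A i k * w k :=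
    sum_le_sum fun k hk =>
      mul_le_mul_of_nonneg_right (hle i hi k (mem_range.mp hk)) (hw0 k (mem_range.mp hk))
  linarith

/-- the column `i` of `(I - A)⁻¹` -/
lemma MInv.exists_col (h : MInv n A) (h0 : ∀ i < n, ∀ k < n, 0 ≤ A i k) {i : ℕ} (hi : i < n) :
    ∃ p : ℕ → ℚ, (∀ k < n, 0 ≤ p k) ∧
      ∀ k < n, p k = (if k = i then 1 else 0) + ∑ o ∈ range n, A k o * p o := by
  obtain ⟨h1, h2⟩ := h85_solve h h0 (fun k : Fin n => if (k : ℕ) = i then 1 else 0)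
    fun k => by split_ifs <;> norm_num
  refine ⟨h85_ext ((mat1 n A)⁻¹.mulVec fun k : Fin n => if (k : ℕ) = i then 1 else 0),
    fun k hk => ?_, fun k hk => ?_⟩
  · rw [h85_ext_lt _ hk]; exact h1 _
  · rw [h85_sum_ext, h85_ext_lt _ hk]; exact h2 ⟨k, hk⟩

/-- Rank-one update of the row `i`: the witness `w + c p` works, with
`c = max 0 (∑ (A' i o - A i o) w o) / (1 - γ)`. -/
lemma MInv.rank_one (h : MInv n A) {i : ℕ} (hi : i < n) {p : ℕ → ℚ} (hp0 : ∀ k < n, 0 ≤ p k)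
    (hp : ∀ k < n, p k = (if k = i then 1 else 0) + ∑ o ∈ range n, A k o * p o)
    (hrow : ∀ k < n, k ≠ i → ∀ o < n, A' k o = A k o)
    (hγ : ∑ o ∈ range n, (A' i o - A i o) * p o < 1) : MInv n A' := by
  obtain ⟨w, hw0, hw⟩ := h
  obtain ⟨γ, hγe⟩ : ∃ γ, γ = ∑ o ∈ range n, (A' i o - A i o) * p o := ⟨_, rfl⟩
  obtain ⟨D, hD⟩ : ∃ D, D = ∑ o ∈ range n, (A' i o - A i o) * w o := ⟨_, rfl⟩
  rw [← hγe] at hγ
  have h1 : 0 < 1 - γ := by linarith
  obtain ⟨c, hc0, hc⟩ : ∃ c : ℚ, 0 ≤ c ∧ D ≤ c * (1 - γ) :=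
    ⟨max 0 D / (1 - γ), div_nonneg (le_max_left _ _) h1.le, by
      rw [div_mul_cancel₀ _ h1.ne']; exact le_max_right _ _⟩
  refine ⟨fun k => w k + c * p k, fun k hk => add_nonneg (hw0 k hk) (mul_nonneg hc0 (hp0 k hk)),
    fun k hk => ?_⟩
  have h2 := hw k hk
  have h3 := hp k hk
  have hsplit : ∀ B : ℕ → ℚ, ∑ o ∈ range n, B o * (w o + c * p o) =
      ∑ o ∈ range n, B o * w o + c * ∑ o ∈ range n, B o * p o := by
    intro B
    rw [Finset.mul_sum, ← Finset.sum_add_distrib]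
    exact Finset.sum_congr rfl fun o _ => by ring
  by_cases hki : k = i
  · subst hki
    rw [if_pos rfl] at h3
    simp only [sub_mul, Finset.sum_sub_distrib] at hγe hD
    rw [hsplit]
    have h4 : ∑ o ∈ range n, A' k o * p o = γ + p k - 1 := by linarith
    rw [h4]
    linarith
  · rw [if_neg hki, zero_add] at h3
    rw [Finset.sum_congr rfl fun o ho => by rw [hrow k hk hki o (mem_range.1 ho)], hsplit, ← h3]
    linarith

lemma h58_pick {p t : ℕ → ℚ} (hp0 : ∀ k < n, 0 ≤ p k) {i : ℕ} (hi : i < n) (hpi : 0 < p i)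
    (hs : ∑ o ∈ range n, p o * t o ≤ 0) : ∃ o < n, 0 < p o ∧ t o ≤ 0 := by
  by_contra hcon
  push Not at hcon
  have : 0 < ∑ o ∈ range n, p o * t o := by
    refine Finset.sum_pos' (fun o ho => ?_) ⟨i, mem_range.2 hi, mul_pos hpi (hcon i hi hpi)⟩
    rcases (hp0 o (mem_range.1 ho)).eq_or_lt with h | h
    · rw [← h, zero_mul]
    · exact (mul_pos h (hcon o (mem_range.1 ho) h)).le
  linarith

lemma h58_avg {i : ℕ} (hi : i < n) {p : ℕ → ℚ}
    (hp : ∀ k < n, p k = (if k = i then 1 else 0) + ∑ o ∈ range n, A k o * p o) (c : ℕ → ℚ) :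
    ∑ o ∈ range n, p o * (-c o + ∑ k ∈ range n, c k * A k o) = -c i := by
  have h1 : ∑ o ∈ range n, p o * ∑ k ∈ range n, c k * A k o =
      ∑ k ∈ range n, c k * ∑ o ∈ range n, A k o * p o := by
    simp only [Finset.mul_sum]
    rw [Finset.sum_comm]
    exact Finset.sum_congr rfl fun k _ => Finset.sum_congr rfl fun o _ => by ring
  have h2 : ∑ k ∈ range n, c k * ∑ o ∈ range n, A k o * p o =
      ∑ k ∈ range n, (c k * p k - if k = i then c k else 0) := by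
    refine Finset.sum_congr rfl fun k hk => ?_
    have := hp k (mem_range.1 hk)
    have h3 : ∑ o ∈ range n, A k o * p o = p k - if k = i then 1 else 0 := by linarith
    rw [h3]
    split_ifs <;> ring
  simp only [mul_add]
  rw [Finset.sum_add_distrib, h1, h2, Finset.sum_sub_distrib, Finset.sum_ite_eq',
    if_pos (mem_range.2 hi)]
  have h4 : ∑ o ∈ range n, p o * -c o = -∑ k ∈ range n, c k * p k := by
    rw [← Finset.sum_neg_distrib]
    exact Finset.sum_congr rfl fun k _ => by ring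
  rw [h4]
  ring

lemma h58_pi (h0 : ∀ i < n, ∀ k < n, 0 ≤ A i k) {i : ℕ} (hi : i < n) {p : ℕ → ℚ}
    (hp0 : ∀ k < n, 0 ≤ p k)
    (hp : ∀ k < n, p k = (if k = i then 1 else 0) + ∑ o ∈ range n, A k o * p o) : 0 < p i := by
  have h1 := hp i hi
  rw [if_pos rfl] at h1
  have h2 : 0 ≤ ∑ o ∈ range n, A i o * p o := Finset.sum_nonneg fun o ho =>
    mul_nonneg (h0 i hi o (mem_range.1 ho)) (hp0 o (mem_range.1 ho))
  linarith

lemma h58_cand {i : ℕ} {p : ℕ → ℚ}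
    (hp : ∀ k < n, p k = (if k = i then 1 else 0) + ∑ o ∈ range n, A k o * p o)
    {cand : ℕ → Prop} (hc : ∀ o < n, ¬ cand o → ∀ k < n, A o k = 0) (hci : cand i) {o : ℕ}
    (ho : o < n) (hpo : 0 < p o) : cand o := by
  by_contra h
  have hoi : o ≠ i := fun e => h (e ▸ hci)
  have h1 := hp o ho
  rw [if_neg hoi, Finset.sum_eq_zero fun k hk => by rw [hc o ho h k (mem_range.1 hk), zero_mul]]
    at h1
  linarith

/-- Averaging when the deterministic move is allowed. With `p` from `exists_col`,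
`∑ p o (-c o + ∑ c k A k o) = -c i`; if `c i * b > 0` then `b ≠ 0`, `c i > 0`, so some `o` with
`p o > 0` has a negative term, and `p o > 0` forces `cand o`. -/
lemma avg_allowed (h : MInv n A) (h0 : ∀ i < n, ∀ k < n, 0 ≤ A i k) {i : ℕ} (hi : i < n)
    (c : ℕ → ℚ) {b : ℚ} (hb : 0 ≤ b) (cand : ℕ → Prop)
    (hc : ∀ o < n, ¬ cand o → ∀ k < n, A o k = 0) (hci : ¬ cand i → b = 0) :
    c i * b ≤ 0 ∨ ∃ o < n, cand o ∧ -c o + ∑ k ∈ range n, c k * A k o ≤ 0 := by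
  obtain ⟨p, hp0, hp⟩ := h.exists_col h0 hi
  by_cases hcb : c i * b ≤ 0
  · exact Or.inl hcb
  right
  have hcb' := not_le.1 hcb
  have hcand : cand i := by
    by_contra hn
    rw [hci hn, mul_zero] at hcb'
    exact lt_irrefl _ hcb'
  have hc0 : 0 ≤ c i := by
    by_contra hneg
    exact hcb (mul_nonpos_of_nonpos_of_nonneg (not_le.1 hneg).le hb)
  obtain ⟨o, ho, hpo, ht⟩ := h58_pick (t := fun o => -c o + ∑ k ∈ range n, c k * A k o) hp0 hi
    (h58_pi h0 hi hp0 hp) (by rw [h58_avg hi hp c]; linarith)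
  exact ⟨o, ho, h58_cand hp hc hcand ho hpo, ht⟩

/-- Averaging when the deterministic move is forbidden. `cand i` holds (otherwise `A' = A`);
`γ'' = ∑ (A2 o - A i o) p o ≥ γ' ≥ 1` by `rank_one`; the `p`-averages of the two kinds of moves are
`-c i` and `c i (γ'' - 1)`, one of them is `≤ 0`, and `p i ≥ 1`. -/
lemma avg_blocked (h : MInv n A) (h0 : ∀ i < n, ∀ k < n, 0 ≤ A i k) {i : ℕ} (hi : i < n)
    (c : ℕ → ℚ) (cand : ℕ → Prop) (A2 : ℕ → ℚ)
    (hrow : ∀ k < n, k ≠ i → ∀ o < n, A' k o = A k o) (hA2 : ∀ o < n, A' i o ≤ A2 o)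
    (hn : ¬ MInv n A') (hc : ∀ o < n, ¬ cand o → ∀ k < n, A o k = 0)
    (hci : ¬ cand i → ∀ k < n, A' i k = 0) :
    ∃ o < n, cand o ∧ (-c o + ∑ k ∈ range n, c k * A k o ≤ 0 ∨
      -c o + ∑ k ∈ range n, c k * A k o + c i * (A2 o - A i o) ≤ 0) := by
  obtain ⟨p, hp0, hp⟩ := h.exists_col h0 hi
  have hcand : cand i := by
    by_contra hn'
    refine hn (h.mono fun k hk o ho => ?_)
    by_cases hki : k = i
    · rw [hki, hci hn' o ho]
      exact h0 i hi o ho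
    · exact (hrow k hk hki o ho).le
  have h1 : 1 ≤ ∑ o ∈ range n, (A' i o - A i o) * p o := by
    by_contra hlt
    exact hn (h.rank_one hi hp0 hp hrow (not_le.1 hlt))
  have h2 : ∑ o ∈ range n, (A' i o - A i o) * p o ≤ ∑ o ∈ range n, (A2 o - A i o) * p o :=
    Finset.sum_le_sum fun o ho => mul_le_mul_of_nonneg_right
      (sub_le_sub_right (hA2 o (mem_range.1 ho)) _) (hp0 o (mem_range.1 ho))
  rcases le_total 0 (c i) with hc0 | hc0
  · obtain ⟨o, ho, hpo, ht⟩ := h58_pick (t := fun o => -c o + ∑ k ∈ range n, c k * A k o) hp0 hi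
      (h58_pi h0 hi hp0 hp) (by rw [h58_avg hi hp c]; linarith)
    exact ⟨o, ho, h58_cand hp hc hcand ho hpo, Or.inl ht⟩
  · obtain ⟨o, ho, hpo, ht⟩ := h58_pick
      (t := fun o => -c o + ∑ k ∈ range n, c k * A k o + c i * (A2 o - A i o)) hp0 hi
      (h58_pi h0 hi hp0 hp) (by
        have h3 : ∑ o ∈ range n, p o * (-c o + ∑ k ∈ range n, c k * A k o + c i * (A2 o - A i o))
            = ∑ o ∈ range n, p o * (-c o + ∑ k ∈ range n, c k * A k o) +
              c i * ∑ o ∈ range n, (A2 o - A i o) * p o := by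
          rw [Finset.mul_sum, ← Finset.sum_add_distrib]
          exact Finset.sum_congr rfl fun o _ => by ring
        rw [h3, h58_avg hi hp c]
        have h4 := mul_le_mul_of_nonpos_left (h1.trans h2) hc0
        linarith)
    exact ⟨o, ho, h58_cand hp hc hcand ho hpo, Or.inr ht⟩

/-- `PT.mat`, `PT.rat_matInv`, `PT.entry`, `PT.rat_sum_fin`, `PT.decide_forall_fin`. -/
@[fun_prop] lemma pt_mchk {α : Type} [Enc α] {n : α → ℕ} {A : α → ℕ → ℕ → ℚ} (hn : PT n)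
    (hb : PB n) (hA : PT fun p : α × ℕ × ℕ => A p.1 p.2.1 p.2.2) :
    PT fun a => mchk (n a) (A a) := by
  have hM : PT fun a => enc (mat1 (n a) (A a)) := by
    refine PT.mat hn hb hn hb ?_
    simp only [mat1, Matrix.of_apply]
    refine PT.ratSub (by fun_prop) ?_
    exact hA.comp (f := fun p : Σ q : (Σ a, Fin (n a)), Fin (n q.1) =>
      (p.1.1, (p.1.2 : ℕ), (p.2 : ℕ))) (by fun_prop)
  have hI := hM.rat_matInv
  have hw : PT fun p : Σ a, Fin (n a) => mw (n p.1) (A p.1) p.2 := by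
    unfold mw
    exact PT.rat_sum_fin (by fun_prop) (by fun_prop) hI.entries
  have hw2 : PT fun p : Σ q : (Σ a, Fin (n a)), Fin (n q.1) => mw (n p.1.1) (A p.1.1) p.2 :=
    hw.comp (f := fun p : Σ q : (Σ a, Fin (n a)), Fin (n q.1) =>
      (⟨p.1.1, p.2⟩ : Σ a, Fin (n a))) (PT.id.sigmaFst.sigmaFst.sigmaMk PT.id.sigmaSnd)
  have hA2 : PT fun p : Σ q : (Σ a, Fin (n a)), Fin (n q.1) => A p.1.1 p.1.2 p.2 :=
    hA.comp (f := fun p : Σ q : (Σ a, Fin (n a)), Fin (n q.1) =>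
      (p.1.1, (p.1.2 : ℕ), (p.2 : ℕ))) (by fun_prop)
  have hS : PT fun p : Σ a, Fin (n a) => ∑ k : Fin (n p.1), A p.1 p.2 k * mw (n p.1) (A p.1) k :=
    PT.rat_sum_fin (by fun_prop) (by fun_prop) (hA2.ratMul hw2)
  unfold mchk
  refine PT.decide_forall_fin hn hb ?_
  fun_prop

end Crest.Agent.R310
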