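import Crest.Agent.R310.NProf

/-! Row 310, column route: `CellCert` from node conditions on the table and the column inequalities. -/

set_option autoImplicit false
set_option linter.dupNamespace false

namespace Crest.Agent.R310

open Finset

theorem phK_zero {m : ℕ} {t : ℕ → ℝ} (ht : ∀ i < m, t i ≤ 0) (c : ℕ → ℝ) :
    phK m t c 0 = c 0 + c 1 + ∑ i ∈ range m, c (i + 2) * (-t i) := by
  rw [phK, Real.exp_zero, mul_one]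
  congr 1
  exact Finset.sum_congr rfl fun i hi => by
    rw [zero_sub, max_eq_left (by linarith [ht i (Finset.mem_range.1 hi)])]

/-- `cU` on the cells -/
def UCell (mk n m : ℕ) (t x y : ℕ → ℝ) (pc : ℕ → ℕ) (T : ℕ → ℕ → ℕ → ℝ) (g0 τ0 : ℝ)
    (lo : ℝ → ℝ) : Prop :=
  ∃ N : ℕ → ℕ → ℝ, CoposM (m + 1) N ∧ ∀ a < n, ∀ j ≤ m, ∀ k, 0 < k → x a ≤ k → k ≤ x (a + 1) →
    itp y (fun i => N i j) (pc a) k ≤ U1 g0 τ0 0 lo (phK mk t (cfC x T a j k)) k - 1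

/-- `cP` at the point `(r, τ)`, own cell `ar` -/
def PCell (mk n m : ℕ) (t x y : ℕ → ℝ) (pc : ℕ → ℕ) (T : ℕ → ℕ → ℕ → ℝ) (g0 A gc τ0 : ℝ)
    (lo : ℝ → ℝ) (hi : ℝ → ℝ → ℝ) (ar : ℕ) (r τ : ℝ) : Prop :=
  ∃ N : ℕ → ℕ → ℝ, CoposM (m + 1) N ∧
    ∀ a < n, ∀ j ≤ m, ∀ k, 0 < k → x a ≤ k → k ≤ x (a + 1) → ∀ μ,
      (μ = hi r k ∨ (lo k < hi r k ∧ μ = min (lo k) (hi r k))) →
      ColG g0 A gc τ0 (phK mk t (cfC x T a j k)) (phK mk t (cfC x T ar j r) τ)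
        (itp y (fun i => N i j) (pc a) k) r k τ (lo k) μ

theorem cellCert_of_table {mk n m : ℕ} {t x y : ℕ → ℝ} {pc : ℕ → ℕ} {T : ℕ → ℕ → ℕ → ℝ}
    {g0 b τ0 A gc : ℝ} {lo : ℝ → ℝ} {hi : ℝ → ℝ → ℝ} (n0 : 0 < n) (m0 : 0 < m)
    (hx : ∀ a < n, x a < x (a + 1)) (hy : ∀ a < m, y a < y (a + 1)) (x0 : x 0 = 0) (xn : x n = b)
    (y0 : y 0 = 0) (ym : y m = b)
    (hpc : ∀ a < n, pc a < m ∧ y (pc a) ≤ x a ∧ x (a + 1) ≤ y (pc a + 1))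
    (ht : ∀ i, i + 1 < mk → t i ≤ t (i + 1))
    (hM : ∀ a ≤ n, ∀ j ≤ m, MonoK mk (T a j))
    (hc1 : ∀ a ≤ n, ∀ j ≤ m, phK mk t (T a j) 0 ≤ 1 - x a)
    (hc2 : ∀ a ≤ n, ∀ j ≤ m, phK mk t (T a j) 0 ≤ A * (1 - gc * x a))
    (hU : UCell mk n m t x y pc T g0 τ0 lo)
    (hP : ∀ ar < n, ∀ r, 0 < r → x ar ≤ r → r ≤ x (ar + 1) → ∀ τ, τ0 ≤ τ → τ ≤ 0 →
      PCell mk n m t x y pc T g0 A gc τ0 lo hi ar r τ) :
    CellCert (phK mk t) n m x y pc T g0 b τ0 0 A gc lo hi := by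
  refine ⟨n0, m0, hx, hy, x0, xn, y0, ym, hpc, fun c => (prim_phK mk t c).cont,
    fun a ha j hj r h1 h2 => ?_, fun a ha j hj r h1 h2 => ?_, hU, fun ar har r _ h1 h2 => ?_, hP⟩
  · exact ((cfC_monoK (hx a ha) h1 h2 (hM a ha.le j hj) (hM _ ha j hj)).mono ht).monotoneOn _
  · have := phK_cfC_le (m := mk) (t := t) (T := T) (j := j) (s := 0) (p := A) (q := -(A * gc))
      (hx a ha) h1 h2 (by linarith [hc2 a ha.le j hj]) (by linarith [hc2 _ ha j hj])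
    exact le_trans (by linarith) (le_max_right _ _)
  · obtain ⟨N, hN, h⟩ := hU
    refine ⟨N, hN, fun a ha j hj k h3 h4 h5 => (h a ha j hj k h3 h4 h5).trans ?_⟩
    have := phK_cfC_le (m := mk) (t := t) (T := T) (j := j) (s := 0) (p := 1) (q := -1)
      (hx ar har) h1 h2 (by linarith [hc1 ar har.le j hj]) (by linarith [hc1 _ har j hj])
    linarith

end Crest.Agent.R310
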