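import Crest.Agent.R310.GainLB
import Crest.Agent.R310.Pade

/-! Row 310, column route: time profiles, piecewise linear interpolation, hat functions. -/

set_option autoImplicit false
set_option linter.dupNamespace false

namespace Crest.Agent.R310

open Finset

/-- time profile with coefficient vector `c 0, …, c 6` -/
noncomputable def phC (c : ℕ → ℝ) (s : ℝ) : ℝ :=
  c 0 + c 1 * Real.exp s + c 2 * max (s + 9 / 8) 0 + c 3 * max (s + 1) 0 +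
    c 4 * max (s + 3 / 4) 0 + c 5 * max (s + 1 / 2) 0 + c 6 * max (s + 1 / 4) 0

/-- its primitive -/
noncomputable def PhC (c : ℕ → ℝ) (x : ℝ) : ℝ :=
  c 0 * x + c 1 * Real.exp x + c 2 * (max (x + 9 / 8) 0 ^ 2 / 2) + c 3 * (max (x + 1) 0 ^ 2 / 2) +
    c 4 * (max (x + 3 / 4) 0 ^ 2 / 2) + c 5 * (max (x + 1 / 2) 0 ^ 2 / 2) +
    c 6 * (max (x + 1 / 4) 0 ^ 2 / 2)

theorem prim_ramp (t : ℝ) : Prim (fun s => max (s + t) 0) (fun x => max (x + t) 0 ^ 2 / 2) := by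
  have e : ∀ s : ℝ, max (s + t) 0 = max s (-t) - -t := fun s => by
    rw [← max_sub_sub_right]
    congr 1 <;> ring
  exact (prim_pl (-t)).congr e (c := 0) fun x => by rw [e, add_zero]

theorem prim_phC (c : ℕ → ℝ) : Prim (phC c) (PhC c) :=
  (((((((prim_const (c 0)).add (prim_exp.const_mul (c 1))).add
    ((prim_ramp (9 / 8)).const_mul (c 2))).add ((prim_ramp 1).const_mul (c 3))).add
    ((prim_ramp (3 / 4)).const_mul (c 4))).add ((prim_ramp (1 / 2)).const_mul (c 5))).add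
    ((prim_ramp (1 / 4)).const_mul (c 6))).congr (fun _ => rfl) (c := 0) fun x => by
      rw [PhC, add_zero]

/-- sufficient condition for monotonicity -/
structure MonoC (c : ℕ → ℝ) : Prop where
  h1 : 0 ≤ c 1
  h2 : 0 ≤ c 2
  h3 : 0 ≤ c 2 + c 3
  h4 : 0 ≤ c 2 + c 3 + c 4
  h5 : 0 ≤ c 2 + c 3 + c 4 + c 5
  h6 : 0 ≤ c 2 + c 3 + c 4 + c 5 + c 6

theorem ramp_diff_mono {p q : ℝ} (h : q ≤ p) : Monotone fun s : ℝ => max (s + p) 0 - max (s + q) 0 := by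
  intro s s' hs
  simp only [max_def]
  split_ifs <;> linarith

theorem phC_abel (c : ℕ → ℝ) (s : ℝ) : phC c s = c 0 + c 1 * Real.exp s +
    c 2 * (max (s + 9 / 8) 0 - max (s + 1) 0) +
    (c 2 + c 3) * (max (s + 1) 0 - max (s + 3 / 4) 0) +
    (c 2 + c 3 + c 4) * (max (s + 3 / 4) 0 - max (s + 1 / 2) 0) +
    (c 2 + c 3 + c 4 + c 5) * (max (s + 1 / 2) 0 - max (s + 1 / 4) 0) +
    (c 2 + c 3 + c 4 + c 5 + c 6) * max (s + 1 / 4) 0 := by
  rw [phC]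
  ring

theorem MonoC.mono {c : ℕ → ℝ} (h : MonoC c) : Monotone (phC c) := by
  intro s s' hs
  rw [phC_abel, phC_abel]
  have a1 := mul_le_mul_of_nonneg_left (Real.exp_le_exp.2 hs) h.h1
  have a2 := mul_le_mul_of_nonneg_left (ramp_diff_mono (show (1 : ℝ) ≤ 9 / 8 by norm_num) hs) h.h2
  have a3 := mul_le_mul_of_nonneg_left (ramp_diff_mono (show (3 / 4 : ℝ) ≤ 1 by norm_num) hs) h.h3
  have a4 := mul_le_mul_of_nonneg_left
    (ramp_diff_mono (show (1 / 2 : ℝ) ≤ 3 / 4 by norm_num) hs) h.h4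
  have a5 := mul_le_mul_of_nonneg_left
    (ramp_diff_mono (show (1 / 4 : ℝ) ≤ 1 / 2 by norm_num) hs) h.h5
  have a6 := mul_le_mul_of_nonneg_left
    (max_le_max_right (0 : ℝ) (show s + 1 / 4 ≤ s' + 1 / 4 by linarith)) h.h6
  linarith

theorem MonoC.base_le {c : ℕ → ℝ} (h : MonoC c) (s : ℝ) : c 0 + c 1 * Real.exp s ≤ phC c s := by
  rw [phC_abel]
  have e : ∀ p q : ℝ, q ≤ p → 0 ≤ max (s + p) 0 - max (s + q) 0 := fun p q hq =>
    sub_nonneg.2 (max_le_max_right _ (by linarith))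
  have a2 := mul_nonneg h.h2 (e (9 / 8) 1 (by norm_num))
  have a3 := mul_nonneg h.h3 (e 1 (3 / 4) (by norm_num))
  have a4 := mul_nonneg h.h4 (e (3 / 4) (1 / 2) (by norm_num))
  have a5 := mul_nonneg h.h5 (e (1 / 2) (1 / 4) (by norm_num))
  have a6 := mul_nonneg h.h6 (le_max_right (s + 1 / 4) 0)
  linarith

theorem MonoC.mix {c d : ℕ → ℝ} (hc : MonoC c) (hd : MonoC d) {w : ℝ} (h0 : 0 ≤ w) (h1 : w ≤ 1) :
    MonoC fun q => (1 - w) * c q + w * d q := by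
  have h2 : 0 ≤ 1 - w := by linarith
  constructor
  · nlinarith [mul_nonneg h2 hc.h1, mul_nonneg h0 hd.h1]
  · nlinarith [mul_nonneg h2 hc.h2, mul_nonneg h0 hd.h2]
  · nlinarith [mul_nonneg h2 hc.h3, mul_nonneg h0 hd.h3]
  · nlinarith [mul_nonneg h2 hc.h4, mul_nonneg h0 hd.h4]
  · nlinarith [mul_nonneg h2 hc.h5, mul_nonneg h0 hd.h5]
  · nlinarith [mul_nonneg h2 hc.h6, mul_nonneg h0 hd.h6]

theorem phC_mix (c d : ℕ → ℝ) (u w s : ℝ) :
    phC (fun q => u * c q + w * d q) s = u * phC c s + w * phC d s := by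
  simp only [phC]
  ring

theorem PhC_mix (c d : ℕ → ℝ) (u w s : ℝ) :
    PhC (fun q => u * c q + w * d q) s = u * PhC c s + w * PhC d s := by
  simp only [PhC]
  ring

theorem phC_zero (c : ℕ → ℝ) : phC c 0 =
    c 0 + c 1 + 9 / 8 * c 2 + c 3 + 3 / 4 * c 4 + 1 / 2 * c 5 + 1 / 4 * c 6 := by
  rw [phC, Real.exp_zero, max_eq_left (by norm_num), max_eq_left (by norm_num),
    max_eq_left (by norm_num), max_eq_left (by norm_num), max_eq_left (by norm_num)]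
  ring

/-! ### piecewise linear interpolation on nodes `x 0 < x 1 < … < x n` -/

/-- relative position in cell `a` -/
noncomputable def wt (x : ℕ → ℝ) (a : ℕ) (r : ℝ) : ℝ := (r - x a) / (x (a + 1) - x a)

/-- linear interpolation in cell `a` -/
noncomputable def itp (x : ℕ → ℝ) (v : ℕ → ℝ) (a : ℕ) (r : ℝ) : ℝ :=
  (1 - wt x a r) * v a + wt x a r * v (a + 1)

/-- a cell that contains `r` -/
noncomputable def cellOf (x : ℕ → ℝ) : ℕ → ℝ → ℕ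
  | 0, _ => 0
  | n + 1, r => if x n ≤ r then n else cellOf x n r

theorem cellOf_spec {x : ℕ → ℝ} {r : ℝ} (h0 : x 0 ≤ r) : ∀ {n : ℕ}, 0 < n → r ≤ x n →
    cellOf x n r < n ∧ x (cellOf x n r) ≤ r ∧ r ≤ x (cellOf x n r + 1)
  | 0, h, _ => absurd h (lt_irrefl 0)
  | n + 1, _, h1 => by
    rw [cellOf]
    split_ifs with h2
    · exact ⟨Nat.lt_succ_self n, h2, h1⟩
    · have hn : 0 < n := by
        rcases Nat.eq_zero_or_pos n with h | h
        · rw [h] at h2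
          exact absurd h0 h2
        · exact h
      obtain ⟨h3, h4⟩ := cellOf_spec h0 hn (not_le.1 h2).le
      exact ⟨h3.trans (Nat.lt_succ_self n), h4⟩

theorem nodes_le {x : ℕ → ℝ} {n : ℕ} (hx : ∀ a < n, x a < x (a + 1)) {a b : ℕ} (hab : a ≤ b)
    (hb : b ≤ n) : x a ≤ x b := by
  induction b, hab using Nat.le_induction with
  | base => exact le_rfl
  | succ b _ ih => exact (ih (by omega)).trans (hx b (by omega)).le

theorem wt_mem {x : ℕ → ℝ} {a : ℕ} {r : ℝ} (h : x a < x (a + 1)) (h1 : x a ≤ r)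
    (h2 : r ≤ x (a + 1)) : 0 ≤ wt x a r ∧ wt x a r ≤ 1 :=
  ⟨div_nonneg (by linarith) (by linarith), (div_le_one (by linarith)).2 (by linarith)⟩

theorem itp_lt {x : ℕ → ℝ} {n : ℕ} (hx : ∀ a < n, x a < x (a + 1)) (v : ℕ → ℝ) {a b : ℕ} {r : ℝ}
    (hab : a < b) (hb : b < n) (h1 : r ≤ x (a + 1)) (h2 : x b ≤ r) : itp x v a r = itp x v b r := by
  have h3 := nodes_le hx (show a + 1 ≤ b from hab) hb.le
  have h4 : b = a + 1 := by
    by_contra h5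
    have h6 := nodes_le hx (show a + 1 + 1 ≤ b by omega) hb.le
    linarith [hx (a + 1) (by omega)]
  subst h4
  have h5 : r = x (a + 1) := le_antisymm h1 h2
  have h6 : x (a + 1) - x a ≠ 0 := (sub_pos.2 (hx a (by omega))).ne'
  rw [itp, itp, wt, wt, h5, div_self h6, sub_self (x (a + 1)), zero_div]
  ring

theorem itp_cell {x : ℕ → ℝ} {n : ℕ} (hx : ∀ a < n, x a < x (a + 1)) (v : ℕ → ℝ) {a : ℕ} {r : ℝ}
    (ha : a < n) (h1 : x a ≤ r) (h2 : r ≤ x (a + 1)) :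
    itp x v (cellOf x n r) r = itp x v a r := by
  obtain ⟨h3, h4, h5⟩ := cellOf_spec ((nodes_le hx (Nat.zero_le a) ha.le).trans h1)
    (show 0 < n by omega) (h2.trans (nodes_le hx (show a + 1 ≤ n from ha) le_rfl))
  rcases lt_trichotomy (cellOf x n r) a with h | h | h
  · exact itp_lt hx v h ha h5 h1
  · rw [h]
  · exact (itp_lt hx v h h3 h2 h4).symm

/-- hat functions -/
noncomputable def hat (x : ℕ → ℝ) (n j : ℕ) (r : ℝ) : ℝ :=
  itp x (fun i => if i = j then 1 else 0) (cellOf x n r) r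

theorem hat_sum {x : ℕ → ℝ} {n : ℕ} (hx : ∀ a < n, x a < x (a + 1)) (v : ℕ → ℝ) {a : ℕ} {r : ℝ}
    (ha : a < n) (h1 : x a ≤ r) (h2 : r ≤ x (a + 1)) :
    ∑ j ∈ range (n + 1), hat x n j r * v j = itp x v a r := by
  simp only [hat, itp_cell hx _ ha h1 h2]
  simp only [itp, add_mul, mul_assoc, Finset.sum_add_distrib, ← Finset.mul_sum, ite_mul, one_mul,
    zero_mul, Finset.sum_ite_eq, Finset.mem_range]
  rw [if_pos (by omega), if_pos (by omega)]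

theorem hat_nonneg {x : ℕ → ℝ} {n : ℕ} (hx : ∀ a < n, x a < x (a + 1)) (hn : 0 < n) (j : ℕ) {r : ℝ}
    (h1 : x 0 ≤ r) (h2 : r ≤ x n) : 0 ≤ hat x n j r := by
  obtain ⟨h3, h4, h5⟩ := cellOf_spec h1 hn h2
  obtain ⟨h6, h7⟩ := wt_mem (hx _ h3) h4 h5
  rw [hat, itp]
  refine add_nonneg (mul_nonneg (by linarith) ?_) (mul_nonneg h6 ?_) <;> split_ifs <;> norm_num

theorem hat_one {x : ℕ → ℝ} {n : ℕ} (hx : ∀ a < n, x a < x (a + 1)) (hn : 0 < n) {r : ℝ}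
    (h1 : x 0 ≤ r) (h2 : r ≤ x n) : ∑ j ∈ range (n + 1), hat x n j r = 1 := by
  obtain ⟨h3, h4, h5⟩ := cellOf_spec h1 hn h2
  have := hat_sum hx (fun _ => 1) h3 h4 h5
  simp only [mul_one, itp] at this
  rw [this]
  ring

/-- partner nodes -/
noncomputable def kap : ℕ → ℝ
  | 0 => 0
  | 1 => 5 / 24
  | 2 => 1 / 3
  | 3 => 5 / 12
  | _ => 7 / 12

theorem kap_lt : ∀ a < 4, kap a < kap (a + 1) := by
  intro a ha
  interval_cases a <;> norm_num [kap]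

/-- coefficient vector of column `j` at own distance `r` in cell `a` -/
noncomputable def cfC (x : ℕ → ℝ) (T : ℕ → ℕ → ℕ → ℝ) (a j : ℕ) (r : ℝ) (q : ℕ) : ℝ :=
  itp x (fun a => T a j q) a r

/-- the columns -/
noncomputable def HC (x : ℕ → ℝ) (n : ℕ) (T : ℕ → ℕ → ℕ → ℝ) (j : ℕ) (r : ℝ) : ℝ → ℝ :=
  phC (cfC x T (cellOf x n r) j r)

theorem HC_cell {x : ℕ → ℝ} {n : ℕ} (hx : ∀ a < n, x a < x (a + 1)) (T : ℕ → ℕ → ℕ → ℝ) (j : ℕ)
    {a : ℕ} {r : ℝ} (ha : a < n) (h1 : x a ≤ r) (h2 : r ≤ x (a + 1)) :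
    HC x n T j r = phC (cfC x T a j r) := by
  rw [HC]
  congr 1
  funext q
  exact itp_cell hx _ ha h1 h2

theorem cfC_mono {x : ℕ → ℝ} {T : ℕ → ℕ → ℕ → ℝ} {a j : ℕ} {r : ℝ} (h : x a < x (a + 1))
    (h1 : x a ≤ r) (h2 : r ≤ x (a + 1)) (m1 : MonoC (T a j)) (m2 : MonoC (T (a + 1) j)) :
    MonoC (cfC x T a j r) :=
  m1.mix m2 (wt_mem h h1 h2).1 (wt_mem h h1 h2).2

theorem phC_cfC (x : ℕ → ℝ) (T : ℕ → ℕ → ℕ → ℝ) (a j : ℕ) (r s : ℝ) :
    phC (cfC x T a j r) s = itp x (fun a => phC (T a j) s) a r :=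
  phC_mix _ _ _ _ _

theorem itp_le {x u v : ℕ → ℝ} {a : ℕ} {r : ℝ} (h : x a < x (a + 1)) (h1 : x a ≤ r)
    (h2 : r ≤ x (a + 1)) (h3 : u a ≤ v a) (h4 : u (a + 1) ≤ v (a + 1)) :
    itp x u a r ≤ itp x v a r := by
  obtain ⟨h5, h6⟩ := wt_mem h h1 h2
  exact add_le_add (mul_le_mul_of_nonneg_left h3 (by linarith)) (mul_le_mul_of_nonneg_left h4 h5)

theorem itp_affine {x : ℕ → ℝ} {a : ℕ} (h : x a < x (a + 1)) (p q r : ℝ) :
    itp x (fun a => p + q * x a) a r = p + q * r := by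
  have h6 : x (a + 1) - x a ≠ 0 := (sub_pos.2 h).ne'
  rw [itp, wt]
  field_simp
  ring

/-- The column certificate from table conditions and the statements `cU`, `cP`. -/
theorem colCert_of_table {x : ℕ → ℝ} {n : ℕ} {T : ℕ → ℕ → ℕ → ℝ} {g0 A gc : ℝ} {lo : ℝ → ℝ}
    {hi : ℝ → ℝ → ℝ} (hn : 0 < n) (hx : ∀ a < n, x a < x (a + 1)) (hx0 : x 0 = 0)
    (hxn : x n = 7 / 12) (hM : ∀ a ≤ n, ∀ j < 5, MonoC (T a j))
    (hc1 : ∀ a ≤ n, ∀ j < 5, phC (T a j) 0 ≤ 1 - x a)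
    (hc2 : ∀ a ≤ n, ∀ j < 5, phC (T a j) 0 ≤ A * (1 - gc * x a))
    (cU : ∃ N : ℕ → ℕ → ℝ, (∀ i j, 0 ≤ N i j + N j i) ∧ ∀ k, 0 < k → k ≤ 7 / 12 → ∀ j < 5,
      ∑ i ∈ range 5, hat kap 4 i k * N i j ≤ U1 g0 (-9 / 8) 0 lo (HC x n T j k) k - 1)
    (cP : ∀ r, 0 < r → r ≤ 7 / 12 → ∀ τ, -9 / 8 ≤ τ → τ ≤ 0 → ∃ N : ℕ → ℕ → ℝ,
      (∀ i j, 0 ≤ N i j + N j i) ∧ ∀ k, 0 < k → k ≤ 7 / 12 → ∀ j < 5, ∀ μ,
      (μ = min (lo k) (hi r k) ∨ μ = hi r k) →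
      ∑ i ∈ range 5, hat kap 4 i k * N i j ≤ min 1 (g0 * k) - min r (g0 * k) +
        gainV (fun _ => 1) (HC x n T j k) (capR A gc k r) (-9 / 8) τ (max (lo k) μ) μ -
        HC x n T j r τ) :
    ColCert 5 g0 (7 / 12) (-9 / 8) 0 (fun d => max 0 (A * (1 - gc * d))) lo hi (capR A gc)
      (fun _ _ _ _ _ => 1) (hat kap 4) (HC x n T) := by
  have hcell : ∀ r, 0 < r → r ≤ 7 / 12 →
      cellOf x n r < n ∧ x (cellOf x n r) ≤ r ∧ r ≤ x (cellOf x n r + 1) := fun r h1 h2 =>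
    cellOf_spec (by rw [hx0]; exact h1.le) hn (by rw [hxn]; exact h2)
  have hend : ∀ p q : ℝ, (∀ a ≤ n, ∀ j < 5, phC (T a j) 0 ≤ p + q * x a) → ∀ j < 5, ∀ r, 0 < r →
      r ≤ 7 / 12 → HC x n T j r 0 ≤ p + q * r := fun p q h j hj r h1 h2 => by
    obtain ⟨h3, h4, h5⟩ := hcell r h1 h2
    rw [HC, phC_cfC, ← itp_affine (hx _ h3) p q r]
    exact itp_le (hx _ h3) h4 h5 (h _ h3.le j hj) (h _ h3 j hj)
  refine ⟨fun j _ k h1 h2 => hat_nonneg kap_lt (by norm_num) j h1.le h2,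
    fun k h1 h2 => hat_one kap_lt (by norm_num) h1.le h2, fun j _ r _ _ => (prim_phC _).cont,
    fun j hj r h1 h2 => ?_, fun j hj r h1 h2 => ?_, cU, fun r h1 h2 => ?_, cP⟩
  · obtain ⟨h3, h4, h5⟩ := hcell r h1 h2
    exact (cfC_mono (hx _ h3) h4 h5 (hM _ h3.le j hj) (hM _ h3 j hj)).mono.monotoneOn _
  · have := hend A (-(A * gc)) (fun a ha j hj => by linarith [hc2 a ha j hj]) j hj r h1 h2
    exact le_trans (by linarith) (le_max_right _ _)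
  · obtain ⟨N, hN, h⟩ := cU
    refine ⟨N, hN, fun k h3 h4 j hj => (h k h3 h4 j hj).trans ?_⟩
    have := hend 1 (-1) (fun a ha j hj => by linarith [hc1 a ha j hj]) j hj r h1 h2
    linarith

end Crest.Agent.R310
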