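import Crest.Agent.R310.NProg

/-! Row 310, column route: soundness of the program for `(U)`. -/

set_option autoImplicit false
set_option linter.dupNamespace false

namespace Crest.Agent.R310.NP

open Crest.Agent.Lib.IBox

theorem h86_lo {k : ℝ} (hk : k ≤ 7 / 12) :
    (10 : ℝ) / 3 - 2 / 9 * (1 - k)⁻¹ - 18 * (7 - 3 * k)⁻¹ = loP (4 / 3) k := by
  have h1 : (1 - k) ≠ 0 := (by linarith : (0 : ℝ) < 1 - k).ne'
  have h2 : (7 - 3 * k) ≠ 0 := (by linarith : (0 : ℝ) < 7 - 3 * k).ne'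
  have h3 : (7 - k * 3) ≠ 0 := by rwa [mul_comm]
  rw [loP, padeL, show (1 + (1 - 3 * k) / 2) * (6 + 2 * ((1 - 3 * k) / 2)) =
    3 / 2 * ((1 - k) * (7 - 3 * k)) by ring]
  field_simp
  ring

theorem h86_phK (c : ℕ → ℝ) (x : ℝ) : phK 7 tk c x = c 0 + c 1 * Real.exp x +
    c 2 * max (x + 5 / 4) 0 + c 3 * max (x + 1) 0 + c 4 * max (x + 13 / 16) 0 +
    c 5 * max (x + 21 / 32) 0 + c 6 * max (x + 15 / 32) 0 + c 7 * max (x + 5 / 16) 0 +
    c 8 * max (x + 5 / 32) 0 := by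
  simp only [phK, Finset.sum_range_succ, Finset.sum_range_zero, tk]
  norm_num only [sub_eq_add_neg, neg_div, neg_neg]
  ring

theorem h86_PhK (c : ℕ → ℝ) (x : ℝ) : PhK 7 tk c x = c 0 * x + c 1 * Real.exp x +
    c 2 * (max (x + 5 / 4) 0 ^ 2 / 2) + c 3 * (max (x + 1) 0 ^ 2 / 2) +
    c 4 * (max (x + 13 / 16) 0 ^ 2 / 2) + c 5 * (max (x + 21 / 32) 0 ^ 2 / 2) +
    c 6 * (max (x + 15 / 32) 0 ^ 2 / 2) + c 7 * (max (x + 5 / 16) 0 ^ 2 / 2) +
    c 8 * (max (x + 5 / 32) 0 ^ 2 / 2) := by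
  simp only [PhK, Finset.sum_range_succ, Finset.sum_range_zero, tk]
  norm_num only [sub_eq_add_neg, neg_div, neg_neg]
  ring

theorem upr_sound' {K DK : V9} {N DN : W3} {kn pn zt sk zo : ℤ} {kd pd : ℕ}
    {r k w q4 q3 q2 q1 Nv : ℝ} {ck : ℕ → ℝ}
    (h : (upr K DK N DN kn kd pn pd zt sk zo).Good [r, k, 0, w, q4, q3, q2, q1, 1 + 2 / Real.exp 1])
    (hk : k ≤ 7 / 12) (hck : ∀ q, ck q = K.f q + (240 * k - kn) / (kd + 1) * DK.f q)
    (hN : Nv = N.a / 1000000 + (240 * k - pn) / (pd + 1) * (DN.a / 1000000)) :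
    sk * (k - 1 / 3) < zt / 960 ∨ k < zo / 960 ∨
      Nv ≤ U1 (1 + 2 / Real.exp 1) (-5 / 4) 0 (loP (4 / 3)) (phK 7 tk ck) k - 1 := by
  simp only [upr, Pg.Good, Ex.val, List.getD_cons_succ, List.getD_cons_zero, iofNat, inegSucc,
    or_false] at h
  norm_num only at h
  rw [h86_lo hk] at h
  rcases h with h | h | h
  · left; rw [div_one] at h; linarith
  · right; left; linarith
  right; right
  rw [U1_exact (prim_phK 7 tk ck), show (-5 / 4 : ℝ) = -(5 / 4) by norm_num]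
  generalize loP (4 / 3) k = lo at h ⊢
  obtain ⟨h1, h2⟩ := lt_min_iff.1 h
  obtain ⟨-, h3⟩ := lt_min_iff.1 h2
  have e1 : max (lo - 1) (-(5 / 4)) ≤ 0 := max_le (by linarith) (by norm_num)
  have e2 : max lo 0 = lo - min 0 lo := by
    rcases le_total lo 0 with h4 | h4
    · rw [max_eq_right h4, min_eq_right h4, sub_self]
    · rw [max_eq_left h4, min_eq_left h4, sub_zero]
  rw [min_eq_right e1, max_eq_right e1, e2, h86_PhK, h86_PhK, h86_phK, hN]
  simp only [hck, V9.f, zero_add]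
  generalize max (lo - 1) (-(5 / 4)) = xl at h1 ⊢
  generalize min 0 lo = x1 at h1 ⊢
  rw [show (240 * k - kn) / (kd + 1) = 240 / (kd + 1) * k - kn / (kd + 1) by ring,
    show (240 * k - pn) / (pd + 1) = 240 / (pd + 1) * k - pn / (pd + 1) by ring]
  generalize 240 / ((kd : ℝ) + 1) * k - kn / (kd + 1) = wk at h1 ⊢
  generalize 240 / ((pd : ℝ) + 1) * k - pn / (pd + 1) = wp at h1 ⊢
  linarith

end Crest.Agent.R310.NP
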