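import Crest.Agent.R310.NSndTip
import Crest.Agent.R310.NSndU

/-! Row 310, column route: soundness of the tip programs and of the program for `(U)`. -/

set_option autoImplicit false
set_option linter.dupNamespace false

namespace Crest.Agent.R310.NP

open Crest.Agent.Lib.IBox

theorem upr_sound {K DK : V9} {N DN : W3} {kn pn zt sk zo : ℤ} {kd pd : ℕ}
    {r k w q4 q3 q2 q1 Nv : ℝ} {ck : ℕ → ℝ}
    (h : (upr K DK N DN kn kd pn pd zt sk zo).Good [r, k, 0, w, q4, q3, q2, q1, 1 + 2 / Real.exp 1])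
    (hk0 : 0 ≤ k) (hk : k ≤ 7 / 12) (hck : ∀ q, ck q = K.f q + (240 * k - kn) / (kd + 1) * DK.f q)
    (hN : Nv = N.a / 1000000 + (240 * k - pn) / (pd + 1) * (DN.a / 1000000)) :
    sk * (k - 1 / 3) < zt / 960 ∨ k < zo / 960 ∨
      Nv ≤ U1 (1 + 2 / Real.exp 1) (-5 / 4) 0 (loP (4 / 3)) (phK 7 tk ck) k - 1 :=
  upr_sound' h hk hck hN

end Crest.Agent.R310.NP
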