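import Crest.Agent.R310.NSndA
import Crest.Agent.R310.NSndT

/-! Row 310, column route: soundness of the record checkers. -/

set_option autoImplicit false
set_option linter.dupNamespace false

namespace Crest.Agent.R310.NP

open Crest.Agent.Lib.IBox

theorem checkR_sound {T : ℕ → ℕ → V9} {NU : ℕ → ℕ → ℤ} {vU : ℕ → ℤ} (hT : TabOK T NU vU) {R : Rec}
    (har : R.ar < 11) (h : checkR T R = true) : PB T R.ar R.r1 R.r2 R.t1 R.t2 := by
  sorry

end Crest.Agent.R310.NP
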