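import Crest.Agent.R310.NSndT

/-! Row 310, column route: soundness of the checker for `(U)`. -/

set_option autoImplicit false
set_option linter.dupNamespace false

namespace Crest.Agent.R310.NP

open Crest.Agent.Lib.IBox

theorem checkU_sound {T : ℕ → ℕ → V9} {NU : ℕ → ℕ → ℤ} {vU : ℕ → ℤ} (hT : TabOK T NU vU)
    {tips codes : List ℕ} (h : checkU T NU tips codes = true) : UStat T := by
  sorry

end Crest.Agent.R310.NP
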