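import Crest.Agent.R310.NMain

/-! Row 310, column route: from the table conditions, `cU` with a rank-one part and `cP` to the
target. -/

set_option autoImplicit false
set_option linter.dupNamespace false

namespace Crest.Agent.R310

open Finset

theorem anti_pair_rank {n : ℕ} {p q A B v : ℕ → ℝ} {N : ℕ → ℕ → ℝ}
    (hN : ∀ i < n, ∀ j < n, 2 * (v i * v j) ≤ N i j + N j i)
    (hp : ∀ j < n, 0 ≤ p j) (hq : ∀ j < n, 0 ≤ q j)
    (hA : ∀ j < n, ∑ i ∈ range n, p i * N i j ≤ A j)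
    (hB : ∀ j < n, ∑ i ∈ range n, q i * N i j ≤ B j) :
    2 * ((∑ i ∈ range n, p i * v i) * ∑ j ∈ range n, q j * v j) ≤
      ∑ j ∈ range n, q j * A j + ∑ j ∈ range n, p j * B j := by
  have h1 : ∑ j ∈ range n, q j * ∑ i ∈ range n, p i * N i j ≤ ∑ j ∈ range n, q j * A j :=
    Finset.sum_le_sum fun j hj => mul_le_mul_of_nonneg_left (hA j (Finset.mem_range.1 hj))
      (hq j (Finset.mem_range.1 hj))
  have h2 : ∑ j ∈ range n, p j * ∑ i ∈ range n, q i * N i j ≤ ∑ j ∈ range n, p j * B j :=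
    Finset.sum_le_sum fun j hj => mul_le_mul_of_nonneg_left (hB j (Finset.mem_range.1 hj))
      (hp j (Finset.mem_range.1 hj))
  have h3 : 2 * ((∑ i ∈ range n, p i * v i) * ∑ j ∈ range n, q j * v j) ≤
      ∑ j ∈ range n, q j * ∑ i ∈ range n, p i * N i j +
      ∑ j ∈ range n, p j * ∑ i ∈ range n, q i * N i j := by
    rw [mul_comm (∑ i ∈ range n, p i * v i), Finset.sum_mul_sum]
    simp only [Finset.mul_sum]
    rw [Finset.sum_comm (f := fun j i => p j * (q i * N i j)), ← Finset.sum_add_distrib]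
    refine Finset.sum_le_sum fun j hj => ?_
    rw [← Finset.sum_add_distrib]
    refine Finset.sum_le_sum fun i hi => ?_
    have := mul_le_mul_of_nonneg_left (hN i (Finset.mem_range.1 hi) j (Finset.mem_range.1 hj))
      (mul_nonneg (hq j (Finset.mem_range.1 hj)) (hp i (Finset.mem_range.1 hi)))
    linarith
  linarith

/-- the statement `cU` -/
def UPt (g0 : ℝ) (lo : ℝ → ℝ) (H : ℕ → ℝ → ℝ → ℝ) : Prop :=
  ∃ (N : ℕ → ℕ → ℝ) (v : ℕ → ℝ), (∀ i < 5, ∀ j < 5, 2 * (v i * v j) ≤ N i j + N j i) ∧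
    ∀ k, 0 < k → k ≤ 7 / 12 → ∀ j < 5,
      ∑ i ∈ range 5, hat kap 4 i k * N i j ≤ U1 g0 (-9 / 8) 0 lo (H j k) k - 1

theorem cert_exists_of_table {x : ℕ → ℝ} {n : ℕ} {T : ℕ → ℕ → ℕ → ℝ} {a gc : ℝ} {A : ℚ}
    (ha : 0 < a) (hA : 0 ≤ A) (hgc : 0 < gc)
    (hlo0 : ∀ k, 0 < k → k ≤ 7 / 12 → -9 / 8 ≤ loP a k)
    (hn : 0 < n) (hx : ∀ a < n, x a < x (a + 1)) (hx0 : x 0 = 0)
    (hxn : x n = 7 / 12) (hM : ∀ a ≤ n, ∀ j < 5, MonoC (T a j))
    (hc1 : ∀ a ≤ n, ∀ j < 5, phC (T a j) 0 ≤ 1 - x a)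
    (hc2 : ∀ a ≤ n, ∀ j < 5, phC (T a j) 0 ≤ A * (1 - gc * x a))
    (cU : UPt (1 + 2 / Real.exp 1) (loP a) (HC x n T))
    (cP : ∀ r, 0 < r → r ≤ 7 / 12 → ∀ τ, -9 / 8 ≤ τ → τ ≤ 0 →
      PPt (1 + 2 / Real.exp 1) A gc (loP a) (hiP a) (HC x n T) r τ)
    (g : ℚ) (hg : 1 + 2 / Real.exp 1 < (g : ℝ)) :
    ∃ (Kn : Kernel) (A g1 : ℚ), 0 ≤ A ∧ Cert Kn g A g1 := by
  obtain ⟨N, v, hN, hU⟩ := cU
  have hcell : ∀ r, 0 < r → r ≤ 7 / 12 →
      cellOf x n r < n ∧ x (cellOf x n r) ≤ r ∧ r ≤ x (cellOf x n r + 1) := fun r h1 h2 =>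
    cellOf_spec (by rw [hx0]; exact h1.le) hn (by rw [hxn]; exact h2)
  have hend : ∀ p q : ℝ, (∀ a ≤ n, ∀ j < 5, phC (T a j) 0 ≤ p + q * x a) → ∀ j < 5, ∀ r, 0 < r →
      r ≤ 7 / 12 → HC x n T j r 0 ≤ p + q * r := fun p q h j hj r h1 h2 => by
    obtain ⟨h3, h4, h5⟩ := hcell r h1 h2
    rw [HC, phC_cfC, ← itp_affine (hx _ h3) p q r]
    exact itp_le (hx _ h3) h4 h5 (h _ h3.le j hj) (h _ h3 j hj)
  have φ0 : ∀ j < 5, ∀ k, 0 < k → k ≤ 7 / 12 → 0 ≤ hat kap 4 j k := fun j _ k h1 h2 =>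
    hat_nonneg kap_lt (by norm_num) j h1.le h2
  have φ1 : ∀ k, 0 < k → k ≤ 7 / 12 → ∑ j ∈ range 5, hat kap 4 j k = 1 := fun k h1 h2 =>
    hat_one kap_lt (by norm_num) h1.le h2
  have cont : ∀ j r, Continuous (HC x n T j r) := fun j r => (prim_phC _).cont
  have hc : ∀ k, 0 < k → k ≤ 7 / 12 → ∀ y : ℝ, ∑ j ∈ range 5, hat kap 4 j k * y = y :=
    fun k h1 h2 y => by rw [← Finset.sum_mul, φ1 k h1 h2, one_mul]
  have hUU : ∀ k l, 0 < k → k ≤ l → l ≤ 7 / 12 →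
      2 + (∑ i ∈ range 5, hat kap 4 i k * v i) * (∑ i ∈ range 5, hat kap 4 i l * v i) +
        (∑ i ∈ range 5, hat kap 4 i l * v i) * (∑ i ∈ range 5, hat kap 4 i k * v i) ≤
      UV (1 + 2 / Real.exp 1) (-9 / 8) 0 (loP a)
        (fun r k τ => ∑ j ∈ range 5, hat kap 4 j k * HC x n T j r τ) k l := fun k l h1 h2 h3 => by
    have h4 := anti_pair_rank hN (fun j hj => φ0 j hj k h1 (h2.trans h3))
      (fun j hj => φ0 j hj l (h1.trans_le h2) h3) (hU k h1 (h2.trans h3)) (hU l (h1.trans_le h2) h3)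
    simp only [mul_sub, Finset.sum_sub_distrib] at h4
    rw [hc k h1 (h2.trans h3), hc l (h1.trans_le h2) h3,
      ← U1_sum (φ1 l (h1.trans_le h2) h3) fun j _ => cont j k,
      ← U1_sum (φ1 k h1 (h2.trans h3)) fun j _ => cont j l, U1, U1] at h4
    rw [UV]
    linarith
  have hle : ∀ p q : ℝ, (∀ a ≤ n, ∀ j < 5, phC (T a j) 0 ≤ p + q * x a) → ∀ r k, 0 < r →
      r ≤ 7 / 12 → 0 < k → k ≤ 7 / 12 →
      ∑ j ∈ range 5, hat kap 4 j k * HC x n T j r 0 ≤ p + q * r := fun p q h r k h1 h2 h3 h4 => by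
    rw [← hc k h3 h4 (p + q * r)]
    exact Finset.sum_le_sum fun j hj => mul_le_mul_of_nonneg_left
      (hend p q h j (Finset.mem_range.1 hj) r h1 h2) (φ0 j (Finset.mem_range.1 hj) k h3 h4)
  refine cert_exists_of_pairG_pade (b := 7 / 12) (τ0 := -9 / 8) (τ1 := 0)
    (χ := fun _ _ _ _ _ => 1) (h := fun r k τ => ∑ j ∈ range 5, hat kap 4 j k * HC x n T j r τ)
    (QU := fun k l => (∑ i ∈ range 5, hat kap 4 i k * v i) * ∑ i ∈ range 5, hat kap 4 i l * v i)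
    (QE := fun _ k l => (∑ i ∈ range 5, hat kap 4 i k * v i) * ∑ i ∈ range 5, hat kap 4 i l * v i)
    (QP := fun _ _ _ _ => 0) ha hA hgc (by norm_num) (by norm_num) (by norm_num) hlo0
    (fun _ _ _ _ => measurable_const) (fun _ _ _ _ _ => zero_le_one) (fun _ _ _ _ _ => le_rfl)
    ⟨copos_rank _, fun _ => copos_rank _, fun _ _ => copos_zero, ?_, ?_, hUU, ?_, ?_⟩ g hg
  · intro r k h1 h2 h3 h4 τ _ τ' _ ht
    obtain ⟨h5, h6, h7⟩ := hcell r h1 h2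
    exact Finset.sum_le_sum fun j hj => mul_le_mul_of_nonneg_left
      ((cfC_mono (hx _ h5) h6 h7 (hM _ h5.le j (Finset.mem_range.1 hj))
        (hM _ h5 j (Finset.mem_range.1 hj))).mono ht) (φ0 j (Finset.mem_range.1 hj) k h3 h4)
  · intro r k h1 h2 h3 h4
    have := hle A (-(A * gc)) (fun a ha j hj => by linarith [hc2 a ha j hj]) r k h1 h2 h3 h4
    exact le_trans (by linarith) (le_max_right _ _)
  · intro r k l h4 h5 h1 h2 h3
    have e1 := hle 1 (-1) (fun a ha j hj => by linarith [hc1 a ha j hj]) r k h4 h5 h1 (h2.trans h3)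
    have e2 := hle 1 (-1) (fun a ha j hj => by linarith [hc1 a ha j hj]) r l h4 h5
      (h1.trans_le h2) h3
    linarith [hUU k l h1 h2 h3]
  · intro r k l h4 h5 h1 h2 h3 τ h6 h7 μ ν hμ hν
    obtain ⟨M, hM', h⟩ := cP r h4 h5 τ h6 h7
    have := anti_pair hM' (fun j hj => φ0 j hj k h1 (h2.trans h3))
      (fun j hj => φ0 j hj l (h1.trans_le h2) h3) (fun j hj => h k h1 (h2.trans h3) j hj μ hμ)
      (fun j hj => h l (h1.trans_le h2) h3 j hj ν hν)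
    simp only [mul_sub, mul_add, Finset.sum_sub_distrib, Finset.sum_add_distrib] at this
    rw [hc k h1 (h2.trans h3), hc l (h1.trans_le h2) h3, hc k h1 (h2.trans h3),
      hc l (h1.trans_le h2) h3] at this
    rw [gainV_sum (φ1 l (h1.trans_le h2) h3) (fun j _ => cont j k) measurable_const
        (fun _ => zero_le_one) (fun _ => le_rfl),
      gainV_sum (φ1 k h1 (h2.trans h3)) (fun j _ => cont j l) measurable_const
        (fun _ => zero_le_one) (fun _ => le_rfl)]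
    linarith

/-- `U1` as a gain: option `B` at `r = 0`, `τ = 0` -/
theorem U1_eq_gainV (g0 τ0 : ℝ) (lo : ℝ → ℝ) (φ : ℝ → ℝ) (k : ℝ) {μ : ℝ} (hμ : μ ≤ 0) :
    U1 g0 τ0 0 lo φ k = min 1 (g0 * k) + gainV (fun _ => 1) φ 0 τ0 0 (lo k) μ := by
  rw [U1, gainV, max_eq_left ((min_le_right _ _).trans (by linarith))]
  simp

/-- `cU` from inequalities on the cells -/
theorem upt_of_cols {x : ℕ → ℝ} {n : ℕ} {T : ℕ → ℕ → ℕ → ℝ} {g0 : ℝ} {lo : ℝ → ℝ}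
    (hn : 0 < n) (hx : ∀ a < n, x a < x (a + 1)) (hx0 : x 0 = 0)
    (hxn : x n = 7 / 12) {pc : ℕ → ℕ}
    (hpc : ∀ a < n, pc a < 4 ∧ kap (pc a) ≤ x a ∧ x (a + 1) ≤ kap (pc a + 1))
    {N : ℕ → ℕ → ℝ} {v : ℕ → ℝ} (hN : ∀ i < 5, ∀ j < 5, 2 * (v i * v j) ≤ N i j + N j i)
    (h : ∀ a < n, ∀ j < 5, ∀ k, 0 < k → x a ≤ k → k ≤ x (a + 1) →
      itp kap (fun i => N i j) (pc a) k ≤ U1 g0 (-9 / 8) 0 lo (phC (cfC x T a j k)) k - 1) :
    UPt g0 lo (HC x n T) := by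
  refine ⟨N, v, hN, fun k h3 h4 j hj => ?_⟩
  obtain ⟨h5, h6, h7⟩ := cellOf_spec (x := x) (r := k) (by rw [hx0]; exact h3.le) hn
    (by rw [hxn]; exact h4)
  obtain ⟨h8, h9, h10⟩ := hpc _ h5
  rw [hat_sum kap_lt (fun i => N i j) h8 (h9.trans h6) (h7.trans h10), HC_cell hx T j h5 h6 h7]
  exact h _ h5 j hj k h3 h6 h7

theorem loP_ge {k : ℝ} (h0 : 0 < k) (h1 : k ≤ 7 / 12) : -9 / 8 ≤ loP (4 / 3) k := by
  rw [loP, padeL]
  have h2 : 0 < (1 + (1 - 3 * k) / 2) * (6 + 2 * ((1 - 3 * k) / 2)) :=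
    mul_pos (by linarith) (by linarith)
  have h3 : -27 / 32 ≤ (1 - 3 * k) / 2 * (6 + 5 * ((1 - 3 * k) / 2)) /
      ((1 + (1 - 3 * k) / 2) * (6 + 2 * ((1 - 3 * k) / 2))) := by
    rw [le_div_iff₀ h2]
    nlinarith
  linarith

end Crest.Agent.R310
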