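import Crest.Agent.R310.Defs

/-! Row 310: basic facts on `dset`, `cost`, the nearest-first assignment `nf`, balls. -/

set_option autoImplicit false
set_option linter.dupNamespace false

namespace Crest.Agent.R310

open Finset Crest.Agent.Lib.PT

namespace II

variable {I : II}

lemma mem_C {j : ℕ} : j ∈ I.C ↔ j < I.N ∧ I.cl j = true := by simp [C]
lemma mem_F {i : ℕ} : i ∈ I.F ↔ i < I.N ∧ I.fa i = true := by simp [F]

/-! ### `dset` -/

lemma dset_le_L (j : ℕ) (T : Finset ℕ) : I.dset j T ≤ I.L := by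
  exact (Finset.fold_min_le _).2 (Or.inl le_rfl)

lemma dset_le {j i : ℕ} {T : Finset ℕ} (hi : i ∈ T) : I.dset j T ≤ I.dd j i := by
  exact (Finset.fold_min_le _).2 (Or.inr ⟨i, hi, le_rfl⟩)

lemma le_dset {j r : ℕ} {T : Finset ℕ} (hL : r ≤ I.L) (h : ∀ i ∈ T, r ≤ I.dd j i) :
    r ≤ I.dset j T := by
  exact (Finset.le_fold_min _).2 ⟨hL, h⟩

lemma exists_dset (hI : I.Valid) (j : ℕ) {T : Finset ℕ} (hT : T.Nonempty) :
    ∃ i ∈ T, I.dset j T = I.dd j i := by
  obtain ⟨i, hi, hmin⟩ := T.exists_min_image (I.dd j) hT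
  exact ⟨i, hi, le_antisymm (dset_le hi) (le_dset (hI.le_L j i) hmin)⟩

lemma dset_mono (j : ℕ) {T T' : Finset ℕ} (h : T ⊆ T') : I.dset j T' ≤ I.dset j T := by
  exact le_dset (dset_le_L j T') fun i hi => dset_le (h hi)

lemma dset_singleton (hI : I.Valid) (j i : ℕ) : I.dset j {i} = I.dd j i := by
  refine le_antisymm (dset_le (Finset.mem_singleton_self i)) (le_dset (hI.le_L j i) fun a ha => ?_)
  rw [Finset.mem_singleton.1 ha]

/-- triangle inequality (both cases: the minimum is `L` or attained) -/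
lemma dset_tri (hI : I.Valid) (j p : ℕ) (T : Finset ℕ) : I.dset j T ≤ I.dd j p + I.dset p T := by
  rcases T.eq_empty_or_nonempty with rfl | hT
  · exact (dset_le_L j ∅).trans ((le_dset le_rfl fun i hi => absurd hi (Finset.notMem_empty i)).trans
      (Nat.le_add_left _ _))
  · obtain ⟨i, hi, e⟩ := exists_dset hI p hT
    rw [e]
    exact (dset_le hi).trans (hI.tri j p i)

lemma dset_toFinset (j : ℕ) (T : List ℕ) :
    I.dset j T.toFinset = (T.map (I.dd j)).foldr min I.L := by
  induction T with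
  | nil => rfl
  | cons a T ih =>
    rw [List.toFinset_cons, List.map_cons, List.foldr_cons, ← ih]
    exact Finset.fold_insert_idem

/-! ### nearest first -/

variable {y : ℕ → ℚ}

lemma YOK.zero_of_ge (hy : I.YOK y) {i : ℕ} (hi : I.N ≤ i) : y i = 0 :=
  hy.supp i fun h => by have := (mem_F.1 h).1; omega

lemma YOK.mem_F (hy : I.YOK y) {i : ℕ} (hi : 0 < y i) : i ∈ I.F := by
  by_contra h; rw [hy.supp i h] at hi; exact lt_irrefl _ hi

lemma nf_nonneg (j i : ℕ) : 0 ≤ I.nf y j i := le_max_left _ _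

lemma nf_le (hy : I.YOK y) (j i : ℕ) : I.nf y j i ≤ y i :=
  max_le (hy.nonneg i) (min_le_left _ _)

lemma cum_nonneg (hy : I.YOK y) (j i : ℕ) : 0 ≤ I.cum y j i := by
  refine sum_nonneg fun a _ => ?_
  split_ifs
  · exact hy.nonneg a
  · exact le_rfl

/-- `bef j` is a strict total order; for every set `U ⊆ range N` that is downward closed for it,
`∑_{U} nf = min 1 (∑_U y)` (induction on `U` removing the last element: `cum` of the last element
is the mass of the rest). -/
lemma nf_sum_lower (hy : I.YOK y) (j : ℕ) (U : Finset ℕ) (hU : U ⊆ range I.N)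
    (hd : ∀ b ∈ U, ∀ a < I.N, I.bef j a b → a ∈ U) :
    ∑ i ∈ U, I.nf y j i = min 1 (∑ i ∈ U, y i) := by
  induction U using Finset.induction_on_max_value (fun i => toLex (I.dd j i, i)) with
  | empty => simp
  | insert a s ha hmax ih =>
    have hm : ∀ x ∈ s, I.bef j x a := fun x hx => by
      have h1 := Prod.Lex.toLex_le_toLex.1 (hmax x hx)
      have h2 : x ≠ a := fun e => ha (e ▸ hx)
      unfold bef
      simp only at h1
      omega
    have ih' := ih (fun x hx => hU (mem_insert_of_mem hx)) fun b hb x hx hxb => by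
      refine (mem_insert.1 (hd b (mem_insert_of_mem hb) x hx hxb)).resolve_left fun e => ?_
      have := hm b hb
      subst e
      unfold bef at this hxb
      omega
    have hc : I.cum y j a = ∑ i ∈ s, y i := by
      unfold cum
      rw [← sum_filter]
      refine sum_congr (Finset.ext fun x => ?_) fun _ _ => rfl
      rw [mem_filter]
      refine ⟨fun h => (mem_insert.1 (hd a (mem_insert_self _ _) x (mem_range.1 h.1)
        h.2)).resolve_left fun e => ?_, fun h => ⟨hU (mem_insert_of_mem h), hm x h⟩⟩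
      have := h.2
      subst e
      unfold bef at this
      omega
    rw [sum_insert ha, sum_insert ha, ih', nf, hc]
    have h0 := hy.nonneg a
    generalize ∑ i ∈ s, y i = S
    simp only [max_def, min_def]
    split_ifs <;> linarith

lemma nf_sum (hy : I.YOK y) (h1 : 1 ≤ I.mass y) (j : ℕ) :
    ∑ i ∈ range I.N, I.nf y j i = 1 := by
  rw [nf_sum_lower hy j _ subset_rfl fun _ _ a ha _ => mem_range.2 ha]
  exact min_eq_left h1

/-- balls are downward closed -/
lemma ball_nf (hy : I.YOK y) (j R : ℕ) : I.ball (I.nf y j) j R = min 1 (I.ball y j R) := by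
  unfold ball
  rw [← sum_filter, ← sum_filter]
  refine nf_sum_lower hy j _ (filter_subset _ _) fun b hb a ha hab => ?_
  have := (mem_filter.1 hb).2
  refine mem_filter.2 ⟨mem_range.2 ha, ?_⟩
  unfold bef at hab
  omega

private lemma helper28_cum (hy : I.YOK y) {j a i : ℕ} (ha : a < I.N) (hb : I.bef j a i) :
    I.cum y j a + y a ≤ I.cum y j i := by
  have e : y a = ∑ c ∈ range I.N, if c = a then y c else 0 := by
    rw [Finset.sum_ite_eq' (range I.N) a, if_pos (mem_range.2 ha)]
  rw [e, cum, cum, ← sum_add_distrib]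
  refine sum_le_sum fun c _ => ?_
  have h0 := hy.nonneg c
  by_cases h1 : c = a
  · subst h1
    rw [if_neg (by unfold bef; omega), if_pos rfl, if_pos hb, zero_add]
  · rw [if_neg h1, add_zero]
    by_cases h2 : I.bef j c a
    · rw [if_pos h2, if_pos (by unfold bef at *; omega)]
    · rw [if_neg h2]
      split_ifs
      · exact h0
      · exact le_rfl

private lemma helper28_lt {j i : ℕ} (h : 0 < I.nf y j i) : I.cum y j i < 1 := by
  rcases lt_max_iff.1 h with h | h
  · exact absurd h (lt_irrefl _)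
  · linarith [(lt_min_iff.1 h).2]

/-- everything before a used point is used fully -/
lemma nf_full (hy : I.YOK y) {j a i : ℕ} (hi : i < I.N) (ha : a < I.N) (h : 0 < I.nf y j i)
    (hb : I.bef j a i) : I.nf y j a = y a := by
  have h1 := helper28_cum hy ha hb
  have h2 := helper28_lt h
  have _ := hi
  rw [nf, min_eq_left (by linarith), max_eq_right (hy.nonneg a)]

/-- a point that is not used fully is at least as far as every used point -/
lemma dd_le_of_nf_lt (hy : I.YOK y) {j a i : ℕ} (hi : i < I.N) (ha : a < I.N)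
    (h : 0 < I.nf y j i) (hlt : I.nf y j a < y a) : I.dd j i ≤ I.dd j a := by
  by_contra hc
  exact hlt.ne (nf_full hy hi ha h (Or.inl (not_le.1 hc)))

/-- the support lies in every ball of mass at least one -/
lemma dd_le_of_ball (hy : I.YOK y) {j i R : ℕ} (hi : i < I.N) (h : 0 < I.nf y j i)
    (hR : 1 ≤ I.ball y j R) : I.dd j i ≤ R := by
  by_contra hc
  have h2 := helper28_lt h
  have _ := hi
  have h3 : I.ball y j R ≤ I.cum y j i := by
    refine sum_le_sum fun c _ => ?_
    by_cases h1 : I.dd j c ≤ R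
    · rw [if_pos h1, if_pos (by unfold bef; omega)]
    · rw [if_neg h1]
      split_ifs
      · exact hy.nonneg c
      · exact le_rfl
  linarith

lemma nf_self (hI : I.Valid) (hy : I.YOK y) (j : ℕ) : I.nf y j j = y j := by
  have h0 : I.cum y j j = 0 := by
    refine sum_eq_zero fun c _ => if_neg ?_
    have h1 := hI.refl j
    have h2 := hI.pos j c
    unfold bef
    omega
  rw [nf, h0, sub_zero, min_eq_left (hy.le_one j), max_eq_right (hy.nonneg j)]

/-- Exchange optimality. (Let `r` be the largest distance used; `∑ (x - nf)(d - r) ≥ 0` termwise: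
for `d < r`, `nf = y ≥ x`; for `d > r`, `nf = 0`.) -/
lemma nf_opt (hy : I.YOK y) (h1 : 1 ≤ I.mass y) (j : ℕ) (x : ℕ → ℚ)
    (h0 : ∀ i < I.N, 0 ≤ x i) (hx : ∀ i < I.N, x i ≤ y i) (hs : ∑ i ∈ range I.N, x i = 1) :
    I.Dc y j ≤ ∑ i ∈ range I.N, x i * (I.dd j i : ℚ) := by
  have hsum := nf_sum hy h1 j
  have hne : ((range I.N).filter fun i => 0 < I.nf y j i).Nonempty := by
    by_contra hc
    rw [Finset.not_nonempty_iff_eq_empty, Finset.filter_eq_empty_iff] at hc
    have : ∑ i ∈ range I.N, I.nf y j i ≤ 0 := Finset.sum_nonpos fun i hi => not_lt.1 (hc hi)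
    linarith
  obtain ⟨i0, hi0, hmax⟩ := Finset.exists_max_image _ (I.dd j) hne
  rw [mem_filter, mem_range] at hi0
  have key : 0 ≤ ∑ i ∈ range I.N, (x i - I.nf y j i) * ((I.dd j i : ℚ) - I.dd j i0) := by
    refine sum_nonneg fun i hi => ?_
    have hi' := mem_range.1 hi
    rcases lt_trichotomy (I.dd j i) (I.dd j i0) with h | h | h
    · have h2 : (I.dd j i : ℚ) < I.dd j i0 := by exact_mod_cast h
      rw [nf_full hy hi0.1 hi' hi0.2 (Or.inl h)]
      exact mul_nonneg_of_nonpos_of_nonpos (by linarith [hx i hi']) (by linarith)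
    · rw [h, sub_self, mul_zero]
    · have h2 : (I.dd j i0 : ℚ) < I.dd j i := by exact_mod_cast h
      have h3 : I.nf y j i = 0 := by
        refine le_antisymm (not_lt.1 fun hp => ?_) (nf_nonneg j i)
        exact absurd (hmax i (mem_filter.2 ⟨hi, hp⟩)) (not_le.2 h)
      rw [h3, sub_zero]
      exact mul_nonneg (h0 i hi') (by linarith)
  have e : ∑ i ∈ range I.N, (x i - I.nf y j i) * ((I.dd j i : ℚ) - I.dd j i0) =
      ∑ i ∈ range I.N, x i * (I.dd j i : ℚ) - I.Dc y j -
        (∑ i ∈ range I.N, x i - ∑ i ∈ range I.N, I.nf y j i) * (I.dd j i0 : ℚ) := by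
    unfold Dc
    rw [← sum_sub_distrib, ← sum_sub_distrib, sum_mul, ← sum_sub_distrib]
    exact sum_congr rfl fun i _ => by ring
  rw [e, hs, hsum] at key
  linarith

lemma Dc_nonneg (j : ℕ) : 0 ≤ I.Dc y j :=
  sum_nonneg fun i _ => mul_nonneg (nf_nonneg j i) (Nat.cast_nonneg _)

lemma lpcost_nonneg : 0 ≤ I.lpcost y :=
  sum_nonneg fun j _ => Dc_nonneg j

/-- At most two used points have mass above one half (all but the last used point are full). -/
lemma nf_two (hy : I.YOK y) (j : ℕ) :
    ((range I.N).filter fun i => 0 < I.nf y j i ∧ 1 / 2 < y i).card ≤ 2 := by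
  by_contra hc
  obtain ⟨a, ha, b, hb, c, hc, hab, hac, hbc⟩ := Finset.two_lt_card.1 (not_le.1 hc)
  have key : ∀ a ∈ (range I.N).filter fun i => 0 < I.nf y j i ∧ 1 / 2 < y i,
      ∀ b ∈ (range I.N).filter fun i => 0 < I.nf y j i ∧ 1 / 2 < y i,
      ∀ c ∈ (range I.N).filter fun i => 0 < I.nf y j i ∧ 1 / 2 < y i,
      ¬ (I.bef j a b ∧ I.bef j b c) := by
    rintro a ha b hb c hc ⟨h1, h2⟩
    simp only [mem_filter, mem_range] at ha hb hc
    have a1 := helper28_cum hy ha.1 h1
    have a2 := helper28_cum hy hb.1 h2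
    have a3 := helper28_lt hc.2.1
    have a4 := cum_nonneg hy j a
    linarith [ha.2.2, hb.2.2]
  have k1 := key a ha b hb c hc
  have k2 := key a ha c hc b hb
  have k3 := key b hb a ha c hc
  have k4 := key b hb c hc a ha
  have k5 := key c hc a ha b hb
  have k6 := key c hc b hb a ha
  unfold bef at k1 k2 k3 k4 k5 k6
  omega

/-- if the ball of radius `R` has mass at least one: `Dc ≤ (1 - y j) R` (use `nf_self`,
`dd_le_of_ball`; when `j ≥ N`, `y j = 0`). -/
lemma Dc_le_ball (hI : I.Valid) (hy : I.YOK y) {j R : ℕ} (hR : 1 ≤ I.ball y j R) :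
    I.Dc y j ≤ (1 - y j) * R := by
  have h1 : ∑ i ∈ range I.N, I.nf y j i ≤ 1 := by
    rw [nf_sum_lower hy j _ subset_rfl fun _ _ a ha _ => mem_range.2 ha]
    exact min_le_left _ _
  have h2 : ∑ i ∈ range I.N, (if i = j then y j else 0) = y j := by
    rw [Finset.sum_ite_eq' (range I.N) j]
    split_ifs with h
    · rfl
    · exact (hy.zero_of_ge (not_lt.1 fun h' => h (mem_range.2 h'))).symm
  have h3 : I.Dc y j ≤ ∑ i ∈ range I.N, (I.nf y j i - if i = j then y j else 0) * (R : ℚ) := by
    refine sum_le_sum fun i hi => ?_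
    by_cases h : i = j
    · subst h
      rw [if_pos rfl, nf_self hI hy, hI.refl, sub_self]
      simp
    · rw [if_neg h, sub_zero]
      rcases (nf_nonneg (I := I) (y := y) j i).eq_or_lt with h0 | h0
      · rw [← h0, zero_mul, zero_mul]
      · have h4 : (I.dd j i : ℚ) ≤ R := by
          exact_mod_cast dd_le_of_ball hy (mem_range.1 hi) h0 hR
        exact mul_le_mul_of_nonneg_left h4 h0.le
  rw [← sum_mul, sum_sub_distrib, h2] at h3
  exact h3.trans (mul_le_mul_of_nonneg_right (by linarith) (Nat.cast_nonneg _))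

/-- mass outside a ball costs at least the radius -/
lemma le_Dc_of_ball (hy : I.YOK y) (h1 : 1 ≤ I.mass y) (j R : ℕ) :
    (1 - I.ball y j R) * ((R : ℚ) + 1) ≤ I.Dc y j := by
  have h2 : I.ball (I.nf y j) j R ≤ I.ball y j R := by
    rw [ball_nf hy]
    exact min_le_right _ _
  have h3 : (∑ i ∈ range I.N, I.nf y j i - I.ball (I.nf y j) j R) * ((R : ℚ) + 1) ≤ I.Dc y j := by
    unfold ball Dc
    rw [← sum_sub_distrib, sum_mul]
    refine sum_le_sum fun i _ => ?_
    have h0 := nf_nonneg (I := I) (y := y) j i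
    split_ifs with h
    · rw [sub_self, zero_mul]
      exact mul_nonneg h0 (Nat.cast_nonneg _)
    · have h4 : (R : ℚ) + 1 ≤ I.dd j i := by exact_mod_cast not_le.1 h
      rw [sub_zero]
      exact mul_le_mul_of_nonneg_left h4 h0
  rw [nf_sum hy h1 j] at h3
  exact (mul_le_mul_of_nonneg_right (by linarith) (by positivity)).trans h3

lemma feas_nf (hy : I.YOK y) (h1 : 1 ≤ I.mass y) : I.Feas (I.nf y) y :=
  ⟨hy, fun j _ i => nf_nonneg j i, fun j _ i => nf_le hy j i, fun j _ => nf_sum hy h1 j⟩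

lemma xcost_nf : I.xcost (I.nf y) = I.lpcost y := rfl

lemma ball_nonneg (hy : I.YOK y) (p R : ℕ) : 0 ≤ I.ball y p R := by
  refine Finset.sum_nonneg fun i _ => ?_
  split_ifs
  · exact hy.nonneg i
  · exact le_rfl

lemma ball_mono (hy : I.YOK y) (p : ℕ) {R R' : ℕ} (h : R ≤ R') : I.ball y p R ≤ I.ball y p R' := by
  refine Finset.sum_le_sum fun i _ => ?_
  by_cases h1 : I.dd p i ≤ R
  · rw [if_pos h1, if_pos (h1.trans h)]
  · rw [if_neg h1]
    split_ifs
    · exact hy.nonneg i
    · exact le_rfl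

lemma ball_le_mass (hy : I.YOK y) (p R : ℕ) : I.ball y p R ≤ I.mass y := by
  refine Finset.sum_le_sum fun i _ => ?_
  split_ifs
  · exact le_rfl
  · exact hy.nonneg i

lemma ball_L (hI : I.Valid) (p : ℕ) : I.ball y p I.L = I.mass y := by
  exact Finset.sum_congr rfl fun i _ => if_pos (hI.le_L p i)

lemma ball_le_ball (hI : I.Valid) (hy : I.YOK y) (p q R : ℕ) :
    I.ball y p R ≤ I.ball y q (I.dd q p + R) := by
  refine Finset.sum_le_sum fun i _ => ?_
  by_cases h1 : I.dd p i ≤ R
  · rw [if_pos h1, if_pos ((hI.tri q p i).trans (Nat.add_le_add_left h1 _))]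
  · rw [if_neg h1]
    split_ifs
    · exact hy.nonneg i
    · exact le_rfl

/-- An opening of mass one is a distribution on single facilities: `nf y j = y`. -/
lemma exists_single (hI : I.Valid) (hy : I.YOK y) (h1 : I.mass y = 1) :
    ∃ i ∈ I.F, (I.cost {i} : ℚ) ≤ I.lpcost y := by
  have hnf : ∀ j, ∀ i ∈ range I.N, I.nf y j i = y i := by
    intro j
    refine (Finset.sum_eq_sum_iff_of_le fun i _ => nf_le hy j i).1 ?_
    rw [nf_sum hy h1.ge j]
    exact h1.symm
  have hlp : I.lpcost y = ∑ i ∈ range I.N, y i * (I.cost {i} : ℚ) := by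
    unfold lpcost Dc cost
    rw [Finset.sum_comm]
    refine Finset.sum_congr rfl fun i hi => ?_
    rw [Nat.cast_sum, Finset.mul_sum]
    refine Finset.sum_congr rfl fun j _ => ?_
    rw [hnf j i hi, dset_singleton hI]
  by_contra hcon
  push Not at hcon
  have hex : ∃ i ∈ range I.N, 0 < y i := by
    by_contra hno
    push Not at hno
    have : I.mass y ≤ 0 := Finset.sum_nonpos hno
    rw [h1] at this
    exact absurd this (by norm_num)
  obtain ⟨i0, hi0, hpos⟩ := hex
  have hlt : ∑ i ∈ range I.N, y i * I.lpcost y < ∑ i ∈ range I.N, y i * (I.cost {i} : ℚ) := by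
    refine Finset.sum_lt_sum (fun i _ => ?_) ⟨i0, hi0, ?_⟩
    · rcases (hy.nonneg i).eq_or_lt with h0 | h0
      · rw [← h0, zero_mul, zero_mul]
      · exact mul_le_mul_of_nonneg_left (hcon i (hy.mem_F h0)).le h0.le
    · exact mul_lt_mul_of_pos_left (hcon i0 (hy.mem_F hpos)) hpos
  rw [← Finset.sum_mul, ← hlp] at hlt
  have h2 : ∑ i ∈ range I.N, y i = 1 := h1
  rw [h2, one_mul] at hlt
  exact lt_irrefl _ hlt

/-- Convex combination of an integral solution and an LP solution
(`x_O j` = indicator of a nearest point of `O`, see `exists_dset`). -/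
lemma exists_mix (hI : I.Valid) {O : Finset ℕ} (hO : O ⊆ I.F) (hne : O.Nonempty)
    {x' : ℕ → ℕ → ℚ} {y' : ℕ → ℚ} (hf : I.Feas x' y') {a : ℚ} (ha0 : 0 ≤ a) (ha1 : a ≤ 1) :
    ∃ x'' y'', I.Feas x'' y'' ∧ I.mass y'' = (1 - a) * O.card + a * I.mass y' ∧
      I.xcost x'' = (1 - a) * (I.cost O : ℚ) + a * I.xcost x' := by
  choose n hn hnd using fun j => exists_dset hI j hne
  have hON : O ⊆ range I.N := fun i hi => Finset.mem_range.2 (mem_F.1 (hO hi)).1
  have ha : 0 ≤ 1 - a := sub_nonneg.2 ha1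
  refine ⟨fun j i => (1 - a) * (if i = n j then 1 else 0) + a * x' j i,
    fun i => (1 - a) * (if i ∈ O then 1 else 0) + a * y' i, ⟨⟨?_, ?_, ?_⟩, ?_, ?_, ?_⟩, ?_, ?_⟩
  · intro i
    have := hf.yok.nonneg i
    split_ifs <;> positivity
  · intro i
    have h1 := mul_le_mul_of_nonneg_left (hf.yok.le_one i) ha0
    split_ifs <;> linarith
  · intro i hi
    rw [if_neg fun h => hi (hO h), hf.yok.supp i hi]
    ring
  · intro j hj i
    have := hf.nonneg j hj i
    split_ifs <;> positivity
  · intro j hj i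
    have h1 := mul_le_mul_of_nonneg_left (hf.le j hj i) ha0
    by_cases h : i = n j
    · rw [if_pos h, if_pos (h ▸ hn j)]
      linarith
    · rw [if_neg h]
      split_ifs <;> linarith
  · intro j hj
    rw [Finset.sum_add_distrib, ← Finset.mul_sum, ← Finset.mul_sum, hf.sum j hj,
      Finset.sum_ite_eq' (range I.N) (n j), if_pos (hON (hn j))]
    ring
  · unfold mass
    rw [Finset.sum_add_distrib, ← Finset.mul_sum, ← Finset.mul_sum, Finset.sum_ite_mem,
      Finset.inter_eq_right.2 hON]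
    simp
  · unfold xcost cost
    rw [Nat.cast_sum, Finset.mul_sum, Finset.mul_sum, ← Finset.sum_add_distrib]
    refine Finset.sum_congr rfl fun j _ => ?_
    simp only [add_mul, Finset.sum_add_distrib, mul_assoc, ← Finset.mul_sum, ite_mul, one_mul,
      zero_mul]
    rw [Finset.sum_ite_eq' (range I.N) (n j), if_pos (hON (hn j)), hnd j]

end II

/-! ### polynomial time -/

section PT
variable {α : Type} [Enc α] {I : α → II} {y : α → ℕ → ℚ} {i j a : α → ℕ}

@[fun_prop] lemma pt_bef (hI : II.PTF I) (hj : PT j) (ha : PT a) (hi : PT i) :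
    PT fun c => decide ((I c).bef (j c) (a c) (i c)) := by
  simp only [II.bef]; fun_prop

@[fun_prop] lemma pt_mass (hI : II.PTF I) (hy : PT fun p : α × ℕ => y p.1 p.2) :
    PT fun c => (I c).mass (y c) := by
  simp only [II.mass]; fun_prop

@[fun_prop] lemma pt_cum (hI : II.PTF I) (hy : PT fun p : α × ℕ => y p.1 p.2) (hj : PT j)
    (hi : PT i) : PT fun c => (I c).cum (y c) (j c) (i c) := by
  simp only [II.cum]; fun_prop

@[fun_prop] lemma pt_nf (hI : II.PTF I) (hy : PT fun p : α × ℕ => y p.1 p.2) (hj : PT j)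
    (hi : PT i) : PT fun c => (I c).nf (y c) (j c) (i c) := by
  simp only [II.nf]; fun_prop

@[fun_prop] lemma pt_Dc (hI : II.PTF I) (hy : PT fun p : α × ℕ => y p.1 p.2) (hj : PT j) :
    PT fun c => (I c).Dc (y c) (j c) := by
  simp only [II.Dc]; fun_prop

@[fun_prop] lemma pt_ball (hI : II.PTF I) (hy : PT fun p : α × ℕ => y p.1 p.2) (hj : PT j)
    (hi : PT i) : PT fun c => (I c).ball (y c) (j c) (i c) := by
  simp only [II.ball]; fun_prop

@[fun_prop] lemma pt_lpcost (hI : II.PTF I) (hy : PT fun p : α × ℕ => y p.1 p.2) :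
    PT fun c => (I c).lpcost (y c) := by
  simp only [II.lpcost, II.C, Finset.sum_filter]; fun_prop

@[fun_prop] lemma pt_dset {T : α → List ℕ} (hI : II.PTF I) (hj : PT j) (hT : PT T) :
    PT fun c => (I c).dset (j c) (T c).toFinset := by
  simp only [II.dset_toFinset]; fun_prop

@[fun_prop] lemma pt_cost {T : α → List ℕ} (hI : II.PTF I) (hT : PT T) :
    PT fun c => (I c).cost (T c).toFinset := by
  simp only [II.cost, II.C, Finset.sum_filter]; fun_prop

@[fun_prop] lemma pt_mm (M : ℕ) (hj : PT j) (hi : PT i) : PT fun c => mm M (j c) (i c) := by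
  simp only [mm]; fun_prop

@[fun_prop] lemma pt_Isum (M : ℕ) (hy : PT fun p : α × ℕ => y p.1 p.2) (hj : PT j) (hi : PT i) :
    PT fun c => Isum M (y c) (j c) (i c) := by
  simp only [Isum]; fun_prop

end PT

end Crest.Agent.R310
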