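import Crest.Agent.R310.NProg

/-! Row 310, column route: assembly. -/

set_option autoImplicit false
set_option linter.dupNamespace false

namespace Crest.Agent.R310.NP

open Crest.Agent.Lib.IBox

theorem cert_of_tab {T : ℕ → ℕ → V9} {NU : ℕ → ℕ → ℤ} {vU : ℕ → ℤ} (hT : TabOK T NU vU) (hU : UStat T)
    (hP : ∀ ar < 11, PB T ar (lo240 (xI ar)) (hi240 (xI (ar + 1))) (-1374389534720) 0)
    (g : ℚ) (hg : 1 + 2 / Real.exp 1 < (g : ℝ)) :
    ∃ (Kn : Kernel) (A g1 : ℚ), 0 ≤ A ∧ Cert Kn g A g1 := by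
  sorry

end Crest.Agent.R310.NP
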