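import Crest.Agent.R310.NMain
import Crest.Agent.R310.Anti2

/-! Row 310, column route, general form: any partner nodes `y 0 = 0 < … < y m = b`, any family of
time profiles `P c` that is affine in the coefficient vector, copositive matrices. -/

set_option autoImplicit false
set_option linter.dupNamespace false

namespace Crest.Agent.R310

open Finset

/-- columns for a general profile map `P` -/
noncomputable def HG (P : (ℕ → ℝ) → ℝ → ℝ) (x : ℕ → ℝ) (n : ℕ) (T : ℕ → ℕ → ℕ → ℝ) (j : ℕ) (r : ℝ) :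
    ℝ → ℝ := P (cfC x T (cellOf x n r) j r)

theorem HG_cell (P : (ℕ → ℝ) → ℝ → ℝ) {x : ℕ → ℝ} {n : ℕ} (hx : ∀ a < n, x a < x (a + 1))
    (T : ℕ → ℕ → ℕ → ℝ) (j : ℕ) {a : ℕ} {r : ℝ} (ha : a < n) (h1 : x a ≤ r) (h2 : r ≤ x (a + 1)) :
    HG P x n T j r = P (cfC x T a j r) := by
  rw [HG]
  congr 1
  funext q
  exact itp_cell hx _ ha h1 h2

/-- Everything cell by cell.  `x`: own nodes, `y`: partner nodes, `pc a`: the partner cell that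
contains the own cell `a`. -/
structure CellCert (P : (ℕ → ℝ) → ℝ → ℝ) (n m : ℕ) (x y : ℕ → ℝ) (pc : ℕ → ℕ)
    (T : ℕ → ℕ → ℕ → ℝ) (g0 b τ0 τ1 A gc : ℝ) (lo : ℝ → ℝ) (hi : ℝ → ℝ → ℝ) : Prop where
  n0 : 0 < n
  m0 : 0 < m
  hx : ∀ a < n, x a < x (a + 1)
  hy : ∀ a < m, y a < y (a + 1)
  x0 : x 0 = 0
  xn : x n = b
  y0 : y 0 = 0
  ym : y m = b
  hpc : ∀ a < n, pc a < m ∧ y (pc a) ≤ x a ∧ x (a + 1) ≤ y (pc a + 1)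
  cont : ∀ c, Continuous (P c)
  mono : ∀ a < n, ∀ j ≤ m, ∀ r, x a ≤ r → r ≤ x (a + 1) →
    MonotoneOn (P (cfC x T a j r)) (Set.Icc τ0 τ1)
  le_ub : ∀ a < n, ∀ j ≤ m, ∀ r, x a ≤ r → r ≤ x (a + 1) →
    P (cfC x T a j r) τ1 ≤ max 0 (A * (1 - gc * r))
  cU : ∃ N : ℕ → ℕ → ℝ, CoposM (m + 1) N ∧ ∀ a < n, ∀ j ≤ m, ∀ k, 0 < k → x a ≤ k → k ≤ x (a + 1) →
    itp y (fun i => N i j) (pc a) k ≤ U1 g0 τ0 τ1 lo (P (cfC x T a j k)) k - 1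
  cE : ∀ ar < n, ∀ r, 0 < r → x ar ≤ r → r ≤ x (ar + 1) → ∃ N : ℕ → ℕ → ℝ, CoposM (m + 1) N ∧
    ∀ a < n, ∀ j ≤ m, ∀ k, 0 < k → x a ≤ k → k ≤ x (a + 1) →
      itp y (fun i => N i j) (pc a) k ≤ U1 g0 τ0 τ1 lo (P (cfC x T a j k)) k -
        P (cfC x T ar j r) τ1 - r
  cP : ∀ ar < n, ∀ r, 0 < r → x ar ≤ r → r ≤ x (ar + 1) → ∀ τ, τ0 ≤ τ → τ ≤ τ1 →
    ∃ N : ℕ → ℕ → ℝ, CoposM (m + 1) N ∧
    ∀ a < n, ∀ j ≤ m, ∀ k, 0 < k → x a ≤ k → k ≤ x (a + 1) → ∀ μ,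
      (μ = hi r k ∨ (lo k < hi r k ∧ μ = min (lo k) (hi r k))) →
      itp y (fun i => N i j) (pc a) k ≤ min 1 (g0 * k) - min r (g0 * k) +
        gainV (fun _ => 1) (P (cfC x T a j k)) (capR A gc k r) τ0 τ (max (lo k) μ) μ -
        P (cfC x T ar j r) τ

theorem CellCert.colM {P : (ℕ → ℝ) → ℝ → ℝ} {n m : ℕ} {x y : ℕ → ℝ} {pc : ℕ → ℕ}
    {T : ℕ → ℕ → ℕ → ℝ} {g0 b τ0 τ1 A gc : ℝ} {lo : ℝ → ℝ} {hi : ℝ → ℝ → ℝ}
    (C : CellCert P n m x y pc T g0 b τ0 τ1 A gc lo hi) :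
    ColCertM (m + 1) g0 b τ0 τ1 (fun d => max 0 (A * (1 - gc * d))) lo hi (capR A gc)
      (fun _ _ _ _ _ => 1) (hat y m) (HG P x n T) := by
  have hcell : ∀ r, 0 < r → r ≤ b →
      cellOf x n r < n ∧ x (cellOf x n r) ≤ r ∧ r ≤ x (cellOf x n r + 1) := fun r h1 h2 =>
    cellOf_spec (by rw [C.x0]; exact h1.le) C.n0 (by rw [C.xn]; exact h2)
  have hhat : ∀ k, 0 < k → k ≤ b → ∀ v : ℕ → ℝ, ∑ i ∈ range (m + 1), hat y m i k * v i =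
      itp y v (pc (cellOf x n k)) k := fun k h1 h2 v => by
    obtain ⟨h5, h6, h7⟩ := hcell k h1 h2
    obtain ⟨h8, h9, h10⟩ := C.hpc _ h5
    exact hat_sum C.hy v h8 (h9.trans h6) (h7.trans h10)
  refine ⟨fun j _ k h1 h2 => hat_nonneg C.hy C.m0 j (by rw [C.y0]; exact h1.le)
      (by rw [C.ym]; exact h2),
    fun k h1 h2 => hat_one C.hy C.m0 (by rw [C.y0]; exact h1.le) (by rw [C.ym]; exact h2),
    fun j _ r _ _ => C.cont _, fun j hj r h1 h2 => ?_, fun j hj r h1 h2 => ?_, ?_,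
    fun r h1 h2 => ?_, fun r h1 h2 τ h3 h4 => ?_⟩
  · obtain ⟨h3, h4, h5⟩ := hcell r h1 h2
    exact C.mono _ h3 j (by omega) r h4 h5
  · obtain ⟨h3, h4, h5⟩ := hcell r h1 h2
    exact C.le_ub _ h3 j (by omega) r h4 h5
  · obtain ⟨N, hN, h⟩ := C.cU
    refine ⟨N, hN, fun k h1 h2 j hj => ?_⟩
    obtain ⟨h3, h4, h5⟩ := hcell k h1 h2
    rw [hhat k h1 h2 fun i => N i j]
    exact h _ h3 j (by omega) k h1 h4 h5
  · obtain ⟨h6, h7, h8⟩ := hcell r h1 h2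
    obtain ⟨N, hN, h⟩ := C.cE _ h6 r h1 h7 h8
    refine ⟨N, hN, fun k h1 h2 j hj => ?_⟩
    obtain ⟨h3, h4, h5⟩ := hcell k h1 h2
    rw [hhat k h1 h2 fun i => N i j]
    exact h _ h3 j (by omega) k h1 h4 h5
  · obtain ⟨h6, h7, h8⟩ := hcell r h1 h2
    obtain ⟨N, hN, h⟩ := C.cP _ h6 r h1 h7 h8 τ h3 h4
    refine ⟨N, hN, fun k h1 h2 j hj μ hμ => ?_⟩
    obtain ⟨h3, h4, h5⟩ := hcell k h1 h2
    rw [hhat k h1 h2 fun i => N i j]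
    refine h _ h3 j (by omega) k h1 h4 h5 μ ?_
    rcases hμ with h9 | h9
    · by_cases hc : lo k < hi r k
      · exact Or.inr ⟨hc, h9⟩
      · exact Or.inl (by rw [h9, min_eq_right (not_lt.1 hc)])
    · exact Or.inl h9

theorem cert_exists_of_cell {P : (ℕ → ℝ) → ℝ → ℝ} {n m : ℕ} {x y : ℕ → ℝ} {pc : ℕ → ℕ}
    {T : ℕ → ℕ → ℕ → ℝ} {a b τ0 τ1 gc : ℝ} {A : ℚ} (ha : 0 < a) (hA : 0 ≤ A) (hgc : 0 < gc)
    (hb : 29 / 50 ≤ b) (hb1 : b < 1) (hτ : τ0 ≤ τ1)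
    (hlo0 : ∀ k, 0 < k → k ≤ b → τ0 ≤ loP a k)
    (C : CellCert P n m x y pc T (1 + 2 / Real.exp 1) b τ0 τ1 A gc (loP a) (hiP a))
    (g : ℚ) (hg : 1 + 2 / Real.exp 1 < (g : ℝ)) :
    ∃ (Kn : Kernel) (A g1 : ℚ), 0 ≤ A ∧ Cert Kn g A g1 :=
  cert_exists_of_colM_pade ha hA hgc hb hb1 hτ hlo0 (fun _ _ _ _ => measurable_const)
    (fun _ _ _ _ _ => zero_le_one) (fun _ _ _ _ _ => le_rfl) C.colM g hg

end Crest.Agent.R310
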