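import Crest.Agent.R310.NProg

/-! Row 310, column route: the jobs of a record, numbered, so that they can be checked in small groups. -/

set_option autoImplicit false
set_option linter.dupNamespace false

namespace Crest.Agent.R310.NP

open Crest.Agent.Lib.IBox

noncomputable section

def ztP (R : Rec) (j ak : ℕ) : ℕ :=
  if j = 3 ∧ (ak = 5 ∨ ak = 6) ∧ (R.ar = 5 ∨ R.ar = 6) then R.zt else 0
def zoP (R : Rec) (j ak : ℕ) : ℕ := if j = 0 ∧ ak = 0 ∧ R.ar = 0 then 5 else 0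

def psA (T : ℕ → ℕ → V9) (R : Rec) (j ak : ℕ) : List Pg :=
  [genA (T ak j) ((T (ak + 1) j).sub (T ak j)) (T R.ar j) ((T (R.ar + 1) j).sub (T R.ar j))
      (getN R.N (pcI ak) j) ((getN R.N (pcI ak + 1) j).sub (getN R.N (pcI ak) j)) (.ofNat (xI ak))
      (wd xI ak) (.ofNat (xI R.ar)) (wd xI R.ar) (.ofNat (yI (pcI ak))) (wd yI (pcI ak)),
    deadA (T R.ar j) ((T (R.ar + 1) j).sub (T R.ar j))
      (getN R.N (pcI ak) j) ((getN R.N (pcI ak + 1) j).sub (getN R.N (pcI ak) j))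
      (.ofNat (xI R.ar)) (wd xI R.ar) (.ofNat (yI (pcI ak))) (wd yI (pcI ak)) (.ofNat (ztP R j ak))
      (sgn R.ar) (sgn ak) (.ofNat (zoP R j ak)) (.ofNat 71666)]

def psB (T : ℕ → ℕ → V9) (R : Rec) (j ak : ℕ) : List Pg :=
  [genB (T ak j) ((T (ak + 1) j).sub (T ak j)) (T R.ar j) ((T (R.ar + 1) j).sub (T R.ar j))
      (getN R.N (pcI ak) j) ((getN R.N (pcI ak + 1) j).sub (getN R.N (pcI ak) j)) (.ofNat (xI ak))
      (wd xI ak) (.ofNat (xI R.ar)) (wd xI R.ar) (.ofNat (yI (pcI ak))) (wd yI (pcI ak)),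
    deadB (T R.ar j) ((T (R.ar + 1) j).sub (T R.ar j))
      (getN R.N (pcI ak) j) ((getN R.N (pcI ak + 1) j).sub (getN R.N (pcI ak) j))
      (.ofNat (xI R.ar)) (wd xI R.ar) (.ofNat (yI (pcI ak))) (wd yI (pcI ak)) (.ofNat (ztP R j ak))
      (sgn R.ar) (sgn ak) (.ofNat (zoP R j ak)) (.ofNat 71666)]

def psTA (T : ℕ → ℕ → V9) (R : Rec) (ak : ℕ) : List Pg :=
  [tipA (T (nbI ak) 3).eta (T (nbI R.ar) 3).eta (getN R.N (nbY ak) 3) (wd xI ak) (wd xI R.ar)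
    (wd yI (pcI ak)) (R.zt - 1) (sgn R.ar) (sgn ak)]

def psTB (T : ℕ → ℕ → V9) (R : Rec) (ak : ℕ) : List Pg :=
  [tipB (T (nbI ak) 3).eta (T (nbI R.ar) 3).eta (getN R.N (nbY ak) 3) (wd xI ak) (wd xI R.ar)
    (wd yI (pcI ak)) (R.zt - 1) (sgn R.ar) (sgn ak)]

def rbM (R : Rec) (ak : ℕ) : Bx :=
  ⟨R.r1, R.r2, lo240 (xI ak), hi240 (xI (ak + 1)), R.t1, R.t2, .ofNat 0, .ofNat 0⟩

def rbT (R : Rec) : Bx :=
  ⟨.ofNat 0, hi960 R.zt, .ofNat 0, .ofNat S, R.t1, R.t2, .ofNat 0, .ofNat 0⟩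

/-- everything the box prover certifies for a record -/
structure RecOK (T : ℕ → ℕ → V9) (R : Rec) : Prop where
  zt : R.zt ≤ 20
  hA : ∀ j < 7, ∀ ak < 11, HoldsT 4 [gE] (psA T R j ak) (rbM R ak)
  hB : ∀ j < 7, ∀ ak < 11, HoldsT 4 [gE] (psB T R j ak) (rbM R ak)
  tA : R.zt ≠ 0 → ∀ ak, ak = 5 ∨ ak = 6 → HoldsT 4 [gE] (psTA T R ak) (rbT R)
  tB : R.zt ≠ 0 → ∀ ak, ak = 5 ∨ ak = 6 → HoldsT 4 [gE] (psTB T R ak) (rbT R)

end

end Crest.Agent.R310.NP
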