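import Crest.Agent.R310.NBase

/-! Row 310, column route: the real-variable form of the main programs. -/

set_option autoImplicit false
set_option linter.dupNamespace false

namespace Crest.Agent.R310

open Finset

/-- total weight of the gain functional -/
noncomputable def kapW (τ0 τ lam μ : ℝ) : ℝ := min 1 (lam - τ0) - max 0 (min 1 (μ - τ))

theorem kapW_nonneg {τ0 τ lam μ : ℝ} (h0 : τ0 ≤ τ) (hl : τ0 ≤ lam) (hμ : μ ≤ lam) :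
    0 ≤ kapW τ0 τ lam μ :=
  sub_nonneg.2 (max_le (le_min zero_le_one (by linarith)) (min_le_min_left _ (by linarith)))

theorem gainV_chargeW {φ Φ : ℝ → ℝ} (h : Prim φ Φ) (c1 c2 τ0 τ lam μ : ℝ) :
    gainV (fun _ => 1) φ c1 τ0 τ lam μ =
      gainV (fun _ => 1) φ c2 τ0 τ lam μ - (c1 - c2) * kapW τ0 τ lam μ := by
  rw [gainV_one h, gainV_one h, kapW]
  ring

theorem gen_lb {φ Φ : ℝ → ℝ} (h : Prim φ Φ) (hm : Monotone φ) {c c1 τ0 τ lam μ l' m' θ : ℝ}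
    (h0 : τ0 ≤ τ) (hμ : μ ≤ lam) (hl0 : τ0 ≤ l') (hl : l' ≤ lam) (hm' : μ ≤ m') (hc : c ≤ c1)
    (hθ0 : 0 ≤ θ) (hθ1 : θ ≤ 1) :
    θ * Ghat φ Φ τ0 τ l' m' (min c1 (φ (min τ (max (l' - 1) τ0)))) -
      (c1 - min c1 (φ (min τ (max (l' - 1) τ0)))) * kapW τ0 τ lam μ ≤
      gainV (fun _ => 1) φ c τ0 τ lam μ := by
  have h1 := Ghat_le h hm h0 hμ hl0 hl hm' (le_refl (min c1 (φ (min τ (max (l' - 1) τ0)))))
    (min_le_right _ _) hθ0 hθ1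
  have h2 := gainV_chargeW h c (min c1 (φ (min τ (max (l' - 1) τ0)))) τ0 τ lam μ
  have h3 := mul_le_mul_of_nonneg_right hc (kapW_nonneg h0 (hl0.trans hl) hμ)
  linarith

theorem budget_lb {θ r y : ℝ} (h0 : 0 ≤ θ) (h1 : θ ≤ 1) (hr : r ≤ 1) :
    θ * (min 1 y - r) ≤ min 1 y - min r y := by
  have h2 : min 1 y - r ≤ min 1 y - min r y := by linarith [min_le_left r y]
  have h3 : 0 ≤ min 1 y - min r y := sub_nonneg.2 (min_le_min_right _ hr)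
  nlinarith [mul_le_mul_of_nonneg_left h2 h0, mul_nonneg (sub_nonneg.2 h1) h3]

theorem cap_ub (A gc k r : ℝ) {θ : ℝ} (h0 : 0 ≤ θ) (h1 : θ ≤ 1) :
    capR A gc k r ≤ max 0 (θ * (r - k) + (1 - θ) * (A * (r - gc * k))) := by
  refine max_le_max_left _ ?_
  nlinarith [mul_le_mul_of_nonneg_left (min_le_left (r - k) (A * (r - gc * k))) h0,
    mul_le_mul_of_nonneg_left (min_le_right (r - k) (A * (r - gc * k))) (sub_nonneg.2 h1)]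

/-- the column inequality for one candidate `μ` -/
def ColI (g0 A gc τ0 : ℝ) (ck cr : ℕ → ℝ) (Nv r k τ lo μ : ℝ) : Prop :=
  Nv ≤ min 1 (g0 * k) - min r (g0 * k) +
    gainV (fun _ => 1) (phC ck) (capR A gc k r) τ0 τ (max lo μ) μ - phC cr τ

theorem colI_dead {g0 A gc τ0 : ℝ} {ck cr : ℕ → ℝ} {Nv r k τ lo μ θ1 : ℝ} (h0 : τ0 ≤ τ) (hr : r ≤ 1)
    (a0 : 0 ≤ θ1) (a1 : θ1 ≤ 1) (h1 : τ ≤ μ - 1)
    (h2 : phC cr τ + Nv ≤ θ1 * (min 1 (g0 * k) - r)) : ColI g0 A gc τ0 ck cr Nv r k τ lo μ := by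
  rw [ColI, gainV_dead _ _ _ h0 (le_max_right _ _) h1]
  linarith [budget_lb (y := g0 * k) a0 a1 hr]

theorem colI_gen {g0 A gc τ0 : ℝ} {ck cr : ℕ → ℝ} {Nv r k τ lo μ θ1 θ2 θ4 l' m' c1 : ℝ}
    (hM : MonoC ck) (h0 : τ0 ≤ τ) (hr : r ≤ 1) (a0 : 0 ≤ θ1) (a1 : θ1 ≤ 1) (b0 : 0 ≤ θ2)
    (b1 : θ2 ≤ 1) (d0 : 0 ≤ θ4) (d1 : θ4 ≤ 1) (hl0 : τ0 ≤ l') (hl : l' ≤ max lo μ) (hm : μ ≤ m')
    (hc : c1 = max 0 (θ2 * (r - k) + (1 - θ2) * (A * (r - gc * k))))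
    (h2 : phC cr τ + Nv ≤ θ1 * (min 1 (g0 * k) - r) +
      (θ4 * Ghat (phC ck) (PhC ck) τ0 τ l' m' (min c1 (phC ck (min τ (max (l' - 1) τ0)))) -
        (c1 - min c1 (phC ck (min τ (max (l' - 1) τ0)))) * kapW τ0 τ (max lo μ) μ)) :
    ColI g0 A gc τ0 ck cr Nv r k τ lo μ := by
  have h3 := gen_lb (prim_phC ck) hM.mono h0 (le_max_right lo μ) hl0 hl hm
    ((cap_ub A gc k r b0 b1).trans hc.ge) d0 d1
  rw [ColI]
  linarith [budget_lb (y := g0 * k) a0 a1 hr]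

theorem mixA_le (lo hi : ℝ) {θ : ℝ} (h0 : 0 ≤ θ) (h1 : θ ≤ 1) :
    lo - (1 - θ) * (lo - hi) ≤ max lo hi := by
  nlinarith [mul_le_mul_of_nonneg_left (le_max_left lo hi) h0,
    mul_le_mul_of_nonneg_left (le_max_right lo hi) (sub_nonneg.2 h1)]

theorem le_mixB (lo hi : ℝ) {θ : ℝ} (h0 : 0 ≤ θ) (h1 : θ ≤ 1) :
    min lo hi ≤ hi + θ * (lo - hi) := by
  nlinarith [mul_le_mul_of_nonneg_left (min_le_left lo hi) h0,
    mul_le_mul_of_nonneg_left (min_le_right lo hi) (sub_nonneg.2 h1)]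

/-- the statement `cP` at one point `(r, τ)` -/
def PPt (g0 A gc : ℝ) (lo : ℝ → ℝ) (hi : ℝ → ℝ → ℝ) (H : ℕ → ℝ → ℝ → ℝ) (r τ : ℝ) : Prop :=
  ∃ N : ℕ → ℕ → ℝ, (∀ i j, 0 ≤ N i j + N j i) ∧ ∀ k, 0 < k → k ≤ 7 / 12 → ∀ j < 5, ∀ μ,
    (μ = min (lo k) (hi r k) ∨ μ = hi r k) →
    ∑ i ∈ range 5, hat kap 4 i k * N i j ≤ min 1 (g0 * k) - min r (g0 * k) +
      gainV (fun _ => 1) (H j k) (capR A gc k r) (-9 / 8) τ (max (lo k) μ) μ - H j r τ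

/-- `cP` at a point from the column inequalities on the cells; `pc a` is the partner cell that
contains the own cell `a`. -/
theorem ppt_of_cols {x : ℕ → ℝ} {n : ℕ} {T : ℕ → ℕ → ℕ → ℝ} {g0 A gc : ℝ} {lo : ℝ → ℝ}
    {hi : ℝ → ℝ → ℝ} (hn : 0 < n) (hx : ∀ a < n, x a < x (a + 1)) (hx0 : x 0 = 0)
    (hxn : x n = 7 / 12) {pc : ℕ → ℕ}
    (hpc : ∀ a < n, pc a < 4 ∧ kap (pc a) ≤ x a ∧ x (a + 1) ≤ kap (pc a + 1))
    {r τ : ℝ} {ar : ℕ} (har : ar < n) (h1 : x ar ≤ r) (h2 : r ≤ x (ar + 1)) {N : ℕ → ℕ → ℝ}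
    (hN : ∀ i j, 0 ≤ N i j + N j i)
    (hA : ∀ a < n, ∀ j < 5, ∀ k, 0 < k → x a ≤ k → k ≤ x (a + 1) →
      ColI g0 A gc (-9 / 8) (cfC x T a j k) (cfC x T ar j r) (itp kap (fun i => N i j) (pc a) k)
        r k τ (lo k) (hi r k))
    (hB : ∀ a < n, ∀ j < 5, ∀ k, 0 < k → x a ≤ k → k ≤ x (a + 1) → lo k < hi r k →
      ColI g0 A gc (-9 / 8) (cfC x T a j k) (cfC x T ar j r) (itp kap (fun i => N i j) (pc a) k)
        r k τ (lo k) (min (lo k) (hi r k))) :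
    PPt g0 A gc lo hi (HC x n T) r τ := by
  refine ⟨N, hN, fun k h3 h4 j hj μ hμ => ?_⟩
  obtain ⟨h5, h6, h7⟩ := cellOf_spec (x := x) (r := k) (by rw [hx0]; exact h3.le) hn
    (by rw [hxn]; exact h4)
  obtain ⟨h8, h9, h10⟩ := hpc _ h5
  rw [hat_sum kap_lt (fun i => N i j) h8 (h9.trans h6) (h7.trans h10), HC_cell hx T j har h1 h2,
    HC_cell hx T j h5 h6 h7]
  by_cases hc : lo k < hi r k
  · rcases hμ with rfl | rfl
    · exact hB _ h5 j hj k h3 h6 h7 hc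
    · exact hA _ h5 j hj k h3 h6 h7
  · obtain rfl : μ = hi r k := hμ.elim (fun h => by rw [h, min_eq_right (not_lt.1 hc)]) id
    exact hA _ h5 j hj k h3 h6 h7

end Crest.Agent.R310
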