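import Crest.Agent.R310.NGen

/-! Row 310, column route: time profiles with any number of knots. -/

set_option autoImplicit false
set_option linter.dupNamespace false

namespace Crest.Agent.R310

open Finset

/-- profile `c 0 + c 1 * exp s + ∑ i < m, c (i + 2) * (s - t i)₊` -/
noncomputable def phK (m : ℕ) (t c : ℕ → ℝ) (s : ℝ) : ℝ :=
  c 0 + c 1 * Real.exp s + ∑ i ∈ range m, c (i + 2) * max (s - t i) 0

/-- its primitive -/
noncomputable def PhK (m : ℕ) (t c : ℕ → ℝ) (x : ℝ) : ℝ :=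
  c 0 * x + c 1 * Real.exp x + ∑ i ∈ range m, c (i + 2) * (max (x - t i) 0 ^ 2 / 2)

theorem prim_phK (m : ℕ) (t c : ℕ → ℝ) : Prim (phK m t c) (PhK m t c) :=
  (((prim_const (c 0)).add (prim_exp.const_mul (c 1))).add
    (Prim.sum (n := m) (φ := fun i s => max (s - t i) 0) (Φ := fun i x => max (x - t i) 0 ^ 2 / 2)
      (fun i _ => by simpa only [sub_eq_add_neg] using prim_ramp (-t i)) fun i => c (i + 2))).congr
    (fun _ => rfl) (c := 0) fun x => by rw [PhK, add_zero]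

/-- all partial sums of the slopes are nonnegative -/
def MonoK (m : ℕ) (c : ℕ → ℝ) : Prop :=
  0 ≤ c 1 ∧ ∀ i < m, 0 ≤ ∑ l ∈ range (i + 1), c (l + 2)

/-- Abel summation against a decreasing nonnegative sequence -/
theorem abel_nonneg {m : ℕ} {c u : ℕ → ℝ} (hc : ∀ i < m, 0 ≤ ∑ l ∈ range (i + 1), c l)
    (hu : ∀ i, i + 1 < m → u (i + 1) ≤ u i) (h0 : ∀ i < m, 0 ≤ u i) :
    0 ≤ ∑ i ∈ range m, c i * u i := by
  have key : ∀ n, n < m → (∑ l ∈ range (n + 1), c l) * u n ≤ ∑ i ∈ range (n + 1), c i * u i := by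
    intro n
    induction n with
    | zero => intro _; simp
    | succ n ih =>
      intro hn
      have h1 := ih (by omega)
      have h2 := mul_le_mul_of_nonneg_left (hu n hn) (hc n (by omega))
      rw [Finset.sum_range_succ _ (n + 1), Finset.sum_range_succ _ (n + 1), add_mul]
      linarith
  rcases m with _ | m
  · simp
  · exact (mul_nonneg (hc m (by omega)) (h0 m (by omega))).trans (key m (by omega))

theorem MonoK.mono {m : ℕ} {t c : ℕ → ℝ} (ht : ∀ i, i + 1 < m → t i ≤ t (i + 1)) (h : MonoK m c) :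
    Monotone (phK m t c) := by
  intro s s' hs
  have a1 := mul_le_mul_of_nonneg_left (Real.exp_le_exp.2 hs) h.1
  have a2 := abel_nonneg (c := fun l => c (l + 2))
    (u := fun i => max (s' - t i) 0 - max (s - t i) 0) h.2 (fun i hi => by
      have := ht i hi
      simp only [max_def]
      split_ifs <;> linarith) fun i _ => sub_nonneg.2 (max_le_max_right _ (by linarith))
  simp only [mul_sub, Finset.sum_sub_distrib] at a2
  rw [phK, phK]
  linarith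

theorem MonoK.mix {m : ℕ} {c d : ℕ → ℝ} (hc : MonoK m c) (hd : MonoK m d) {w : ℝ} (h0 : 0 ≤ w)
    (h1 : w ≤ 1) : MonoK m fun q => (1 - w) * c q + w * d q := by
  have h2 : 0 ≤ 1 - w := by linarith
  refine ⟨add_nonneg (mul_nonneg h2 hc.1) (mul_nonneg h0 hd.1), fun i hi => ?_⟩
  rw [Finset.sum_add_distrib, ← Finset.mul_sum, ← Finset.mul_sum]
  exact add_nonneg (mul_nonneg h2 (hc.2 i hi)) (mul_nonneg h0 (hd.2 i hi))

theorem phK_mix (m : ℕ) (t c d : ℕ → ℝ) (u w s : ℝ) :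
    phK m t (fun q => u * c q + w * d q) s = u * phK m t c s + w * phK m t d s := by
  simp only [phK, add_mul, mul_add, Finset.sum_add_distrib, Finset.mul_sum, mul_assoc]
  ring

theorem PhK_mix (m : ℕ) (t c d : ℕ → ℝ) (u w s : ℝ) :
    PhK m t (fun q => u * c q + w * d q) s = u * PhK m t c s + w * PhK m t d s := by
  simp only [PhK, add_mul, mul_add, Finset.sum_add_distrib, Finset.mul_sum, mul_assoc]
  ring

theorem cfC_monoK {m : ℕ} {x : ℕ → ℝ} {T : ℕ → ℕ → ℕ → ℝ} {a j : ℕ} {r : ℝ} (h : x a < x (a + 1))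
    (h1 : x a ≤ r) (h2 : r ≤ x (a + 1)) (m1 : MonoK m (T a j)) (m2 : MonoK m (T (a + 1) j)) :
    MonoK m (cfC x T a j r) :=
  m1.mix m2 (wt_mem h h1 h2).1 (wt_mem h h1 h2).2

theorem phK_cfC (m : ℕ) (t x : ℕ → ℝ) (T : ℕ → ℕ → ℕ → ℝ) (a j : ℕ) (r s : ℝ) :
    phK m t (cfC x T a j r) s = itp x (fun a => phK m t (T a j) s) a r :=
  phK_mix _ _ _ _ _ _ _

theorem phK_cfC_le {m : ℕ} {t x : ℕ → ℝ} {T : ℕ → ℕ → ℕ → ℝ} {a j : ℕ} {r s p q : ℝ}
    (h : x a < x (a + 1)) (h1 : x a ≤ r) (h2 : r ≤ x (a + 1))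
    (h3 : phK m t (T a j) s ≤ p + q * x a) (h4 : phK m t (T (a + 1) j) s ≤ p + q * x (a + 1)) :
    phK m t (cfC x T a j r) s ≤ p + q * r := by
  rw [phK_cfC, ← itp_affine h p q r]
  exact itp_le h h1 h2 h3 h4

/-- the column inequality for an arbitrary profile `φ` and own value `vr` -/
def ColG (g0 A gc τ0 : ℝ) (φ : ℝ → ℝ) (vr Nv r k τ lo μ : ℝ) : Prop :=
  Nv ≤ min 1 (g0 * k) - min r (g0 * k) +
    gainV (fun _ => 1) φ (capR A gc k r) τ0 τ (max lo μ) μ - vr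

theorem colG_dead {g0 A gc τ0 : ℝ} {φ : ℝ → ℝ} {vr Nv r k τ lo μ θ1 : ℝ} (h0 : τ0 ≤ τ) (hr : r ≤ 1)
    (a0 : 0 ≤ θ1) (a1 : θ1 ≤ 1) (h1 : τ ≤ μ - 1)
    (h2 : vr + Nv ≤ θ1 * (min 1 (g0 * k) - r)) : ColG g0 A gc τ0 φ vr Nv r k τ lo μ := by
  rw [ColG, gainV_dead _ _ _ h0 (le_max_right _ _) h1]
  linarith [budget_lb (y := g0 * k) a0 a1 hr]

theorem colG_gen {g0 A gc τ0 : ℝ} {φ Φ : ℝ → ℝ} {vr Nv r k τ lo μ θ1 θ2 θ4 l' m' c1 : ℝ}
    (hP : Prim φ Φ) (hM : Monotone φ) (h0 : τ0 ≤ τ) (hr : r ≤ 1) (a0 : 0 ≤ θ1) (a1 : θ1 ≤ 1)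
    (b0 : 0 ≤ θ2) (b1 : θ2 ≤ 1) (d0 : 0 ≤ θ4) (d1 : θ4 ≤ 1) (hl0 : τ0 ≤ l') (hl : l' ≤ max lo μ)
    (hm : μ ≤ m') (hc : c1 = max 0 (θ2 * (r - k) + (1 - θ2) * (A * (r - gc * k))))
    (h2 : vr + Nv ≤ θ1 * (min 1 (g0 * k) - r) +
      (θ4 * Ghat φ Φ τ0 τ l' m' (min c1 (φ (min τ (max (l' - 1) τ0)))) -
        (c1 - min c1 (φ (min τ (max (l' - 1) τ0)))) * kapW τ0 τ (max lo μ) μ)) :
    ColG g0 A gc τ0 φ vr Nv r k τ lo μ := by
  have h3 := gen_lb hP hM h0 (le_max_right lo μ) hl0 hl hm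
    ((cap_ub A gc k r b0 b1).trans hc.ge) d0 d1
  rw [ColG]
  linarith [budget_lb (y := g0 * k) a0 a1 hr]

end Crest.Agent.R310
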