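import Crest.Agent.R310.TipK
import Crest.Agent.Lib.IBoxT

/-! Row 310, column route: programs of the box prover and the record checkers. -/

set_option autoImplicit false
set_option linter.dupNamespace false

namespace Crest.Agent.R310.NP

open Crest.Agent.Lib.IBox

/-- coefficient vector over the denominator `60000` -/
structure V9 where
  a0 : ℤ
  a1 : ℤ
  a2 : ℤ
  a3 : ℤ
  a4 : ℤ
  a5 : ℤ
  a6 : ℤ
  a7 : ℤ
  a8 : ℤ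

/-- affine function `(a + b r + c τ) / 10^6` -/
structure W3 where
  a : ℤ
  b : ℤ
  c : ℤ

noncomputable section

def V9.sub (x y : V9) : V9 := ⟨Int.sub x.a0 y.a0, Int.sub x.a1 y.a1, Int.sub x.a2 y.a2, Int.sub x.a3 y.a3, Int.sub x.a4 y.a4, Int.sub x.a5 y.a5, Int.sub x.a6 y.a6, Int.sub x.a7 y.a7, Int.sub x.a8 y.a8⟩
def V9.eta (x : V9) : V9 := ⟨x.a0, Int.sub x.a1 (.ofNat 40000), x.a2, x.a3, x.a4, x.a5, x.a6, x.a7, x.a8⟩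
def V9.fr (x : V9) (k : V9 → Bool) : Bool :=
  frI x.a0 fun a0 => frI x.a1 fun a1 => frI x.a2 fun a2 => frI x.a3 fun a3 => frI x.a4 fun a4 => frI x.a5 fun a5 => frI x.a6 fun a6 => frI x.a7 fun a7 => frI x.a8 fun a8 => k ⟨a0, a1, a2, a3, a4, a5, a6, a7, a8⟩
def W3.sub (x y : W3) : W3 := ⟨Int.sub x.a y.a, Int.sub x.b y.b, Int.sub x.c y.c⟩
def W3.neg (x : W3) : W3 := ⟨Int.neg x.a, Int.neg x.b, Int.neg x.c⟩
def W3.fr (x : W3) (k : W3 → Bool) : Bool :=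
  frI x.a fun a => frI x.b fun b => frI x.c fun c => k ⟨a, b, c⟩
def V9.f (x : V9) : ℕ → ℝ
  | 0 => x.a0 / 60000
  | 1 => x.a1 / 60000
  | 2 => x.a2 / 60000
  | 3 => x.a3 / 60000
  | 4 => x.a4 / 60000
  | 5 => x.a5 / 60000
  | 6 => x.a6 / 60000
  | 7 => x.a7 / 60000
  | 8 => x.a8 / 60000
  | _ => 0
def W3.v (n : W3) (r τ : ℝ) : ℝ := (n.a + n.b * r + n.c * τ) / 1000000

/-- knots -/
def tk : ℕ → ℝ
  | 0 => -80 / 64
  | 1 => -64 / 64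
  | 2 => -52 / 64
  | 3 => -42 / 64
  | 4 => -30 / 64
  | 5 => -20 / 64
  | _ => -10 / 64

/-- own nodes, in units of `1/240` -/
def xI : ℕ → ℕ
  | 0 => 0
  | 1 => 10
  | 2 => 25
  | 3 => 40
  | 4 => 52
  | 5 => 65
  | 6 => 80
  | 7 => 90
  | 8 => 100
  | 9 => 110
  | 10 => 120
  | _ => 140

/-- partner nodes -/
def yI : ℕ → ℕ
  | 0 => 0
  | 1 => 40
  | 2 => 65
  | 3 => 80
  | 4 => 90
  | 5 => 110
  | _ => 140

/-- the partner cell of an own cell -/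
def pcI : ℕ → ℕ
  | 0 => 0
  | 1 => 0
  | 2 => 0
  | 3 => 1
  | 4 => 1
  | 5 => 2
  | 6 => 3
  | 7 => 4
  | 8 => 4
  | 9 => 5
  | _ => 5

def xN (a : ℕ) : ℝ := xI a / 240
def yN (a : ℕ) : ℝ := yI a / 240

def gE : Ex := .add (.c (.ofNat 1) 0) (.sm (.ofNat 2) 0 (.inv (.exp (.c (.ofNat 1) 0))))

/-- registers below the pushed ones: `r k t w q4 q3 q2 q1 g` -/
def genA (K DK R DR : V9) (N DN : W3) (kn : ℤ) (kd : ℕ) (rn : ℤ) (rd : ℕ) (pn : ℤ) (pd : ℕ) : Pg :=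
  -- wk
  .push (.sub (.sm (.ofNat 240) kd (.v 1)) (.c kn kd)) <|
  -- eh
  .push (.exp (.v 3)) <|
  -- h0
  .push (.max (.add (.v 4) (.c (.ofNat 5) 3)) (.c (.ofNat 0) 0)) <|
  -- h1
  .push (.max (.add (.v 5) (.c (.ofNat 1) 0)) (.c (.ofNat 0) 0)) <|
  -- h2
  .push (.max (.add (.v 6) (.c (.ofNat 13) 15)) (.c (.ofNat 0) 0)) <|
  -- h3
  .push (.max (.add (.v 7) (.c (.ofNat 21) 31)) (.c (.ofNat 0) 0)) <|
  -- h4
  .push (.max (.add (.v 8) (.c (.ofNat 15) 31)) (.c (.ofNat 0) 0)) <|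
  -- h5
  .push (.max (.add (.v 9) (.c (.ofNat 5) 15)) (.c (.ofNat 0) 0)) <|
  -- h6
  .push (.max (.add (.v 10) (.c (.ofNat 5) 31)) (.c (.ofNat 0) 0)) <|
  -- fk
  .push (.add (.add (.add (.add (.add (.add (.add (.add (.add (.c K.a0 59999) (.sm K.a1 59999 (.v 7))) (.sm K.a2 59999 (.v 6))) (.sm K.a3 59999 (.v 5))) (.sm K.a4 59999 (.v 4))) (.sm K.a5 59999 (.v 3))) (.sm K.a6 59999 (.v 2))) (.sm K.a7 59999 (.v 1))) (.sm K.a8 59999 (.v 0))) (.mul (.v 8) (.add (.add (.add (.add (.add (.add (.add (.add (.c DK.a0 59999) (.sm DK.a1 59999 (.v 7))) (.sm DK.a2 59999 (.v 6))) (.sm DK.a3 59999 (.v 5))) (.sm DK.a4 59999 (.v 4))) (.sm DK.a5 59999 (.v 3))) (.sm DK.a6 59999 (.v 2))) (.sm DK.a7 59999 (.v 1))) (.sm DK.a8 59999 (.v 0))))) <|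
  -- base
  .push (.sub (.sub (.mul (.v 17) (.sub (.mins (.c (.ofNat 1) 0) (.mul (.v 18) (.v 11))) (.v 10))) (.add (.add (.add (.add (.add (.add (.add (.add (.add (.c R.a0 59999) (.sm R.a1 59999 (.v 8))) (.sm R.a2 59999 (.v 7))) (.sm R.a3 59999 (.v 6))) (.sm R.a4 59999 (.v 5))) (.sm R.a5 59999 (.v 4))) (.sm R.a6 59999 (.v 3))) (.sm R.a7 59999 (.v 2))) (.sm R.a8 59999 (.v 1))) (.mul (.sub (.sm (.ofNat 240) rd (.v 10)) (.c rn rd)) (.add (.add (.add (.add (.add (.add (.add (.add (.c DR.a0 59999) (.sm DR.a1 59999 (.v 8))) (.sm DR.a2 59999 (.v 7))) (.sm DR.a3 59999 (.v 6))) (.sm DR.a4 59999 (.v 5))) (.sm DR.a5 59999 (.v 4))) (.sm DR.a6 59999 (.v 3))) (.sm DR.a7 59999 (.v 2))) (.sm DR.a8 59999 (.v 1)))))) (.add (.add (.add (.c N.a 999999) (.sm N.b 999999 (.v 10))) (.sm N.c 999999 (.v 12))) (.mul (.sub (.sm (.ofNat 240) pd (.v 11)) (.c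 pn pd)) (.add (.add (.c DN.a 999999) (.sm DN.b 999999 (.v 10))) (.sm DN.c 999999 (.v 12)))))) <|
  -- lo
  .push (.sub (.sub (.c (.ofNat 10) 2) (.sm (.ofNat 2) 8 (.inv (.sub (.c (.ofNat 1) 0) (.v 12))))) (.sm (.ofNat 18) 0 (.inv (.sub (.c (.ofNat 7) 0) (.sm (.ofNat 3) 0 (.v 12)))))) <|
  -- hi
  .push (.sub (.add (.sm (.ofNat 1) 1 (.add (.v 12) (.v 13))) (.c (.ofNat 7) 5)) (.sm (.ofNat 9) 1 (.inv (.add (.c (.ofNat 1) 0) (.sm (.ofNat 3) 0 (.add (.v 12) (.v 13))))))) <|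
  -- mix
  .push (.add (.v 0) (.mul (.v 18) (.sub (.v 1) (.v 0)))) <|
  -- c1
  .push (.maxs (.c (.ofNat 0) 0) (.add (.mul (.v 20) (.sub (.v 14) (.v 15))) (.mul (.sub (.c (.ofNat 1) 0) (.v 20)) (.sm (.ofNat 7) 3 (.sub (.v 14) (.sm (.ofNat 33) 19 (.v 15))))))) <|
  -- kap
  .push (.sub (.min (.c (.ofNat 1) 0) (.sub (.max (.v 3) (.v 2)) (.c (.negSucc 4) 3))) (.max (.c (.ofNat 0) 0) (.min (.c (.ofNat 1) 0) (.sub (.v 2) (.v 17))))) <|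
  -- yu
  .push (.sub (.v 2) (.maxs (.c (.ofNat 0) 0) (.sub (.v 3) (.v 18)))) <|
  -- yl
  .push (.maxs (.sub (.v 3) (.c (.ofNat 1) 0)) (.c (.negSucc 4) 3)) <|
  -- xl
  .push (.mins (.v 20) (.v 0)) <|
  -- x1
  .push (.mins (.v 21) (.v 5)) <|
  -- el
  .push (.exp (.v 1)) <|
  -- l0
  .push (.max (.add (.v 2) (.c (.ofNat 5) 3)) (.c (.ofNat 0) 0)) <|
  -- l1
  .push (.max (.add (.v 3) (.c (.ofNat 1) 0)) (.c (.ofNat 0) 0)) <|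
  -- l2
  .push (.max (.add (.v 4) (.c (.ofNat 13) 15)) (.c (.ofNat 0) 0)) <|
  -- l3
  .push (.max (.add (.v 5) (.c (.ofNat 21) 31)) (.c (.ofNat 0) 0)) <|
  -- l4
  .push (.max (.add (.v 6) (.c (.ofNat 15) 31)) (.c (.ofNat 0) 0)) <|
  -- l5
  .push (.max (.add (.v 7) (.c (.ofNat 5) 15)) (.c (.ofNat 0) 0)) <|
  -- l6
  .push (.max (.add (.v 8) (.c (.ofNat 5) 31)) (.c (.ofNat 0) 0)) <|
  -- c2
  .push (.min (.v 13) (.add (.add (.add (.add (.add (.add (.add (.add (.add (.c K.a0 59999) (.sm K.a1 59999 (.v 7))) (.sm K.a2 59999 (.v 6))) (.sm K.a3 59999 (.v 5))) (.sm K.a4 59999 (.v 4))) (.sm K.a5 59999 (.v 3))) (.sm K.a6 59999 (.v 2))) (.sm K.a7 59999 (.v 1))) (.sm K.a8 59999 (.v 0))) (.mul (.v 27) (.add (.add (.add (.add (.add (.add (.add (.add (.c DK.a0 59999) (.sm DK.a1 59999 (.v 7))) (.sm DK.a2 59999 (.v 6))) (.sm DK.a3 59999 (.v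 5))) (.sm DK.a4 59999 (.v 4))) (.sm DK.a5 59999 (.v 3))) (.sm DK.a6 59999 (.v 2))) (.sm DK.a7 59999 (.v 1))) (.sm DK.a8 59999 (.v 0)))))) <|
  -- E0
  .push (.sub (.v 9) (.v 10)) <|
  -- E1
  .push (.sub (.exp (.v 10)) (.v 9)) <|
  -- E2
  .push (.sub (.sq (.max (.add (.v 11) (.c (.ofNat 5) 3)) (.c (.ofNat 0) 0))) (.sq (.v 9))) <|
  -- E3
  .push (.sub (.sq (.max (.add (.v 12) (.c (.ofNat 1) 0)) (.c (.ofNat 0) 0))) (.sq (.v 9))) <|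
  -- E4
  .push (.sub (.sq (.max (.add (.v 13) (.c (.ofNat 13) 15)) (.c (.ofNat 0) 0))) (.sq (.v 9))) <|
  -- E5
  .push (.sub (.sq (.max (.add (.v 14) (.c (.ofNat 21) 31)) (.c (.ofNat 0) 0))) (.sq (.v 9))) <|
  -- E6
  .push (.sub (.sq (.max (.add (.v 15) (.c (.ofNat 15) 31)) (.c (.ofNat 0) 0))) (.sq (.v 9))) <|
  -- E7
  .push (.sub (.sq (.max (.add (.v 16) (.c (.ofNat 5) 15)) (.c (.ofNat 0) 0))) (.sq (.v 9))) <|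
  -- E8
  .push (.sub (.sq (.max (.add (.v 17) (.c (.ofNat 5) 31)) (.c (.ofNat 0) 0))) (.sq (.v 9))) <|
  -- test
  .tst (.mins (.add (.sub (.mul (.v 42) (.sub (.add (.add (.add (.add (.add (.add (.add (.add (.add (.add (.sm K.a0 59999 (.v 8)) (.sm K.a1 59999 (.v 7))) (.sm K.a2 119999 (.v 6))) (.sm K.a3 119999 (.v 5))) (.sm K.a4 119999 (.v 4))) (.sm K.a5 119999 (.v 3))) (.sm K.a6 119999 (.v 2))) (.sm K.a7 119999 (.v 1))) (.sm K.a8 119999 (.v 0))) (.mul (.v 37) (.add (.add (.add (.add (.add (.add (.add (.add (.sm DK.a0 59999 (.v 8)) (.sm DK.a1 59999 (.v 7))) (.sm DK.a2 119999 (.v 6))) (.sm DK.a3 119999 (.v 5))) (.sm DK.a4 119999 (.v 4))) (.sm DK.a5 119999 (.v 3))) (.sm DK.a6 119999 (.v 2))) (.sm DK.a7 119999 (.v 1))) (.sm DK.a8 119999 (.v 0))))) (.mul (.v 28) (.sub (.sub (.v 21) (.v 18)) (.sub (.v 20) (.v 19))))) (.mul (.v 9) (.sub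 (.v 21) (.v 20))))) (.mul (.sub (.v 23) (.v 9)) (.v 22))) (.v 27)) (.sub (.v 24) (.c (.negSucc 4) 3))) <|
  .nil

/-- registers below the pushed ones: `r k t w q4 q3 q2 q1 g` -/
def genB (K DK R DR : V9) (N DN : W3) (kn : ℤ) (kd : ℕ) (rn : ℤ) (rd : ℕ) (pn : ℤ) (pd : ℕ) : Pg :=
  -- wk
  .push (.sub (.sm (.ofNat 240) kd (.v 1)) (.c kn kd)) <|
  -- eh
  .push (.exp (.v 3)) <|
  -- h0
  .push (.max (.add (.v 4) (.c (.ofNat 5) 3)) (.c (.ofNat 0) 0)) <|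
  -- h1
  .push (.max (.add (.v 5) (.c (.ofNat 1) 0)) (.c (.ofNat 0) 0)) <|
  -- h2
  .push (.max (.add (.v 6) (.c (.ofNat 13) 15)) (.c (.ofNat 0) 0)) <|
  -- h3
  .push (.max (.add (.v 7) (.c (.ofNat 21) 31)) (.c (.ofNat 0) 0)) <|
  -- h4
  .push (.max (.add (.v 8) (.c (.ofNat 15) 31)) (.c (.ofNat 0) 0)) <|
  -- h5
  .push (.max (.add (.v 9) (.c (.ofNat 5) 15)) (.c (.ofNat 0) 0)) <|
  -- h6
  .push (.max (.add (.v 10) (.c (.ofNat 5) 31)) (.c (.ofNat 0) 0)) <|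
  -- fk
  .push (.add (.add (.add (.add (.add (.add (.add (.add (.add (.c K.a0 59999) (.sm K.a1 59999 (.v 7))) (.sm K.a2 59999 (.v 6))) (.sm K.a3 59999 (.v 5))) (.sm K.a4 59999 (.v 4))) (.sm K.a5 59999 (.v 3))) (.sm K.a6 59999 (.v 2))) (.sm K.a7 59999 (.v 1))) (.sm K.a8 59999 (.v 0))) (.mul (.v 8) (.add (.add (.add (.add (.add (.add (.add (.add (.c DK.a0 59999) (.sm DK.a1 59999 (.v 7))) (.sm DK.a2 59999 (.v 6))) (.sm DK.a3 59999 (.v 5))) (.sm DK.a4 59999 (.v 4))) (.sm DK.a5 59999 (.v 3))) (.sm DK.a6 59999 (.v 2))) (.sm DK.a7 59999 (.v 1))) (.sm DK.a8 59999 (.v 0))))) <|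
  -- base
  .push (.sub (.sub (.mul (.v 17) (.sub (.mins (.c (.ofNat 1) 0) (.mul (.v 18) (.v 11))) (.v 10))) (.add (.add (.add (.add (.add (.add (.add (.add (.add (.c R.a0 59999) (.sm R.a1 59999 (.v 8))) (.sm R.a2 59999 (.v 7))) (.sm R.a3 59999 (.v 6))) (.sm R.a4 59999 (.v 5))) (.sm R.a5 59999 (.v 4))) (.sm R.a6 59999 (.v 3))) (.sm R.a7 59999 (.v 2))) (.sm R.a8 59999 (.v 1))) (.mul (.sub (.sm (.ofNat 240) rd (.v 10)) (.c rn rd)) (.add (.add (.add (.add (.add (.add (.add (.add (.c DR.a0 59999) (.sm DR.a1 59999 (.v 8))) (.sm DR.a2 59999 (.v 7))) (.sm DR.a3 59999 (.v 6))) (.sm DR.a4 59999 (.v 5))) (.sm DR.a5 59999 (.v 4))) (.sm DR.a6 59999 (.v 3))) (.sm DR.a7 59999 (.v 2))) (.sm DR.a8 59999 (.v 1)))))) (.add (.add (.add (.c N.a 999999) (.sm N.b 999999 (.v 10))) (.sm N.c 999999 (.v 12))) (.mul (.sub (.sm (.ofNat 240) pd (.v 11)) (.c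 pn pd)) (.add (.add (.c DN.a 999999) (.sm DN.b 999999 (.v 10))) (.sm DN.c 999999 (.v 12)))))) <|
  -- lo
  .push (.sub (.sub (.c (.ofNat 10) 2) (.sm (.ofNat 2) 8 (.inv (.sub (.c (.ofNat 1) 0) (.v 12))))) (.sm (.ofNat 18) 0 (.inv (.sub (.c (.ofNat 7) 0) (.sm (.ofNat 3) 0 (.v 12)))))) <|
  -- hi
  .push (.sub (.add (.sm (.ofNat 1) 1 (.add (.v 12) (.v 13))) (.c (.ofNat 7) 5)) (.sm (.ofNat 9) 1 (.inv (.add (.c (.ofNat 1) 0) (.sm (.ofNat 3) 0 (.add (.v 12) (.v 13))))))) <|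
  -- mix
  .push (.add (.v 0) (.mul (.v 18) (.sub (.v 1) (.v 0)))) <|
  -- c1
  .push (.maxs (.c (.ofNat 0) 0) (.add (.mul (.v 20) (.sub (.v 14) (.v 15))) (.mul (.sub (.c (.ofNat 1) 0) (.v 20)) (.sm (.ofNat 7) 3 (.sub (.v 14) (.sm (.ofNat 33) 19 (.v 15))))))) <|
  -- kap
  .push (.sub (.min (.c (.ofNat 1) 0) (.sub (.v 3) (.c (.negSucc 4) 3))) (.max (.c (.ofNat 0) 0) (.min (.c (.ofNat 1) 0) (.sub (.v 3) (.v 17))))) <|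
  -- yu
  .push (.sub (.v 4) (.maxs (.c (.ofNat 0) 0) (.sub (.v 2) (.v 18)))) <|
  -- yl
  .push (.maxs (.sub (.v 5) (.c (.ofNat 1) 0)) (.c (.negSucc 4) 3)) <|
  -- xl
  .push (.mins (.v 20) (.v 0)) <|
  -- x1
  .push (.mins (.v 21) (.v 7)) <|
  -- el
  .push (.exp (.v 1)) <|
  -- l0
  .push (.max (.add (.v 2) (.c (.ofNat 5) 3)) (.c (.ofNat 0) 0)) <|
  -- l1
  .push (.max (.add (.v 3) (.c (.ofNat 1) 0)) (.c (.ofNat 0) 0)) <|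
  -- l2
  .push (.max (.add (.v 4) (.c (.ofNat 13) 15)) (.c (.ofNat 0) 0)) <|
  -- l3
  .push (.max (.add (.v 5) (.c (.ofNat 21) 31)) (.c (.ofNat 0) 0)) <|
  -- l4
  .push (.max (.add (.v 6) (.c (.ofNat 15) 31)) (.c (.ofNat 0) 0)) <|
  -- l5
  .push (.max (.add (.v 7) (.c (.ofNat 5) 15)) (.c (.ofNat 0) 0)) <|
  -- l6
  .push (.max (.add (.v 8) (.c (.ofNat 5) 31)) (.c (.ofNat 0) 0)) <|
  -- c2
  .push (.min (.v 13) (.add (.add (.add (.add (.add (.add (.add (.add (.add (.c K.a0 59999) (.sm K.a1 59999 (.v 7))) (.sm K.a2 59999 (.v 6))) (.sm K.a3 59999 (.v 5))) (.sm K.a4 59999 (.v 4))) (.sm K.a5 59999 (.v 3))) (.sm K.a6 59999 (.v 2))) (.sm K.a7 59999 (.v 1))) (.sm K.a8 59999 (.v 0))) (.mul (.v 27) (.add (.add (.add (.add (.add (.add (.add (.add (.c DK.a0 59999) (.sm DK.a1 59999 (.v 7))) (.sm DK.a2 59999 (.v 6))) (.sm DK.a3 59999 (.v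 5))) (.sm DK.a4 59999 (.v 4))) (.sm DK.a5 59999 (.v 3))) (.sm DK.a6 59999 (.v 2))) (.sm DK.a7 59999 (.v 1))) (.sm DK.a8 59999 (.v 0)))))) <|
  -- E0
  .push (.sub (.v 9) (.v 10)) <|
  -- E1
  .push (.sub (.exp (.v 10)) (.v 9)) <|
  -- E2
  .push (.sub (.sq (.max (.add (.v 11) (.c (.ofNat 5) 3)) (.c (.ofNat 0) 0))) (.sq (.v 9))) <|
  -- E3
  .push (.sub (.sq (.max (.add (.v 12) (.c (.ofNat 1) 0)) (.c (.ofNat 0) 0))) (.sq (.v 9))) <|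
  -- E4
  .push (.sub (.sq (.max (.add (.v 13) (.c (.ofNat 13) 15)) (.c (.ofNat 0) 0))) (.sq (.v 9))) <|
  -- E5
  .push (.sub (.sq (.max (.add (.v 14) (.c (.ofNat 21) 31)) (.c (.ofNat 0) 0))) (.sq (.v 9))) <|
  -- E6
  .push (.sub (.sq (.max (.add (.v 15) (.c (.ofNat 15) 31)) (.c (.ofNat 0) 0))) (.sq (.v 9))) <|
  -- E7
  .push (.sub (.sq (.max (.add (.v 16) (.c (.ofNat 5) 15)) (.c (.ofNat 0) 0))) (.sq (.v 9))) <|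
  -- E8
  .push (.sub (.sq (.max (.add (.v 17) (.c (.ofNat 5) 31)) (.c (.ofNat 0) 0))) (.sq (.v 9))) <|
  -- test
  .tst (.mins (.add (.sub (.mul (.v 42) (.sub (.add (.add (.add (.add (.add (.add (.add (.add (.add (.add (.sm K.a0 59999 (.v 8)) (.sm K.a1 59999 (.v 7))) (.sm K.a2 119999 (.v 6))) (.sm K.a3 119999 (.v 5))) (.sm K.a4 119999 (.v 4))) (.sm K.a5 119999 (.v 3))) (.sm K.a6 119999 (.v 2))) (.sm K.a7 119999 (.v 1))) (.sm K.a8 119999 (.v 0))) (.mul (.v 37) (.add (.add (.add (.add (.add (.add (.add (.add (.sm DK.a0 59999 (.v 8)) (.sm DK.a1 59999 (.v 7))) (.sm DK.a2 119999 (.v 6))) (.sm DK.a3 119999 (.v 5))) (.sm DK.a4 119999 (.v 4))) (.sm DK.a5 119999 (.v 3))) (.sm DK.a6 119999 (.v 2))) (.sm DK.a7 119999 (.v 1))) (.sm DK.a8 119999 (.v 0))))) (.mul (.v 28) (.sub (.sub (.v 21) (.v 18)) (.sub (.v 20) (.v 19))))) (.mul (.v 9) (.sub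 (.v 21) (.v 20))))) (.mul (.sub (.v 23) (.v 9)) (.v 22))) (.v 27)) (.sub (.v 26) (.c (.negSucc 4) 3))) <|
  .nil

/-- registers below the pushed ones: `r k t w q4 q3 q2 q1 g` -/
def deadA (R DR : V9) (N DN : W3) (rn : ℤ) (rd : ℕ) (pn : ℤ) (pd : ℕ) (zt sr sk zo nb : ℤ) : Pg :=
  -- test
  .tst (.sub (.sub (.c zt 959) (.sm sr 0 (.sub (.v 0) (.c (.ofNat 1) 2)))) (.sm sk 0 (.sub (.v 1) (.c (.ofNat 1) 2)))) <|
  -- test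
  .tst (.mins (.sub (.c zo 959) (.v 1)) (.sub (.c nb 999999) (.add (.add (.add (.c N.a 999999) (.sm N.b 999999 (.v 0))) (.sm N.c 999999 (.v 2))) (.add (.add (.c DN.a 999999) (.sm DN.b 999999 (.v 0))) (.sm DN.c 999999 (.v 2)))))) <|
  -- hi
  .push (.sub (.add (.sm (.ofNat 1) 1 (.add (.v 0) (.v 1))) (.c (.ofNat 7) 5)) (.sm (.ofNat 9) 1 (.inv (.add (.c (.ofNat 1) 0) (.sm (.ofNat 3) 0 (.add (.v 0) (.v 1))))))) <|
  -- eh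
  .push (.exp (.v 3)) <|
  -- h0
  .push (.max (.add (.v 4) (.c (.ofNat 5) 3)) (.c (.ofNat 0) 0)) <|
  -- h1
  .push (.max (.add (.v 5) (.c (.ofNat 1) 0)) (.c (.ofNat 0) 0)) <|
  -- h2
  .push (.max (.add (.v 6) (.c (.ofNat 13) 15)) (.c (.ofNat 0) 0)) <|
  -- h3
  .push (.max (.add (.v 7) (.c (.ofNat 21) 31)) (.c (.ofNat 0) 0)) <|
  -- h4
  .push (.max (.add (.v 8) (.c (.ofNat 15) 31)) (.c (.ofNat 0) 0)) <|
  -- h5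
  .push (.max (.add (.v 9) (.c (.ofNat 5) 15)) (.c (.ofNat 0) 0)) <|
  -- h6
  .push (.max (.add (.v 10) (.c (.ofNat 5) 31)) (.c (.ofNat 0) 0)) <|
  -- test
  .tst (.mins (.sub (.sub (.v 8) (.c (.ofNat 1) 0)) (.v 11)) (.sub (.sub (.mul (.v 16) (.sub (.mins (.c (.ofNat 1) 0) (.mul (.v 17) (.v 10))) (.v 9))) (.add (.add (.add (.add (.add (.add (.add (.add (.add (.c R.a0 59999) (.sm R.a1 59999 (.v 7))) (.sm R.a2 59999 (.v 6))) (.sm R.a3 59999 (.v 5))) (.sm R.a4 59999 (.v 4))) (.sm R.a5 59999 (.v 3))) (.sm R.a6 59999 (.v 2))) (.sm R.a7 59999 (.v 1))) (.sm R.a8 59999 (.v 0))) (.mul (.sub (.sm (.ofNat 240) rd (.v 9)) (.c rn rd)) (.add (.add (.add (.add (.add (.add (.add (.add (.c DR.a0 59999) (.sm DR.a1 59999 (.v 7))) (.sm DR.a2 59999 (.v 6))) (.sm DR.a3 59999 (.v 5))) (.sm DR.a4 59999 (.v 4))) (.sm DR.a5 59999 (.v 3))) (.sm DR.a6 59999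 (.v 2))) (.sm DR.a7 59999 (.v 1))) (.sm DR.a8 59999 (.v 0)))))) (.add (.add (.add (.c N.a 999999) (.sm N.b 999999 (.v 9))) (.sm N.c 999999 (.v 11))) (.mul (.sub (.sm (.ofNat 240) pd (.v 10)) (.c pn pd)) (.add (.add (.c DN.a 999999) (.sm DN.b 999999 (.v 9))) (.sm DN.c 999999 (.v 11))))))) <|
  .nil

/-- registers below the pushed ones: `r k t w q4 q3 q2 q1 g` -/
def deadB (R DR : V9) (N DN : W3) (rn : ℤ) (rd : ℕ) (pn : ℤ) (pd : ℕ) (zt sr sk zo nb : ℤ) : Pg :=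
  -- test
  .tst (.sub (.sub (.c zt 959) (.sm sr 0 (.sub (.v 0) (.c (.ofNat 1) 2)))) (.sm sk 0 (.sub (.v 1) (.c (.ofNat 1) 2)))) <|
  -- test
  .tst (.mins (.sub (.c zo 959) (.v 1)) (.sub (.c nb 999999) (.add (.add (.add (.c N.a 999999) (.sm N.b 999999 (.v 0))) (.sm N.c 999999 (.v 2))) (.add (.add (.c DN.a 999999) (.sm DN.b 999999 (.v 0))) (.sm DN.c 999999 (.v 2)))))) <|
  -- lo
  .push (.sub (.sub (.c (.ofNat 10) 2) (.sm (.ofNat 2) 8 (.inv (.sub (.c (.ofNat 1) 0) (.v 1))))) (.sm (.ofNat 18) 0 (.inv (.sub (.c (.ofNat 7) 0) (.sm (.ofNat 3) 0 (.v 1)))))) <|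
  -- test
  .tst (.sub (.v 0) (.sub (.add (.sm (.ofNat 1) 1 (.add (.v 1) (.v 2))) (.c (.ofNat 7) 5)) (.sm (.ofNat 9) 1 (.inv (.add (.c (.ofNat 1) 0) (.sm (.ofNat 3) 0 (.add (.v 1) (.v 2)))))))) <|
  -- eh
  .push (.exp (.v 3)) <|
  -- h0
  .push (.max (.add (.v 4) (.c (.ofNat 5) 3)) (.c (.ofNat 0) 0)) <|
  -- h1
  .push (.max (.add (.v 5) (.c (.ofNat 1) 0)) (.c (.ofNat 0) 0)) <|
  -- h2
  .push (.max (.add (.v 6) (.c (.ofNat 13) 15)) (.c (.ofNat 0) 0)) <|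
  -- h3
  .push (.max (.add (.v 7) (.c (.ofNat 21) 31)) (.c (.ofNat 0) 0)) <|
  -- h4
  .push (.max (.add (.v 8) (.c (.ofNat 15) 31)) (.c (.ofNat 0) 0)) <|
  -- h5
  .push (.max (.add (.v 9) (.c (.ofNat 5) 15)) (.c (.ofNat 0) 0)) <|
  -- h6
  .push (.max (.add (.v 10) (.c (.ofNat 5) 31)) (.c (.ofNat 0) 0)) <|
  -- test
  .tst (.mins (.sub (.sub (.v 8) (.c (.ofNat 1) 0)) (.v 11)) (.sub (.sub (.mul (.v 16) (.sub (.mins (.c (.ofNat 1) 0) (.mul (.v 17) (.v 10))) (.v 9))) (.add (.add (.add (.add (.add (.add (.add (.add (.add (.c R.a0 59999) (.sm R.a1 59999 (.v 7))) (.sm R.a2 59999 (.v 6))) (.sm R.a3 59999 (.v 5))) (.sm R.a4 59999 (.v 4))) (.sm R.a5 59999 (.v 3))) (.sm R.a6 59999 (.v 2))) (.sm R.a7 59999 (.v 1))) (.sm R.a8 59999 (.v 0))) (.mul (.sub (.sm (.ofNat 240) rd (.v 9)) (.c rn rd)) (.add (.add (.add (.add (.add (.add (.add (.add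 (.c DR.a0 59999) (.sm DR.a1 59999 (.v 7))) (.sm DR.a2 59999 (.v 6))) (.sm DR.a3 59999 (.v 5))) (.sm DR.a4 59999 (.v 4))) (.sm DR.a5 59999 (.v 3))) (.sm DR.a6 59999 (.v 2))) (.sm DR.a7 59999 (.v 1))) (.sm DR.a8 59999 (.v 0)))))) (.add (.add (.add (.c N.a 999999) (.sm N.b 999999 (.v 9))) (.sm N.c 999999 (.v 11))) (.mul (.sub (.sm (.ofNat 240) pd (.v 10)) (.c pn pd)) (.add (.add (.c DN.a 999999) (.sm DN.b 999999 (.v 9))) (.sm DN.c 999999 (.v 11))))))) <|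
  .nil

/-- registers below the pushed ones: `r k t w q4 q3 q2 q1 g` -/
def tipA (K R : V9) (N : W3) (kd rd pd zd : ℕ) (sr sk : ℤ) : Pg :=
  -- xa
  .push (.sm (.negSucc 2) 1 (.sm sk 0 (.v 1))) <|
  -- xb
  .push (.sm (.ofNat 3) 1 (.add (.sm sr 0 (.sub (.c (.ofNat 1) 0) (.v 2))) (.sm sk 0 (.v 2)))) <|
  -- ua
  .push (.mul (.v 2) (.v 1)) <|
  -- LL
  .push (.sm (.ofNat 4) 2 (.mul (.v 2) (.add (.sm (.ofNat 1) 3 (.inv (.add (.c (.ofNat 1) 0) (.v 0)))) (.sm (.ofNat 9) 3 (.inv (.add (.c (.ofNat 3) 0) (.v 0))))))) <|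
  -- UU
  .push (.sm (.ofNat 4) 2 (.mul (.v 2) (.add (.c (.ofNat 1) 3) (.sm (.ofNat 9) 7 (.inv (.add (.c (.ofNat 3) 1) (.mul (.v 4) (.v 2)))))))) <|
  -- mix
  .push (.add (.v 0) (.mul (.v 12) (.sub (.v 1) (.v 0)))) <|
  -- l
  .push (.mul (.v 6) (.v 0)) <|
  -- eh
  .push (.exp (.v 9)) <|
  -- h0
  .push (.max (.add (.v 10) (.c (.ofNat 5) 3)) (.c (.ofNat 0) 0)) <|
  -- h1
  .push (.max (.add (.v 11) (.c (.ofNat 1) 0)) (.c (.ofNat 0) 0)) <|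
  -- h2
  .push (.max (.add (.v 12) (.c (.ofNat 13) 15)) (.c (.ofNat 0) 0)) <|
  -- h3
  .push (.max (.add (.v 13) (.c (.ofNat 21) 31)) (.c (.ofNat 0) 0)) <|
  -- h4
  .push (.max (.add (.v 14) (.c (.ofNat 15) 31)) (.c (.ofNat 0) 0)) <|
  -- h5
  .push (.max (.add (.v 15) (.c (.ofNat 5) 15)) (.c (.ofNat 0) 0)) <|
  -- h6
  .push (.max (.add (.v 16) (.c (.ofNat 5) 31)) (.c (.ofNat 0) 0)) <|
  -- fk
  .push (.sm (.ofNat 240) kd (.add (.add (.add (.add (.add (.add (.add (.add (.c K.a0 59999) (.sm K.a1 59999 (.v 7))) (.sm K.a2 59999 (.v 6))) (.sm K.a3 59999 (.v 5))) (.sm K.a4 59999 (.v 4))) (.sm K.a5 59999 (.v 3))) (.sm K.a6 59999 (.v 2))) (.sm K.a7 59999 (.v 1))) (.sm K.a8 59999 (.v 0)))) <|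
  -- a1
  .push (.sub (.sub (.add (.sub (.sub (.mul (.v 24) (.sm sk 0 (.v 17))) (.sm sr 0 (.sub (.c (.ofNat 1) 0) (.v 17)))) (.mul (.sm (.ofNat 1) 2 (.sub (.v 24) (.c (.ofNat 1) 0))) (.mul (.v 10) (.add (.c (.ofNat 1) 0) (.mul (.v 9) (.add (.c (.ofNat 1) 1) (.mul (.v 9) (.add (.c (.ofNat 1) 5) (.sm (.ofNat 5) 95 (.v 9)))))))))) (.mul (.sm (.ofNat 2) 2 (.v 8)) (.sub (.v 10) (.maxs (.sm (.ofNat 960) zd (.v 18)) (.v 11))))) (.mul (.sub (.c (.ofNat 1) 0) (.v 17)) (.sm (.ofNat 240) rd (.add (.add (.add (.add (.add (.add (.add (.add (.c R.a0 59999) (.sm R.a1 59999 (.v 8))) (.sm R.a2 59999 (.v 7))) (.sm R.a3 59999 (.v 6))) (.sm R.a4 59999 (.v 5))) (.sm R.a5 59999 (.v 4))) (.sm R.a6 59999 (.v 3))) (.sm R.a7 59999 (.v 2))) (.sm R.a8 59999 (.v 1)))))) (.mul (.v 17) (.sm (.ofNat 240) pd (.add (.add (.c N.a 999999) (.sm N.b 999999 (.add (.c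 (.ofNat 1) 2) (.sm sr 0 (.mul (.v 16) (.sub (.c (.ofNat 1) 0) (.v 17))))))) (.sm N.c 999999 (.v 18)))))) <|
  -- xl
  .push (.mins (.v 19) (.sub (.v 10) (.c (.ofNat 1) 0))) <|
  -- x1
  .push (.mins (.v 20) (.v 11)) <|
  -- el
  .push (.exp (.v 1)) <|
  -- l0
  .push (.max (.add (.v 2) (.c (.ofNat 5) 3)) (.c (.ofNat 0) 0)) <|
  -- l1
  .push (.max (.add (.v 3) (.c (.ofNat 1) 0)) (.c (.ofNat 0) 0)) <|
  -- l2
  .push (.max (.add (.v 4) (.c (.ofNat 13) 15)) (.c (.ofNat 0) 0)) <|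
  -- l3
  .push (.max (.add (.v 5) (.c (.ofNat 21) 31)) (.c (.ofNat 0) 0)) <|
  -- l4
  .push (.max (.add (.v 6) (.c (.ofNat 15) 31)) (.c (.ofNat 0) 0)) <|
  -- l5
  .push (.max (.add (.v 7) (.c (.ofNat 5) 15)) (.c (.ofNat 0) 0)) <|
  -- l6
  .push (.max (.add (.v 8) (.c (.ofNat 5) 31)) (.c (.ofNat 0) 0)) <|
  -- sg
  .push (.add (.sm (.ofNat 2) 2 (.v 7)) (.mul (.mul (.v 27) (.v 28)) (.sm (.ofNat 240) kd (.add (.add (.add (.add (.add (.add (.add (.add (.c K.a0 59999) (.sm K.a1 59999 (.v 7))) (.sm K.a2 59999 (.v 6))) (.sm K.a3 59999 (.v 5))) (.sm K.a4 59999 (.v 4))) (.sm K.a5 59999 (.v 3))) (.sm K.a6 59999 (.v 2))) (.sm K.a7 59999 (.v 1))) (.sm K.a8 59999 (.v 0)))))) <|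
  -- E0
  .push (.sub (.v 9) (.v 10)) <|
  -- E1
  .push (.sub (.exp (.v 10)) (.v 9)) <|
  -- E2
  .push (.sub (.sq (.max (.add (.v 11) (.c (.ofNat 5) 3)) (.c (.ofNat 0) 0))) (.sq (.v 9))) <|
  -- E3
  .push (.sub (.sq (.max (.add (.v 12) (.c (.ofNat 1) 0)) (.c (.ofNat 0) 0))) (.sq (.v 9))) <|
  -- E4
  .push (.sub (.sq (.max (.add (.v 13) (.c (.ofNat 13) 15)) (.c (.ofNat 0) 0))) (.sq (.v 9))) <|
  -- E5
  .push (.sub (.sq (.max (.add (.v 14) (.c (.ofNat 21) 31)) (.c (.ofNat 0) 0))) (.sq (.v 9))) <|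
  -- E6
  .push (.sub (.sq (.max (.add (.v 15) (.c (.ofNat 15) 31)) (.c (.ofNat 0) 0))) (.sq (.v 9))) <|
  -- E7
  .push (.sub (.sq (.max (.add (.v 16) (.c (.ofNat 5) 15)) (.c (.ofNat 0) 0))) (.sq (.v 9))) <|
  -- E8
  .push (.sub (.sq (.max (.add (.v 17) (.c (.ofNat 5) 31)) (.c (.ofNat 0) 0))) (.sq (.v 9))) <|
  -- test
  .tst (.mins (.mins (.add (.v 20) (.mul (.v 38) (.add (.sm (.ofNat 240) kd (.add (.add (.add (.add (.add (.add (.add (.add (.sm K.a0 59999 (.v 8)) (.sm K.a1 59999 (.v 7))) (.sm K.a2 119999 (.v 6))) (.sm K.a3 119999 (.v 5))) (.sm K.a4 119999 (.v 4))) (.sm K.a5 119999 (.v 3))) (.sm K.a6 119999 (.v 2))) (.sm K.a7 119999 (.v 1))) (.sm K.a8 119999 (.v 0)))) (.mul (.v 21) (.sub (.sub (.sub (.v 30) (.max (.c (.ofNat 0) 0) (.sub (.mul (.v 37) (.v 32)) (.v 39)))) (.v 18)) (.sub (.sub (.v 30) (.c (.ofNat 1) 0)) (.v 19)))))))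 (.v 9)) (.sub (.sub (.v 30) (.c (.ofNat 1) 0)) (.c (.negSucc 4) 3))) <|
  .nil

/-- registers below the pushed ones: `r k t w q4 q3 q2 q1 g` -/
def tipB (K R : V9) (N : W3) (kd rd pd zd : ℕ) (sr sk : ℤ) : Pg :=
  -- xa
  .push (.sm (.negSucc 2) 1 (.sm sk 0 (.v 1))) <|
  -- xb
  .push (.sm (.ofNat 3) 1 (.add (.sm sr 0 (.sub (.c (.ofNat 1) 0) (.v 2))) (.sm sk 0 (.v 2)))) <|
  -- ua
  .push (.mul (.v 2) (.v 1)) <|
  -- LL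
  .push (.sm (.ofNat 4) 2 (.mul (.v 2) (.add (.sm (.ofNat 1) 3 (.inv (.add (.c (.ofNat 1) 0) (.v 0)))) (.sm (.ofNat 9) 3 (.inv (.add (.c (.ofNat 3) 0) (.v 0))))))) <|
  -- UU
  .push (.sm (.ofNat 4) 2 (.mul (.v 2) (.add (.c (.ofNat 1) 3) (.sm (.ofNat 9) 7 (.inv (.add (.c (.ofNat 3) 1) (.mul (.v 4) (.v 2)))))))) <|
  -- mix
  .push (.add (.v 0) (.mul (.v 12) (.sub (.v 1) (.v 0)))) <|
  -- l
  .push (.mul (.v 6) (.v 2)) <|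
  -- eh
  .push (.exp (.v 9)) <|
  -- h0
  .push (.max (.add (.v 10) (.c (.ofNat 5) 3)) (.c (.ofNat 0) 0)) <|
  -- h1
  .push (.max (.add (.v 11) (.c (.ofNat 1) 0)) (.c (.ofNat 0) 0)) <|
  -- h2
  .push (.max (.add (.v 12) (.c (.ofNat 13) 15)) (.c (.ofNat 0) 0)) <|
  -- h3
  .push (.max (.add (.v 13) (.c (.ofNat 21) 31)) (.c (.ofNat 0) 0)) <|
  -- h4
  .push (.max (.add (.v 14) (.c (.ofNat 15) 31)) (.c (.ofNat 0) 0)) <|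
  -- h5
  .push (.max (.add (.v 15) (.c (.ofNat 5) 15)) (.c (.ofNat 0) 0)) <|
  -- h6
  .push (.max (.add (.v 16) (.c (.ofNat 5) 31)) (.c (.ofNat 0) 0)) <|
  -- fk
  .push (.sm (.ofNat 240) kd (.add (.add (.add (.add (.add (.add (.add (.add (.c K.a0 59999) (.sm K.a1 59999 (.v 7))) (.sm K.a2 59999 (.v 6))) (.sm K.a3 59999 (.v 5))) (.sm K.a4 59999 (.v 4))) (.sm K.a5 59999 (.v 3))) (.sm K.a6 59999 (.v 2))) (.sm K.a7 59999 (.v 1))) (.sm K.a8 59999 (.v 0)))) <|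
  -- a1
  .push (.sub (.sub (.add (.sub (.sub (.mul (.v 24) (.sm sk 0 (.v 17))) (.sm sr 0 (.sub (.c (.ofNat 1) 0) (.v 17)))) (.mul (.sm (.ofNat 1) 2 (.sub (.v 24) (.c (.ofNat 1) 0))) (.mul (.v 12) (.add (.c (.ofNat 1) 0) (.mul (.v 9) (.add (.c (.ofNat 1) 1) (.mul (.v 9) (.add (.c (.ofNat 1) 5) (.sm (.ofNat 5) 95 (.v 9)))))))))) (.mul (.sm (.ofNat 2) 2 (.v 8)) (.sub (.v 12) (.maxs (.sm (.ofNat 960) zd (.v 18)) (.v 10))))) (.mul (.sub (.c (.ofNat 1) 0) (.v 17)) (.sm (.ofNat 240) rd (.add (.add (.add (.add (.add (.add (.add (.add (.c R.a0 59999) (.sm R.a1 59999 (.v 8))) (.sm R.a2 59999 (.v 7))) (.sm R.a3 59999 (.v 6))) (.sm R.a4 59999 (.v 5))) (.sm R.a5 59999 (.v 4))) (.sm R.a6 59999 (.v 3))) (.sm R.a7 59999 (.v 2))) (.sm R.a8 59999 (.v 1)))))) (.mul (.v 17) (.sm (.ofNat 240) pd (.add (.add (.c N.a 999999) (.sm N.b 999999 (.add (.c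 (.ofNat 1) 2) (.sm sr 0 (.mul (.v 16) (.sub (.c (.ofNat 1) 0) (.v 17))))))) (.sm N.c 999999 (.v 18)))))) <|
  -- xl
  .push (.mins (.v 19) (.sub (.v 10) (.c (.ofNat 1) 0))) <|
  -- x1
  .push (.mins (.v 20) (.v 11)) <|
  -- el
  .push (.exp (.v 1)) <|
  -- l0
  .push (.max (.add (.v 2) (.c (.ofNat 5) 3)) (.c (.ofNat 0) 0)) <|
  -- l1
  .push (.max (.add (.v 3) (.c (.ofNat 1) 0)) (.c (.ofNat 0) 0)) <|
  -- l2
  .push (.max (.add (.v 4) (.c (.ofNat 13) 15)) (.c (.ofNat 0) 0)) <|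
  -- l3
  .push (.max (.add (.v 5) (.c (.ofNat 21) 31)) (.c (.ofNat 0) 0)) <|
  -- l4
  .push (.max (.add (.v 6) (.c (.ofNat 15) 31)) (.c (.ofNat 0) 0)) <|
  -- l5
  .push (.max (.add (.v 7) (.c (.ofNat 5) 15)) (.c (.ofNat 0) 0)) <|
  -- l6
  .push (.max (.add (.v 8) (.c (.ofNat 5) 31)) (.c (.ofNat 0) 0)) <|
  -- sg
  .push (.add (.sm (.ofNat 2) 2 (.v 7)) (.mul (.mul (.v 27) (.v 28)) (.sm (.ofNat 240) kd (.add (.add (.add (.add (.add (.add (.add (.add (.c K.a0 59999) (.sm K.a1 59999 (.v 7))) (.sm K.a2 59999 (.v 6))) (.sm K.a3 59999 (.v 5))) (.sm K.a4 59999 (.v 4))) (.sm K.a5 59999 (.v 3))) (.sm K.a6 59999 (.v 2))) (.sm K.a7 59999 (.v 1))) (.sm K.a8 59999 (.v 0)))))) <|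
  -- E0
  .push (.sub (.v 9) (.v 10)) <|
  -- E1
  .push (.sub (.exp (.v 10)) (.v 9)) <|
  -- E2
  .push (.sub (.sq (.max (.add (.v 11) (.c (.ofNat 5) 3)) (.c (.ofNat 0) 0))) (.sq (.v 9))) <|
  -- E3
  .push (.sub (.sq (.max (.add (.v 12) (.c (.ofNat 1) 0)) (.c (.ofNat 0) 0))) (.sq (.v 9))) <|
  -- E4
  .push (.sub (.sq (.max (.add (.v 13) (.c (.ofNat 13) 15)) (.c (.ofNat 0) 0))) (.sq (.v 9))) <|
  -- E5
  .push (.sub (.sq (.max (.add (.v 14) (.c (.ofNat 21) 31)) (.c (.ofNat 0) 0))) (.sq (.v 9))) <|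
  -- E6
  .push (.sub (.sq (.max (.add (.v 15) (.c (.ofNat 15) 31)) (.c (.ofNat 0) 0))) (.sq (.v 9))) <|
  -- E7
  .push (.sub (.sq (.max (.add (.v 16) (.c (.ofNat 5) 15)) (.c (.ofNat 0) 0))) (.sq (.v 9))) <|
  -- E8
  .push (.sub (.sq (.max (.add (.v 17) (.c (.ofNat 5) 31)) (.c (.ofNat 0) 0))) (.sq (.v 9))) <|
  -- test
  .tst (.mins (.mins (.add (.v 20) (.mul (.v 38) (.add (.sm (.ofNat 240) kd (.add (.add (.add (.add (.add (.add (.add (.add (.sm K.a0 59999 (.v 8)) (.sm K.a1 59999 (.v 7))) (.sm K.a2 119999 (.v 6))) (.sm K.a3 119999 (.v 5))) (.sm K.a4 119999 (.v 4))) (.sm K.a5 119999 (.v 3))) (.sm K.a6 119999 (.v 2))) (.sm K.a7 119999 (.v 1))) (.sm K.a8 119999 (.v 0)))) (.mul (.v 21) (.sub (.sub (.sub (.v 30) (.max (.c (.ofNat 0) 0) (.sub (.mul (.v 37) (.v 31)) (.v 39)))) (.v 18)) (.sub (.sub (.v 30) (.c (.ofNat 1) 0)) (.v 19)))))))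 (.v 9)) (.sub (.sub (.v 30) (.c (.ofNat 1) 0)) (.c (.negSucc 4) 3))) <|
  .nil

/-- registers below the pushed ones: `r k t w q4 q3 q2 q1 g` -/
def upr (K DK : V9) (N DN : W3) (kn : ℤ) (kd : ℕ) (pn : ℤ) (pd : ℕ) (zt sk zo : ℤ) : Pg :=
  -- test
  .tst (.sub (.c zt 959) (.sm sk 0 (.sub (.v 1) (.c (.ofNat 1) 2)))) <|
  -- test
  .tst (.sub (.c zo 959) (.v 1)) <|
  -- wk
  .push (.sub (.sm (.ofNat 240) kd (.v 1)) (.c kn kd)) <|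
  -- lo
  .push (.sub (.sub (.c (.ofNat 10) 2) (.sm (.ofNat 2) 8 (.inv (.sub (.c (.ofNat 1) 0) (.v 2))))) (.sm (.ofNat 18) 0 (.inv (.sub (.c (.ofNat 7) 0) (.sm (.ofNat 3) 0 (.v 2)))))) <|
  -- xl
  .push (.maxs (.sub (.v 0) (.c (.ofNat 1) 0)) (.c (.negSucc 4) 3)) <|
  -- x1
  .push (.mins (.c (.ofNat 0) 0) (.v 1)) <|
  -- eh
  .push (.exp (.v 6)) <|
  -- h0
  .push (.max (.add (.v 7) (.c (.ofNat 5) 3)) (.c (.ofNat 0) 0)) <|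
  -- h1
  .push (.max (.add (.v 8) (.c (.ofNat 1) 0)) (.c (.ofNat 0) 0)) <|
  -- h2
  .push (.max (.add (.v 9) (.c (.ofNat 13) 15)) (.c (.ofNat 0) 0)) <|
  -- h3
  .push (.max (.add (.v 10) (.c (.ofNat 21) 31)) (.c (.ofNat 0) 0)) <|
  -- h4
  .push (.max (.add (.v 11) (.c (.ofNat 15) 31)) (.c (.ofNat 0) 0)) <|
  -- h5
  .push (.max (.add (.v 12) (.c (.ofNat 5) 15)) (.c (.ofNat 0) 0)) <|
  -- h6
  .push (.max (.add (.v 13) (.c (.ofNat 5) 31)) (.c (.ofNat 0) 0)) <|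
  -- fk
  .push (.add (.add (.add (.add (.add (.add (.add (.add (.add (.c K.a0 59999) (.sm K.a1 59999 (.v 7))) (.sm K.a2 59999 (.v 6))) (.sm K.a3 59999 (.v 5))) (.sm K.a4 59999 (.v 4))) (.sm K.a5 59999 (.v 3))) (.sm K.a6 59999 (.v 2))) (.sm K.a7 59999 (.v 1))) (.sm K.a8 59999 (.v 0))) (.mul (.v 11) (.add (.add (.add (.add (.add (.add (.add (.add (.c DK.a0 59999) (.sm DK.a1 59999 (.v 7))) (.sm DK.a2 59999 (.v 6))) (.sm DK.a3 59999 (.v 5))) (.sm DK.a4 59999 (.v 4))) (.sm DK.a5 59999 (.v 3))) (.sm DK.a6 59999 (.v 2))) (.sm DK.a7 59999 (.v 1))) (.sm DK.a8 59999 (.v 0))))) <|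
  -- E0
  .push (.sub (.v 9) (.v 10)) <|
  -- E1
  .push (.sub (.exp (.v 10)) (.exp (.v 11))) <|
  -- E2
  .push (.sub (.sq (.max (.add (.v 11) (.c (.ofNat 5) 3)) (.c (.ofNat 0) 0))) (.sq (.max (.add (.v 12) (.c (.ofNat 5) 3)) (.c (.ofNat 0) 0)))) <|
  -- E3
  .push (.sub (.sq (.max (.add (.v 12) (.c (.ofNat 1) 0)) (.c (.ofNat 0) 0))) (.sq (.max (.add (.v 13) (.c (.ofNat 1) 0)) (.c (.ofNat 0) 0)))) <|
  -- E4
  .push (.sub (.sq (.max (.add (.v 13) (.c (.ofNat 13) 15)) (.c (.ofNat 0) 0))) (.sq (.max (.add (.v 14) (.c (.ofNat 13) 15)) (.c (.ofNat 0) 0)))) <|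
  -- E5
  .push (.sub (.sq (.max (.add (.v 14) (.c (.ofNat 21) 31)) (.c (.ofNat 0) 0))) (.sq (.max (.add (.v 15) (.c (.ofNat 21) 31)) (.c (.ofNat 0) 0)))) <|
  -- E6
  .push (.sub (.sq (.max (.add (.v 15) (.c (.ofNat 15) 31)) (.c (.ofNat 0) 0))) (.sq (.max (.add (.v 16) (.c (.ofNat 15) 31)) (.c (.ofNat 0) 0)))) <|
  -- E7
  .push (.sub (.sq (.max (.add (.v 16) (.c (.ofNat 5) 15)) (.c (.ofNat 0) 0))) (.sq (.max (.add (.v 17) (.c (.ofNat 5) 15)) (.c (.ofNat 0) 0)))) <|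
  -- E8
  .push (.sub (.sq (.max (.add (.v 17) (.c (.ofNat 5) 31)) (.c (.ofNat 0) 0))) (.sq (.max (.add (.v 18) (.c (.ofNat 5) 31)) (.c (.ofNat 0) 0)))) <|
  -- test
  .tst (.mins (.sub (.sub (.add (.mins (.c (.ofNat 1) 0) (.mul (.v 30) (.v 23))) (.add (.add (.add (.add (.add (.add (.add (.add (.add (.add (.sm K.a0 59999 (.v 8)) (.sm K.a1 59999 (.v 7))) (.sm K.a2 119999 (.v 6))) (.sm K.a3 119999 (.v 5))) (.sm K.a4 119999 (.v 4))) (.sm K.a5 119999 (.v 3))) (.sm K.a6 119999 (.v 2))) (.sm K.a7 119999 (.v 1))) (.sm K.a8 119999 (.v 0))) (.mul (.v 21) (.add (.add (.add (.add (.add (.add (.add (.add (.sm DK.a0 59999 (.v 8)) (.sm DK.a1 59999 (.v 7))) (.sm DK.a2 119999 (.v 6))) (.sm DK.a3 119999 (.v 5))) (.sm DK.a4 119999 (.v 4))) (.sm DK.a5 119999 (.v 3))) (.sm DK.a6 119999 (.v 2))) (.sm DK.a7 119999 (.v 1))) (.sm DK.a8 119999 (.v 0)))))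 (.mul (.v 9) (.sub (.v 20) (.v 18))))) (.c (.ofNat 1) 0)) (.add (.c N.a 999999) (.mul (.sub (.sm (.ofNat 240) pd (.v 23)) (.c pn pd)) (.c DN.a 999999)))) (.mins (.sub (.v 20) (.c (.negSucc 4) 3)) (.sub (.c (.ofNat 1) 0) (.v 20)))) <|
  .nil

def nth {α : Type} (d : α) (i : ℕ) : List α → α :=
  Nat.rec (fun l => List.rec d (fun A _ _ => A) l) (fun _ ih l => List.rec d (fun _ t _ => ih t) l) i

def allN (n : ℕ) (f : ℕ → Bool) : Bool := Nat.rec true (fun i ih => Bool.rec false ih (f i)) n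

def band (x y : Bool) : Bool := Bool.rec false y x

def lo240 (n : ℕ) : ℤ := .ofNat (Nat.div (Nat.mul n S) 240)
def hi240 (n : ℕ) : ℤ := .ofNat (Nat.div (Nat.add (Nat.mul n S) 239) 240)
def hi960 (n : ℕ) : ℤ := .ofNat (Nat.div (Nat.add (Nat.mul n S) 959) 960)
def z3 : W3 := ⟨.ofNat 0, .ofNat 0, .ofNat 0⟩
def wd (x : ℕ → ℕ) (a : ℕ) : ℕ := Nat.sub (Nat.sub (x (Nat.succ a)) (x a)) 1
def sgn (a : ℕ) : ℤ := if 6 ≤ a then .ofNat 1 else .negSucc 0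

/-- antisymmetric matrix of affine functions from the list of the entries above the diagonal -/
def getN (N : List W3) (i j : ℕ) : W3 :=
  if i < j then nth z3 (i * (13 - i) / 2 + (j - i - 1)) N
  else if j < i then (nth z3 (j * (13 - j) / 2 + (i - j - 1)) N).neg else z3

/-- a record: own cell, box in `(r, τ)`, size of the tip zone in units of `1/960`, matrix, codes -/
structure Rec where
  ar : ℕ
  r1 : ℤ
  r2 : ℤ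
  t1 : ℤ
  t2 : ℤ
  zt : ℕ
  N : List W3
  tips : List ℕ
  codes : List ℕ

def mainJob (T : ℕ → ℕ → V9) (R : Rec) (j ak : ℕ) : Bool :=
  V9.fr (T ak j) fun K => V9.fr ((T (Nat.succ ak) j).sub (T ak j)) fun DK =>
  V9.fr (T R.ar j) fun Rr => V9.fr ((T (Nat.succ R.ar) j).sub (T R.ar j)) fun DR =>
  W3.fr (getN R.N (pcI ak) j) fun N =>
  W3.fr ((getN R.N (Nat.succ (pcI ak)) j).sub (getN R.N (pcI ak) j)) fun DN =>
  frN (xI ak) fun kn => frN (wd xI ak) fun kd => frN (xI R.ar) fun rn => frN (wd xI R.ar) fun rd =>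
  frN (yI (pcI ak)) fun pn => frN (wd yI (pcI ak)) fun pd =>
  frN (if j = 3 ∧ (ak = 5 ∨ ak = 6) ∧ (R.ar = 5 ∨ R.ar = 6) then R.zt else 0) fun zt =>
  frI (sgn R.ar) fun sr => frI (sgn ak) fun sk =>
  frN (if j = 0 ∧ ak = 0 ∧ R.ar = 0 then 5 else 0) fun zo =>
  frI (lo240 kn) fun k1 => frI (hi240 (xI (Nat.succ ak))) fun k2 =>
  band
    (checkT 4 [gE] [genA K DK Rr DR N DN (.ofNat kn) kd (.ofNat rn) rd (.ofNat pn) pd,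
        deadA Rr DR N DN (.ofNat rn) rd (.ofNat pn) pd (.ofNat zt) sr sk (.ofNat zo) (.ofNat 71666)]
      ⟨R.r1, R.r2, k1, k2, R.t1, R.t2, .ofNat 0, .ofNat 0⟩ (nth 0 (2 * (11 * j + ak)) R.codes))
    (checkT 4 [gE] [genB K DK Rr DR N DN (.ofNat kn) kd (.ofNat rn) rd (.ofNat pn) pd,
        deadB Rr DR N DN (.ofNat rn) rd (.ofNat pn) pd (.ofNat zt) sr sk (.ofNat zo) (.ofNat 71666)]
      ⟨R.r1, R.r2, k1, k2, R.t1, R.t2, .ofNat 0, .ofNat 0⟩ (nth 0 (2 * (11 * j + ak) + 1) R.codes))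

/-- the node next to the tip in the own cell `a` (`a = 5` or `a = 6`) -/
def nbI (a : ℕ) : ℕ := if a = 6 then 7 else 5
/-- the partner node next to the tip -/
def nbY (a : ℕ) : ℕ := if a = 6 then 4 else 2

/-- the tip jobs for `k` in the own cell `ak` (5 or 6) -/
def tipJob (T : ℕ → ℕ → V9) (R : Rec) (ak : ℕ) : Bool :=
  V9.fr (T (nbI ak) 3).eta fun K => V9.fr (T (nbI R.ar) 3).eta fun Rr =>
  W3.fr (getN R.N (nbY ak) 3) fun N => frN (wd xI ak) fun kd => frN (wd xI R.ar) fun rd =>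
  frN (wd yI (pcI ak)) fun pd => frN (Nat.sub R.zt 1) fun zd => frI (sgn R.ar) fun sr =>
  frI (sgn ak) fun sk => frI (hi960 R.zt) fun s2 =>
  band
    (checkT 4 [gE] [tipA K Rr N kd rd pd zd sr sk]
      ⟨.ofNat 0, s2, .ofNat 0, .ofNat S, R.t1, R.t2, .ofNat 0, .ofNat 0⟩ (nth 0 (2 * (ak - 5)) R.tips))
    (checkT 4 [gE] [tipB K Rr N kd rd pd zd sr sk]
      ⟨.ofNat 0, s2, .ofNat 0, .ofNat S, R.t1, R.t2, .ofNat 0, .ofNat 0⟩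
      (nth 0 (2 * (ak - 5) + 1) R.tips))

def checkR (T : ℕ → ℕ → V9) (R : Rec) : Bool :=
  band (Nat.ble R.zt 20) <| band (if R.zt = 0 then true else band (tipJob T R 5) (tipJob T R 6)) <|
  allN 7 fun j => allN 11 fun ak => mainJob T R j ak

def uJob (T : ℕ → ℕ → V9) (NU : ℕ → ℕ → ℤ) (codes : List ℕ) (j ak : ℕ) : Bool :=
  V9.fr (T ak j) fun K => V9.fr ((T (Nat.succ ak) j).sub (T ak j)) fun DK =>
  frI (NU (pcI ak) j) fun n0 => frI (Int.sub (NU (Nat.succ (pcI ak)) j) (NU (pcI ak) j)) fun n1 =>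
  checkT 4 [gE] [upr K DK ⟨n0, .ofNat 0, .ofNat 0⟩ ⟨n1, .ofNat 0, .ofNat 0⟩ (.ofNat (xI ak)) (wd xI ak)
      (.ofNat (yI (pcI ak))) (wd yI (pcI ak)) (.ofNat (if j = 3 ∧ (ak = 5 ∨ ak = 6) then 20 else 0))
      (sgn ak) (.ofNat (if j = 0 ∧ ak = 0 then 5 else 0))]
    ⟨.ofNat 0, .ofNat 0, lo240 (xI ak), hi240 (xI (Nat.succ ak)), .ofNat 0, .ofNat 0, .ofNat 0, .ofNat 0⟩
    (nth 0 (11 * j + ak) codes)

def uTip (T : ℕ → ℕ → V9) (NU : ℕ → ℕ → ℤ) (tips : List ℕ) (ak : ℕ) : Bool :=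
  checkT 4 [gE] [tipB (T (nbI ak) 3).eta (T 7 3).eta ⟨NU (nbY ak) 3, .ofNat 0, .ofNat 0⟩ (wd xI ak) 9
      (wd yI (pcI ak)) 19 (.ofNat 1) (sgn ak)]
    ⟨.ofNat 0, hi960 20, .ofNat S, .ofNat S, .ofNat 0, .ofNat 0, .ofNat 0, .ofNat 0⟩ (nth 0 (ak - 5) tips)

def checkU (T : ℕ → ℕ → V9) (NU : ℕ → ℕ → ℤ) (tips codes : List ℕ) : Bool :=
  band (band (uTip T NU tips 5) (uTip T NU tips 6)) <|
  allN 7 fun j => allN 11 fun ak => uJob T NU codes j ak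

/-- `64 * 60000 * ph c 0` -/
def V9.top (c : V9) : ℤ := 64 * c.a0 + 64 * c.a1 + 80 * c.a2 + 64 * c.a3 + 52 * c.a4 + 42 * c.a5 +
  30 * c.a6 + 20 * c.a7 + 10 * c.a8

/-- monotonicity and the two caps at the node `x / 240` -/
def V9.Ok (c : V9) (x : ℕ) : Prop :=
  0 ≤ c.a1 ∧ 0 ≤ c.a2 ∧ 0 ≤ c.a2 + c.a3 ∧ 0 ≤ c.a2 + c.a3 + c.a4 ∧ 0 ≤ c.a2 + c.a3 + c.a4 + c.a5 ∧
  0 ≤ c.a2 + c.a3 + c.a4 + c.a5 + c.a6 ∧ 0 ≤ c.a2 + c.a3 + c.a4 + c.a5 + c.a6 + c.a7 ∧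
  0 ≤ c.a2 + c.a3 + c.a4 + c.a5 + c.a6 + c.a7 + c.a8 ∧
  c.top ≤ 16000 * (240 - (x : ℤ)) ∧ c.top ≤ 6720000 - 46200 * (x : ℤ)

/-- side conditions on the table, the matrix of `(U)` (over `10^6`) and its vector (over `10^4`) -/
structure TabOK (T : ℕ → ℕ → V9) (NU : ℕ → ℕ → ℤ) (vU : ℕ → ℤ) : Prop where
  ok : ∀ a < 12, ∀ j < 7, (T a j).Ok (xI a)
  tip : T 6 3 = ⟨0, 40000, 0, 0, 0, 0, 0, 0, 0⟩
  o1 : (T 0 0).a1 = 0
  o2 : (T 0 0).a2 + (T 0 0).a3 + (T 0 0).a4 + (T 0 0).a5 + (T 0 0).a6 = 0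
  o3 : (T 0 0).a7 = 0
  o4 : (T 0 0).a8 = 0
  o5 : (T 0 0).top = 3840000
  o6 : T 1 0 = ⟨(T 0 0).a0 - 3250, (T 0 0).a1, (T 0 0).a2, (T 0 0).a3, (T 0 0).a4, (T 0 0).a5,
    (T 0 0).a6, (T 0 0).a7, (T 0 0).a8⟩
  cop : ∀ i < 7, ∀ j < 7, 2 * (vU i * vU j) ≤ 100 * (NU i j + NU j i)
  n00 : NU 0 0 = 0
  n33 : NU 3 3 = 0
  n10 : NU 1 0 ≤ 72500

/-- real table -/
def TR (T : ℕ → ℕ → V9) (a j : ℕ) : ℕ → ℝ := (T a j).f

/-- the statement `cP` of `CellCert` at one point -/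
def PStat (T : ℕ → ℕ → V9) (ar : ℕ) (r τ : ℝ) : Prop :=
  ∃ N : ℕ → ℕ → ℝ, CoposM (6 + 1) N ∧ ∀ a < 11, ∀ j ≤ 6, ∀ k, 0 < k → xN a ≤ k → k ≤ xN (a + 1) → ∀ μ,
    (μ = hiP (4 / 3) r k ∨
      (loP (4 / 3) k < hiP (4 / 3) r k ∧ μ = min (loP (4 / 3) k) (hiP (4 / 3) r k))) →
    ColG (1 + 2 / Real.exp 1) (7 / 4) (33 / 20) (-5 / 4) (phK 7 tk (cfC xN (TR T) a j k))
      (phK 7 tk (cfC xN (TR T) ar j r) τ) (itp yN (fun i => N i j) (pcI a) k) r k τ (loP (4 / 3) k) μ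

/-- `PStat` on a box -/
def PB (T : ℕ → ℕ → V9) (ar : ℕ) (r1 r2 t1 t2 : ℤ) : Prop :=
  ∀ r τ : ℝ, 0 < r → xN ar ≤ r → r ≤ xN (ar + 1) → -5 / 4 ≤ τ → τ ≤ 0 → (r1 : ℝ) ≤ r * S →
    r * S ≤ r2 → (t1 : ℝ) ≤ τ * S → τ * S ≤ t2 → PStat T ar r τ

/-- the statement `cU` of `CellCert` -/
def UStat (T : ℕ → ℕ → V9) : Prop :=
  ∃ N : ℕ → ℕ → ℝ, CoposM (6 + 1) N ∧ ∀ a < 11, ∀ j ≤ 6, ∀ k, 0 < k → xN a ≤ k → k ≤ xN (a + 1) →
    itp yN (fun i => N i j) (pcI a) k ≤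
      U1 (1 + 2 / Real.exp 1) (-5 / 4) 0 (loP (4 / 3)) (phK 7 tk (cfC xN (TR T) a j k)) k - 1

end

theorem PB.splitR {T : ℕ → ℕ → V9} {ar : ℕ} {r1 r2 t1 t2 : ℤ} (m : ℤ) (h1 : PB T ar r1 m t1 t2)
    (h2 : PB T ar m r2 t1 t2) : PB T ar r1 r2 t1 t2 := fun r τ a b c d e f g h i =>
  (le_total (r * S) m).elim (fun t => h1 r τ a b c d e f t h i) fun t => h2 r τ a b c d e t g h i

theorem PB.splitT {T : ℕ → ℕ → V9} {ar : ℕ} {r1 r2 t1 t2 : ℤ} (m : ℤ) (h1 : PB T ar r1 r2 t1 m)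
    (h2 : PB T ar r1 r2 m t2) : PB T ar r1 r2 t1 t2 := fun r τ a b c d e f g h i =>
  (le_total (τ * S) m).elim (fun t => h1 r τ a b c d e f g h t) fun t => h2 r τ a b c d e f g t i

end Crest.Agent.R310.NP
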