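import Crest.Agent.R310.NProg

/-! Row 310, column route: tools for reading the programs. -/

set_option autoImplicit false
set_option linter.dupNamespace false

namespace Crest.Agent.R310.NP

open Crest.Agent.Lib.IBox

theorem good_push (x : Ex) (p : Pg) (ρ : List ℝ) :
    (Pg.push x p).Good ρ ↔ ∃ v, v = x.val ρ ∧ p.Good (v :: ρ) :=
  ⟨fun h => ⟨_, rfl, h⟩, fun ⟨_, e, h⟩ => by subst e; exact h⟩

theorem good_tst (x : Ex) (p : Pg) (ρ : List ℝ) :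
    (Pg.tst x p).Good ρ ↔ 0 < x.val ρ ∨ p.Good ρ := Iff.rfl

theorem good_nil (ρ : List ℝ) : Pg.nil.Good ρ ↔ False := Iff.rfl

theorem phK7 (c : ℕ → ℝ) (s : ℝ) : phK 7 tk c s = c 0 + c 1 * Real.exp s +
    c 2 * max (s + 5 / 4) 0 + c 3 * max (s + 1) 0 + c 4 * max (s + 13 / 16) 0 +
    c 5 * max (s + 21 / 32) 0 + c 6 * max (s + 15 / 32) 0 + c 7 * max (s + 5 / 16) 0 +
    c 8 * max (s + 5 / 32) 0 := by
  simp only [phK, Finset.sum_range_succ, Finset.sum_range_zero, tk, sub_eq_add_neg]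
  norm_num only
  ring

theorem PhK7 (c : ℕ → ℝ) (s : ℝ) : PhK 7 tk c s = c 0 * s + c 1 * Real.exp s +
    (c 2 * max (s + 5 / 4) 0 ^ 2 + c 3 * max (s + 1) 0 ^ 2 + c 4 * max (s + 13 / 16) 0 ^ 2 +
    c 5 * max (s + 21 / 32) 0 ^ 2 + c 6 * max (s + 15 / 32) 0 ^ 2 + c 7 * max (s + 5 / 16) 0 ^ 2 +
    c 8 * max (s + 5 / 32) 0 ^ 2) / 2 := by
  simp only [PhK, Finset.sum_range_succ, Finset.sum_range_zero, tk, sub_eq_add_neg]
  norm_num only
  ring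

theorem lo_eq {k : ℝ} (hk : k ≤ 7 / 12) :
    10 / 3 - 2 / 9 * (1 - k)⁻¹ - 18 * (7 - 3 * k)⁻¹ = loP (4 / 3) k := by
  have h1 : 1 - k ≠ 0 := by linarith
  have h2 : 7 - 3 * k ≠ 0 := by linarith
  rw [loP, padeL, show 1 + (1 - 3 * k) / 2 = 3 / 2 * (1 - k) by ring,
    show 6 + 2 * ((1 - 3 * k) / 2) = 7 - 3 * k by ring]
  field_simp
  ring

theorem hi_eq {r k : ℝ} (h : 0 ≤ r + k) :
    1 / 2 * (r + k) + 7 / 6 - 9 / 2 * (1 + 3 * (r + k))⁻¹ = hiP (4 / 3) r k := by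
  have h1 : 1 + 3 * (r + k) ≠ 0 := by linarith
  rw [hiP, padeU, show 6 + 4 * ((3 * (r + k) - 2) / 2) = 2 * (1 + 3 * (r + k)) by ring]
  field_simp
  ring

/-- the value of an interpolated profile as the programs compute it -/
theorem ph_mix {K DK : V9} {ck : ℕ → ℝ} {w : ℝ} (hck : ∀ q, ck q = K.f q + w * DK.f q) (s : ℝ) :
    (K.a0 : ℝ) / 60000 + K.a1 / 60000 * Real.exp s + K.a2 / 60000 * max (s + 5 / 4) 0 +
      K.a3 / 60000 * max (s + 1) 0 + K.a4 / 60000 * max (s + 13 / 16) 0 +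
      K.a5 / 60000 * max (s + 21 / 32) 0 + K.a6 / 60000 * max (s + 15 / 32) 0 +
      K.a7 / 60000 * max (s + 5 / 16) 0 + K.a8 / 60000 * max (s + 5 / 32) 0 +
      w * (DK.a0 / 60000 + DK.a1 / 60000 * Real.exp s + DK.a2 / 60000 * max (s + 5 / 4) 0 +
      DK.a3 / 60000 * max (s + 1) 0 + DK.a4 / 60000 * max (s + 13 / 16) 0 +
      DK.a5 / 60000 * max (s + 21 / 32) 0 + DK.a6 / 60000 * max (s + 15 / 32) 0 +
      DK.a7 / 60000 * max (s + 5 / 16) 0 + DK.a8 / 60000 * max (s + 5 / 32) 0) = phK 7 tk ck s := by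
  simp only [phK7, hck, V9.f]
  ring

theorem wt_eq (k : ℝ) (n : ℤ) (d : ℕ) :
    240 / ((d : ℝ) + 1) * k - n / (d + 1) = (240 * k - n) / (d + 1) := by ring

end Crest.Agent.R310.NP
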