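import Crest.Agent.R310.NSndD
import Crest.Agent.R310.NSnd0

/-! Row 310, column route: soundness of the main programs. -/

set_option autoImplicit false
set_option linter.dupNamespace false

namespace Crest.Agent.R310.NP

open Crest.Agent.Lib.IBox

theorem gen_core {K DK : V9} {r k τ q4 q2 q1 Nv vr wk l' m' μ lo c1 kp : ℝ} {ck : ℕ → ℝ}
    (a0 : 0 ≤ q1) (a1 : q1 ≤ 1) (b0 : 0 ≤ q2) (b1 : q2 ≤ 1) (d0 : 0 ≤ q4) (d1 : q4 ≤ 1)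
    (hr : r ≤ 7 / 12) (h0 : -5 / 4 ≤ τ) (hck : ∀ q, ck q = K.f q + wk * DK.f q)
    (hM : Monotone (phK 7 tk ck)) (hl : l' ≤ max lo μ) (hm : μ ≤ m')
    (hc1 : c1 = max 0 (q2 * (r - k) + (1 - q2) * (7 / 4 * (r - 33 / 20 * k))))
    (hkp : kp = min 1 (max lo μ - -(5 / 4)) - max 0 (min 1 (μ - τ)))
    {yu yl xl x1 c2 E0 E1 E2 E3 E4 E5 E6 E7 E8 : ℝ} (hyu : yu = l' - max 0 (m' - τ))
    (hyl : yl = max (l' - 1) (-(5 / 4))) (hxl : xl = min τ yl) (hx1 : x1 = min τ l')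
    (hc2 : c2 = min c1 (phK 7 tk ck xl)) (e0 : E0 = x1 - xl) (e1 : E1 = Real.exp x1 - Real.exp xl)
    (e2 : E2 = max (x1 + 5 / 4) 0 ^ 2 - max (xl + 5 / 4) 0 ^ 2)
    (e3 : E3 = max (x1 + 1) 0 ^ 2 - max (xl + 1) 0 ^ 2)
    (e4 : E4 = max (x1 + 13 / 16) 0 ^ 2 - max (xl + 13 / 16) 0 ^ 2)
    (e5 : E5 = max (x1 + 21 / 32) 0 ^ 2 - max (xl + 21 / 32) 0 ^ 2)
    (e6 : E6 = max (x1 + 15 / 32) 0 ^ 2 - max (xl + 15 / 32) 0 ^ 2)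
    (e7 : E7 = max (x1 + 5 / 16) 0 ^ 2 - max (xl + 5 / 16) 0 ^ 2)
    (e8 : E8 = max (x1 + 5 / 32) 0 ^ 2 - max (xl + 5 / 32) 0 ^ 2)
    (h : 0 < min (q4 * ((K.a0 : ℝ) / 60000 * E0 + K.a1 / 60000 * E1 + K.a2 / 120000 * E2 +
      K.a3 / 120000 * E3 + K.a4 / 120000 * E4 + K.a5 / 120000 * E5 + K.a6 / 120000 * E6 +
      K.a7 / 120000 * E7 + K.a8 / 120000 * E8 + wk * (DK.a0 / 60000 * E0 + DK.a1 / 60000 * E1 +
      DK.a2 / 120000 * E2 + DK.a3 / 120000 * E3 + DK.a4 / 120000 * E4 + DK.a5 / 120000 * E5 +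
      DK.a6 / 120000 * E6 + DK.a7 / 120000 * E7 + DK.a8 / 120000 * E8) +
      phK 7 tk ck τ * (yu - x1 - (yl - xl)) - c2 * (yu - yl)) - (c1 - c2) * kp +
      (q1 * (min 1 ((1 + 2 / Real.exp 1) * k) - r) - vr - Nv)) (l' - -(5 / 4))) :
    ColG (1 + 2 / Real.exp 1) (7 / 4) (33 / 20) (-5 / 4) (phK 7 tk ck) vr Nv r k τ lo μ := by
  obtain ⟨h1, h2⟩ := lt_min_iff.1 h
  have e : (-(5 / 4) : ℝ) = -5 / 4 := by norm_num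
  rw [e] at hkp hyl h2
  have hP : (K.a0 : ℝ) / 60000 * E0 + K.a1 / 60000 * E1 + K.a2 / 120000 * E2 +
      K.a3 / 120000 * E3 + K.a4 / 120000 * E4 + K.a5 / 120000 * E5 + K.a6 / 120000 * E6 +
      K.a7 / 120000 * E7 + K.a8 / 120000 * E8 + wk * (DK.a0 / 60000 * E0 + DK.a1 / 60000 * E1 +
      DK.a2 / 120000 * E2 + DK.a3 / 120000 * E3 + DK.a4 / 120000 * E4 + DK.a5 / 120000 * E5 +
      DK.a6 / 120000 * E6 + DK.a7 / 120000 * E7 + DK.a8 / 120000 * E8) =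
      PhK 7 tk ck x1 - PhK 7 tk ck xl := by
    simp only [PhK7, hck, V9.f, e0, e1, e2, e3, e4, e5, e6, e7, e8]
    ring
  rw [hP] at h1
  refine colG_gen (prim_phK 7 tk ck) hM h0 (by linarith) a0 a1 b0 b1 d0 d1 (by linarith) hl hm hc1 ?_
  rw [Ghat, kapW, ← hyl, ← hxl, ← hx1, ← hc2, ← hyu, ← hkp]
  linarith

theorem genA_sound {K DK R DR : V9} {N DN : W3} {kn rn pn : ℤ} {kd rd pd : ℕ}
    {r k τ w q4 q3 q2 q1 Nv : ℝ} {ck cr : ℕ → ℝ}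
    (h : (genA K DK R DR N DN kn kd rn rd pn pd).Good [r, k, τ, w, q4, q3, q2, q1, 1 + 2 / Real.exp 1])
    (a0 : 0 ≤ q1) (a1 : q1 ≤ 1) (b0 : 0 ≤ q2) (b1 : q2 ≤ 1) (c0 : 0 ≤ q3) (c1 : q3 ≤ 1)
    (d0 : 0 ≤ q4) (d1 : q4 ≤ 1) (hr0 : 0 ≤ r) (hr : r ≤ 7 / 12) (hk0 : 0 ≤ k) (hk : k ≤ 7 / 12)
    (h0 : -5 / 4 ≤ τ) (hck : ∀ q, ck q = K.f q + (240 * k - kn) / (kd + 1) * DK.f q)
    (hcr : ∀ q, cr q = R.f q + (240 * r - rn) / (rd + 1) * DR.f q) (hM : Monotone (phK 7 tk ck))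
    (hN : Nv = N.v r τ + (240 * k - pn) / (pd + 1) * DN.v r τ) :
    ColG (1 + 2 / Real.exp 1) (7 / 4) (33 / 20) (-5 / 4) (phK 7 tk ck) (phK 7 tk cr τ) Nv r k τ
      (loP (4 / 3) k) (hiP (4 / 3) r k) := by
  unfold genA at h
  simp only [good_push, good_tst, good_nil, Ex.val, List.getD_cons_succ, List.getD_cons_zero,
    or_false, Int.ofNat_eq_natCast, Nat.cast_ofNat, Nat.cast_zero, Nat.cast_one,
    Int.cast_negSucc] at h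
  norm_num only at h
  obtain ⟨wk, hwk, _, rfl, _, rfl, _, rfl, _, rfl, _, rfl, _, rfl, _, rfl, _, rfl, fk, hfk, base, hb,
    lo, hlo, hi, hhi, mix, hmix, c, hc, kp, hkp, yu, hyu, yl, hyl, xl, hxl, x1, hx1, _, rfl, _, rfl,
    _, rfl, _, rfl, _, rfl, _, rfl, _, rfl, _, rfl, c2, hc2, E0, e0, E1, e1, E2, e2, E3, e3, E4, e4,
    E5, e5, E6, e6, E7, e7, E8, e8, h⟩ := h
  rw [wt_eq] at hwk
  rw [← hwk] at hck
  rw [ph_mix hck] at hfk hc2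
  rw [wt_eq, wt_eq, ph_mix hcr] at hb
  have hb' : base = q1 * (min 1 ((1 + 2 / Real.exp 1) * k) - r) - phK 7 tk cr τ - Nv := by
    rw [hb, hN, W3.v, W3.v]
    ring
  rw [lo_eq hk] at hlo
  rw [hi_eq (add_nonneg hr0 hk0)] at hhi
  rw [hfk, hb'] at h
  rw [← hlo, ← hhi]
  refine gen_core a0 a1 b0 b1 d0 d1 hr h0 hck hM (l' := mix) (m' := hi) ?_ le_rfl hc hkp hyu hyl hxl
    hx1 hc2 e0 e1 e2 e3 e4 e5 e6 e7 e8 h
  have := mixA_le lo hi c0 c1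
  linarith

theorem genB_sound {K DK R DR : V9} {N DN : W3} {kn rn pn : ℤ} {kd rd pd : ℕ}
    {r k τ w q4 q3 q2 q1 Nv : ℝ} {ck cr : ℕ → ℝ}
    (h : (genB K DK R DR N DN kn kd rn rd pn pd).Good [r, k, τ, w, q4, q3, q2, q1, 1 + 2 / Real.exp 1])
    (a0 : 0 ≤ q1) (a1 : q1 ≤ 1) (b0 : 0 ≤ q2) (b1 : q2 ≤ 1) (c0 : 0 ≤ q3) (c1 : q3 ≤ 1)
    (d0 : 0 ≤ q4) (d1 : q4 ≤ 1) (hr0 : 0 ≤ r) (hr : r ≤ 7 / 12) (hk0 : 0 ≤ k) (hk : k ≤ 7 / 12)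
    (h0 : -5 / 4 ≤ τ) (hck : ∀ q, ck q = K.f q + (240 * k - kn) / (kd + 1) * DK.f q)
    (hcr : ∀ q, cr q = R.f q + (240 * r - rn) / (rd + 1) * DR.f q) (hM : Monotone (phK 7 tk ck))
    (hN : Nv = N.v r τ + (240 * k - pn) / (pd + 1) * DN.v r τ)
    (hlt : loP (4 / 3) k < hiP (4 / 3) r k) :
    ColG (1 + 2 / Real.exp 1) (7 / 4) (33 / 20) (-5 / 4) (phK 7 tk ck) (phK 7 tk cr τ) Nv r k τ
      (loP (4 / 3) k) (min (loP (4 / 3) k) (hiP (4 / 3) r k)) := by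
  unfold genB at h
  simp only [good_push, good_tst, good_nil, Ex.val, List.getD_cons_succ, List.getD_cons_zero,
    or_false, Int.ofNat_eq_natCast, Nat.cast_ofNat, Nat.cast_zero, Nat.cast_one,
    Int.cast_negSucc] at h
  norm_num only at h
  obtain ⟨wk, hwk, _, rfl, _, rfl, _, rfl, _, rfl, _, rfl, _, rfl, _, rfl, _, rfl, fk, hfk, base, hb,
    lo, hlo, hi, hhi, mix, hmix, c, hc, kp, hkp, yu, hyu, yl, hyl, xl, hxl, x1, hx1, _, rfl, _, rfl,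
    _, rfl, _, rfl, _, rfl, _, rfl, _, rfl, _, rfl, c2, hc2, E0, e0, E1, e1, E2, e2, E3, e3, E4, e4,
    E5, e5, E6, e6, E7, e7, E8, e8, h⟩ := h
  rw [wt_eq] at hwk
  rw [← hwk] at hck
  rw [ph_mix hck] at hfk hc2
  rw [wt_eq, wt_eq, ph_mix hcr] at hb
  have hb' : base = q1 * (min 1 ((1 + 2 / Real.exp 1) * k) - r) - phK 7 tk cr τ - Nv := by
    rw [hb, hN, W3.v, W3.v]
    ring
  rw [lo_eq hk] at hlo
  rw [hi_eq (add_nonneg hr0 hk0)] at hhi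
  rw [hfk, hb'] at h
  rw [← hlo, ← hhi] at hlt ⊢
  have hm := le_mixB lo hi c0 c1
  rw [min_eq_left hlt.le] at hm ⊢
  refine gen_core a0 a1 b0 b1 d0 d1 hr h0 hck hM (l' := lo) (m' := mix) (le_max_left _ _)
    (by linarith) hc ?_ hyu hyl hxl hx1 hc2 e0 e1 e2 e3 e4 e5 e6 e7 e8 h
  rw [max_self]
  exact hkp

end Crest.Agent.R310.NP
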