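import Crest.Agent.R310.NProg

/-! Row 310, column route: soundness of the dead-zone programs. -/

set_option autoImplicit false
set_option linter.dupNamespace false

namespace Crest.Agent.R310.NP

open Crest.Agent.Lib.IBox

theorem h92_hi {r k : ℝ} (hx : 0 ≤ r + k) :
    hiP (4 / 3) r k = 1 / 2 * (r + k) + 7 / 6 - 9 / 2 * (1 + 3 * (r + k))⁻¹ := by
  rw [hiP, padeU]
  generalize r + k = x at hx
  have h : 1 + 3 * x ≠ 0 := by positivity
  have h2 : 6 + 4 * ((3 * x - 2) / 2) = 2 * (1 + 3 * x) := by ring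
  rw [h2]
  field_simp
  ring

theorem h92_lo {k : ℝ} (hk : k ≤ 7 / 12) :
    loP (4 / 3) k = 10 / 3 - 2 / 9 * (1 - k)⁻¹ - 18 * (7 - 3 * k)⁻¹ := by
  rw [loP, padeL]
  have h1 : 1 - k ≠ 0 := (show 0 < 1 - k by linarith).ne'
  have h2 : 7 - 3 * k ≠ 0 := (show 0 < 7 - 3 * k by linarith).ne'
  have e1 : 1 + (1 - 3 * k) / 2 = 3 / 2 * (1 - k) := by ring
  have e2 : 6 + 2 * ((1 - 3 * k) / 2) = 7 - 3 * k := by ring
  rw [e1, e2]
  field_simp
  ring

theorem h92_phK (c : ℕ → ℝ) (τ : ℝ) : phK 7 tk c τ = c 0 + c 1 * Real.exp τ +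
    c 2 * max (τ + 5 / 4) 0 + c 3 * max (τ + 1) 0 + c 4 * max (τ + 13 / 16) 0 +
    c 5 * max (τ + 21 / 32) 0 + c 6 * max (τ + 15 / 32) 0 + c 7 * max (τ + 5 / 16) 0 +
    c 8 * max (τ + 5 / 32) 0 := by
  have e0 : τ - tk 0 = τ + 5 / 4 := by rw [tk]; ring
  have e1 : τ - tk 1 = τ + 1 := by rw [tk]; ring
  have e2 : τ - tk 2 = τ + 13 / 16 := by rw [tk]; ring
  have e3 : τ - tk 3 = τ + 21 / 32 := by rw [tk]; ring
  have e4 : τ - tk 4 = τ + 15 / 32 := by rw [tk]; ring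
  have e5 : τ - tk 5 = τ + 5 / 16 := by rw [tk]; ring
  have e6 : τ - tk 6 = τ + 5 / 32 := by
    have : tk 6 = -10 / 64 := rfl
    rw [this]; ring
  simp only [phK, Finset.sum_range_succ, Finset.sum_range_zero, e0, e1, e2, e3, e4, e5, e6]
  ring

theorem deadA_sound {R DR : V9} {N DN : W3} {rn pn zt sr sk zo nb : ℤ} {rd pd : ℕ}
    {r k τ w q4 q3 q2 q1 Nv : ℝ} {φ : ℝ → ℝ} {cr : ℕ → ℝ}
    (h : (deadA R DR N DN rn rd pn pd zt sr sk zo nb).Good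
      [r, k, τ, w, q4, q3, q2, q1, 1 + 2 / Real.exp 1])
    (a0 : 0 ≤ q1) (a1 : q1 ≤ 1) (hr0 : 0 ≤ r) (hr : r ≤ 7 / 12) (hk0 : 0 ≤ k) (hk : k ≤ 7 / 12)
    (h0 : -5 / 4 ≤ τ) (hcr : ∀ q, cr q = R.f q + (240 * r - rn) / (rd + 1) * DR.f q)
    (hN : Nv = N.v r τ + (240 * k - pn) / (pd + 1) * DN.v r τ) :
    sr * (r - 1 / 3) + sk * (k - 1 / 3) < zt / 960 ∨
      (k < zo / 960 ∧ N.v r τ + DN.v r τ < nb / 1000000) ∨
      ColG (1 + 2 / Real.exp 1) (7 / 4) (33 / 20) (-5 / 4) φ (phK 7 tk cr τ) Nv r k τ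
        (loP (4 / 3) k) (hiP (4 / 3) r k) := by
  generalize 1 + 2 / Real.exp 1 = g at h ⊢
  simp only [deadA, Pg.Good, Ex.val, List.getD_cons_succ, List.getD_cons_zero, Int.ofNat_eq_natCast,
    Nat.cast_ofNat, Nat.cast_one, Nat.cast_zero, or_false, lt_min_iff,
    Int.cast_ofNat, Int.cast_one, Int.cast_zero, zero_add, div_one,
    show (3 : ℝ) + 1 = 4 by norm_num, show (15 : ℝ) + 1 = 16 by norm_num,
    show (31 : ℝ) + 1 = 32 by norm_num] at h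
  rcases h with h | h | h
  · left; linarith
  · right; left
    simp only [W3.v]
    exact ⟨by linarith [h.1], by linarith [h.2]⟩
  · right; right
    refine colG_dead h0 (by linarith) a0 a1 ?_ ?_
    · rw [h92_hi (add_nonneg hr0 hk0)]; linarith [h.1]
    · rw [h92_phK, hN]
      simp only [hcr, V9.f, W3.v]
      linear_combination h.2.le

theorem deadB_sound {R DR : V9} {N DN : W3} {rn pn zt sr sk zo nb : ℤ} {rd pd : ℕ}
    {r k τ w q4 q3 q2 q1 Nv : ℝ} {φ : ℝ → ℝ} {cr : ℕ → ℝ}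
    (h : (deadB R DR N DN rn rd pn pd zt sr sk zo nb).Good
      [r, k, τ, w, q4, q3, q2, q1, 1 + 2 / Real.exp 1])
    (a0 : 0 ≤ q1) (a1 : q1 ≤ 1) (hr0 : 0 ≤ r) (hr : r ≤ 7 / 12) (hk0 : 0 ≤ k) (hk : k ≤ 7 / 12)
    (h0 : -5 / 4 ≤ τ) (hcr : ∀ q, cr q = R.f q + (240 * r - rn) / (rd + 1) * DR.f q)
    (hN : Nv = N.v r τ + (240 * k - pn) / (pd + 1) * DN.v r τ)
    (hlt : loP (4 / 3) k < hiP (4 / 3) r k) :
    sr * (r - 1 / 3) + sk * (k - 1 / 3) < zt / 960 ∨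
      (k < zo / 960 ∧ N.v r τ + DN.v r τ < nb / 1000000) ∨
      ColG (1 + 2 / Real.exp 1) (7 / 4) (33 / 20) (-5 / 4) φ (phK 7 tk cr τ) Nv r k τ
        (loP (4 / 3) k) (min (loP (4 / 3) k) (hiP (4 / 3) r k)) := by
  generalize 1 + 2 / Real.exp 1 = g at h ⊢
  simp only [deadB, Pg.Good, Ex.val, List.getD_cons_succ, List.getD_cons_zero, Int.ofNat_eq_natCast,
    Nat.cast_ofNat, Nat.cast_one, Nat.cast_zero, or_false, lt_min_iff,
    Int.cast_ofNat, Int.cast_one, Int.cast_zero, zero_add, div_one,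
    show (3 : ℝ) + 1 = 4 by norm_num, show (15 : ℝ) + 1 = 16 by norm_num,
    show (31 : ℝ) + 1 = 32 by norm_num] at h
  rcases h with h | h | h | h
  · left; linarith
  · right; left
    simp only [W3.v]
    exact ⟨by linarith [h.1], by linarith [h.2]⟩
  · rw [h92_hi (add_nonneg hr0 hk0), h92_lo hk] at hlt
    exact absurd hlt (not_lt.2 (by linarith))
  · right; right
    refine colG_dead h0 (by linarith) a0 a1 ?_ ?_
    · rw [min_eq_left hlt.le, h92_lo hk]; linarith [h.1]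
    · rw [h92_phK, hN]
      simp only [hcr, V9.f, W3.v]
      linear_combination h.2.le

end Crest.Agent.R310.NP
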