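import Crest.Agent.R310.TipK

/-! Row 310, column route: the side conditions for `a = 4/3`, `A = 7/4`, `gc = 33/20`, `t0 = -5/4`. -/

set_option autoImplicit false
set_option linter.dupNamespace false

namespace Crest.Agent.R310

/-- origin: `r ≤ zr` for any `zr ≤ 1/5`, `k ≤ 5/960`, freezing time `-30/64`, `p = 13/10` -/
theorem orgPar43' {zr : ℝ} (hzr : zr ≤ 1 / 5) :
    OrgPar (4 / 3) (7 / 4) (33 / 20) (-5 / 4) (-30 / 64) zr (5 / 960) (13 / 10) (43 / 100) where
  hts := by norm_num
  hts0 := by norm_num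
  hzo := by norm_num
  hlo := fun k h0 h1 => by
    have := loP_ge_of (a := 4 / 3) (z := 5 / 960) (y := 34 / 64) (by norm_num) (by norm_num)
      (by norm_num [loP, padeL]) k h0 h1
    linarith
  hhi := fun r k h1 h2 h3 h4 => hiP_le_of (z := 1 / 4) (by norm_num) (by norm_num [padeU])
    (by linarith) (by linarith)
  hlin := fun r k h1 h2 => origin_linG (g1 := 1735 / 1000) (rs := 151 / 60) g_bounds.1
    (by norm_num) (by norm_num) (by norm_num) (by norm_num) (by norm_num) (by norm_num)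
    (by norm_num) h1 h2

theorem orgPar43 :
    OrgPar (4 / 3) (7 / 4) (33 / 20) (-5 / 4) (-30 / 64) (1 / 24) (5 / 960) (13 / 10) (43 / 100) :=
  orgPar43' (by norm_num)

theorem tipPar43 {Z : ℝ} (h0 : 0 < Z) (h1 : Z ≤ 1 / 9) : TipPar (4 / 3) (7 / 4) (33 / 20) (-5 / 4) Z :=
  ⟨by norm_num, by norm_num, by norm_num, h0, h1, by linarith, by linarith, by linarith⟩

end Crest.Agent.R310
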