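import Crest.Agent.R310.NProg
import Crest.Agent.R310.TipP

/-! Row 310, column route: soundness of the tip programs. -/

set_option autoImplicit false
set_option linter.dupNamespace false

namespace Crest.Agent.R310.NP

open Crest.Agent.Lib.IBox

theorem t39_push {x : Ex} {p : Pg} {ρ : List ℝ} (h : (Pg.push x p).Good ρ) :
    ∃ v, v = x.val ρ ∧ p.Good (v :: ρ) := ⟨_, rfl, h⟩

theorem t39_tst {x : Ex} {ρ : List ℝ} (h : (Pg.tst x .nil).Good ρ) : 0 < x.val ρ :=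
  Or.elim h id False.elim

/-- evaluate the expressions of a program -/
local macro "ev_simp" loc:Lean.Parser.Tactic.location : tactic =>
  `(tactic| simp only [Ex.val, List.getD_cons_succ, List.getD_cons_zero, iofNat, inegSucc,
    Nat.cast_ofNat, Nat.cast_zero, Nat.cast_one, zero_div] $loc)

theorem t39_ph (c : ℝ) (K : V9) (σ : ℝ) : phK 7 tk (fun q => c * K.f q) σ =
    c * (K.a0 / (59999 + 1) + K.a1 / (59999 + 1) * Real.exp σ +
      K.a2 / (59999 + 1) * max (σ + 5 / (3 + 1)) 0 + K.a3 / (59999 + 1) * max (σ + 1 / (0 + 1)) 0 +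
      K.a4 / (59999 + 1) * max (σ + 13 / (15 + 1)) 0 + K.a5 / (59999 + 1) * max (σ + 21 / (31 + 1)) 0 +
      K.a6 / (59999 + 1) * max (σ + 15 / (31 + 1)) 0 + K.a7 / (59999 + 1) * max (σ + 5 / (15 + 1)) 0 +
      K.a8 / (59999 + 1) * max (σ + 5 / (31 + 1)) 0) := by
  simp only [phK, Finset.sum_range_succ, Finset.sum_range_zero, tk, V9.f]
  ring_nf

theorem t39_Ph (c : ℝ) (K : V9) (σ : ℝ) : PhK 7 tk (fun q => c * K.f q) σ =
    c * (K.a0 / (59999 + 1) * σ + K.a1 / (59999 + 1) * Real.exp σ +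
      K.a2 / (119999 + 1) * max (σ + 5 / (3 + 1)) 0 ^ 2 +
      K.a3 / (119999 + 1) * max (σ + 1 / (0 + 1)) 0 ^ 2 +
      K.a4 / (119999 + 1) * max (σ + 13 / (15 + 1)) 0 ^ 2 +
      K.a5 / (119999 + 1) * max (σ + 21 / (31 + 1)) 0 ^ 2 +
      K.a6 / (119999 + 1) * max (σ + 15 / (31 + 1)) 0 ^ 2 +
      K.a7 / (119999 + 1) * max (σ + 5 / (15 + 1)) 0 ^ 2 +
      K.a8 / (119999 + 1) * max (σ + 5 / (31 + 1)) 0 ^ 2) := by
  simp only [PhK, Finset.sum_range_succ, Finset.sum_range_zero, tk, V9.f]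
  ring_nf

theorem tipLa_pf {s x : ℝ} (h : -1 < s * x) : tipLa (4 / 3) s x =
    4 / (2 + 1) * (x * (1 / (3 + 1) * (1 / (0 + 1) + s * x)⁻¹ + 9 / (3 + 1) * (3 / (0 + 1) + s * x)⁻¹)) := by
  rw [tipLa, mul_assoc 5, mul_assoc 2]
  generalize s * x = u at h
  have h1 : 1 + u ≠ 0 := by linarith
  have h2 : 6 + 2 * u = 2 * (3 + u) := by ring
  have h3 : 3 + u ≠ 0 := by linarith
  simp only [zero_add, div_one, h2]
  field_simp
  ring

theorem tipUa_pf {s x : ℝ} (h : -1 < s * x) : tipUa (4 / 3) s x =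
    4 / (2 + 1) * (x * (1 / (3 + 1) + 9 / (7 + 1) * (3 / (1 + 1) + s * x)⁻¹)) := by
  rw [tipUa, mul_assoc 4]
  generalize s * x = u at h
  have h2 : 6 + 4 * u ≠ 0 := by linarith
  have h3 : 3 / (1 + 1) + u = (6 + 4 * u) / 4 := by ring
  rw [h3]
  field_simp
  ring

theorem tip_small {s d sr sk : ℝ} (hs0 : 0 ≤ s) (hs : s ≤ 1 / 9) (hd0 : 0 ≤ d) (hd : d ≤ 1)
    (hsr : |sr| ≤ 1) (hsk : |sk| ≤ 1) :
    -1 < s * (-3 / 2 * sk * d) ∧ -1 < s * (3 / 2 * (sr * (1 - d) + sk * d)) := by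
  obtain ⟨a1, a2⟩ := abs_le.1 hsr
  obtain ⟨a3, a4⟩ := abs_le.1 hsk
  have b1 : -2 ≤ -3 / 2 * sk * d := by nlinarith
  have b2 : -2 ≤ 3 / 2 * (sr * (1 - d) + sk * d) := by nlinarith
  constructor <;> nlinarith [mul_le_mul_of_nonneg_left b1 hs0, mul_le_mul_of_nonneg_left b2 hs0]

/-- the common tail -/
theorem tipS_of {η Η : ℝ → ℝ} {zd : ℕ} {s d sr sk τ er Nw La M l xl x1 a1 : ℝ} (el : l = s * La)
    (exl : xl = min τ (l - 1 / (0 + 1))) (ex1 : x1 = min τ l)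
    (ea : a1 = (1 + 2 / Real.exp 1) * (sk / (0 + 1) * d) - sr / (0 + 1) * (1 / (0 + 1) - d) -
      1 / (2 + 1) * (1 + 2 / Real.exp 1 - 1 / (0 + 1)) * (La * (1 / (0 + 1) + l * (1 / (1 + 1) +
        l * (1 / (5 + 1) + 5 / (95 + 1) * l)))) +
      2 / (2 + 1) * Real.exp τ * (La - max (960 / (zd + 1) * τ) M) - (1 / (0 + 1) - d) * er - d * Nw)
    (h1 : 0 < a1 + d * (Η x1 - Η xl +
      η τ * (l - max 0 (s * M - τ) - x1 - (l - 1 / (0 + 1) - xl))))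
    (h2 : 0 < 2 / (2 + 1) * Real.exp xl + s * d * η xl) (h3 : 0 < l - 1 / (0 + 1) - -(4 + 1) / (3 + 1)) :
    TipS η Η (-5 / 4) ((zd + 1) / 960) s d sr sk τ er Nw La M := by
  have e0 : (1 : ℝ) / (0 + 1) = 1 := by norm_num
  rw [e0] at exl ea h1 h3
  have e1 : max (l - 1) (-5 / 4) = l - 1 := max_eq_left (by linarith)
  have e2 : τ / ((zd + 1) / 960) = 960 / (zd + 1) * τ := by
    rw [div_div_eq_mul_div]
    ring
  have e3 : Real.exp (-1) = 1 / Real.exp 1 := by rw [Real.exp_neg, one_div]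
  refine ⟨?_, ?_⟩
  · rw [← el, ← exl]
    linarith
  · rw [tipF, Ghat, ← el, e1, e2, e3, ← exl, ← ex1]
    refine h1.le.trans_eq ?_
    rw [ea, el]
    ring

theorem tipA_sound {K R : V9} {N : W3} {kd rd pd zd : ℕ} {sr sk : ℤ} {s d τ w q4 q3 q2 q1 : ℝ}
    (h : (tipA K R N kd rd pd zd sr sk).Good [s, d, τ, w, q4, q3, q2, q1, 1 + 2 / Real.exp 1])
    (b0 : 0 ≤ q1) (b1 : q1 ≤ 1) (hs0 : 0 ≤ s) (hs : s ≤ 1 / 9) (hd0 : 0 ≤ d) (hd : d ≤ 1)
    (hsr : |(sr : ℝ)| ≤ 1) (hsk : |(sk : ℝ)| ≤ 1) :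
    TipSA (phK 7 tk fun q => 240 / (kd + 1) * K.f q) (PhK 7 tk fun q => 240 / (kd + 1) * K.f q) (4 / 3)
      (-5 / 4) ((zd + 1) / 960) s d sr sk τ (phK 7 tk (fun q => 240 / (rd + 1) * R.f q) τ)
      (240 / (pd + 1) * N.v (1 / 3 + sr * s * (1 - d)) τ) := by
  rw [tipA] at h
  replace h := t39_push h
  obtain ⟨xa, exa, h⟩ := h
  replace h := t39_push h
  obtain ⟨xb, exb, h⟩ := h
  replace h := t39_push h
  obtain ⟨ua, eua, h⟩ := h
  replace h := t39_push h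
  obtain ⟨LL, eLL, h⟩ := h
  replace h := t39_push h
  obtain ⟨UU, eUU, h⟩ := h
  replace h := t39_push h
  obtain ⟨mix, emix, h⟩ := h
  replace h := t39_push h
  obtain ⟨l, el, h⟩ := h
  replace h := t39_push h
  obtain ⟨ex, eex, h⟩ := h
  replace h := t39_push h
  obtain ⟨h0, eh0, h⟩ := h
  replace h := t39_push h
  obtain ⟨h1, eh1, h⟩ := h
  replace h := t39_push h
  obtain ⟨h2, eh2, h⟩ := h
  replace h := t39_push h
  obtain ⟨h3, eh3, h⟩ := h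
  replace h := t39_push h
  obtain ⟨h4, eh4, h⟩ := h
  replace h := t39_push h
  obtain ⟨h5, eh5, h⟩ := h
  replace h := t39_push h
  obtain ⟨h6, eh6, h⟩ := h
  replace h := t39_push h
  obtain ⟨fk, efk, h⟩ := h
  replace h := t39_push h
  obtain ⟨a1, ea1, h⟩ := h
  replace h := t39_push h
  obtain ⟨xl, exl, h⟩ := h
  replace h := t39_push h
  obtain ⟨x1, ex1, h⟩ := h
  replace h := t39_push h
  obtain ⟨ee, eee, h⟩ := h
  replace h := t39_push h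
  obtain ⟨l0, el0, h⟩ := h
  replace h := t39_push h
  obtain ⟨l1, el1, h⟩ := h
  replace h := t39_push h
  obtain ⟨l2, el2, h⟩ := h
  replace h := t39_push h
  obtain ⟨l3, el3, h⟩ := h
  replace h := t39_push h
  obtain ⟨l4, el4, h⟩ := h
  replace h := t39_push h
  obtain ⟨l5, el5, h⟩ := h
  replace h := t39_push h
  obtain ⟨l6, el6, h⟩ := h
  replace h := t39_push h
  obtain ⟨sg, esg, h⟩ := h
  replace h := t39_push h
  obtain ⟨E0, eE0, h⟩ := h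
  replace h := t39_push h
  obtain ⟨E1, eE1, h⟩ := h
  replace h := t39_push h
  obtain ⟨E2, eE2, h⟩ := h
  replace h := t39_push h
  obtain ⟨E3, eE3, h⟩ := h
  replace h := t39_push h
  obtain ⟨E4, eE4, h⟩ := h
  replace h := t39_push h
  obtain ⟨E5, eE5, h⟩ := h
  replace h := t39_push h
  obtain ⟨E6, eE6, h⟩ := h
  replace h := t39_push h
  obtain ⟨E7, eE7, h⟩ := h
  replace h := t39_push h
  obtain ⟨E8, eE8, h⟩ := h
  replace h := t39_tst h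
  ev_simp at exa exb eua eLL eUU emix el eex eh0 eh1 eh2 eh3 eh4 eh5 eh6 efk ea1 exl ex1 eee
  ev_simp at el0 el1 el2 el3 el4 el5 el6 esg eE0 eE1 eE2 eE3 eE4 eE5 eE6 eE7 eE8 h
  obtain ⟨c1, c2⟩ := tip_small hs0 hs hd0 hd hsr hsk
  have f1 : xa = -3 / 2 * sk * d := by
    rw [exa]
    ring
  have f2 : xb = 3 / 2 * (sr * (1 - d) + sk * d) := by
    rw [exb]
    ring
  rw [← f1] at c1
  rw [← f2] at c2
  rw [eua, ← tipLa_pf c1] at eLL
  rw [← tipUa_pf c2] at eUU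
  refine ⟨q1, b0, b1, ?_⟩
  rw [← f1, ← f2, ← eLL, ← eUU, ← emix]
  rw [lt_min_iff, lt_min_iff] at h
  refine tipS_of el exl ex1 (a1 := a1) ?_ ?_ ?_ h.2
  · rw [ea1, t39_ph, W3.v, eex, eh0, eh1, eh2, eh3, eh4, eh5, eh6]
    ring
  · refine h.1.1.trans_eq ?_
    rw [t39_Ph, t39_Ph, t39_ph, efk, eex, eh0, eh1, eh2, eh3, eh4, eh5, eh6, eE0, eE1, eE2, eE3, eE4, eE5, eE6,
      eE7, eE8, eee, el0, el1, el2, el3, el4, el5, el6]
    ring
  · refine h.1.2.trans_eq ?_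
    rw [t39_ph, esg, eee, el0, el1, el2, el3, el4, el5, el6]

theorem tipB_sound {K R : V9} {N : W3} {kd rd pd zd : ℕ} {sr sk : ℤ} {s d τ w q4 q3 q2 q1 : ℝ}
    (h : (tipB K R N kd rd pd zd sr sk).Good [s, d, τ, w, q4, q3, q2, q1, 1 + 2 / Real.exp 1])
    (b0 : 0 ≤ q1) (b1 : q1 ≤ 1) (hs0 : 0 ≤ s) (hs : s ≤ 1 / 9) (hd0 : 0 ≤ d) (hd : d ≤ 1)
    (hsr : |(sr : ℝ)| ≤ 1) (hsk : |(sk : ℝ)| ≤ 1) :
    TipSB (phK 7 tk fun q => 240 / (kd + 1) * K.f q) (PhK 7 tk fun q => 240 / (kd + 1) * K.f q) (4 / 3)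
      (-5 / 4) ((zd + 1) / 960) s d sr sk τ (phK 7 tk (fun q => 240 / (rd + 1) * R.f q) τ)
      (240 / (pd + 1) * N.v (1 / 3 + sr * s * (1 - d)) τ) := by
  rw [tipB] at h
  replace h := t39_push h
  obtain ⟨xa, exa, h⟩ := h
  replace h := t39_push h
  obtain ⟨xb, exb, h⟩ := h
  replace h := t39_push h
  obtain ⟨ua, eua, h⟩ := h
  replace h := t39_push h
  obtain ⟨LL, eLL, h⟩ := h
  replace h := t39_push h
  obtain ⟨UU, eUU, h⟩ := h
  replace h := t39_push h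
  obtain ⟨mix, emix, h⟩ := h
  replace h := t39_push h
  obtain ⟨l, el, h⟩ := h
  replace h := t39_push h
  obtain ⟨ex, eex, h⟩ := h
  replace h := t39_push h
  obtain ⟨h0, eh0, h⟩ := h
  replace h := t39_push h
  obtain ⟨h1, eh1, h⟩ := h
  replace h := t39_push h
  obtain ⟨h2, eh2, h⟩ := h
  replace h := t39_push h
  obtain ⟨h3, eh3, h⟩ := h
  replace h := t39_push h
  obtain ⟨h4, eh4, h⟩ := h
  replace h := t39_push h
  obtain ⟨h5, eh5, h⟩ := h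
  replace h := t39_push h
  obtain ⟨h6, eh6, h⟩ := h
  replace h := t39_push h
  obtain ⟨fk, efk, h⟩ := h
  replace h := t39_push h
  obtain ⟨a1, ea1, h⟩ := h
  replace h := t39_push h
  obtain ⟨xl, exl, h⟩ := h
  replace h := t39_push h
  obtain ⟨x1, ex1, h⟩ := h
  replace h := t39_push h
  obtain ⟨ee, eee, h⟩ := h
  replace h := t39_push h
  obtain ⟨l0, el0, h⟩ := h
  replace h := t39_push h
  obtain ⟨l1, el1, h⟩ := h
  replace h := t39_push h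
  obtain ⟨l2, el2, h⟩ := h
  replace h := t39_push h
  obtain ⟨l3, el3, h⟩ := h
  replace h := t39_push h
  obtain ⟨l4, el4, h⟩ := h
  replace h := t39_push h
  obtain ⟨l5, el5, h⟩ := h
  replace h := t39_push h
  obtain ⟨l6, el6, h⟩ := h
  replace h := t39_push h
  obtain ⟨sg, esg, h⟩ := h
  replace h := t39_push h
  obtain ⟨E0, eE0, h⟩ := h
  replace h := t39_push h
  obtain ⟨E1, eE1, h⟩ := h
  replace h := t39_push h
  obtain ⟨E2, eE2, h⟩ := h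
  replace h := t39_push h
  obtain ⟨E3, eE3, h⟩ := h
  replace h := t39_push h
  obtain ⟨E4, eE4, h⟩ := h
  replace h := t39_push h
  obtain ⟨E5, eE5, h⟩ := h
  replace h := t39_push h
  obtain ⟨E6, eE6, h⟩ := h
  replace h := t39_push h
  obtain ⟨E7, eE7, h⟩ := h
  replace h := t39_push h
  obtain ⟨E8, eE8, h⟩ := h
  replace h := t39_tst h
  ev_simp at exa exb eua eLL eUU emix el eex eh0 eh1 eh2 eh3 eh4 eh5 eh6 efk ea1 exl ex1 eee
  ev_simp at el0 el1 el2 el3 el4 el5 el6 esg eE0 eE1 eE2 eE3 eE4 eE5 eE6 eE7 eE8 h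
  obtain ⟨c1, c2⟩ := tip_small hs0 hs hd0 hd hsr hsk
  have f1 : xa = -3 / 2 * sk * d := by
    rw [exa]
    ring
  have f2 : xb = 3 / 2 * (sr * (1 - d) + sk * d) := by
    rw [exb]
    ring
  rw [← f1] at c1
  rw [← f2] at c2
  rw [eua, ← tipLa_pf c1] at eLL
  rw [← tipUa_pf c2] at eUU
  refine ⟨q1, b0, b1, ?_⟩
  rw [← f1, ← f2, ← eLL, ← eUU, ← emix]
  rw [lt_min_iff, lt_min_iff] at h
  refine tipS_of el exl ex1 (a1 := a1) ?_ ?_ ?_ h.2
  · rw [ea1, t39_ph, W3.v, eex, eh0, eh1, eh2, eh3, eh4, eh5, eh6]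
    ring
  · refine h.1.1.trans_eq ?_
    rw [t39_Ph, t39_Ph, t39_ph, efk, eex, eh0, eh1, eh2, eh3, eh4, eh5, eh6, eE0, eE1, eE2, eE3, eE4, eE5, eE6,
      eE7, eE8, eee, el0, el1, el2, el3, el4, el5, el6]
    ring
  · refine h.1.2.trans_eq ?_
    rw [t39_ph, esg, eee, el0, el1, el2, el3, el4, el5, el6]

theorem orgParN : OrgPar (4 / 3) (7 / 4) (33 / 20) (-5 / 4) (-30 / 64) (1 / 24) (5 / 960) (13 / 10)
    (43 / 100) := orgPar43

theorem tipParN {Z : ℝ} (h0 : 0 < Z) (h1 : Z ≤ 1 / 48) : TipPar (4 / 3) (7 / 4) (33 / 20) (-5 / 4) Z :=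
  tipPar43 h0 (by linarith)

end Crest.Agent.R310.NP
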