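import Crest.Agent.R310.NF

/-! Row 310: consequences of the offer-system axioms used by the process. -/

set_option autoImplicit false
set_option linter.dupNamespace false

namespace Crest.Agent.R310

open Finset Crest.Agent.Lib.PT

lemma mm_le (M t lam : ℕ) : mm M t lam ≤ M := min_le_left _ _

lemma mm_zero (M t : ℕ) : mm M t 0 = 0 := by simp [mm]

lemma mm_mono (M : ℕ) {t t' lam lam' : ℕ} (ht : t ≤ t') (hl : lam' ≤ lam) :
    mm M t' lam' ≤ mm M t lam := by unfold mm; omega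

lemma mm_succ (M t lam : ℕ) : mm M t lam ≤ mm M (t + 1) lam + 1 := by unfold mm; omega

lemma mm_min (M t a b : ℕ) : mm M t (min a b) = min (mm M t a) (mm M t b) := by unfold mm; omega

lemma Isum_zero (M : ℕ) {v : ℕ → ℚ} (hv : ∀ s, v s = 0) (lam mu : ℕ) : Isum M v lam mu = 0 := by
  simp [Isum, hv]

lemma Isum_nonneg (M : ℕ) {v : ℕ → ℚ} (hv : ∀ s, 0 ≤ v s) (lam mu : ℕ) : 0 ≤ Isum M v lam mu := by
  unfold Isum
  refine div_nonneg (Finset.sum_nonneg fun u _ => ?_) (Nat.cast_nonneg _)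
  split_ifs
  · exact hv _
  · exact le_rfl

lemma Isum_full (M : ℕ) (v : ℕ → ℚ) (lam : ℕ) : Isum M v lam M = 0 := by
  unfold Isum
  rw [Finset.sum_eq_zero fun u hu => if_neg (not_le.2 (Finset.mem_range.1 hu)), zero_div]

lemma h49_count {M a b : ℕ} (hab : a ≤ b) (hb : b ≤ M) (c : ℚ) :
    c * ((b : ℚ) - a) = ∑ u ∈ range M, if a ≤ u ∧ u < b then c else 0 := by
  rw [← Finset.sum_filter, Finset.sum_const, nsmul_eq_mul, mul_comm]
  have : (range M).filter (fun u => a ≤ u ∧ u < b) = Finset.Ico a b := by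
    ext u
    simp only [Finset.mem_filter, Finset.mem_range, Finset.mem_Ico]
    omega
  rw [this, Nat.card_Ico, Nat.cast_sub hab]

/-- Plain monotonicity: particles `u ≥ mu` were dead before and are now valued lower; particles
`mu' ≤ u < mu` die now, at virtual time `lam' - (u + 1) ≤ t` because `mm M (t+1) lam' ≤ mu'`. -/
lemma Isum_step {M : ℕ} {v v' : ℕ → ℚ} {t lam lam' mu mu' : ℕ}
    (hv : ∀ s s', s' ≤ s → v' s' ≤ v s) (hl : lam' ≤ lam) (h1 : mm M (t + 1) lam' ≤ mu')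
    (h2 : mu' ≤ mu) (h3 : mu ≤ M) :
    Isum M v' lam' mu' ≤ Isum M v lam mu + v t * ((mu : ℚ) - mu') / M := by
  unfold Isum
  rw [← add_div, h49_count h2 h3, ← Finset.sum_add_distrib]
  refine div_le_div_of_nonneg_right (Finset.sum_le_sum fun u hu => ?_) (Nat.cast_nonneg _)
  have hu' := Finset.mem_range.1 hu
  unfold mm at h1
  by_cases a1 : mu ≤ u
  · rw [if_pos a1, if_pos (h2.trans a1), if_neg (by omega), add_zero]
    exact hv _ _ (by omega)
  · by_cases a2 : mu' ≤ u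
    · rw [if_pos a2, if_neg a1, if_pos ⟨a2, not_le.1 a1⟩, zero_add]
      exact hv _ _ (by omega)
    · rw [if_neg a2, if_neg a1, if_neg (by omega), add_zero]

/-- At most one particle sits between the two clocks, and it dies exactly at time `t`. -/
lemma Isum_adj {M : ℕ} (v : ℕ → ℚ) {t lam mu : ℕ} (h1 : mm M (t + 1) lam ≤ mu)
    (h2 : mu ≤ mm M t lam) :
    Isum M v lam mu = Isum M v lam (mm M t lam) + v t * ((mm M t lam : ℚ) - mu) / M := by
  unfold Isum
  rw [← add_div, h49_count h2 (mm_le M t lam), ← Finset.sum_add_distrib]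
  congr 1
  refine Finset.sum_congr rfl fun u hu => ?_
  have hu' := Finset.mem_range.1 hu
  have e : mm M t lam = min M (lam - t) := rfl
  unfold mm at h1
  by_cases a1 : mm M t lam ≤ u
  · rw [if_pos a1, if_pos (h2.trans a1), if_neg (by omega), add_zero]
  · by_cases a2 : mu ≤ u
    · rw [if_pos a2, if_neg a1, if_pos ⟨a2, not_le.1 a1⟩, zero_add]
      congr 1
      omega
    · rw [if_neg a2, if_neg a1, if_neg (by omega), add_zero]

namespace OfferSys

variable {g : ℚ} (O : OfferSys g)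

/-- (P) with explicit alive counts between the two clocks (`hP` and `Isum_adj` twice; the extra
death after the event is valued `off (d o) t ≤ off ρ t`). -/
lemma hP' {P : Prof} (hP : P.Valid) {ρ : ℕ} (hρ : ρ ≤ P.L) {o : ℕ} (ho : o < P.m)
    (hx : 0 < P.x o) (hd : P.d o < ρ) {t : ℕ} (ht : t < O.lev P.L) (lam lam' mu mu' : ℕ → ℕ)
    (h : ∀ l < P.m, 0 < P.x l → O.lev (ρ - P.d l) ≤ lam l ∧ lam l ≤ O.lev P.L ∧ lam' l ≤ lam l ∧
      O.lev (P.d o - P.d l) ≤ lam' l ∧ lam' l ≤ O.lev (P.d o + P.d l) ∧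
      mm O.M (t + 1) (lam l) ≤ mu l ∧ mu l ≤ mm O.M t (lam l) ∧
      mm O.M (t + 1) (lam' l) ≤ mu' l ∧ mu' l ≤ mm O.M t (lam' l)) :
    O.off P o ρ t + O.G P (P.d o) +
        ∑ l ∈ range P.m, P.x l * Isum O.M (O.off P l (P.d o)) (lam' l) (mu' l) ≤
      O.G P ρ + ∑ l ∈ range P.m, P.x l * (Isum O.M (O.off P l ρ) (lam l) (mu l) +
        O.off P l ρ t * ((mu l : ℚ) - (mu' l : ℚ)) / (O.M : ℚ)) := by
  have H := O.hP P hP ρ hρ o ho hx hd t ht lam lam' fun l hl hxl =>
    ⟨(h l hl hxl).1, (h l hl hxl).2.1, (h l hl hxl).2.2.1, (h l hl hxl).2.2.2.1,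
      (h l hl hxl).2.2.2.2.1⟩
  have hM : (0 : ℚ) < O.M := by exact_mod_cast O.M_pos
  have key : ∑ l ∈ range P.m, (P.x l * Isum O.M (O.off P l (P.d o)) (lam' l) (mu' l) +
      P.x l * (Isum O.M (O.off P l ρ) (lam l) (mm O.M t (lam l)) +
        O.off P l ρ t * ((mm O.M t (lam l) : ℚ) - (mm O.M t (lam' l) : ℚ)) / (O.M : ℚ))) ≤
      ∑ l ∈ range P.m, (P.x l * Isum O.M (O.off P l (P.d o)) (lam' l) (mm O.M t (lam' l)) +
        P.x l * (Isum O.M (O.off P l ρ) (lam l) (mu l) +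
          O.off P l ρ t * ((mu l : ℚ) - (mu' l : ℚ)) / (O.M : ℚ))) := by
    refine Finset.sum_le_sum fun l hl => ?_
    have hl' := Finset.mem_range.1 hl
    rcases (hP.nonneg l hl').eq_or_lt with h0 | h0
    · simp [← h0]
    obtain ⟨-, -, -, -, -, h1, h2, h3, h4⟩ := h l hl' h0
    rw [← mul_add, ← mul_add]
    refine mul_le_mul_of_nonneg_left ?_ h0.le
    rw [Isum_adj (O.off P l (P.d o)) h3 h4, Isum_adj (O.off P l ρ) h1 h2]
    have h5 : O.off P l (P.d o) t ≤ O.off P l ρ t :=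
      O.off_mono P hP l hl' ρ hρ _ hd.le t t le_rfl
    have h6 : (0 : ℚ) ≤ ((mm O.M t (lam' l) : ℚ) - mu' l) / O.M :=
      div_nonneg (sub_nonneg.2 (by exact_mod_cast h4)) hM.le
    have h7 := mul_le_mul_of_nonneg_right h5 h6
    have e : O.off P l ρ t * ((mm O.M t (lam l) : ℚ) - mu l) / O.M +
        O.off P l ρ t * ((mu l : ℚ) - mu' l) / O.M =
        O.off P l ρ t * ((mm O.M t (lam l) : ℚ) - mm O.M t (lam' l)) / O.M +
          O.off P l ρ t * (((mm O.M t (lam' l) : ℚ) - mu' l) / O.M) := by ring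
    rw [mul_div_assoc (O.off P l (P.d o) t)]
    linarith
  rw [Finset.sum_add_distrib, Finset.sum_add_distrib] at key
  linarith

/-- (U) for levels above the minimal ones (monotonicity of the offers in time). -/
lemma hU' {P : Prof} (hP : P.Valid) {ρ : ℕ} (hρ : ρ ≤ P.L) (lam : ℕ → ℕ)
    (h : ∀ l < P.m, 0 < P.x l → O.lev (ρ - P.d l) ≤ lam l) :
    (ρ : ℚ) ≤ O.G P ρ + ∑ l ∈ range P.m, P.x l * Isum O.M (O.off P l ρ) (lam l) 0 := by
  refine (O.hU P hP ρ hρ).trans (add_le_add_right (Finset.sum_le_sum fun l hl => ?_) _)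
  have hl' := Finset.mem_range.1 hl
  rcases (hP.nonneg l hl').eq_or_lt with h0 | h0
  · simp [← h0]
  refine mul_le_mul_of_nonneg_left ?_ h0.le
  unfold Isum
  refine div_le_div_of_nonneg_right (Finset.sum_le_sum fun u _ => ?_) (Nat.cast_nonneg _)
  simp only [Nat.zero_le, if_true]
  have := h l hl' h0
  exact O.off_mono P hP l hl' ρ hρ ρ le_rfl _ _ (by omega)

end OfferSys

lemma VI.Valid.prof {V : VI} {Hd : ℕ} (hV : V.Valid Hd) {j : ℕ} (hj : j < V.nc) :
    (V.prof j).Valid := by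
  refine ⟨fun l _ => ?_, ?_, fun l _ => ?_, fun l _ => ?_⟩
  · simp only [VI.prof]
    split_ifs with h
    · exact hV.x_nonneg j hj l h
    · exact hV.x0_nonneg j hj
  · simp only [VI.prof]
    rw [Finset.sum_range_succ, if_neg (lt_irrefl _),
      Finset.sum_congr rfl fun l hl => if_pos (Finset.mem_range.1 hl)]
    exact hV.x_sum j hj
  · simp only [VI.prof]
    split_ifs with h
    · exact hV.dist_pos j hj l h
    · exact hV.r0_pos j hj
  · simp only [VI.prof]
    split_ifs with h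
    · exact hV.dist_le j hj l h
    · exact hV.r0_le j hj

end Crest.Agent.R310
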