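import Crest.Agent.R310.PairDefs

/-! Row 310: a bilinear (pair) certificate gives the continuous certificate. -/

set_option autoImplicit false
set_option linter.dupNamespace false

namespace Crest.Agent.R310

open Finset MeasureTheory

theorem sym_sum {m : ℕ} {x : ℕ → ℝ} (hx : ∀ l < m, 0 ≤ x l) (hs : ∑ l ∈ range m, x l = 1)
    {F : ℕ → ℝ} {G : ℕ → ℕ → ℝ} (h : ∀ k < m, ∀ l < m, F k + F l ≤ G k l + G l k) :
    ∑ l ∈ range m, x l * F l ≤ ∑ l ∈ range m, x l * ∑ k ∈ range m, x k * G l k := by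
  have e1 : ∑ l ∈ range m, ∑ k ∈ range m, x l * x k * (F l + F k) =
      2 * ∑ l ∈ range m, x l * F l := by
    have e : ∀ l, ∑ k ∈ range m, x l * x k * (F l + F k) =
        x l * F l + x l * ∑ k ∈ range m, x k * F k := fun l => by
      have : ∀ k, x l * x k * (F l + F k) = x k * (x l * F l) + x l * (x k * F k) :=
        fun k => by ring
      simp only [this]
      rw [Finset.sum_add_distrib, ← Finset.sum_mul, hs, ← Finset.mul_sum, one_mul]
    simp only [e]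
    rw [Finset.sum_add_distrib, ← Finset.sum_mul, hs]
    ring
  have e2 : ∑ l ∈ range m, ∑ k ∈ range m, x l * x k * (G l k + G k l) =
      2 * ∑ l ∈ range m, x l * ∑ k ∈ range m, x k * G l k := by
    have e : ∀ l k, x l * x k * (G l k + G k l) = x l * (x k * G l k) + x k * (x l * G k l) :=
      fun l k => by ring
    simp only [e, Finset.sum_add_distrib]
    rw [Finset.sum_comm (f := fun l k => x k * (x l * G k l))]
    simp only [← Finset.mul_sum]
    ring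
  have h3 : ∑ l ∈ range m, ∑ k ∈ range m, x l * x k * (F l + F k) ≤
      ∑ l ∈ range m, ∑ k ∈ range m, x l * x k * (G l k + G k l) :=
    Finset.sum_le_sum fun l hl => Finset.sum_le_sum fun k hk =>
      mul_le_mul_of_nonneg_left (h l (Finset.mem_range.1 hl) k (Finset.mem_range.1 hk))
        (mul_nonneg (hx l (Finset.mem_range.1 hl)) (hx k (Finset.mem_range.1 hk)))
  linarith

/-- copositive kernels -/
def Copos {α : Type} (Q : α → α → ℝ) : Prop :=
  ∀ (m : ℕ) (x : ℕ → ℝ) (D : ℕ → α), (∀ l < m, 0 ≤ x l) →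
    0 ≤ ∑ l ∈ range m, x l * ∑ k ∈ range m, x k * Q (D l) (D k)

theorem copos_zero {α : Type} : Copos fun _ _ : α => (0 : ℝ) := fun _ _ _ _ => by simp

theorem copos_rank {α : Type} (p : α → ℝ) : Copos fun k l => p k * p l := fun m x D _ => by
  have e : ∀ l, x l * ∑ k ∈ range m, x k * (p (D l) * p (D k)) =
      x l * p (D l) * ∑ k ∈ range m, x k * p (D k) := fun l => by
    rw [mul_assoc, Finset.mul_sum (a := p (D l))]
    congr 1
    exact Finset.sum_congr rfl fun k _ => by ring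
  simp only [e]
  rw [← Finset.sum_mul]
  exact mul_self_nonneg _

theorem Copos.add {α : Type} {Q R : α → α → ℝ} (hQ : Copos Q) (hR : Copos R) :
    Copos fun k l => Q k l + R k l := fun m x D hx => by
  simp only [mul_add, Finset.sum_add_distrib]
  exact add_nonneg (hQ m x D hx) (hR m x D hx)

theorem sym_sumQ {α : Type} {m : ℕ} {x : ℕ → ℝ} (hx : ∀ l < m, 0 ≤ x l)
    (hs : ∑ l ∈ range m, x l = 1) {Q : α → α → ℝ} (hQ : Copos Q) (D : ℕ → α) {F : ℕ → ℝ}
    {G : ℕ → ℕ → ℝ}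
    (h : ∀ k < m, ∀ l < m, F k + F l + Q (D k) (D l) + Q (D l) (D k) ≤ G k l + G l k) :
    ∑ l ∈ range m, x l * F l ≤ ∑ l ∈ range m, x l * ∑ k ∈ range m, x k * G l k := by
  have h1 := sym_sum hx hs (F := F) (G := fun l k => G l k - Q (D l) (D k))
    fun k hk l hl => by linarith [h k hk l hl]
  simp only [mul_sub, Finset.sum_sub_distrib] at h1
  linarith [hQ m x D hx]

/-- `PairCert` with copositive slack terms (e.g. rank one: `QU k l = p k * p l`,
`QP r τ (k, μ) (l, ν) = q r τ k μ * q r τ l ν`). -/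
structure PairCertQ (a g0 b τ0 : ℝ) (ub : ℝ → ℝ) (c : ℝ → ℝ → ℝ) (χ : ℝ → ℝ → ℝ → ℝ)
    (h : ℝ → ℝ → ℝ → ℝ) (QU : ℝ → ℝ → ℝ) (QP : ℝ → ℝ → ℝ × ℝ → ℝ × ℝ → ℝ) : Prop where
  coU : Copos QU
  coP : ∀ r τ, Copos (QP r τ)
  mono : ∀ r k, 0 < r → r ≤ b → 0 < k → k ≤ b → MonotoneOn (h r k) (Set.Ici τ0)
  le_ub : ∀ r k, 0 < r → r < b → 0 < k → k ≤ b → ∀ τ, τ0 ≤ τ → h r k τ ≤ ub r
  top : ∀ k, 0 < k → k ≤ b → ∀ τ, τ0 ≤ τ → h b k τ ≤ 0
  hU : ∀ k l, 0 < k → k ≤ l → l ≤ b →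
    2 + QU k l + QU l k ≤ min 1 (g0 * k) + min 1 (g0 * l) +
      (∫ s in (0 : ℝ)..1, h k l (a * Real.log (1 - k) - s)) +
      ∫ s in (0 : ℝ)..1, h l k (a * Real.log (1 - l) - s)
  hP : ∀ r k l, 0 < r → r < b → 0 < k → k ≤ l → l ≤ b → ∀ τ, τ0 ≤ τ → ∀ μ ν : ℝ,
    μ ≤ a * Real.log (r + k) → ν ≤ a * Real.log (r + l) →
    h r k τ + h r l τ + min r (g0 * k) + min r (g0 * l) + QP r τ (k, μ) (l, ν) +
      QP r τ (l, ν) (k, μ) ≤ min 1 (g0 * k) + min 1 (g0 * l) +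
      gainW (χ k r) (h k l) (c k r) τ (max (a * Real.log (1 - k)) μ) μ +
      gainW (χ l r) (h l k) (c l r) τ (max (a * Real.log (1 - l)) ν) ν

theorem PairCert.toQ {a g0 b τ0 : ℝ} {ub : ℝ → ℝ} {c : ℝ → ℝ → ℝ} {χ h : ℝ → ℝ → ℝ → ℝ}
    (H : PairCert a g0 b τ0 ub c χ h) :
    PairCertQ a g0 b τ0 ub c χ h (fun _ _ => 0) (fun _ _ _ _ => 0) where
  coU := copos_zero
  coP := fun _ _ => copos_zero
  mono := H.mono
  le_ub := H.le_ub
  top := H.top
  hU := fun k l h1 h2 h3 => by simpa using H.hU k l h1 h2 h3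
  hP := fun r k l h1 h2 h3 h4 h5 τ h6 μ ν h7 h8 => by
    simpa using H.hP r k l h1 h2 h3 h4 h5 τ h6 μ ν h7 h8

theorem ii_bdd_mul {f g : ℝ → ℝ} {p q : ℝ} (hf : Measurable f) (h0 : ∀ s, 0 ≤ f s)
    (h1 : ∀ s, f s ≤ 1) (hg : IntervalIntegrable g volume p q) :
    IntervalIntegrable (fun s => f s * g s) volume p q := by
  have hb : ∀ s, ‖f s‖ ≤ 1 := fun s => by rw [Real.norm_of_nonneg (h0 s)]; exact h1 s
  exact ⟨Integrable.bdd_mul hg.1 hf.aestronglyMeasurable (Filter.Eventually.of_forall hb),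
    Integrable.bdd_mul hg.2 hf.aestronglyMeasurable (Filter.Eventually.of_forall hb)⟩

theorem ii_mono {f : ℝ → ℝ} {τ0 τ lam p : ℝ} (hf : MonotoneOn f (Set.Ici τ0)) (hp : p ≤ 1)
    (hτ : τ0 ≤ τ) (hl : τ0 ≤ lam - 1) :
    IntervalIntegrable (fun s => f (min τ (lam - s))) volume p 1 := by
  refine AntitoneOn.intervalIntegrable fun s hs t ht h => ?_
  rw [Set.uIcc_of_le hp] at hs ht
  exact hf (le_min hτ (by linarith [ht.2])) (le_min hτ (by linarith [hs.2]))
    (min_le_min_left _ (by linarith))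

theorem ii_mono' {f : ℝ → ℝ} {τ0 lam : ℝ} (hf : MonotoneOn f (Set.Ici τ0)) (hl : τ0 ≤ lam - 1) :
    IntervalIntegrable (fun s => f (lam - s)) volume 0 1 := by
  refine AntitoneOn.intervalIntegrable fun s hs t ht h => ?_
  rw [Set.uIcc_of_le zero_le_one] at hs ht
  exact hf (show τ0 ≤ lam - t by linarith [ht.2]) (show τ0 ≤ lam - s by linarith [hs.2])
    (by linarith)

theorem certR2_of_pairQ {ψ : ℝ → ℝ} (hψ : Monotone ψ) (hψ0 : ψ 0 = 0) {a g0 b τ0 : ℝ}
    {ub : ℝ → ℝ} {c : ℝ → ℝ → ℝ} {χ h : ℝ → ℝ → ℝ → ℝ} {QU : ℝ → ℝ → ℝ}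
    {QP : ℝ → ℝ → ℝ × ℝ → ℝ × ℝ → ℝ} (ha : 0 ≤ a) (hg : 0 ≤ g0) (hb0 : 0 < b)
    (hb1 : b < 1) (hτ0 : τ0 ≤ a * Real.log (1 - b) - 1) (hub : ∀ d, 0 < d → 0 ≤ ub d)
    (hc0 : ∀ r, 0 < r → r < b → 0 ≤ c b r) (hcz : ∀ d r, b ≤ d → 0 < r → r < b → c d r ≤ 0)
    (hχm : ∀ k r, Measurable (χ k r)) (hχ0 : ∀ k r σ, 0 ≤ χ k r σ) (hχ1 : ∀ k r σ, χ k r σ ≤ 1)
    (hχψ : ∀ k r σ y, χ k r σ * y ≤ ψ y) (H : PairCertQ a g0 b τ0 ub c χ h QU QP) :
    CertR2 ψ a g0 ub c := by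
  intro m x d hx hs hd
  obtain ⟨D, hD⟩ : ∃ D : ℕ → ℝ, ∀ l, D l = min (d l) b := ⟨_, fun _ => rfl⟩
  have hD0 : ∀ l < m, 0 < D l := fun l hl => by rw [hD]; exact lt_min (hd l hl) hb0
  have hDb : ∀ l, D l ≤ b := fun l => by rw [hD]; exact min_le_right _ _
  have hDd : ∀ l, D l ≤ d l := fun l => by rw [hD]; exact min_le_left _ _
  have hDp : ∀ l, d l < b → D l = d l := fun l hl => by rw [hD, min_eq_left hl.le]
  have hDr : ∀ l, ¬ d l < b → D l = b := fun l hl => by rw [hD, min_eq_right (not_lt.1 hl)]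
  have hlog : ∀ l, τ0 ≤ a * Real.log (1 - D l) - 1 := fun l => by
    have := mul_le_mul_of_nonneg_left
      (Real.log_le_log (by linarith) (show 1 - b ≤ 1 - D l by linarith [hDb l])) ha
    linarith
  obtain ⟨S, hS⟩ : ∃ S : ℕ → ℝ → ℝ, ∀ l τ, S l τ = ∑ k ∈ range m, x k * h (D l) (D k) τ :=
    ⟨_, fun _ _ => rfl⟩
  obtain ⟨v, hv⟩ : ∃ v : ℕ → ℝ → ℝ, ∀ l τ, v l τ = if τ0 ≤ τ then max 0 (S l τ) else 0 :=
    ⟨_, fun _ _ => rfl⟩
  have hv0 : ∀ l τ, 0 ≤ v l τ := fun l τ => by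
    rw [hv]
    split_ifs
    · exact le_max_left _ _
    · exact le_rfl
  have hSv : ∀ l τ, τ0 ≤ τ → S l τ ≤ v l τ := fun l τ hτ => by
    rw [hv, if_pos hτ]
    exact le_max_right _ _
  have hvz : ∀ l, ¬ d l < b → ∀ τ, v l τ = 0 := fun l hl τ => by
    rw [hv]
    split_ifs with hτ
    · refine max_eq_left ?_
      rw [hS, hDr l hl]
      exact Finset.sum_nonpos fun k hk => mul_nonpos_of_nonneg_of_nonpos
        (hx k (Finset.mem_range.1 hk)) (H.top _ (hD0 k (Finset.mem_range.1 hk)) (hDb k) τ hτ)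
    · rfl
  have hm : ∀ l < m, ∀ k < m, MonotoneOn (h (D l) (D k)) (Set.Ici τ0) := fun l hl k hk =>
    H.mono _ _ (hD0 l hl) (hDb l) (hD0 k hk) (hDb k)
  have hSm : ∀ l < m, MonotoneOn (S l) (Set.Ici τ0) := fun l hl τ hτ τ' hτ' ht => by
    rw [hS, hS]
    exact Finset.sum_le_sum fun k hk => mul_le_mul_of_nonneg_left
      (hm l hl k (Finset.mem_range.1 hk) hτ hτ' ht) (hx k (Finset.mem_range.1 hk))
  have hvm : ∀ l < m, Monotone (v l) := fun l hl τ τ' ht => by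
    by_cases hτ : τ0 ≤ τ
    · rw [hv, hv, if_pos hτ, if_pos (hτ.trans ht)]
      exact max_le_max_left _ (hSm l hl hτ (hτ.trans ht) ht)
    · rw [hv, if_neg hτ]
      exact hv0 l τ'
  refine ⟨v, fun l hl τ => ⟨hv0 l τ, ?_⟩, hvm, ?_, ?_⟩
  · by_cases hp : d l < b
    · rw [hv]
      split_ifs with hτ
      · refine max_le (hub _ (hd l hl)) ?_
        have : ub (d l) = ∑ k ∈ range m, x k * ub (d l) := by rw [← Finset.sum_mul, hs, one_mul]
        rw [hS, hDp l hp, this]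
        exact Finset.sum_le_sum fun k hk => mul_le_mul_of_nonneg_left
          (H.le_ub _ _ (hd l hl) hp (hD0 k (Finset.mem_range.1 hk)) (hDb k) τ hτ)
          (hx k (Finset.mem_range.1 hk))
      · exact hub _ (hd l hl)
    · rw [hvz l hp]
      exact hub _ (hd l hl)
  · have h1 := sym_sumQ hx hs H.coU D (F := fun _ => 1) (G := fun l k => min 1 (g0 * D l) +
      ∫ s in (0 : ℝ)..1, h (D l) (D k) (a * Real.log (1 - D l) - s)) fun k hk l hl => by
        rcases le_total (D k) (D l) with h1 | h1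
        · linarith [H.hU _ _ (hD0 k hk) h1 (hDb l)]
        · linarith [H.hU _ _ (hD0 l hl) h1 (hDb k)]
    rw [← Finset.sum_mul, hs, one_mul] at h1
    rw [← Finset.sum_add_distrib]
    refine h1.trans (Finset.sum_le_sum fun l hl => ?_)
    have hl' := Finset.mem_range.1 hl
    rw [← mul_add]
    refine mul_le_mul_of_nonneg_left ?_ (hx l hl')
    simp only [mul_add]
    rw [Finset.sum_add_distrib, ← Finset.sum_mul, hs, one_mul]
    refine add_le_add (min_le_min_left _ (mul_le_mul_of_nonneg_left (hDd l) hg)) ?_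
    by_cases hp : d l < b
    · simp only [← intervalIntegral.integral_const_mul]
      rw [← intervalIntegral.integral_finsetSum fun k hk =>
        (ii_mono' (hm l hl' k (Finset.mem_range.1 hk)) (hlog l)).const_mul _]
      simp only [← hS]
      rw [← hDp l hp]
      exact intervalIntegral.integral_mono_on zero_le_one (ii_mono' (hSm l hl') (hlog l))
        (ii_mono' ((hvm l hl').monotoneOn _) (hlog l)) fun s hs' =>
          hSv l _ (by linarith [hlog l, hs'.2])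
    · refine le_trans (Finset.sum_nonpos fun k hk => mul_nonpos_of_nonneg_of_nonpos
        (hx k (Finset.mem_range.1 hk)) ?_)
        (intervalIntegral.integral_nonneg zero_le_one fun s _ => hv0 l _)
      have h2 : 0 ≤ ∫ s in (0 : ℝ)..1, -h (D l) (D k) (a * Real.log (1 - D l) - s) := by
        refine intervalIntegral.integral_nonneg zero_le_one fun s hs' => neg_nonneg.2 ?_
        have h3 := hlog l
        rw [hDr l hp] at h3 ⊢
        exact H.top _ (hD0 k (Finset.mem_range.1 hk)) (hDb k) _ (by linarith [hs'.2])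
      rw [intervalIntegral.integral_neg] at h2
      linarith
  · intro o ho _ _ τ
    by_cases hz : v o τ = 0
    · exact Or.inl hz
    refine Or.inr fun lam' hlam' => ?_
    have hob : d o < b := by
      by_contra hc
      exact hz (hvz o hc τ)
    have hτ : τ0 ≤ τ := by
      by_contra hc
      exact hz (by rw [hv, if_neg hc])
    have hvo : v o τ = S o τ := by
      rw [hv, if_pos hτ] at hz ⊢
      rcases le_total 0 (S o τ) with h1 | h1
      · exact max_eq_right h1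
      · exact absurd (max_eq_left h1) hz
    obtain ⟨μ, hμ⟩ : ∃ μ : ℕ → ℝ, ∀ l, μ l =
      if d l < b then lam' l else a * Real.log (d o + D l) := ⟨_, fun _ => rfl⟩
    have hμ1 : ∀ l < m, μ l ≤ a * Real.log (d o + D l) := fun l hl => by
      rw [hμ]
      split_ifs with hp
      · rw [hDp l hp]
        exact hlam' l hl
      · exact le_rfl
    have h1 := sym_sumQ hx hs (H.coP (d o) τ) (fun l => (D l, μ l))
      (F := fun l => h (d o) (D l) τ + (min (d o) (g0 * D l) - min 1 (g0 * D l)))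
      (G := fun l k => gainW (χ (D l) (d o)) (h (D l) (D k)) (c (D l) (d o)) τ
        (max (a * Real.log (1 - D l)) (μ l)) (μ l)) fun k hk l hl => by
        rcases le_total (D k) (D l) with h1 | h1
        · linarith [H.hP _ _ _ (hd o ho) hob (hD0 k hk) h1 (hDb l) τ hτ _ _ (hμ1 k hk) (hμ1 l hl)]
        · linarith [H.hP _ _ _ (hd o ho) hob (hD0 l hl) h1 (hDb k) τ hτ _ _ (hμ1 l hl) (hμ1 k hk)]
    have h2 : ∀ l ∈ range m, x l * min (d o) (g0 * d l) + x l * h (d o) (D l) τ ≤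
        x l * min 1 (g0 * d l) +
        x l * (h (d o) (D l) τ + (min (d o) (g0 * D l) - min 1 (g0 * D l))) := fun l hl => by
      rw [← mul_add, ← mul_add]
      refine mul_le_mul_of_nonneg_left ?_ (hx l (Finset.mem_range.1 hl))
      have h3 := mul_le_mul_of_nonneg_left (hDd l) hg
      have h4 : d o ≤ 1 := by linarith
      simp only [min_def]
      split_ifs <;> linarith
    have h3 := Finset.sum_le_sum h2
    rw [Finset.sum_add_distrib, Finset.sum_add_distrib] at h3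
    rw [hvo, hS, hDp o hob]
    refine le_trans ?_ (add_le_add_right (h1.trans (Finset.sum_le_sum fun l hl => ?_)) _)
    · linarith
    have hl' := Finset.mem_range.1 hl
    refine mul_le_mul_of_nonneg_left ?_ (hx l hl')
    have hp1 : ∀ y : ℝ, max 0 (min 1 y) ≤ 1 := fun y => max_le zero_le_one (min_le_left _ _)
    have hl1 : ∀ y : ℝ, τ0 ≤ max (a * Real.log (1 - D l)) y - 1 := fun y => by
      linarith [hlog l, le_max_left (a * Real.log (1 - D l)) y]
    by_cases hp : d l < b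
    · have hμ2 : μ l = lam' l := by rw [hμ, if_pos hp]
      have hmeas : Measurable fun s => χ (D l) (d o)
          (min τ (max (a * Real.log (1 - D l)) (lam' l) - s)) := (hχm _ _).comp (by fun_prop)
      simp only [gainW, gainR, hμ2, ← intervalIntegral.integral_const_mul]
      have hi : ∀ k ∈ range m, IntervalIntegrable (fun s => x k * (χ (D l) (d o)
          (min τ (max (a * Real.log (1 - D l)) (lam' l) - s)) *
          (h (D l) (D k) (min τ (max (a * Real.log (1 - D l)) (lam' l) - s)) - c (D l) (d o))))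
          volume (max 0 (min 1 (lam' l - τ))) 1 := fun k hk =>
        (ii_bdd_mul hmeas (fun _ => hχ0 _ _ _) (fun _ => hχ1 _ _ _)
          ((ii_mono (hm l hl' k (Finset.mem_range.1 hk)) (hp1 _) hτ (hl1 _)).sub
            intervalIntegrable_const)).const_mul _
      rw [← intervalIntegral.integral_finsetSum hi, ← hDp l hp]
      refine intervalIntegral.integral_mono_on (hp1 _) (IntervalIntegrable.sum _ hi |>.congr ?_)
        (ii_mono (f := fun σ => ψ (v l σ - c (D l) (d o)))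
          (fun _ _ _ _ ht => hψ (sub_le_sub_right (hvm l hl' ht) _)) (hp1 _) hτ (hl1 _))
        fun s hs' => ?_
      · intro s _
        simp
      · refine le_trans ?_ (hχψ (D l) (d o) (min τ (max (a * Real.log (1 - D l)) (lam' l) - s)) _)
        have h4 := hSv l (min τ (max (a * Real.log (1 - D l)) (lam' l) - s))
          (le_min hτ (by linarith [hl1 (lam' l), hs'.2]))
        refine le_trans (le_of_eq ?_) (mul_le_mul_of_nonneg_left (sub_le_sub_right h4 _) (hχ0 _ _ _))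
        have h5 : c (D l) (d o) = ∑ k ∈ range m, x k * c (D l) (d o) := by
          rw [← Finset.sum_mul, hs, one_mul]
        conv_rhs => rw [hS, h5, ← Finset.sum_sub_distrib, Finset.mul_sum]
        exact Finset.sum_congr rfl fun k _ => by ring
    · refine le_trans (Finset.sum_nonpos fun k hk => mul_nonpos_of_nonneg_of_nonpos
        (hx k (Finset.mem_range.1 hk)) ?_)
        (intervalIntegral.integral_nonneg (hp1 _) fun s _ => ?_)
      · have h4 : 0 ≤ ∫ s in (max 0 (min 1 (μ l - τ)))..1,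
            -(χ (D l) (d o) (min τ (max (a * Real.log (1 - D l)) (μ l) - s)) *
            (h (D l) (D k) (min τ (max (a * Real.log (1 - D l)) (μ l) - s)) - c (D l) (d o))) := by
          refine intervalIntegral.integral_nonneg (hp1 _) fun s hs' => neg_nonneg.2
            (mul_nonpos_of_nonneg_of_nonpos (hχ0 _ _ _) ?_)
          have h5 := H.top _ (hD0 k (Finset.mem_range.1 hk)) (hDb k)
            (min τ (max (a * Real.log (1 - D l)) (μ l) - s))
            (le_min hτ (by linarith [hl1 (μ l), hs'.2]))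
          have h6 := hc0 _ (hd o ho) hob
          rw [← hDr l hp] at h6
          rw [← hDr l hp] at h5
          linarith
        rw [intervalIntegral.integral_neg] at h4
        rw [gainW]
        linarith
      · rw [hvz l hp, ← hψ0]
        exact hψ (by linarith [hcz _ _ (not_lt.1 hp) (hd o ho) hob])

theorem certR2_of_pair {ψ : ℝ → ℝ} (hψ : Monotone ψ) (hψ0 : ψ 0 = 0) {a g0 b τ0 : ℝ}
    {ub : ℝ → ℝ} {c : ℝ → ℝ → ℝ} {χ h : ℝ → ℝ → ℝ → ℝ} (ha : 0 ≤ a) (hg : 0 ≤ g0) (hb0 : 0 < b)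
    (hb1 : b < 1) (hτ0 : τ0 ≤ a * Real.log (1 - b) - 1) (hub : ∀ d, 0 < d → 0 ≤ ub d)
    (hc0 : ∀ r, 0 < r → r < b → 0 ≤ c b r) (hcz : ∀ d r, b ≤ d → 0 < r → r < b → c d r ≤ 0)
    (hχm : ∀ k r, Measurable (χ k r)) (hχ0 : ∀ k r σ, 0 ≤ χ k r σ) (hχ1 : ∀ k r σ, χ k r σ ≤ 1)
    (hχψ : ∀ k r σ y, χ k r σ * y ≤ ψ y) (H : PairCert a g0 b τ0 ub c χ h) :
    CertR2 ψ a g0 ub c :=
  certR2_of_pairQ hψ hψ0 ha hg hb0 hb1 hτ0 hub hc0 hcz hχm hχ0 hχ1 hχψ H.toQ

theorem capR_nonneg (A gc d r : ℝ) : 0 ≤ capR A gc d r := le_max_left _ _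

theorem capR_eq_zero (A gc : ℝ) {d r : ℝ} (h : r ≤ d) : capR A gc d r = 0 :=
  max_eq_left ((min_le_left _ _).trans (by linarith))

/-- charge `capR`, positive part in the gain, any measurable weights `χ ∈ [0,1]` -/
theorem certR2_pos_of_pairQ {a g0 b τ0 A gc : ℝ} {ub : ℝ → ℝ} {χ h : ℝ → ℝ → ℝ → ℝ}
    {QU : ℝ → ℝ → ℝ} {QP : ℝ → ℝ → ℝ × ℝ → ℝ × ℝ → ℝ} (ha : 0 ≤ a) (hg : 0 ≤ g0) (hb0 : 0 < b)
    (hb1 : b < 1) (hτ0 : τ0 ≤ a * Real.log (1 - b) - 1) (hub : ∀ d, 0 < d → 0 ≤ ub d)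
    (hχm : ∀ k r, Measurable (χ k r)) (hχ0 : ∀ k r σ, 0 ≤ χ k r σ) (hχ1 : ∀ k r σ, χ k r σ ≤ 1)
    (H : PairCertQ a g0 b τ0 ub (capR A gc) χ h QU QP) :
    CertR2 (fun y => max 0 y) a g0 ub (capR A gc) :=
  certR2_of_pairQ psi_pos.mono psi_pos.zero ha hg hb0 hb1 hτ0 hub (fun _ _ _ => capR_nonneg _ _ _ _)
    (fun _ _ h1 _ h2 => (capR_eq_zero _ _ (by linarith)).le) hχm hχ0 hχ1 (fun k r σ y => by
      rcases le_total y 0 with h1 | h1
      · exact (mul_nonpos_of_nonneg_of_nonpos (hχ0 k r σ) h1).trans (le_max_left _ _)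
      · exact (mul_le_of_le_one_left h1 (hχ1 k r σ)).trans (le_max_right _ _)) H

/-- charge `capR`, no positive part (`χ = 1`): the input of the shift lemma -/
theorem certR2_id_of_pairQ {a g0 b τ0 A gc : ℝ} {ub : ℝ → ℝ} {h : ℝ → ℝ → ℝ → ℝ}
    {QU : ℝ → ℝ → ℝ} {QP : ℝ → ℝ → ℝ × ℝ → ℝ × ℝ → ℝ} (ha : 0 ≤ a) (hg : 0 ≤ g0) (hb0 : 0 < b)
    (hb1 : b < 1) (hτ0 : τ0 ≤ a * Real.log (1 - b) - 1) (hub : ∀ d, 0 < d → 0 ≤ ub d)
    (H : PairCertQ a g0 b τ0 ub (capR A gc) (fun _ _ _ => 1) h QU QP) :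
    CertR2 id a g0 ub (capR A gc) :=
  certR2_of_pairQ monotone_id rfl ha hg hb0 hb1 hτ0 hub (fun _ _ _ => capR_nonneg _ _ _ _)
    (fun _ _ h1 _ h2 => (capR_eq_zero _ _ (by linarith)).le) (fun _ _ => measurable_const)
    (fun _ _ _ => zero_le_one) (fun _ _ _ => le_rfl) (fun _ _ _ _ => (one_mul _).le) H

/-- a larger `ψ` is easier -/
theorem CertR2.mono_psi {ψ φ : ℝ → ℝ} (hψ : Monotone ψ) (hφ : Monotone φ) (hle : ∀ y, ψ y ≤ φ y)
    {a g0 : ℝ} {ub : ℝ → ℝ} {c : ℝ → ℝ → ℝ} (H : CertR2 ψ a g0 ub c) : CertR2 φ a g0 ub c := by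
  intro m x d hx hs hd
  obtain ⟨v, h1, h2, h3, h4⟩ := H m x d hx hs hd
  refine ⟨v, h1, h2, h3, fun o ho hxo hdo τ => (h4 o ho hxo hdo τ).imp id fun h5 lam' hl =>
    (h5 lam' hl).trans (add_le_add_right (Finset.sum_le_sum fun l hl' => ?_) _)⟩
  have hl1 := Finset.mem_range.1 hl'
  refine mul_le_mul_of_nonneg_left ?_ (hx l hl1)
  have hi : ∀ {f : ℝ → ℝ}, Monotone f → ∀ c lam p : ℝ,
      IntervalIntegrable (fun s => f (v l (min τ (lam - s)) - c)) volume p 1 :=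
    fun hf c lam p => Antitone.intervalIntegrable fun s t h =>
      hf (sub_le_sub_right (h2 l hl1 (min_le_min_left _ (by linarith))) _)
  exact intervalIntegral.integral_mono_on (max_le zero_le_one (min_le_left _ _)) (hi hψ _ _ _)
    (hi hφ _ _ _) fun s _ => hle _

/-- capped pair certificate at the exact constant ⇒ the target -/
theorem cert_exists_of_pairQ {a b τ0 gc : ℝ} {A : ℚ} {χ h : ℝ → ℝ → ℝ → ℝ}
    {QU : ℝ → ℝ → ℝ} {QP : ℝ → ℝ → ℝ × ℝ → ℝ × ℝ → ℝ} (ha : 0 < a) (hA : 0 ≤ A) (hgc : 0 < gc)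
    (hb0 : 0 < b) (hb1 : b < 1) (hτ0 : τ0 ≤ a * Real.log (1 - b) - 1)
    (hχm : ∀ k r, Measurable (χ k r)) (hχ0 : ∀ k r σ, 0 ≤ χ k r σ) (hχ1 : ∀ k r σ, χ k r σ ≤ 1)
    (H : PairCertQ a (1 + 2 / Real.exp 1) b τ0 (fun d => capR A gc d 1) (capR A gc) χ h QU QP)
    (g : ℚ) (hg : 1 + 2 / Real.exp 1 < (g : ℝ)) :
    ∃ (Kn : Kernel) (A g1 : ℚ), 0 ≤ A ∧ Cert Kn g A g1 :=
  cert_exists_of_certR ha hA hgc (certR_iff_certR2.2 (certR2_pos_of_pairQ ha.le (by positivity)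
    hb0 hb1 hτ0 (fun _ _ => capR_nonneg _ _ _ _) hχm hχ0 hχ1 H)) g hg

end Crest.Agent.R310
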