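import Crest.Agent.R310.Disc

/-! Row 310: continuous certificate with a separate upper bound; bilinear (pair) certificate. -/

set_option autoImplicit false
set_option linter.dupNamespace false

namespace Crest.Agent.R310

open Finset

/-- `CertR` with a separate upper bound `ub d` for the offers (the charge is `cR d r`). -/
def CertR2 (ψ : ℝ → ℝ) (a g0 : ℝ) (ub : ℝ → ℝ) (cR : ℝ → ℝ → ℝ) : Prop :=
  ∀ (m : ℕ) (x d : ℕ → ℝ), (∀ l < m, 0 ≤ x l) → ∑ l ∈ range m, x l = 1 → (∀ l < m, 0 < d l) →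
    ∃ v : ℕ → ℝ → ℝ,
      (∀ l < m, ∀ τ, 0 ≤ v l τ ∧ v l τ ≤ ub (d l)) ∧
      (∀ l < m, Monotone (v l)) ∧
      (1 ≤ ∑ l ∈ range m, x l * min 1 (g0 * d l) +
        ∑ l ∈ range m, x l * ∫ s in (0 : ℝ)..1, v l (a * Real.log (1 - d l) - s)) ∧
      ∀ o < m, 0 < x o → d o < 1 → ∀ τ, v o τ = 0 ∨ ∀ lam' : ℕ → ℝ,
        (∀ l < m, lam' l ≤ a * Real.log (d o + d l)) →
        v o τ + ∑ l ∈ range m, x l * min (d o) (g0 * d l) ≤
          ∑ l ∈ range m, x l * min 1 (g0 * d l) + ∑ l ∈ range m, x l *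
            gainR ψ (v l) (cR (d l) (d o)) τ (max (a * Real.log (1 - d l)) (lam' l)) (lam' l)

theorem certR_iff_certR2 {ψ : ℝ → ℝ} {a g0 : ℝ} {cR : ℝ → ℝ → ℝ} :
    CertR ψ a g0 cR ↔ CertR2 ψ a g0 (fun d => cR d 1) cR := Iff.rfl

/-- gain with an activation weight `χ` depending on the payment time -/
noncomputable def gainW (χ : ℝ → ℝ) (v : ℝ → ℝ) (c τ lam lam' : ℝ) : ℝ :=
  ∫ s in (max 0 (min 1 (lam' - τ)))..1, χ (min τ (lam - s)) * (v (min τ (lam - s)) - c)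

/-- Bilinear certificate: `h r k τ` is the (signed) offer to distance `r` seen from the partner `k`;
distances are clipped at `b`, offers start at time `τ0`. -/
structure PairCert (a g0 b τ0 : ℝ) (ub : ℝ → ℝ) (c : ℝ → ℝ → ℝ) (χ : ℝ → ℝ → ℝ → ℝ)
    (h : ℝ → ℝ → ℝ → ℝ) : Prop where
  mono : ∀ r k, 0 < r → r ≤ b → 0 < k → k ≤ b → MonotoneOn (h r k) (Set.Ici τ0)
  le_ub : ∀ r k, 0 < r → r < b → 0 < k → k ≤ b → ∀ τ, τ0 ≤ τ → h r k τ ≤ ub r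
  top : ∀ k, 0 < k → k ≤ b → ∀ τ, τ0 ≤ τ → h b k τ ≤ 0
  hU : ∀ k l, 0 < k → k ≤ l → l ≤ b →
    2 ≤ min 1 (g0 * k) + min 1 (g0 * l) +
      (∫ s in (0 : ℝ)..1, h k l (a * Real.log (1 - k) - s)) +
      ∫ s in (0 : ℝ)..1, h l k (a * Real.log (1 - l) - s)
  hP : ∀ r k l, 0 < r → r < b → 0 < k → k ≤ l → l ≤ b → ∀ τ, τ0 ≤ τ → ∀ μ ν : ℝ,
    μ ≤ a * Real.log (r + k) → ν ≤ a * Real.log (r + l) →
    h r k τ + h r l τ + min r (g0 * k) + min r (g0 * l) ≤ min 1 (g0 * k) + min 1 (g0 * l) +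
      gainW (χ k r) (h k l) (c k r) τ (max (a * Real.log (1 - k)) μ) μ +
      gainW (χ l r) (h l k) (c l r) τ (max (a * Real.log (1 - l)) ν) ν

end Crest.Agent.R310
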