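import Crest.Agent.R310.Pair

/-!
Row 310: final interface for an explicit pair certificate: positive part in the gain, no cap
`v ≤ 1 - d` (shift), arbitrary level bounds `lo`, `hi`, endpoint candidates only, bounded time.
-/

set_option autoImplicit false
set_option linter.dupNamespace false

namespace Crest.Agent.R310

open Finset MeasureTheory

/-- gain of a nonnegative monotone payoff -/
noncomputable def gainP (w : ℝ → ℝ) (τ lam μ : ℝ) : ℝ :=
  ∫ s in (max 0 (min 1 (μ - τ)))..1, w (min τ (lam - s))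

theorem clip_le_one (y : ℝ) : max 0 (min 1 y) ≤ 1 := max_le zero_le_one (min_le_left _ _)

theorem ii_P {w : ℝ → ℝ} (hw : Monotone w) (τ lam p q : ℝ) :
    IntervalIntegrable (fun s => w (min τ (lam - s))) volume p q :=
  Antitone.intervalIntegrable fun _ _ h => hw (min_le_min_left _ (by linarith))

theorem gainP_mono {w : ℝ → ℝ} (hw : Monotone w) (h0 : ∀ σ, 0 ≤ w σ) {τ τ' lam lam' μ μ' : ℝ}
    (h1 : τ ≤ τ') (h2 : lam ≤ lam') (h3 : max 0 (min 1 (μ' - τ')) ≤ max 0 (min 1 (μ - τ))) :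
    gainP w τ lam μ ≤ gainP w τ' lam' μ' := by
  have h4 := intervalIntegral.integral_add_adjacent_intervals
    (ii_P hw τ' lam' (max 0 (min 1 (μ' - τ'))) (max 0 (min 1 (μ - τ))))
    (ii_P hw τ' lam' (max 0 (min 1 (μ - τ))) 1)
  have h5 : 0 ≤ ∫ s in (max 0 (min 1 (μ' - τ')))..(max 0 (min 1 (μ - τ))),
      w (min τ' (lam' - s)) := intervalIntegral.integral_nonneg h3 fun s _ => h0 _
  have h6 : gainP w τ lam μ ≤ ∫ s in (max 0 (min 1 (μ - τ)))..1, w (min τ' (lam' - s)) :=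
    intervalIntegral.integral_mono_on (clip_le_one _) (ii_P hw _ _ _ _) (ii_P hw _ _ _ _)
      fun s _ => hw (min_le_min h1 (by linarith))
  rw [gainP.eq_1 w τ', ← h4]
  linarith

theorem clip_mono {y z : ℝ} (h : y ≤ z) : max 0 (min 1 y) ≤ max 0 (min 1 z) :=
  max_le_max_left _ (min_le_min_left _ h)

theorem gainP_diag (w : ℝ → ℝ) {τ x : ℝ} (h1 : τ ≤ x) (h2 : x ≤ τ + 1) :
    gainP w τ x x = ∫ σ in (x - 1)..τ, w σ := by
  rw [gainP, min_eq_right (by linarith), max_eq_right (by linarith)]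
  have := intervalIntegral.integral_comp_sub_left (a := x - τ) (b := 1) w x
  rw [sub_sub_cancel] at this
  rw [← this]
  refine intervalIntegral.integral_congr fun s hs => ?_
  rw [Set.uIcc_of_le (by linarith)] at hs
  rw [min_eq_right (by linarith [hs.1])]

theorem gainP_endpoint {w : ℝ → ℝ} (hw : Monotone w) (h0 : ∀ σ, 0 ≤ w σ) (τ lo : ℝ) {hi μ : ℝ}
    (h : μ ≤ hi) : ∃ ν, (ν = min lo hi ∨ ν = hi) ∧ gainP w τ (max lo ν) ν ≤ gainP w τ (max lo μ) μ := by
  rcases le_total μ lo with h1 | h1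
  · refine ⟨_, Or.inl rfl, gainP_mono hw h0 le_rfl ?_ (clip_mono ?_)⟩
    · rw [max_eq_left (min_le_left _ _), max_eq_left h1]
    · linarith [le_min h1 h]
  rcases le_total μ τ with h2 | h2
  · refine ⟨_, Or.inl rfl, gainP_mono hw h0 le_rfl
      (max_le (le_max_left _ _) ((min_le_left _ _).trans (le_max_left _ _))) ?_⟩
    exact max_le (le_max_left _ _) ((min_le_right _ _).trans ((sub_nonpos.2 h2).trans
      (le_max_left _ _)))
  refine ⟨_, Or.inr rfl, ?_⟩
  rw [max_eq_right (h1.trans h), max_eq_right h1]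
  rcases le_total hi (τ + 1) with h3 | h3
  · rw [gainP_diag w (h2.trans h) h3, gainP_diag w h2 (h.trans h3),
      ← intervalIntegral.integral_add_adjacent_intervals (a := μ - 1) (b := hi - 1)
        hw.intervalIntegrable hw.intervalIntegrable]
    exact le_add_of_nonneg_left
      (intervalIntegral.integral_nonneg (show μ - 1 ≤ hi - 1 by linarith) fun s _ => h0 s)
  · rw [gainP, min_eq_left (by linarith), max_eq_right zero_le_one, intervalIntegral.integral_same]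
    exact intervalIntegral.integral_nonneg (clip_le_one _) fun s _ => h0 _

/-- uncapped certificate with the additional condition `v + d ≤ A₀` -/
def CertR3 (ψ : ℝ → ℝ) (a g0 : ℝ) (ub : ℝ → ℝ) (cR : ℝ → ℝ → ℝ) : Prop :=
  ∀ (m : ℕ) (x d : ℕ → ℝ), (∀ l < m, 0 ≤ x l) → ∑ l ∈ range m, x l = 1 → (∀ l < m, 0 < d l) →
    ∃ v : ℕ → ℝ → ℝ,
      (∀ l < m, ∀ τ, 0 ≤ v l τ ∧ v l τ ≤ ub (d l)) ∧
      (∀ l < m, Monotone (v l)) ∧
      (1 ≤ ∑ l ∈ range m, x l * min 1 (g0 * d l) +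
        ∑ l ∈ range m, x l * ∫ s in (0 : ℝ)..1, v l (a * Real.log (1 - d l) - s)) ∧
      (∀ o < m, ∀ τ, v o τ = 0 ∨ v o τ + d o ≤ ∑ l ∈ range m, x l * min 1 (g0 * d l) +
        ∑ l ∈ range m, x l * ∫ s in (0 : ℝ)..1, v l (a * Real.log (1 - d l) - s)) ∧
      ∀ o < m, 0 < x o → d o < 1 → ∀ τ, v o τ = 0 ∨ ∀ lam' : ℕ → ℝ,
        (∀ l < m, lam' l ≤ a * Real.log (d o + d l)) →
        v o τ + ∑ l ∈ range m, x l * min (d o) (g0 * d l) ≤
          ∑ l ∈ range m, x l * min 1 (g0 * d l) + ∑ l ∈ range m, x l *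
            gainR ψ (v l) (cR (d l) (d o)) τ (max (a * Real.log (1 - d l)) (lam' l)) (lam' l)

/-- the shift lemma -/
theorem CertR3.shift {ψ : ℝ → ℝ} (hψ : Psi ψ) {a g0 : ℝ} {ub : ℝ → ℝ} {c : ℝ → ℝ → ℝ}
    (H : CertR3 ψ a g0 ub c) : CertR2 ψ a g0 (fun d => max 0 (min (1 - d) (ub d))) c := by
  intro m x d hx hs hd
  obtain ⟨u, h1, h2, h3, h4, h5⟩ := H m x d hx hs hd
  obtain ⟨e, he⟩ : ∃ e : ℝ, e = ∑ l ∈ range m, x l * min 1 (g0 * d l) +
    ∑ l ∈ range m, x l * (∫ s in (0 : ℝ)..1, u l (a * Real.log (1 - d l) - s)) - 1 := ⟨_, rfl⟩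
  have he0 : 0 ≤ e := by linarith
  have hm : ∀ l < m, Monotone fun τ => max 0 (u l τ - e) := fun l hl τ τ' h =>
    max_le_max_left _ (sub_le_sub_right (h2 l hl h) _)
  have hse : ∑ l ∈ range m, x l * e = e := by rw [← Finset.sum_mul, hs, one_mul]
  refine ⟨fun l τ => max 0 (u l τ - e), fun l hl τ => ⟨le_max_left _ _, max_le (le_max_left _ _) ?_⟩,
    hm, ?_, fun o ho hxo hdo τ => ?_⟩
  · rcases h4 l hl τ with h6 | h6
    · exact le_trans (by linarith) (le_max_left _ _)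
    · exact le_trans (le_min (by linarith) (by linarith [(h1 l hl τ).2])) (le_max_right _ _)
  · have h6 : ∀ l ∈ range m, x l * (∫ s in (0 : ℝ)..1, u l (a * Real.log (1 - d l) - s)) ≤
        x l * (∫ s in (0 : ℝ)..1, max 0 (u l (a * Real.log (1 - d l) - s) - e)) + x l * e := by
      intro l hl
      have hl' := Finset.mem_range.1 hl
      rw [← mul_add]
      refine mul_le_mul_of_nonneg_left ?_ (hx l hl')
      have i1 : IntervalIntegrable (fun s => u l (a * Real.log (1 - d l) - s)) volume 0 1 :=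
        Antitone.intervalIntegrable fun _ _ h => h2 l hl' (by linarith)
      have i2 : IntervalIntegrable (fun s => max 0 (u l (a * Real.log (1 - d l) - s) - e))
          volume 0 1 := Antitone.intervalIntegrable fun _ _ h => hm l hl' (by linarith)
      have h7 := intervalIntegral.integral_mono_on zero_le_one i1
        (i2.add (intervalIntegrable_const (c := e))) fun s _ => by
          linarith [le_max_right 0 (u l (a * Real.log (1 - d l) - s) - e)]
      rw [intervalIntegral.integral_add i2 intervalIntegrable_const] at h7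
      simpa using h7
    have h7 := Finset.sum_le_sum h6
    rw [Finset.sum_add_distrib, hse] at h7
    linarith
  · by_cases hz : u o τ - e ≤ 0
    · exact Or.inl (max_eq_left hz)
    refine Or.inr fun lam' hl => ?_
    have h6 := (h5 o ho hxo hdo τ).resolve_left (by intro h; linarith) lam' hl
    have h7 : ∀ l ∈ range m, x l *
        gainR ψ (u l) (c (d l) (d o)) τ (max (a * Real.log (1 - d l)) (lam' l)) (lam' l) ≤
        x l * gainR ψ (fun τ => max 0 (u l τ - e)) (c (d l) (d o)) τ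
          (max (a * Real.log (1 - d l)) (lam' l)) (lam' l) + x l * e := by
      intro l hl
      have hl' := Finset.mem_range.1 hl
      rw [← mul_add]
      refine mul_le_mul_of_nonneg_left ?_ (hx l hl')
      have i1 := ii_P (w := fun σ => ψ (u l σ - c (d l) (d o)))
        (fun _ _ h => hψ.mono (sub_le_sub_right (h2 l hl' h) _)) τ
        (max (a * Real.log (1 - d l)) (lam' l)) (max 0 (min 1 (lam' l - τ))) 1
      have i2 := ii_P (w := fun σ => ψ (max 0 (u l σ - e) - c (d l) (d o)))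
        (fun _ _ h => hψ.mono (sub_le_sub_right (hm l hl' h) _)) τ
        (max (a * Real.log (1 - d l)) (lam' l)) (max 0 (min 1 (lam' l - τ))) 1
      have h8 := intervalIntegral.integral_mono_on (clip_le_one (lam' l - τ)) i1
        (i2.add (intervalIntegrable_const (c := e))) fun s _ => by
          have h9 := hψ.lip (u l (min τ (max (a * Real.log (1 - d l)) (lam' l) - s)) -
            c (d l) (d o)) e he0
          have h10 := hψ.mono (show u l (min τ (max (a * Real.log (1 - d l)) (lam' l) - s)) -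
            c (d l) (d o) - e ≤ max 0 (u l (min τ (max (a * Real.log (1 - d l)) (lam' l) - s)) - e) -
            c (d l) (d o) by
              linarith [le_max_right 0
                (u l (min τ (max (a * Real.log (1 - d l)) (lam' l) - s)) - e)])
          linarith
      rw [intervalIntegral.integral_add i2 intervalIntegrable_const, intervalIntegral.integral_const,
        smul_eq_mul] at h8
      have h9 : (1 - max 0 (min 1 (lam' l - τ))) * e ≤ e :=
        mul_le_of_le_one_left he0 (by linarith [le_max_left 0 (min 1 (lam' l - τ))])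
      rw [gainR, gainR]
      linarith
    have h8 := Finset.sum_le_sum h7
    rw [Finset.sum_add_distrib, hse] at h8
    change max 0 _ + _ ≤ _
    rw [max_eq_right (not_le.1 hz).le]
    linarith

theorem CertR2.mono_ub {ψ : ℝ → ℝ} {a g0 : ℝ} {ub ub' : ℝ → ℝ} {c : ℝ → ℝ → ℝ}
    (h : ∀ d, 0 < d → ub d ≤ ub' d) (H : CertR2 ψ a g0 ub c) : CertR2 ψ a g0 ub' c := by
  intro m x d hx hs hd
  obtain ⟨v, h1, h2⟩ := H m x d hx hs hd
  exact ⟨v, fun l hl τ => ⟨(h1 l hl τ).1, (h1 l hl τ).2.trans (h _ (hd l hl))⟩, h2⟩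

/-- the pair form of the left-hand side of `(U)` -/
noncomputable def UU (g0 τ1 : ℝ) (lo : ℝ → ℝ) (h : ℝ → ℝ → ℝ → ℝ) (k l : ℝ) : ℝ :=
  min 1 (g0 * k) + min 1 (g0 * l) + (∫ s in (0 : ℝ)..1, h k l (min τ1 (lo k - s))) +
    ∫ s in (0 : ℝ)..1, h l k (min τ1 (lo l - s))

/-- Explicit pair certificate. `h r k τ` matters for `r, k ∈ (0, b]`, `τ ∈ [τ0, τ1]`;
`χ k r τ μ` is a weight in `[0,1]` depending on the payment time. -/
structure PairCertE (g0 b τ0 τ1 : ℝ) (ub lo : ℝ → ℝ) (hi c : ℝ → ℝ → ℝ)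
    (χ : ℝ → ℝ → ℝ → ℝ → ℝ → ℝ) (h : ℝ → ℝ → ℝ → ℝ) (QU : ℝ → ℝ → ℝ) (QE : ℝ → ℝ → ℝ → ℝ)
    (QP : ℝ → ℝ → ℝ × ℝ → ℝ × ℝ → ℝ) : Prop where
  coU : Copos QU
  coE : ∀ r, Copos (QE r)
  coP : ∀ r τ, Copos (QP r τ)
  mono : ∀ r k, 0 < r → r ≤ b → 0 < k → k ≤ b → MonotoneOn (h r k) (Set.Icc τ0 τ1)
  le_ub : ∀ r k, 0 < r → r < b → 0 < k → k ≤ b → h r k τ1 ≤ ub r
  top : ∀ k, 0 < k → k ≤ b → h b k τ1 ≤ 0
  hU : ∀ k l, 0 < k → k ≤ l → l ≤ b → 2 + QU k l + QU l k ≤ UU g0 τ1 lo h k l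
  hE : ∀ r k l, 0 < r → r < b → 0 < k → k ≤ l → l ≤ b →
    h r k τ1 + h r l τ1 + 2 * r + QE r k l + QE r l k ≤ UU g0 τ1 lo h k l
  hP : ∀ r k l, 0 < r → r < b → 0 < k → k ≤ l → l ≤ b → ∀ τ, τ0 ≤ τ → τ ≤ τ1 → ∀ μ ν : ℝ,
    (μ = min (lo k) (hi r k) ∨ μ = hi r k) → (ν = min (lo l) (hi r l) ∨ ν = hi r l) →
    h r k τ + h r l τ + min r (g0 * k) + min r (g0 * l) + QP r τ (k, μ) (l, ν) +
      QP r τ (l, ν) (k, μ) ≤ min 1 (g0 * k) + min 1 (g0 * l) +
      gainW (χ k r τ μ) (h k l) (c k r) τ (max (lo k) μ) μ +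
      gainW (χ l r τ ν) (h l k) (c l r) τ (max (lo l) ν) ν

theorem certR3_of_pairE {a g0 b τ0 τ1 : ℝ} {ub lo : ℝ → ℝ} {hi c : ℝ → ℝ → ℝ}
    {χ : ℝ → ℝ → ℝ → ℝ → ℝ → ℝ} {h : ℝ → ℝ → ℝ → ℝ} {QU : ℝ → ℝ → ℝ} {QE : ℝ → ℝ → ℝ → ℝ}
    {QP : ℝ → ℝ → ℝ × ℝ → ℝ × ℝ → ℝ} (hg : 0 ≤ g0) (hb0 : 0 < b) (hb1 : b < 1) (hτ : τ0 ≤ τ1)
    (hlo0 : ∀ k, 0 < k → k ≤ b → τ0 ≤ lo k - 1)
    (hlo : ∀ k, 0 < k → k < b → lo k ≤ a * Real.log (1 - k))
    (hhi : ∀ r k, 0 < r → r < b → 0 < k → k < b → a * Real.log (r + k) ≤ hi r k)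
    (hub : ∀ d, 0 < d → 0 ≤ ub d) (hc0 : ∀ r, 0 < r → r < b → 0 ≤ c b r)
    (hχm : ∀ k r τ μ, Measurable (χ k r τ μ)) (hχ0 : ∀ k r τ μ σ, 0 ≤ χ k r τ μ σ)
    (hχ1 : ∀ k r τ μ σ, χ k r τ μ σ ≤ 1) (H : PairCertE g0 b τ0 τ1 ub lo hi c χ h QU QE QP) :
    CertR3 (fun y => max 0 y) a g0 ub c := by
  intro m x d hx hs hd
  obtain ⟨D, hD⟩ : ∃ D : ℕ → ℝ, ∀ l, D l = min (d l) b := ⟨_, fun _ => rfl⟩
  have hD0 : ∀ l < m, 0 < D l := fun l hl => by rw [hD]; exact lt_min (hd l hl) hb0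
  have hDb : ∀ l, D l ≤ b := fun l => by rw [hD]; exact min_le_right _ _
  have hDd : ∀ l, D l ≤ d l := fun l => by rw [hD]; exact min_le_left _ _
  have hDp : ∀ l, d l < b → D l = d l := fun l hl => by rw [hD, min_eq_left hl.le]
  have hDr : ∀ l, ¬ d l < b → D l = b := fun l hl => by rw [hD, min_eq_right (not_lt.1 hl)]
  have hlog : ∀ l < m, τ0 ≤ lo (D l) - 1 := fun l hl => hlo0 _ (hD0 l hl) (hDb l)
  obtain ⟨S, hS⟩ : ∃ S : ℕ → ℝ → ℝ, ∀ l τ, S l τ =
    ∑ k ∈ range m, x k * h (D l) (D k) (min τ1 τ) := ⟨_, fun _ _ => rfl⟩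
  obtain ⟨v, hv⟩ : ∃ v : ℕ → ℝ → ℝ, ∀ l τ, v l τ = if τ0 ≤ τ then max 0 (S l τ) else 0 :=
    ⟨_, fun _ _ => rfl⟩
  have hv0 : ∀ l τ, 0 ≤ v l τ := fun l τ => by
    rw [hv]
    split_ifs
    · exact le_max_left _ _
    · exact le_rfl
  have hSv : ∀ l τ, τ0 ≤ τ → S l τ ≤ v l τ := fun l τ hτ => by
    rw [hv, if_pos hτ]
    exact le_max_right _ _
  have hm : ∀ l < m, ∀ k < m, MonotoneOn (fun τ => h (D l) (D k) (min τ1 τ)) (Set.Ici τ0) :=
    fun l hl k hk σ hσ σ' hσ' h1 => H.mono _ _ (hD0 l hl) (hDb l) (hD0 k hk) (hDb k)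
      ⟨le_min hτ hσ, min_le_left _ _⟩ ⟨le_min hτ hσ', min_le_left _ _⟩ (min_le_min_left _ h1)
  have hend : ∀ l < m, ∀ k < m, ∀ σ, τ0 ≤ σ → h (D l) (D k) (min τ1 σ) ≤ h (D l) (D k) τ1 :=
    fun l hl k hk σ hσ => H.mono _ _ (hD0 l hl) (hDb l) (hD0 k hk) (hDb k)
      ⟨le_min hτ hσ, min_le_left _ _⟩ ⟨hτ, le_rfl⟩ (min_le_left _ _)
  have htop : ∀ l < m, ¬ d l < b → ∀ k < m, ∀ σ, τ0 ≤ σ → h (D l) (D k) (min τ1 σ) ≤ 0 :=
    fun l hl hp k hk σ hσ => (hend l hl k hk σ hσ).trans (by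
      rw [hDr l hp]
      exact H.top _ (hD0 k hk) (hDb k))
  have hvz : ∀ l < m, ¬ d l < b → ∀ τ, v l τ = 0 := fun l hl hp τ => by
    rw [hv]
    split_ifs with hτ
    · refine max_eq_left ?_
      rw [hS]
      exact Finset.sum_nonpos fun k hk => mul_nonpos_of_nonneg_of_nonpos
        (hx k (Finset.mem_range.1 hk)) (htop l hl hp k (Finset.mem_range.1 hk) τ hτ)
    · rfl
  have hSm : ∀ l < m, MonotoneOn (S l) (Set.Ici τ0) := fun l hl τ hτ τ' hτ' ht => by
    rw [hS, hS]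
    exact Finset.sum_le_sum fun k hk => mul_le_mul_of_nonneg_left
      (hm l hl k (Finset.mem_range.1 hk) hτ hτ' ht) (hx k (Finset.mem_range.1 hk))
  have hvm : ∀ l < m, Monotone (v l) := fun l hl τ τ' ht => by
    by_cases hτ : τ0 ≤ τ
    · rw [hv, hv, if_pos hτ, if_pos (hτ.trans ht)]
      exact max_le_max_left _ (hSm l hl hτ (hτ.trans ht) ht)
    · rw [hv, if_neg hτ]
      exact hv0 l τ'
  have hpos : ∀ o < m, ∀ τ, v o τ ≠ 0 → d o < b ∧ τ0 ≤ τ ∧ v o τ = S o τ := by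
    intro o ho τ hz
    have hob : d o < b := by
      by_contra hc
      exact hz (hvz o ho hc τ)
    have hτ : τ0 ≤ τ := by
      by_contra hc
      exact hz (by rw [hv, if_neg hc])
    refine ⟨hob, hτ, ?_⟩
    rw [hv, if_pos hτ] at hz ⊢
    rcases le_total 0 (S o τ) with h1 | h1
    · exact max_eq_right h1
    · exact absurd (max_eq_left h1) hz
  have hA : ∑ l ∈ range m, x l * ∑ k ∈ range m, x k * (min 1 (g0 * D l) +
      ∫ s in (0 : ℝ)..1, h (D l) (D k) (min τ1 (lo (D l) - s))) ≤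
      ∑ l ∈ range m, x l * min 1 (g0 * d l) +
        ∑ l ∈ range m, x l * ∫ s in (0 : ℝ)..1, v l (a * Real.log (1 - d l) - s) := by
    rw [← Finset.sum_add_distrib]
    refine Finset.sum_le_sum fun l hl => ?_
    have hl' := Finset.mem_range.1 hl
    rw [← mul_add]
    refine mul_le_mul_of_nonneg_left ?_ (hx l hl')
    simp only [mul_add]
    rw [Finset.sum_add_distrib, ← Finset.sum_mul, hs, one_mul]
    refine add_le_add (min_le_min_left _ (mul_le_mul_of_nonneg_left (hDd l) hg)) ?_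
    by_cases hp : d l < b
    · simp only [← intervalIntegral.integral_const_mul]
      rw [← intervalIntegral.integral_finsetSum fun k hk =>
        (ii_mono' (hm l hl' k (Finset.mem_range.1 hk)) (hlog l hl')).const_mul _]
      simp only [← hS]
      have h1 := hlo _ (hd l hl') hp
      rw [← hDp l hp] at h1 ⊢
      exact intervalIntegral.integral_mono_on zero_le_one (ii_mono' (hSm l hl') (hlog l hl'))
        (Antitone.intervalIntegrable fun _ _ h2 => hvm l hl' (by linarith)) fun s hs' =>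
          (hSv l _ (by linarith [hlog l hl', hs'.2])).trans (hvm l hl' (by linarith))
    · refine le_trans (Finset.sum_nonpos fun k hk => mul_nonpos_of_nonneg_of_nonpos
        (hx k (Finset.mem_range.1 hk)) ?_)
        (intervalIntegral.integral_nonneg zero_le_one fun s _ => hv0 l _)
      have h2 : 0 ≤ ∫ s in (0 : ℝ)..1, -h (D l) (D k) (min τ1 (lo (D l) - s)) :=
        intervalIntegral.integral_nonneg zero_le_one fun s hs' => neg_nonneg.2
          (htop l hl' hp k (Finset.mem_range.1 hk) _ (by linarith [hlog l hl', hs'.2]))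
      rw [intervalIntegral.integral_neg] at h2
      linarith
  refine ⟨v, fun l hl τ => ⟨hv0 l τ, ?_⟩, hvm, ?_, ?_, ?_⟩
  · by_cases hz : v l τ = 0
    · rw [hz]
      exact hub _ (hd l hl)
    obtain ⟨hp, hτ', h1⟩ := hpos l hl τ hz
    have : ub (d l) = ∑ k ∈ range m, x k * ub (d l) := by rw [← Finset.sum_mul, hs, one_mul]
    rw [h1, hS, this]
    refine Finset.sum_le_sum fun k hk => mul_le_mul_of_nonneg_left
      ((hend l hl k (Finset.mem_range.1 hk) τ hτ').trans ?_) (hx k (Finset.mem_range.1 hk))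
    rw [hDp l hp]
    exact H.le_ub _ _ (hd l hl) hp (hD0 k (Finset.mem_range.1 hk)) (hDb k)
  · have h1 := sym_sumQ hx hs H.coU D (F := fun _ => 1) (G := fun l k => min 1 (g0 * D l) +
      ∫ s in (0 : ℝ)..1, h (D l) (D k) (min τ1 (lo (D l) - s))) fun k hk l hl => by
        rcases le_total (D k) (D l) with h1 | h1
        · have := H.hU _ _ (hD0 k hk) h1 (hDb l)
          rw [UU] at this
          linarith
        · have := H.hU _ _ (hD0 l hl) h1 (hDb k)
          rw [UU] at this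
          linarith
    rw [← Finset.sum_mul, hs, one_mul] at h1
    exact h1.trans hA
  · intro o ho τ
    by_cases hz : v o τ = 0
    · exact Or.inl hz
    obtain ⟨hob, hτ', hvo⟩ := hpos o ho τ hz
    have h1 := sym_sumQ hx hs (H.coE (d o)) D (F := fun l => h (d o) (D l) τ1 + d o)
      (G := fun l k => min 1 (g0 * D l) +
      ∫ s in (0 : ℝ)..1, h (D l) (D k) (min τ1 (lo (D l) - s))) fun k hk l hl => by
        rcases le_total (D k) (D l) with h1 | h1
        · have := H.hE _ _ _ (hd o ho) hob (hD0 k hk) h1 (hDb l)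
          rw [UU] at this
          linarith
        · have := H.hE _ _ _ (hd o ho) hob (hD0 l hl) h1 (hDb k)
          rw [UU] at this
          linarith
    refine Or.inr (le_trans ?_ (h1.trans hA))
    simp only [mul_add]
    rw [Finset.sum_add_distrib, ← Finset.sum_mul, hs, one_mul, hvo, hS]
    refine add_le_add_left (Finset.sum_le_sum fun k hk => mul_le_mul_of_nonneg_left ?_
      (hx k (Finset.mem_range.1 hk))) _
    rw [← hDp o hob]
    exact hend o ho k (Finset.mem_range.1 hk) τ hτ'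
  · intro o ho _ _ τ'
    by_cases hz : v o τ' = 0
    · exact Or.inl hz
    refine Or.inr fun lam' hlam' => ?_
    obtain ⟨hob, hτ', hvo⟩ := hpos o ho τ' hz
    obtain ⟨τ, hτe⟩ : ∃ τ, τ = min τ1 τ' := ⟨_, rfl⟩
    have hτa : τ0 ≤ τ := by rw [hτe]; exact le_min hτ hτ'
    have hτb : τ ≤ τ1 := by rw [hτe]; exact min_le_left _ _
    have hτc : τ ≤ τ' := by rw [hτe]; exact min_le_right _ _
    have hw : ∀ l < m, Monotone fun σ => max 0 (v l σ - c (d l) (d o)) := fun l hl _ _ h1 =>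
      max_le_max_left _ (sub_le_sub_right (hvm l hl h1) _)
    have hex : ∀ l, ∃ μ, (μ = min (lo (D l)) (hi (d o) (D l)) ∨ μ = hi (d o) (D l)) ∧
        (l < m → d l < b → gainP (fun σ => max 0 (v l σ - c (d l) (d o))) τ (max (lo (D l)) μ) μ ≤
          gainR (fun y => max 0 y) (v l) (c (d l) (d o)) τ'
            (max (a * Real.log (1 - d l)) (lam' l)) (lam' l)) := by
      intro l
      by_cases hp : l < m ∧ d l < b
      · obtain ⟨ν, h1, h2⟩ := gainP_endpoint (hw l hp.1) (fun _ => le_max_left _ _) τ (lo (D l))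
          ((hlam' l hp.1).trans (hhi _ _ (hd o ho) hob (hd l hp.1) hp.2))
        rw [← hDp l hp.2] at h1
        refine ⟨ν, h1, fun _ _ => h2.trans (gainP_mono (hw l hp.1) (fun _ => le_max_left _ _) hτc
          (max_le_max_right _ ?_) (clip_mono (by linarith)))⟩
        rw [hDp l hp.2]
        exact hlo _ (hd l hp.1) hp.2
      · exact ⟨_, Or.inr rfl, fun h1 h2 => absurd ⟨h1, h2⟩ hp⟩
    choose μ hμ1 hμ2 using hex
    have h1 := sym_sumQ hx hs (H.coP (d o) τ) (fun l => (D l, μ l))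
      (F := fun l => h (d o) (D l) τ + (min (d o) (g0 * D l) - min 1 (g0 * D l)))
      (G := fun l k => gainW (χ (D l) (d o) τ (μ l)) (h (D l) (D k)) (c (D l) (d o)) τ
        (max (lo (D l)) (μ l)) (μ l)) fun k hk l hl => by
        rcases le_total (D k) (D l) with h1 | h1
        · linarith [H.hP _ _ _ (hd o ho) hob (hD0 k hk) h1 (hDb l) τ hτa hτb _ _ (hμ1 k) (hμ1 l)]
        · linarith [H.hP _ _ _ (hd o ho) hob (hD0 l hl) h1 (hDb k) τ hτa hτb _ _ (hμ1 l) (hμ1 k)]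
    have h2 : ∀ l ∈ range m, x l * min (d o) (g0 * d l) + x l * h (d o) (D l) τ ≤
        x l * min 1 (g0 * d l) +
        x l * (h (d o) (D l) τ + (min (d o) (g0 * D l) - min 1 (g0 * D l))) := fun l hl => by
      rw [← mul_add, ← mul_add]
      refine mul_le_mul_of_nonneg_left ?_ (hx l (Finset.mem_range.1 hl))
      have h3 := mul_le_mul_of_nonneg_left (hDd l) hg
      have h4 : d o ≤ 1 := by linarith
      simp only [min_def]
      split_ifs <;> linarith
    have h3 := Finset.sum_le_sum h2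
    rw [Finset.sum_add_distrib, Finset.sum_add_distrib] at h3
    rw [hvo, hS, hDp o hob, ← hτe]
    refine le_trans ?_ (add_le_add_right (h1.trans (Finset.sum_le_sum fun l hl => ?_)) _)
    · linarith
    have hl' := Finset.mem_range.1 hl
    refine mul_le_mul_of_nonneg_left ?_ (hx l hl')
    have hl1 : τ0 ≤ max (lo (D l)) (μ l) - 1 := by
      linarith [hlog l hl', le_max_left (lo (D l)) (μ l)]
    have hmin : ∀ s, min τ1 (min τ (max (lo (D l)) (μ l) - s)) = min τ (max (lo (D l)) (μ l) - s) :=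
      fun s => min_eq_right ((min_le_left _ _).trans hτb)
    by_cases hp : d l < b
    · refine le_trans ?_ (hμ2 l hl' hp)
      have hmeas : Measurable fun s => χ (D l) (d o) τ (μ l)
          (min τ (max (lo (D l)) (μ l) - s)) := (hχm _ _ _ _).comp (by fun_prop)
      simp only [gainW, gainP, ← intervalIntegral.integral_const_mul]
      have hi : ∀ k ∈ range m, IntervalIntegrable (fun s => x k * (χ (D l) (d o) τ (μ l)
          (min τ (max (lo (D l)) (μ l) - s)) *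
          (h (D l) (D k) (min τ (max (lo (D l)) (μ l) - s)) - c (D l) (d o))))
          volume (max 0 (min 1 (μ l - τ))) 1 := fun k hk => by
        have h4 := ii_mono (hm l hl' k (Finset.mem_range.1 hk)) (clip_le_one (μ l - τ)) hτa hl1
        simp only [hmin] at h4
        exact (ii_bdd_mul hmeas (fun _ => hχ0 _ _ _ _ _) (fun _ => hχ1 _ _ _ _ _)
          (h4.sub intervalIntegrable_const)).const_mul _
      rw [← intervalIntegral.integral_finsetSum hi, ← hDp l hp]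
      refine intervalIntegral.integral_mono_on (clip_le_one _)
        (IntervalIntegrable.sum _ hi |>.congr ?_)
        (ii_P (w := fun σ => max 0 (v l σ - c (D l) (d o)))
          (fun _ _ ht => max_le_max_left _ (sub_le_sub_right (hvm l hl' ht) _)) _ _ _ _)
        fun s hs' => ?_
      · intro s _
        simp
      · have h4 := hSv l (min τ (max (lo (D l)) (μ l) - s)) (le_min hτa (by linarith [hs'.2]))
        have h6 : ∀ z y : ℝ, 0 ≤ z → z ≤ 1 → z * y ≤ max 0 y := fun z y h0 h1 => by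
          rcases le_total y 0 with h2 | h2
          · exact (mul_nonpos_of_nonneg_of_nonpos h0 h2).trans (le_max_left _ _)
          · exact (mul_le_of_le_one_left h2 h1).trans (le_max_right _ _)
        refine le_trans ?_ (h6 _ _ (hχ0 (D l) (d o) τ (μ l) (min τ (max (lo (D l)) (μ l) - s)))
          (hχ1 _ _ _ _ _))
        refine le_trans (le_of_eq ?_)
          (mul_le_mul_of_nonneg_left (sub_le_sub_right h4 _) (hχ0 _ _ _ _ _))
        have h5 : c (D l) (d o) = ∑ k ∈ range m, x k * c (D l) (d o) := by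
          rw [← Finset.sum_mul, hs, one_mul]
        conv_rhs => rw [hS, hmin, h5, ← Finset.sum_sub_distrib, Finset.mul_sum]
        exact Finset.sum_congr rfl fun k _ => by ring
    · refine le_trans (Finset.sum_nonpos fun k hk => mul_nonpos_of_nonneg_of_nonpos
        (hx k (Finset.mem_range.1 hk)) ?_)
        (intervalIntegral.integral_nonneg (clip_le_one _) fun s _ => le_max_left _ _)
      have h4 : 0 ≤ ∫ s in (max 0 (min 1 (μ l - τ)))..1,
          -(χ (D l) (d o) τ (μ l) (min τ (max (lo (D l)) (μ l) - s)) *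
          (h (D l) (D k) (min τ (max (lo (D l)) (μ l) - s)) - c (D l) (d o))) := by
        refine intervalIntegral.integral_nonneg (clip_le_one _) fun s hs' => neg_nonneg.2
          (mul_nonpos_of_nonneg_of_nonpos (hχ0 _ _ _ _ _) ?_)
        have h5 := htop l hl' hp k (Finset.mem_range.1 hk) (min τ (max (lo (D l)) (μ l) - s))
          (le_min hτa (by linarith [hs'.2]))
        rw [hmin] at h5
        have h6 := hc0 _ (hd o ho) hob
        rw [← hDr l hp] at h6
        linarith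
      rw [intervalIntegral.integral_neg] at h4
      rw [gainW]
      linarith

/-- explicit pair certificate ⇒ continuous certificate -/
theorem certR_of_pairE {a g0 b τ0 τ1 A gc : ℝ} {lo : ℝ → ℝ} {hi : ℝ → ℝ → ℝ}
    {χ : ℝ → ℝ → ℝ → ℝ → ℝ → ℝ} {h : ℝ → ℝ → ℝ → ℝ} {QU : ℝ → ℝ → ℝ} {QE : ℝ → ℝ → ℝ → ℝ}
    {QP : ℝ → ℝ → ℝ × ℝ → ℝ × ℝ → ℝ} (hg : 0 ≤ g0) (hb0 : 0 < b) (hb1 : b < 1) (hτ : τ0 ≤ τ1)
    (hlo0 : ∀ k, 0 < k → k ≤ b → τ0 ≤ lo k - 1)
    (hlo : ∀ k, 0 < k → k < b → lo k ≤ a * Real.log (1 - k))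
    (hhi : ∀ r k, 0 < r → r < b → 0 < k → k < b → a * Real.log (r + k) ≤ hi r k)
    (hχm : ∀ k r τ μ, Measurable (χ k r τ μ)) (hχ0 : ∀ k r τ μ σ, 0 ≤ χ k r τ μ σ)
    (hχ1 : ∀ k r τ μ σ, χ k r τ μ σ ≤ 1)
    (H : PairCertE g0 b τ0 τ1 (fun d => max 0 (A * (1 - gc * d))) lo hi (capR A gc) χ h QU QE QP) :
    CertR (fun y => max 0 y) a g0 (capR A gc) := by
  refine certR_iff_certR2.2 (((certR3_of_pairE hg hb0 hb1 hτ hlo0 hlo hhi
    (fun _ _ => le_max_left _ _) (fun _ _ _ => capR_nonneg _ _ _ _) hχm hχ0 hχ1 H).shift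
    psi_pos).mono_ub fun d _ => max_le (capR_nonneg _ _ _ _) ?_)
  rcases le_total 0 (A * (1 - gc * d)) with h1 | h1
  · rw [max_eq_right h1]
    exact le_max_right _ _
  · rw [max_eq_left h1]
    exact (min_le_right _ _).trans (capR_nonneg _ _ _ _)

/-- explicit pair certificate at the exact constant ⇒ the target -/
theorem cert_exists_of_pairE {a b τ0 τ1 gc : ℝ} {A : ℚ} {lo : ℝ → ℝ} {hi : ℝ → ℝ → ℝ}
    {χ : ℝ → ℝ → ℝ → ℝ → ℝ → ℝ} {h : ℝ → ℝ → ℝ → ℝ} {QU : ℝ → ℝ → ℝ} {QE : ℝ → ℝ → ℝ → ℝ}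
    {QP : ℝ → ℝ → ℝ × ℝ → ℝ × ℝ → ℝ} (ha : 0 < a) (hA : 0 ≤ A) (hgc : 0 < gc) (hb0 : 0 < b)
    (hb1 : b < 1) (hτ : τ0 ≤ τ1) (hlo0 : ∀ k, 0 < k → k ≤ b → τ0 ≤ lo k - 1)
    (hlo : ∀ k, 0 < k → k < b → lo k ≤ a * Real.log (1 - k))
    (hhi : ∀ r k, 0 < r → r < b → 0 < k → k < b → a * Real.log (r + k) ≤ hi r k)
    (hχm : ∀ k r τ μ, Measurable (χ k r τ μ)) (hχ0 : ∀ k r τ μ σ, 0 ≤ χ k r τ μ σ)
    (hχ1 : ∀ k r τ μ σ, χ k r τ μ σ ≤ 1)
    (H : PairCertE (1 + 2 / Real.exp 1) b τ0 τ1 (fun d => max 0 (A * (1 - gc * d))) lo hi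
      (capR A gc) χ h QU QE QP) (g : ℚ) (hg : 1 + 2 / Real.exp 1 < (g : ℝ)) :
    ∃ (Kn : Kernel) (A g1 : ℚ), 0 ≤ A ∧ Cert Kn g A g1 :=
  cert_exists_of_certR ha hA hgc
    (certR_of_pairE (by positivity) hb0 hb1 hτ hlo0 hlo hhi hχm hχ0 hχ1 H) g hg

end Crest.Agent.R310
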