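import Crest.Agent.R310.PairDefs

/-! Row 310: rich entries (`1 ≤ g0 * d`) can be removed from the continuous certificate. -/

set_option autoImplicit false
set_option linter.dupNamespace false

namespace Crest.Agent.R310

open Finset

/-- `CertR2` for profiles with all distances at most `b`. -/
def CertR2b (b : ℝ) (ψ : ℝ → ℝ) (a g0 : ℝ) (ub : ℝ → ℝ) (cR : ℝ → ℝ → ℝ) : Prop :=
  ∀ (m : ℕ) (x d : ℕ → ℝ), (∀ l < m, 0 ≤ x l) → ∑ l ∈ range m, x l = 1 → (∀ l < m, 0 < d l) →
    (∀ l < m, d l ≤ b) →
    ∃ v : ℕ → ℝ → ℝ,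
      (∀ l < m, ∀ τ, 0 ≤ v l τ ∧ v l τ ≤ ub (d l)) ∧
      (∀ l < m, Monotone (v l)) ∧
      (1 ≤ ∑ l ∈ range m, x l * min 1 (g0 * d l) +
        ∑ l ∈ range m, x l * ∫ s in (0 : ℝ)..1, v l (a * Real.log (1 - d l) - s)) ∧
      ∀ o < m, 0 < x o → d o < 1 → ∀ τ, v o τ = 0 ∨ ∀ lam' : ℕ → ℝ,
        (∀ l < m, lam' l ≤ a * Real.log (d o + d l)) →
        v o τ + ∑ l ∈ range m, x l * min (d o) (g0 * d l) ≤
          ∑ l ∈ range m, x l * min 1 (g0 * d l) + ∑ l ∈ range m, x l *
            gainR ψ (v l) (cR (d l) (d o)) τ (max (a * Real.log (1 - d l)) (lam' l)) (lam' l)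

theorem gainR_pos_nonneg (v : ℝ → ℝ) (c τ lam lam' : ℝ) :
    0 ≤ gainR (fun y => max 0 y) v c τ lam lam' := by
  unfold gainR
  refine intervalIntegral.integral_nonneg ?_ fun _ _ => le_max_left _ _
  exact max_le zero_le_one (min_le_left _ _)

theorem certR2_of_poor {b a g0 : ℝ} {ub : ℝ → ℝ} {cR : ℝ → ℝ → ℝ} (hb0 : 0 < b)
    (hb : 1 ≤ g0 * b) (hub0 : ∀ d, 0 ≤ ub d) (hub : ∀ d, d < 1 → ub d ≤ 1 - d)
    (h : CertR2b b (fun y => max 0 y) a g0 ub cR) : CertR2 (fun y => max 0 y) a g0 ub cR := by
  classical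
  intro m x d hx hs hd
  have hg0 : 0 < g0 := by
    by_contra hg
    have := mul_nonpos_of_nonpos_of_nonneg (not_lt.1 hg) hb0.le
    linarith
  have hrich : ∀ l, ¬ d l ≤ b → min 1 (g0 * d l) = 1 := by
    intro l hl
    exact min_eq_left (hb.trans (mul_le_mul_of_nonneg_left (not_le.1 hl).le hg0.le))
  set p : ℝ := ∑ l ∈ range m, if d l ≤ b then x l else 0 with hp
  have hq : ∑ l ∈ range m, (if d l ≤ b then 0 else x l) = 1 - p := by
    rw [hp, ← hs, ← sum_sub_distrib]
    exact sum_congr rfl fun l _ => by split_ifs <;> simp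
  have hp0 : 0 ≤ p := sum_nonneg fun l hl => by
    split_ifs
    · exact hx l (mem_range.1 hl)
    · exact le_rfl
  have hq0 : 0 ≤ 1 - p := by
    rw [← hq]
    exact sum_nonneg fun l hl => by
      split_ifs
      · exact le_rfl
      · exact hx l (mem_range.1 hl)
  rcases hp0.eq_or_lt with hp0 | hp0
  · refine ⟨fun _ _ => 0, fun l _ _ => ⟨le_rfl, hub0 _⟩, fun _ _ => monotone_const, ?_,
      fun _ _ _ _ _ => Or.inl rfl⟩
    simp only [intervalIntegral.integral_zero, mul_zero, sum_const_zero, add_zero]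
    have h1 : ∑ l ∈ range m, (if d l ≤ b then 0 else x l) ≤
        ∑ l ∈ range m, x l * min 1 (g0 * d l) := by
      refine sum_le_sum fun l hl => ?_
      have hl := mem_range.1 hl
      split_ifs with h1
      · exact mul_nonneg (hx l hl) (le_min zero_le_one (mul_nonneg hg0.le (hd l hl).le))
      · rw [hrich l h1, mul_one]
    linarith
  set x' : ℕ → ℝ := fun l => if d l ≤ b then x l / p else 0 with hx'
  set d' : ℕ → ℝ := fun l => if d l ≤ b then d l else b with hd'
  have hx'0 : ∀ l < m, 0 ≤ x' l := fun l hl => by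
    simp only [hx']
    split_ifs
    · exact div_nonneg (hx l hl) hp0.le
    · exact le_rfl
  have hs' : ∑ l ∈ range m, x' l = 1 := by
    have : ∑ l ∈ range m, x' l = p / p := by
      conv_rhs => rw [hp, sum_div, ← hp]
      exact sum_congr rfl fun l _ => by simp only [hx']; split_ifs <;> simp
    rw [this, div_self hp0.ne']
  have hd'0 : ∀ l < m, 0 < d' l := fun l hl => by
    simp only [hd']
    split_ifs
    · exact hd l hl
    · exact hb0
  have hd'b : ∀ l < m, d' l ≤ b := fun l _ => by
    simp only [hd']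
    split_ifs with h1
    · exact h1
    · exact le_rfl
  obtain ⟨v, hv, hmono, hU, hP⟩ := h m x' d' hx'0 hs' hd'0 hd'b
  -- splitting a weighted sum into the poor part and the rich part
  have split : ∀ (F F' : ℕ → ℝ) (c : ℝ), (∀ l < m, d l ≤ b → F' l ≤ F l) →
      (∀ l < m, ¬ d l ≤ b → c ≤ F l) →
      p * ∑ l ∈ range m, x' l * F' l + (1 - p) * c ≤ ∑ l ∈ range m, x l * F l := by
    intro F F' c h1 h2
    rw [← hq, mul_sum, sum_mul, ← sum_add_distrib]
    refine sum_le_sum fun l hl => ?_
    have hl := mem_range.1 hl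
    simp only [hx']
    split_ifs with h3
    · have e : p * (x l / p * F' l) + 0 * c = x l * F' l := by field_simp; ring
      rw [e]
      exact mul_le_mul_of_nonneg_left (h1 l hl h3) (hx l hl)
    · rw [zero_mul, mul_zero, zero_add]
      exact mul_le_mul_of_nonneg_left (h2 l hl h3) (hx l hl)
  refine ⟨fun l => if d l ≤ b then v l else fun _ => 0, fun l hl τ => ?_, fun l hl => ?_, ?_, ?_⟩
  · by_cases h1 : d l ≤ b
    · have := hv l hl τ
      simp only [hd', if_pos h1] at this
      simpa only [if_pos h1] using this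
    · simp only [if_neg h1]
      exact ⟨le_rfl, hub0 _⟩
  · by_cases h1 : d l ≤ b
    · simpa only [if_pos h1] using hmono l hl
    · simp only [if_neg h1]
      exact monotone_const
  · have h1 := split (fun l => min 1 (g0 * d l)) (fun l => min 1 (g0 * d' l)) 1
      (fun l _ h1 => by simp only [hd', if_pos h1]; exact le_rfl)
      (fun l _ h1 => (hrich l h1).ge)
    have h2 := split
      (fun l => ∫ s in (0 : ℝ)..1, (if d l ≤ b then v l else fun _ => 0)
        (a * Real.log (1 - d l) - s))
      (fun l => ∫ s in (0 : ℝ)..1, v l (a * Real.log (1 - d' l) - s)) 0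
      (fun l _ h1 => by simp only [hd', if_pos h1]; exact le_rfl)
      (fun l _ h1 => by simp [if_neg h1])
    have h3 := mul_le_mul_of_nonneg_left hU hp0.le
    rw [mul_add] at h3
    linarith
  · intro o ho hxo hdo τ
    by_cases ho1 : d o ≤ b
    swap
    · left
      simp only [if_neg ho1]
    have hdo' : d' o = d o := by simp only [hd', if_pos ho1]
    have hxo' : 0 < x' o := by
      simp only [hx', if_pos ho1]
      exact div_pos hxo hp0
    simp only [if_pos ho1]
    rcases hP o ho hxo' (hdo' ▸ hdo) τ with h0 | hP'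
    · exact Or.inl h0
    right
    intro lam' hlam
    have h4 := hP' (fun l => if d l ≤ b then lam' l else a * Real.log (d' o + d' l)) (fun l hl => by
      split_ifs with h1
      · rw [hdo']
        simp only [hd', if_pos h1]
        exact hlam l hl
      · exact le_rfl)
    rw [hdo'] at h4
    have h1 := split (fun l => min 1 (g0 * d l) - min (d o) (g0 * d l))
      (fun l => min 1 (g0 * d' l) - min (d o) (g0 * d' l)) (1 - d o)
      (fun l _ h1 => by simp only [hd', if_pos h1]; exact le_rfl)
      (fun l _ h1 => by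
        rw [hrich l h1]
        have := min_le_left (d o) (g0 * d l)
        linarith)
    have h2 := split
      (fun l => gainR (fun y => max 0 y) (if d l ≤ b then v l else fun _ => 0) (cR (d l) (d o)) τ
        (max (a * Real.log (1 - d l)) (lam' l)) (lam' l))
      (fun l => gainR (fun y => max 0 y) (v l) (cR (d' l) (d o)) τ
        (max (a * Real.log (1 - d' l))
          (if d l ≤ b then lam' l else a * Real.log (d o + d' l)))
          (if d l ≤ b then lam' l else a * Real.log (d o + d' l))) 0
      (fun l _ h1 => by simp only [hd', if_pos h1]; exact le_rfl)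
      (fun l _ _ => gainR_pos_nonneg _ _ _ _ _)
    have h5 : v o τ ≤ 1 - d o := by
      have := (hv o ho τ).2
      rw [hdo'] at this
      exact this.trans (hub _ hdo)
    have h6 := mul_le_mul_of_nonneg_left h4 hp0.le
    have h7 := mul_le_mul_of_nonneg_left h5 hq0
    simp only [mul_sub, sum_sub_distrib] at h1
    rw [mul_add, mul_add] at h6
    nlinarith

end Crest.Agent.R310
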