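import Crest.Agent.R310.PairGDefs
import Crest.Agent.R310.Rich

/-!
Row 310: interface for an explicit pair certificate without the condition `h b k ≤ 0`
(rich entries are removed by `R310/Rich.lean`) and with a late common switch-on time `τ0`.
-/

set_option autoImplicit false
set_option linter.dupNamespace false

namespace Crest.Agent.R310

open Finset MeasureTheory

/-- uncapped certificate with the additional condition `v + d ≤ A₀` -/
def CertR3b (b : ℝ) (ψ : ℝ → ℝ) (a g0 : ℝ) (ub : ℝ → ℝ) (cR : ℝ → ℝ → ℝ) : Prop :=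
  ∀ (m : ℕ) (x d : ℕ → ℝ), (∀ l < m, 0 ≤ x l) → ∑ l ∈ range m, x l = 1 → (∀ l < m, 0 < d l) →
    (∀ l < m, d l ≤ b) → ∃ v : ℕ → ℝ → ℝ,
      (∀ l < m, ∀ τ, 0 ≤ v l τ ∧ v l τ ≤ ub (d l)) ∧
      (∀ l < m, Monotone (v l)) ∧
      (1 ≤ ∑ l ∈ range m, x l * min 1 (g0 * d l) +
        ∑ l ∈ range m, x l * ∫ s in (0 : ℝ)..1, v l (a * Real.log (1 - d l) - s)) ∧
      (∀ o < m, ∀ τ, v o τ = 0 ∨ v o τ + d o ≤ ∑ l ∈ range m, x l * min 1 (g0 * d l) +
        ∑ l ∈ range m, x l * ∫ s in (0 : ℝ)..1, v l (a * Real.log (1 - d l) - s)) ∧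
      ∀ o < m, 0 < x o → d o < 1 → ∀ τ, v o τ = 0 ∨ ∀ lam' : ℕ → ℝ,
        (∀ l < m, lam' l ≤ a * Real.log (d o + d l)) →
        v o τ + ∑ l ∈ range m, x l * min (d o) (g0 * d l) ≤
          ∑ l ∈ range m, x l * min 1 (g0 * d l) + ∑ l ∈ range m, x l *
            gainR ψ (v l) (cR (d l) (d o)) τ (max (a * Real.log (1 - d l)) (lam' l)) (lam' l)

/-- the shift lemma -/
theorem CertR3b.shift {ψ : ℝ → ℝ} (hψ : Psi ψ) {b a g0 : ℝ} {ub : ℝ → ℝ} {c : ℝ → ℝ → ℝ}
    (H : CertR3b b ψ a g0 ub c) :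
    CertR2b b ψ a g0 (fun d => max 0 (min (1 - d) (ub d))) c := by
  intro m x d hx hs hd hdb
  obtain ⟨u, h1, h2, h3, h4, h5⟩ := H m x d hx hs hd hdb
  obtain ⟨e, he⟩ : ∃ e : ℝ, e = ∑ l ∈ range m, x l * min 1 (g0 * d l) +
    ∑ l ∈ range m, x l * (∫ s in (0 : ℝ)..1, u l (a * Real.log (1 - d l) - s)) - 1 := ⟨_, rfl⟩
  have he0 : 0 ≤ e := by linarith
  have hm : ∀ l < m, Monotone fun τ => max 0 (u l τ - e) := fun l hl τ τ' h =>
    max_le_max_left _ (sub_le_sub_right (h2 l hl h) _)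
  have hse : ∑ l ∈ range m, x l * e = e := by rw [← Finset.sum_mul, hs, one_mul]
  refine ⟨fun l τ => max 0 (u l τ - e), fun l hl τ => ⟨le_max_left _ _, max_le (le_max_left _ _) ?_⟩,
    hm, ?_, fun o ho hxo hdo τ => ?_⟩
  · rcases h4 l hl τ with h6 | h6
    · exact le_trans (by linarith) (le_max_left _ _)
    · exact le_trans (le_min (by linarith) (by linarith [(h1 l hl τ).2])) (le_max_right _ _)
  · have h6 : ∀ l ∈ range m, x l * (∫ s in (0 : ℝ)..1, u l (a * Real.log (1 - d l) - s)) ≤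
        x l * (∫ s in (0 : ℝ)..1, max 0 (u l (a * Real.log (1 - d l) - s) - e)) + x l * e := by
      intro l hl
      have hl' := Finset.mem_range.1 hl
      rw [← mul_add]
      refine mul_le_mul_of_nonneg_left ?_ (hx l hl')
      have i1 : IntervalIntegrable (fun s => u l (a * Real.log (1 - d l) - s)) volume 0 1 :=
        Antitone.intervalIntegrable fun _ _ h => h2 l hl' (by linarith)
      have i2 : IntervalIntegrable (fun s => max 0 (u l (a * Real.log (1 - d l) - s) - e))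
          volume 0 1 := Antitone.intervalIntegrable fun _ _ h => hm l hl' (by linarith)
      have h7 := intervalIntegral.integral_mono_on zero_le_one i1
        (i2.add (intervalIntegrable_const (c := e))) fun s _ => by
          linarith [le_max_right 0 (u l (a * Real.log (1 - d l) - s) - e)]
      rw [intervalIntegral.integral_add i2 intervalIntegrable_const] at h7
      simpa using h7
    have h7 := Finset.sum_le_sum h6
    rw [Finset.sum_add_distrib, hse] at h7
    linarith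
  · by_cases hz : u o τ - e ≤ 0
    · exact Or.inl (max_eq_left hz)
    refine Or.inr fun lam' hl => ?_
    have h6 := (h5 o ho hxo hdo τ).resolve_left (by intro h; linarith) lam' hl
    have h7 : ∀ l ∈ range m, x l *
        gainR ψ (u l) (c (d l) (d o)) τ (max (a * Real.log (1 - d l)) (lam' l)) (lam' l) ≤
        x l * gainR ψ (fun τ => max 0 (u l τ - e)) (c (d l) (d o)) τ
          (max (a * Real.log (1 - d l)) (lam' l)) (lam' l) + x l * e := by
      intro l hl
      have hl' := Finset.mem_range.1 hl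
      rw [← mul_add]
      refine mul_le_mul_of_nonneg_left ?_ (hx l hl')
      have i1 := ii_P (w := fun σ => ψ (u l σ - c (d l) (d o)))
        (fun _ _ h => hψ.mono (sub_le_sub_right (h2 l hl' h) _)) τ
        (max (a * Real.log (1 - d l)) (lam' l)) (max 0 (min 1 (lam' l - τ))) 1
      have i2 := ii_P (w := fun σ => ψ (max 0 (u l σ - e) - c (d l) (d o)))
        (fun _ _ h => hψ.mono (sub_le_sub_right (hm l hl' h) _)) τ
        (max (a * Real.log (1 - d l)) (lam' l)) (max 0 (min 1 (lam' l - τ))) 1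
      have h8 := intervalIntegral.integral_mono_on (clip_le_one (lam' l - τ)) i1
        (i2.add (intervalIntegrable_const (c := e))) fun s _ => by
          have h9 := hψ.lip (u l (min τ (max (a * Real.log (1 - d l)) (lam' l) - s)) -
            c (d l) (d o)) e he0
          have h10 := hψ.mono (show u l (min τ (max (a * Real.log (1 - d l)) (lam' l) - s)) -
            c (d l) (d o) - e ≤ max 0 (u l (min τ (max (a * Real.log (1 - d l)) (lam' l) - s)) - e) -
            c (d l) (d o) by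
              linarith [le_max_right 0
                (u l (min τ (max (a * Real.log (1 - d l)) (lam' l) - s)) - e)])
          linarith
      rw [intervalIntegral.integral_add i2 intervalIntegrable_const, intervalIntegral.integral_const,
        smul_eq_mul] at h8
      have h9 : (1 - max 0 (min 1 (lam' l - τ))) * e ≤ e :=
        mul_le_of_le_one_left he0 (by linarith [le_max_left 0 (min 1 (lam' l - τ))])
      rw [gainR, gainR]
      linarith
    have h8 := Finset.sum_le_sum h7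
    rw [Finset.sum_add_distrib, hse] at h8
    change max 0 _ + _ ≤ _
    rw [max_eq_right (not_le.1 hz).le]
    linarith

theorem ii_monoV {f : ℝ → ℝ} {τ0 τ lam p : ℝ} (hf : MonotoneOn f (Set.Ici τ0))
    (hp : p ≤ min 1 (lam - τ0)) (hτ : τ0 ≤ τ) :
    IntervalIntegrable (fun s => f (min τ (lam - s))) volume p (min 1 (lam - τ0)) := by
  refine AntitoneOn.intervalIntegrable fun s hs t ht h => ?_
  rw [Set.uIcc_of_le hp] at hs ht
  have := min_le_right 1 (lam - τ0)
  exact hf (le_min hτ (by linarith [ht.2])) (le_min hτ (by linarith [hs.2]))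
    (min_le_min_left _ (by linarith))

theorem ii_monoV' {f : ℝ → ℝ} {τ0 lam : ℝ} (hf : MonotoneOn f (Set.Ici τ0)) (hl : τ0 ≤ lam) :
    IntervalIntegrable (fun s => f (lam - s)) volume 0 (min 1 (lam - τ0)) := by
  refine AntitoneOn.intervalIntegrable fun s hs t ht h => ?_
  rw [Set.uIcc_of_le (le_min zero_le_one (sub_nonneg.2 hl))] at hs ht
  have := min_le_right 1 (lam - τ0)
  exact hf (show τ0 ≤ lam - t by linarith [ht.2]) (show τ0 ≤ lam - s by linarith [hs.2])
    (by linarith)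

theorem int_le_ext {f : ℝ → ℝ} (hf : Antitone f) (h0 : ∀ s, 0 ≤ f s) (p : ℝ) {q : ℝ} (hq : q ≤ 1) :
    ∫ s in p..q, f s ≤ ∫ s in p..1, f s := by
  rw [← intervalIntegral.integral_add_adjacent_intervals (a := p) (b := q) (c := 1)
    hf.intervalIntegrable hf.intervalIntegrable]
  exact le_add_of_nonneg_right (intervalIntegral.integral_nonneg hq fun s _ => h0 s)

theorem certR3b_of_pairG {a g0 b τ0 τ1 : ℝ} {ub lo : ℝ → ℝ} {hi c : ℝ → ℝ → ℝ}
    {χ : ℝ → ℝ → ℝ → ℝ → ℝ → ℝ} {h : ℝ → ℝ → ℝ → ℝ} {QU : ℝ → ℝ → ℝ} {QE : ℝ → ℝ → ℝ → ℝ}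
    {QP : ℝ → ℝ → ℝ × ℝ → ℝ × ℝ → ℝ} (hτ : τ0 ≤ τ1)
    (hlo0 : ∀ k, 0 < k → k ≤ b → τ0 ≤ lo k)
    (hlo : ∀ k, 0 < k → k ≤ b → lo k ≤ a * Real.log (1 - k))
    (hhi : ∀ r k, 0 < r → r ≤ b → 0 < k → k ≤ b → a * Real.log (r + k) ≤ hi r k)
    (hub : ∀ d, 0 < d → 0 ≤ ub d)
    (hχm : ∀ k r τ μ, Measurable (χ k r τ μ)) (hχ0 : ∀ k r τ μ σ, 0 ≤ χ k r τ μ σ)
    (hχ1 : ∀ k r τ μ σ, χ k r τ μ σ ≤ 1) (H : PairCertG g0 b τ0 τ1 ub lo hi c χ h QU QE QP) :
    CertR3b b (fun y => max 0 y) a g0 ub c := by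
  intro m x d hx hs hd hdb
  have hlog : ∀ l < m, τ0 ≤ lo (d l) := fun l hl => hlo0 _ (hd l hl) (hdb l hl)
  obtain ⟨S, hS⟩ : ∃ S : ℕ → ℝ → ℝ, ∀ l τ, S l τ =
    ∑ k ∈ range m, x k * h (d l) (d k) (min τ1 τ) := ⟨_, fun _ _ => rfl⟩
  obtain ⟨v, hv⟩ : ∃ v : ℕ → ℝ → ℝ, ∀ l τ, v l τ = if τ0 ≤ τ then max 0 (S l τ) else 0 :=
    ⟨_, fun _ _ => rfl⟩
  have hv0 : ∀ l τ, 0 ≤ v l τ := fun l τ => by
    rw [hv]
    split_ifs
    · exact le_max_left _ _
    · exact le_rfl
  have hSv : ∀ l τ, τ0 ≤ τ → S l τ ≤ v l τ := fun l τ hτ => by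
    rw [hv, if_pos hτ]
    exact le_max_right _ _
  have hm : ∀ l < m, ∀ k < m, MonotoneOn (fun τ => h (d l) (d k) (min τ1 τ)) (Set.Ici τ0) :=
    fun l hl k hk σ hσ σ' hσ' h1 => H.mono _ _ (hd l hl) (hdb l hl) (hd k hk) (hdb k hk)
      ⟨le_min hτ hσ, min_le_left _ _⟩ ⟨le_min hτ hσ', min_le_left _ _⟩ (min_le_min_left _ h1)
  have hend : ∀ l < m, ∀ k < m, ∀ σ, τ0 ≤ σ → h (d l) (d k) (min τ1 σ) ≤ h (d l) (d k) τ1 :=
    fun l hl k hk σ hσ => H.mono _ _ (hd l hl) (hdb l hl) (hd k hk) (hdb k hk)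
      ⟨le_min hτ hσ, min_le_left _ _⟩ ⟨hτ, le_rfl⟩ (min_le_left _ _)
  have hSm : ∀ l < m, MonotoneOn (S l) (Set.Ici τ0) := fun l hl τ hτ τ' hτ' ht => by
    rw [hS, hS]
    exact Finset.sum_le_sum fun k hk => mul_le_mul_of_nonneg_left
      (hm l hl k (Finset.mem_range.1 hk) hτ hτ' ht) (hx k (Finset.mem_range.1 hk))
  have hvm : ∀ l < m, Monotone (v l) := fun l hl τ τ' ht => by
    by_cases hτ : τ0 ≤ τ
    · rw [hv, hv, if_pos hτ, if_pos (hτ.trans ht)]
      exact max_le_max_left _ (hSm l hl hτ (hτ.trans ht) ht)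
    · rw [hv, if_neg hτ]
      exact hv0 l τ'
  have hpos : ∀ o < m, ∀ τ, v o τ ≠ 0 → τ0 ≤ τ ∧ v o τ = S o τ := by
    intro o ho τ hz
    have hτ : τ0 ≤ τ := by
      by_contra hc
      exact hz (by rw [hv, if_neg hc])
    refine ⟨hτ, ?_⟩
    rw [hv, if_pos hτ] at hz ⊢
    rcases le_total 0 (S o τ) with h1 | h1
    · exact max_eq_right h1
    · exact absurd (max_eq_left h1) hz
  have hA : ∑ l ∈ range m, x l * ∑ k ∈ range m, x k * (min 1 (g0 * d l) +
      ∫ s in (0 : ℝ)..(min 1 (lo (d l) - τ0)), h (d l) (d k) (min τ1 (lo (d l) - s))) ≤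
      ∑ l ∈ range m, x l * min 1 (g0 * d l) +
        ∑ l ∈ range m, x l * ∫ s in (0 : ℝ)..1, v l (a * Real.log (1 - d l) - s) := by
    rw [← Finset.sum_add_distrib]
    refine Finset.sum_le_sum fun l hl => ?_
    have hl' := Finset.mem_range.1 hl
    rw [← mul_add]
    refine mul_le_mul_of_nonneg_left ?_ (hx l hl')
    simp only [mul_add]
    rw [Finset.sum_add_distrib, ← Finset.sum_mul, hs, one_mul]
    refine add_le_add le_rfl ?_
    simp only [← intervalIntegral.integral_const_mul]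
    rw [← intervalIntegral.integral_finsetSum fun k hk =>
      (ii_monoV' (hm l hl' k (Finset.mem_range.1 hk)) (hlog l hl')).const_mul _]
    simp only [← hS]
    have h1 := hlo _ (hd l hl') (hdb l hl')
    have h2 : Antitone fun s => v l (a * Real.log (1 - d l) - s) :=
      fun _ _ h2 => hvm l hl' (by linarith)
    refine le_trans ?_ (int_le_ext h2 (fun _ => hv0 _ _) 0 (min_le_left 1 (lo (d l) - τ0)))
    exact intervalIntegral.integral_mono_on (le_min zero_le_one (sub_nonneg.2 (hlog l hl')))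
      (ii_monoV' (hSm l hl') (hlog l hl')) h2.intervalIntegrable fun s hs' =>
        (hSv l _ (by linarith [min_le_right 1 (lo (d l) - τ0), hs'.2])).trans
          (hvm l hl' (by linarith))
  refine ⟨v, fun l hl τ => ⟨hv0 l τ, ?_⟩, hvm, ?_, ?_, ?_⟩
  · by_cases hz : v l τ = 0
    · rw [hz]
      exact hub _ (hd l hl)
    obtain ⟨hτ', h1⟩ := hpos l hl τ hz
    have : ub (d l) = ∑ k ∈ range m, x k * ub (d l) := by rw [← Finset.sum_mul, hs, one_mul]
    rw [h1, hS, this]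
    exact Finset.sum_le_sum fun k hk => mul_le_mul_of_nonneg_left
      ((hend l hl k (Finset.mem_range.1 hk) τ hτ').trans (H.le_ub _ _ (hd l hl) (hdb l hl)
        (hd k (Finset.mem_range.1 hk)) (hdb k (Finset.mem_range.1 hk))))
      (hx k (Finset.mem_range.1 hk))
  · have h1 := sym_sumQ hx hs H.coU d (F := fun _ => 1) (G := fun l k => min 1 (g0 * d l) +
      ∫ s in (0 : ℝ)..(min 1 (lo (d l) - τ0)), h (d l) (d k) (min τ1 (lo (d l) - s))) fun k hk l hl => by
        rcases le_total (d k) (d l) with h1 | h1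
        · have := H.hU _ _ (hd k hk) h1 (hdb l hl)
          rw [UV] at this
          linarith
        · have := H.hU _ _ (hd l hl) h1 (hdb k hk)
          rw [UV] at this
          linarith
    rw [← Finset.sum_mul, hs, one_mul] at h1
    exact h1.trans hA
  · intro o ho τ
    by_cases hz : v o τ = 0
    · exact Or.inl hz
    obtain ⟨hτ', hvo⟩ := hpos o ho τ hz
    have h1 := sym_sumQ hx hs (H.coE (d o)) d (F := fun l => h (d o) (d l) τ1 + d o)
      (G := fun l k => min 1 (g0 * d l) +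
      ∫ s in (0 : ℝ)..(min 1 (lo (d l) - τ0)), h (d l) (d k) (min τ1 (lo (d l) - s))) fun k hk l hl => by
        rcases le_total (d k) (d l) with h1 | h1
        · have := H.hE _ _ _ (hd o ho) (hdb o ho) (hd k hk) h1 (hdb l hl)
          rw [UV] at this
          linarith
        · have := H.hE _ _ _ (hd o ho) (hdb o ho) (hd l hl) h1 (hdb k hk)
          rw [UV] at this
          linarith
    refine Or.inr (le_trans ?_ (h1.trans hA))
    simp only [mul_add]
    rw [Finset.sum_add_distrib, ← Finset.sum_mul, hs, one_mul, hvo, hS]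
    exact add_le_add_left (Finset.sum_le_sum fun k hk => mul_le_mul_of_nonneg_left
      (hend o ho k (Finset.mem_range.1 hk) τ hτ') (hx k (Finset.mem_range.1 hk))) _
  · intro o ho _ _ τ'
    by_cases hz : v o τ' = 0
    · exact Or.inl hz
    refine Or.inr fun lam' hlam' => ?_
    obtain ⟨hτ', hvo⟩ := hpos o ho τ' hz
    obtain ⟨τ, hτe⟩ : ∃ τ, τ = min τ1 τ' := ⟨_, rfl⟩
    have hτa : τ0 ≤ τ := by rw [hτe]; exact le_min hτ hτ'
    have hτb : τ ≤ τ1 := by rw [hτe]; exact min_le_left _ _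
    have hτc : τ ≤ τ' := by rw [hτe]; exact min_le_right _ _
    have hw : ∀ l < m, Monotone fun σ => max 0 (v l σ - c (d l) (d o)) := fun l hl _ _ h1 =>
      max_le_max_left _ (sub_le_sub_right (hvm l hl h1) _)
    have hex : ∀ l, ∃ μ, (μ = min (lo (d l)) (hi (d o) (d l)) ∨ μ = hi (d o) (d l)) ∧
        (l < m → gainP (fun σ => max 0 (v l σ - c (d l) (d o))) τ (max (lo (d l)) μ) μ ≤
          gainR (fun y => max 0 y) (v l) (c (d l) (d o)) τ'
            (max (a * Real.log (1 - d l)) (lam' l)) (lam' l)) := by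
      intro l
      by_cases hp : l < m
      · obtain ⟨ν, h1, h2⟩ := gainP_endpoint (hw l hp) (fun _ => le_max_left _ _) τ (lo (d l))
          ((hlam' l hp).trans (hhi _ _ (hd o ho) (hdb o ho) (hd l hp) (hdb l hp)))
        exact ⟨ν, h1, fun _ => h2.trans (gainP_mono (hw l hp) (fun _ => le_max_left _ _) hτc
          (max_le_max_right _ (hlo _ (hd l hp) (hdb l hp))) (clip_mono (by linarith)))⟩
      · exact ⟨_, Or.inr rfl, fun h1 => absurd h1 hp⟩
    choose μ hμ1 hμ2 using hex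
    have h1 := sym_sumQ hx hs (H.coP (d o) τ) (fun l => (d l, μ l))
      (F := fun l => h (d o) (d l) τ + (min (d o) (g0 * d l) - min 1 (g0 * d l)))
      (G := fun l k => gainV (χ (d l) (d o) τ (μ l)) (h (d l) (d k)) (c (d l) (d o)) τ0 τ
        (max (lo (d l)) (μ l)) (μ l)) fun k hk l hl => by
        rcases le_total (d k) (d l) with h1 | h1
        · linarith [H.hP _ _ _ (hd o ho) (hdb o ho) (hd k hk) h1 (hdb l hl) τ hτa hτb _ _
            (hμ1 k) (hμ1 l)]
        · linarith [H.hP _ _ _ (hd o ho) (hdb o ho) (hd l hl) h1 (hdb k hk) τ hτa hτb _ _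
            (hμ1 l) (hμ1 k)]
    have h3 := h1
    simp only [mul_add, mul_sub, Finset.sum_add_distrib, Finset.sum_sub_distrib] at h3
    rw [hvo, hS, ← hτe]
    refine le_trans ?_ (add_le_add_right (h1.trans (Finset.sum_le_sum fun l hl => ?_)) _)
    · simp only [mul_add, mul_sub, Finset.sum_add_distrib, Finset.sum_sub_distrib]
      linarith
    have hl' := Finset.mem_range.1 hl
    refine mul_le_mul_of_nonneg_left ?_ (hx l hl')
    have hl1 : max 0 (min 1 (μ l - τ)) ≤ min 1 (max (lo (d l)) (μ l) - τ0) :=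
      max_le (le_min zero_le_one (by linarith [hlog l hl', le_max_left (lo (d l)) (μ l)]))
        (min_le_min_left _ (by linarith [le_max_right (lo (d l)) (μ l)]))
    have hmin : ∀ s, min τ1 (min τ (max (lo (d l)) (μ l) - s)) = min τ (max (lo (d l)) (μ l) - s) :=
      fun s => min_eq_right ((min_le_left _ _).trans hτb)
    have hanti : Antitone fun s => max 0 (v l (min τ (max (lo (d l)) (μ l) - s)) - c (d l) (d o)) :=
      fun _ _ ht => hw l hl' (min_le_min_left _ (by linarith))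
    refine le_trans ?_ ((int_le_ext hanti (fun _ => le_max_left _ _) _
      (min_le_left 1 (max (lo (d l)) (μ l) - τ0))).trans (hμ2 l hl'))
    have hmeas : Measurable fun s => χ (d l) (d o) τ (μ l)
        (min τ (max (lo (d l)) (μ l) - s)) := (hχm _ _ _ _).comp (by fun_prop)
    simp only [gainV, ← intervalIntegral.integral_const_mul]
    have hi : ∀ k ∈ range m, IntervalIntegrable (fun s => x k * (χ (d l) (d o) τ (μ l)
        (min τ (max (lo (d l)) (μ l) - s)) *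
        (h (d l) (d k) (min τ (max (lo (d l)) (μ l) - s)) - c (d l) (d o))))
        volume (max 0 (min 1 (μ l - τ))) (min 1 (max (lo (d l)) (μ l) - τ0)) := fun k hk => by
      have h4 := ii_monoV (hm l hl' k (Finset.mem_range.1 hk)) hl1 hτa
      simp only [hmin] at h4
      exact (ii_bdd_mul hmeas (fun _ => hχ0 _ _ _ _ _) (fun _ => hχ1 _ _ _ _ _)
        (h4.sub intervalIntegrable_const)).const_mul _
    rw [← intervalIntegral.integral_finsetSum hi]
    refine intervalIntegral.integral_mono_on hl1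
      (IntervalIntegrable.sum _ hi |>.congr ?_) hanti.intervalIntegrable fun s hs' => ?_
    · intro s _
      simp
    · have h4 := hSv l (min τ (max (lo (d l)) (μ l) - s)) (le_min hτa
        (by linarith [hs'.2, min_le_right 1 (max (lo (d l)) (μ l) - τ0)]))
      have h6 : ∀ z y : ℝ, 0 ≤ z → z ≤ 1 → z * y ≤ max 0 y := fun z y h0 h1 => by
        rcases le_total y 0 with h2 | h2
        · exact (mul_nonpos_of_nonneg_of_nonpos h0 h2).trans (le_max_left _ _)
        · exact (mul_le_of_le_one_left h2 h1).trans (le_max_right _ _)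
      refine le_trans ?_ (h6 _ _ (hχ0 (d l) (d o) τ (μ l) (min τ (max (lo (d l)) (μ l) - s)))
        (hχ1 _ _ _ _ _))
      refine le_trans (le_of_eq ?_)
        (mul_le_mul_of_nonneg_left (sub_le_sub_right h4 _) (hχ0 _ _ _ _ _))
      have h5 : c (d l) (d o) = ∑ k ∈ range m, x k * c (d l) (d o) := by
        rw [← Finset.sum_mul, hs, one_mul]
      conv_rhs => rw [hS, hmin, h5, ← Finset.sum_sub_distrib, Finset.mul_sum]
      exact Finset.sum_congr rfl fun k _ => by ring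

/-- explicit pair certificate ⇒ continuous certificate -/
theorem certR_of_pairG {a g0 b τ0 τ1 A gc : ℝ} {lo : ℝ → ℝ} {hi : ℝ → ℝ → ℝ}
    {χ : ℝ → ℝ → ℝ → ℝ → ℝ → ℝ} {h : ℝ → ℝ → ℝ → ℝ} {QU : ℝ → ℝ → ℝ} {QE : ℝ → ℝ → ℝ → ℝ}
    {QP : ℝ → ℝ → ℝ × ℝ → ℝ × ℝ → ℝ} (hb0 : 0 < b) (hb : 1 ≤ g0 * b) (hτ : τ0 ≤ τ1)
    (hlo0 : ∀ k, 0 < k → k ≤ b → τ0 ≤ lo k)
    (hlo : ∀ k, 0 < k → k ≤ b → lo k ≤ a * Real.log (1 - k))
    (hhi : ∀ r k, 0 < r → r ≤ b → 0 < k → k ≤ b → a * Real.log (r + k) ≤ hi r k)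
    (hχm : ∀ k r τ μ, Measurable (χ k r τ μ)) (hχ0 : ∀ k r τ μ σ, 0 ≤ χ k r τ μ σ)
    (hχ1 : ∀ k r τ μ σ, χ k r τ μ σ ≤ 1)
    (H : PairCertG g0 b τ0 τ1 (fun d => max 0 (A * (1 - gc * d))) lo hi (capR A gc) χ h QU QE QP) :
    CertR (fun y => max 0 y) a g0 (capR A gc) := by
  have h1 := (certR3b_of_pairG hτ hlo0 hlo hhi (fun _ _ => le_max_left _ _) hχm hχ0 hχ1 H).shift
    psi_pos
  refine certR_iff_certR2.2 ((certR2_of_poor hb0 hb (fun _ => le_max_left _ _)
    (fun d hd => max_le (by linarith) (min_le_left _ _)) h1).mono_ub fun d _ =>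
      max_le (capR_nonneg _ _ _ _) ?_)
  rcases le_total 0 (A * (1 - gc * d)) with h1 | h1
  · rw [max_eq_right h1]
    exact le_max_right _ _
  · rw [max_eq_left h1]
    exact (min_le_right _ _).trans (capR_nonneg _ _ _ _)

/-- explicit pair certificate at the exact constant ⇒ the target (`b ≥ 7/12` is enough) -/
theorem cert_exists_of_pairG {a b τ0 τ1 gc : ℝ} {A : ℚ} {lo : ℝ → ℝ} {hi : ℝ → ℝ → ℝ}
    {χ : ℝ → ℝ → ℝ → ℝ → ℝ → ℝ} {h : ℝ → ℝ → ℝ → ℝ} {QU : ℝ → ℝ → ℝ} {QE : ℝ → ℝ → ℝ → ℝ}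
    {QP : ℝ → ℝ → ℝ × ℝ → ℝ × ℝ → ℝ} (ha : 0 < a) (hA : 0 ≤ A) (hgc : 0 < gc)
    (hb : 29 / 50 ≤ b) (hτ : τ0 ≤ τ1) (hlo0 : ∀ k, 0 < k → k ≤ b → τ0 ≤ lo k)
    (hlo : ∀ k, 0 < k → k ≤ b → lo k ≤ a * Real.log (1 - k))
    (hhi : ∀ r k, 0 < r → r ≤ b → 0 < k → k ≤ b → a * Real.log (r + k) ≤ hi r k)
    (hχm : ∀ k r τ μ, Measurable (χ k r τ μ)) (hχ0 : ∀ k r τ μ σ, 0 ≤ χ k r τ μ σ)
    (hχ1 : ∀ k r τ μ σ, χ k r τ μ σ ≤ 1)
    (H : PairCertG (1 + 2 / Real.exp 1) b τ0 τ1 (fun d => max 0 (A * (1 - gc * d))) lo hi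
      (capR A gc) χ h QU QE QP) (g : ℚ) (hg : 1 + 2 / Real.exp 1 < (g : ℝ)) :
    ∃ (Kn : Kernel) (A g1 : ℚ), 0 ≤ A ∧ Cert Kn g A g1 := by
  have h2 := Real.exp_one_lt_d9
  have h3 : 21 / 29 ≤ 2 / Real.exp 1 := by
    rw [le_div_iff₀ (Real.exp_pos 1)]
    linarith
  exact cert_exists_of_certR ha hA hgc
    (certR_of_pairG (by linarith) (by nlinarith) hτ hlo0 hlo hhi hχm hχ0 hχ1 H) g hg

end Crest.Agent.R310
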