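import Crest.Agent.R310.PairE

/-! Row 310: definitions of the final explicit pair certificate. -/

set_option autoImplicit false
set_option linter.dupNamespace false

namespace Crest.Agent.R310

/-- pair form of the left-hand side of `(U)`; only payment times `≥ τ0` count -/
noncomputable def UV (g0 τ0 τ1 : ℝ) (lo : ℝ → ℝ) (h : ℝ → ℝ → ℝ → ℝ) (k l : ℝ) : ℝ :=
  min 1 (g0 * k) + min 1 (g0 * l) +
    (∫ s in (0 : ℝ)..(min 1 (lo k - τ0)), h k l (min τ1 (lo k - s))) +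
    ∫ s in (0 : ℝ)..(min 1 (lo l - τ0)), h l k (min τ1 (lo l - s))

/-- weighted gain; only payment times `≥ τ0` count -/
noncomputable def gainV (χ : ℝ → ℝ) (v : ℝ → ℝ) (c τ0 τ lam μ : ℝ) : ℝ :=
  ∫ s in (max 0 (min 1 (μ - τ)))..(min 1 (lam - τ0)),
    χ (min τ (lam - s)) * (v (min τ (lam - s)) - c)

/-- Explicit pair certificate on the poor domain `(0, b]` (`1 ≤ g0 * b`), no condition at `b`. -/
structure PairCertG (g0 b τ0 τ1 : ℝ) (ub lo : ℝ → ℝ) (hi c : ℝ → ℝ → ℝ)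
    (χ : ℝ → ℝ → ℝ → ℝ → ℝ → ℝ) (h : ℝ → ℝ → ℝ → ℝ) (QU : ℝ → ℝ → ℝ) (QE : ℝ → ℝ → ℝ → ℝ)
    (QP : ℝ → ℝ → ℝ × ℝ → ℝ × ℝ → ℝ) : Prop where
  coU : Copos QU
  coE : ∀ r, Copos (QE r)
  coP : ∀ r τ, Copos (QP r τ)
  mono : ∀ r k, 0 < r → r ≤ b → 0 < k → k ≤ b → MonotoneOn (h r k) (Set.Icc τ0 τ1)
  le_ub : ∀ r k, 0 < r → r ≤ b → 0 < k → k ≤ b → h r k τ1 ≤ ub r
  hU : ∀ k l, 0 < k → k ≤ l → l ≤ b → 2 + QU k l + QU l k ≤ UV g0 τ0 τ1 lo h k l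
  hE : ∀ r k l, 0 < r → r ≤ b → 0 < k → k ≤ l → l ≤ b →
    h r k τ1 + h r l τ1 + 2 * r + QE r k l + QE r l k ≤ UV g0 τ0 τ1 lo h k l
  hP : ∀ r k l, 0 < r → r ≤ b → 0 < k → k ≤ l → l ≤ b → ∀ τ, τ0 ≤ τ → τ ≤ τ1 → ∀ μ ν : ℝ,
    (μ = min (lo k) (hi r k) ∨ μ = hi r k) → (ν = min (lo l) (hi r l) ∨ ν = hi r l) →
    h r k τ + h r l τ + min r (g0 * k) + min r (g0 * l) + QP r τ (k, μ) (l, ν) +
      QP r τ (l, ν) (k, μ) ≤ min 1 (g0 * k) + min 1 (g0 * l) +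
      gainV (χ k r τ μ) (h k l) (c k r) τ0 τ (max (lo k) μ) μ +
      gainV (χ l r τ ν) (h l k) (c l r) τ0 τ (max (lo l) ν) ν

end Crest.Agent.R310
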