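import Crest.Agent.R310.Offer
import Crest.Agent.R310.MMat

/-! Row 310: the derandomised rounding process on a virtual instance (definitions). -/

set_option autoImplicit false
set_option linter.dupNamespace false

namespace Crest.Agent.R310

open Finset Crest.Agent.Lib.PT

/-- State: global time, tick pointer, and per facility `(status, level, alive particles)`;
status `0` closed, `1` opened by an event, `2` opened for free. -/
structure St where
  t : ℕ
  ptr : ℕ
  tab : List (ℕ × ℕ × ℕ)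

instance instEncSt : Enc St := Enc.ofInj (fun s : St => (s.t, s.ptr, s.tab)) (by
  rintro ⟨a, b, c⟩ ⟨a', b', c'⟩ h
  simp only [Prod.mk.injEq] at h
  obtain ⟨rfl, rfl, rfl⟩ := h
  rfl)

namespace St

def st (s : St) (i : ℕ) : ℕ := (s.tab.getD i (1, 0, 0)).1
def lam (s : St) (i : ℕ) : ℕ := (s.tab.getD i (1, 0, 0)).2.1
def mu (s : St) (i : ℕ) : ℕ := (s.tab.getD i (1, 0, 0)).2.2

def make (n t ptr : ℕ) (st lam mu : ℕ → ℕ) : St :=
  ⟨t, ptr, (List.range n).map fun i => (st i, lam i, mu i)⟩

variable {n t ptr i : ℕ} {a b c : ℕ → ℕ}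

@[simp] lemma make_t : (make n t ptr a b c).t = t := rfl
@[simp] lemma make_ptr : (make n t ptr a b c).ptr = ptr := rfl
lemma make_st (hi : i < n) : (make n t ptr a b c).st i = a i := by simp [make, st, hi]
lemma make_lam (hi : i < n) : (make n t ptr a b c).lam i = b i := by simp [make, lam, hi]
lemma make_mu (hi : i < n) : (make n t ptr a b c).mu i = c i := by simp [make, mu, hi]

/-- local clock -/
def clk (s : St) (i : ℕ) : ℕ := if i < s.ptr then s.t + 1 else s.t
/-- alive particles that still count -/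
def al (s : St) (i : ℕ) : ℕ := if s.st i = 0 then s.mu i else 0
/-- next round of ticks -/
def wrap (s : St) : St := ⟨s.t + 1, 0, s.tab⟩

end St

namespace Proc

variable {g : ℚ} (O : OfferSys g) (V : VI)

/-- end of time -/
def TT : ℕ := O.lev V.L
/-- level of `i` forced by an open `o` -/
def lv (i o : ℕ) : ℕ := O.lev (min (V.D i o) V.L)
/-- target level of `i` -/
def tau (s : St) (i : ℕ) : ℕ :=
  ((List.range V.n).map fun o => if s.st o = 0 then TT O V else lv O V i o).foldr min (TT O V)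
/-- particles of `i` killed at once by an opening of `o` -/
def kill (s : St) (i o : ℕ) : ℕ :=
  if V.J o i = true then s.al i - mm O.M (s.clk i) (lv O V i o) else 0
/-- the kill matrix -/
def AA (s : St) (i o : ℕ) : ℚ := V.y i * (kill O V s i o : ℚ) / (O.M : ℚ)
/-- open facilities -/
def opn (s : St) : List ℕ := (List.range V.n).filter fun o => decide (s.st o ≠ 0)
/-- virtual distance of client `j` to the open set -/
def rho (s : St) (j : ℕ) : ℕ := V.rho (opn V s) j
/-- wealth bound of client `j` -/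
def Psi (s : St) (j : ℕ) : ℚ :=
  O.G (V.prof j) (rho V s j) +
    ∑ i ∈ range V.n, V.x j i * Isum O.M (O.off (V.prof j) i (rho V s j)) (s.lam i) (s.al i)
/-- the martingale of facility `i` -/
def NN (s : St) (i : ℕ) : ℚ := if s.st i = 1 then 1 else V.y i * (s.mu i : ℚ) / (O.M : ℚ)
def Mt (s : St) : ℚ := ∑ i ∈ range V.n, NN O V s i
/-- alive free mass -/
def Ff (s : St) : ℚ :=
  ∑ i ∈ range V.n, if V.free i = true then V.y i * (s.al i : ℚ) / (O.M : ℚ) else 0
/-- compensator of the quadratic variation -/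
def QQ (Hd Θ : ℕ) (s : St) : ℚ :=
  2 * ((Hd + 2 : ℕ) : ℚ) * ∑ i ∈ range V.n, NN O V s i * (1 - NN O V s i) +
    2 * ((Θ : ℚ) + 1) * Ff O V s
/-- the potential -/
def Phi (Hd Θ : ℕ) (pen : ℚ) (s : St) : ℚ :=
  ∑ j ∈ range V.nc, V.w j * Psi O V s j + pen * ((Mt O V s - V.mass) ^ 2 + QQ O V Hd Θ s)
/-- a closed facility above its target level -/
def pend (s : St) : Option ℕ :=
  (List.range V.n).find? fun i => decide (s.st i = 0 ∧ tau O V s i < s.lam i)
/-- free mass killed by an opening of `o` -/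
def fk (s : St) (o : ℕ) : ℚ :=
  ∑ i ∈ range V.n, if V.free i = true ∧ i ≠ o then AA O V s i o else 0
/-- a heavy candidate -/
def heavy (Θ : ℕ) (s : St) : Option ℕ :=
  (List.range V.n).find? fun o => decide (s.st o = 0 ∧ 0 < V.y o ∧ (Θ : ℚ) ≤ fk O V s o)
/-- the source facility of the step -/
def src (s : St) : ℕ := (pend O V s).getD s.ptr
/-- the deterministic move: lower a pending level by one, or tick one clock -/
def move0 (s : St) : St :=
  if (pend O V s).isSome = true then
    St.make V.n s.t s.ptr s.st (fun i => if i = src O V s then s.lam i - 1 else s.lam i)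
      (fun i => if i = src O V s then min (s.mu i) (mm O.M (s.clk i) (s.lam i - 1)) else s.mu i)
  else
    St.make V.n s.t (s.ptr + 1) s.st s.lam
      (fun i => if i = src O V s ∧ s.st i = 0 then min (s.mu i) (mm O.M (s.t + 1) (s.lam i))
        else s.mu i)
/-- levels after an opening of `o` -/
def evl (s : St) (o i : ℕ) : ℕ :=
  if s.st i = 0 ∧ i ≠ o ∧ V.J o i = true then min (s.lam i) (lv O V i o) else s.lam i
/-- the event: `o` opens; if `b`, the source is killed with the advanced clock -/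
def ev (s : St) (o : ℕ) (b : Bool) : St :=
  St.make V.n s.t s.ptr (fun i => if i = o then 1 else s.st i) (evl O V s o)
    (fun i => if s.st i = 0 ∧ i ≠ o then
      min (s.mu i) (mm O.M (if b = true ∧ i = src O V s then s.t + 1 else s.clk i) (evl O V s o i))
      else s.mu i)
/-- free opening -/
def fopen (s : St) (o : ℕ) : St :=
  St.make V.n s.t s.ptr (fun i => if i = o then 2 else s.st i) s.lam s.mu
/-- facilities that may open -/
def cands (s : St) : List ℕ := (List.range V.n).filter fun o => decide (s.st o = 0 ∧ 0 < V.y o)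
/-- allowed moves -/
noncomputable def moves (s : St) : List St :=
  (if mchk V.n (AA O V (move0 O V s)) = true then [move0 O V s] else []) ++
    ((cands V s).map (fun o => ev O V s o false) ++ (cands V s).map (fun o => ev O V s o true))
/-- one step -/
noncomputable def step (Hd Θ : ℕ) (pen : ℚ) (s : St) : St :=
  if TT O V ≤ s.t then s else if V.n ≤ s.ptr then s.wrap
  else if (pend O V s).isSome = false ∧ (heavy O V Θ s).isSome = true then
    fopen V s ((heavy O V Θ s).getD 0)
  else ((moves O V s).argmin (Phi O V Hd Θ pen)).getD s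
def init : St :=
  St.make V.n 0 0 (fun i => if V.y i = 1 then 1 else 0) (fun _ => TT O V) (fun _ => O.M)
def nsteps : ℕ := V.n + V.n * TT O V + TT O V * (V.n + 1)
noncomputable def fin (Hd Θ : ℕ) (pen : ℚ) : St := (step O V Hd Θ pen)^[nsteps O V] (init O V)
/-- the output -/
noncomputable def proc (Hd Θ : ℕ) (pen : ℚ) : List ℕ := opn V (fin O V Hd Θ pen)

/-! ### analysis only -/

/-- termination measure -/
def meas (s : St) : ℕ :=
  ((range V.n).filter fun i => s.st i = 0).card + ∑ i ∈ range V.n, s.lam i +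
    ((TT O V - s.t) * (V.n + 1) - s.ptr)
/-- number of free openings -/
def nfree (s : St) : ℕ := ((range V.n).filter fun i => s.st i = 2).card
/-- free mass alive at the target levels -/
def Ft (s : St) : ℚ :=
  ∑ i ∈ range V.n, if V.free i = true ∧ s.st i = 0 then
    V.y i * ((min (s.mu i) (mm O.M (s.clk i) (tau O V s i)) : ℕ) : ℚ) / (O.M : ℚ) else 0
/-- aggregated offer -/
def UU (s : St) (i : ℕ) : ℚ :=
  ∑ j ∈ range V.nc, V.w j * (V.x j i * O.off (V.prof j) i (rho V s j) s.t)
/-- price of one unit of the martingale of `i` -/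
def cc (Hd : ℕ) (pen : ℚ) (s : St) (i : ℕ) : ℚ :=
  UU O V s i / V.y i -
    pen * (2 * (Mt O V s - V.mass) + 2 * ((Hd + 2 : ℕ) : ℚ) * (1 - 2 * NN O V s i))
/-- mass of `i` killed between two states -/
def dead (s s' : St) (i : ℕ) : ℚ := V.y i * ((s.al i : ℚ) - (s'.al i : ℚ)) / (O.M : ℚ)

structure Inv (Θ : ℕ) (s : St) : Prop where
  t_le : s.t ≤ TT O V
  ptr_le : s.ptr ≤ V.n
  st_le : ∀ i < V.n, s.st i ≤ 2
  lam_le : ∀ i < V.n, s.lam i ≤ TT O V
  mu_le : ∀ i < V.n, s.mu i ≤ O.M
  tau_le : ∀ i < V.n, s.st i = 0 → tau O V s i ≤ s.lam i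
  mu_lo : ∀ i < V.n, s.st i = 0 → mm O.M (s.t + 1) (s.lam i) ≤ s.mu i
  mu_hi : ∀ i < V.n, s.st i = 0 → s.mu i ≤ mm O.M (s.clk i) (s.lam i)
  y_pos : ∀ i < V.n, s.st i ≠ 0 → 0 < V.y i
  minv : MInv V.n (AA O V s)
  fk_le : ∀ o < V.n, s.st o = 0 → 0 < V.y o → fk O V s o ≤ (Θ : ℚ) + 1
  nfree_le : (nfree V s : ℚ) * Θ + Ft O V s ≤ V.W

end Proc

section PT
variable {α : Type} [Enc α]

@[fun_prop] lemma pt_lev (Kn : Kernel) {z : α → ℕ} (hz : PT z) (hb : PB z) :
    PT fun a => Kn.lev (z a) := Kn.lev_pt hz hb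
@[fun_prop] lemma pb_lev (Kn : Kernel) {z : α → ℕ} (hb : PB z) : PB fun a => Kn.lev (z a) :=
  Kn.lev_pb hb
@[fun_prop] lemma pt_off {g : ℚ} (O : OfferSys g) {P : α → Prof} {l ρ t : α → ℕ}
    (hP : Prof.PTF P) (hl : PT l) (hρ : PT ρ) (ht : PT t) :
    PT fun a => O.off (P a) (l a) (ρ a) (t a) := O.off_pt hP hl hρ ht
@[fun_prop] lemma pt_G {g : ℚ} (O : OfferSys g) {P : α → Prof} {ρ : α → ℕ}
    (hP : Prof.PTF P) (hρ : PT ρ) : PT fun a => O.G (P a) (ρ a) := O.G_pt hP hρ

lemma pt_St {s : α → St} (h : PT s) : PT fun a => ((s a).t, (s a).ptr, (s a).tab) :=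
  h.of_enc fun _ => rfl
@[fun_prop] lemma pt_St_t {s : α → St} (h : PT s) : PT fun a => (s a).t := (pt_St h).fst
@[fun_prop] lemma pt_St_ptr {s : α → St} (h : PT s) : PT fun a => (s a).ptr := (pt_St h).snd.fst
@[fun_prop] lemma pt_St_tab {s : α → St} (h : PT s) : PT fun a => (s a).tab := (pt_St h).snd.snd
@[fun_prop] lemma pt_St_mk {t p : α → ℕ} {l : α → List (ℕ × ℕ × ℕ)} (ht : PT t) (hp : PT p)
    (hl : PT l) : PT fun a => St.mk (t a) (p a) (l a) :=
  (ht.pair (hp.pair hl)).of_enc fun _ => rfl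
lemma sz_St (s : St) : sz s = sz (s.t, s.ptr, s.tab) := rfl

end PT

end Crest.Agent.R310
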