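import Crest.Agent.R310.ProcDefs

/-! Row 310: invariants and termination of the rounding process. -/

set_option autoImplicit false
set_option linter.dupNamespace false

namespace Crest.Agent.R310

open Finset Crest.Agent.Lib.PT

namespace Proc

variable {g : ℚ} {O : OfferSys g} {V : VI} {Hd Θ : ℕ} {pen : ℚ} {s s' : St}

/-! ### `tau`, `rho`, `pend`, `heavy` -/

private lemma helper79_le_foldr (l : List ℕ) (b r : ℕ) :
    r ≤ l.foldr min b ↔ r ≤ b ∧ ∀ a ∈ l, r ≤ a := by
  induction l with
  | nil => simp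
  | cons a l ih =>
    rw [List.foldr_cons, le_min_iff, ih, List.forall_mem_cons]
    tauto

private lemma helper79_tau {i r : ℕ} : r ≤ tau O V s i ↔
    r ≤ TT O V ∧ ∀ o < V.n, s.st o ≠ 0 → r ≤ lv O V i o := by
  rw [tau, helper79_le_foldr, List.forall_mem_map]
  refine and_congr_right fun hr => ⟨fun h o ho hs => ?_, fun h o ho => ?_⟩
  · have := h o (List.mem_range.2 ho)
    rwa [if_neg hs] at this
  · split_ifs with hs
    · exact hr
    · exact h o (List.mem_range.1 ho) hs

private lemma helper79_rho {j r : ℕ} : r ≤ rho V s j ↔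
    r ≤ V.r0 j ∧ ∀ o < V.n, s.st o ≠ 0 → r ≤ V.dist j o := by
  rw [rho, VI.rho, helper79_le_foldr, List.forall_mem_map]
  refine and_congr_right fun _ => ⟨fun h o ho hs => h o ?_, fun h o ho => ?_⟩
  · simp [opn, ho, hs]
  · have : o < V.n ∧ s.st o ≠ 0 := by simpa [opn] using ho
    exact h o this.1 this.2

lemma tau_le_TT (s : St) (i : ℕ) : tau O V s i ≤ TT O V :=
  (helper79_tau.1 le_rfl).1

lemma tau_le_lv {i o : ℕ} (ho : o < V.n) (h : s.st o ≠ 0) : tau O V s i ≤ lv O V i o :=
  (helper79_tau.1 le_rfl).2 o ho h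

lemma le_tau {i r : ℕ} (hr : r ≤ TT O V) (h : ∀ o < V.n, s.st o ≠ 0 → r ≤ lv O V i o) :
    r ≤ tau O V s i :=
  helper79_tau.2 ⟨hr, h⟩

/-- more open facilities, lower targets -/
lemma tau_mono (h : ∀ o < V.n, s.st o ≠ 0 → s'.st o ≠ 0) (i : ℕ) :
    tau O V s' i ≤ tau O V s i :=
  le_tau (tau_le_TT s' i) fun o ho hs => tau_le_lv ho (h o ho hs)

lemma mem_opn {o : ℕ} : o ∈ opn V s ↔ o < V.n ∧ s.st o ≠ 0 := by simp [opn]

lemma rho_le_r0 (s : St) (j : ℕ) : rho V s j ≤ V.r0 j :=
  (helper79_rho.1 le_rfl).1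

lemma rho_le_dist {j o : ℕ} (ho : o < V.n) (h : s.st o ≠ 0) : rho V s j ≤ V.dist j o :=
  (helper79_rho.1 le_rfl).2 o ho h

lemma le_rho {j r : ℕ} (hr : r ≤ V.r0 j) (h : ∀ o < V.n, s.st o ≠ 0 → r ≤ V.dist j o) :
    r ≤ rho V s j :=
  helper79_rho.2 ⟨hr, h⟩

lemma rho_mono (h : ∀ o < V.n, s.st o ≠ 0 → s'.st o ≠ 0) (j : ℕ) : rho V s' j ≤ rho V s j :=
  le_rho (rho_le_r0 s' j) fun o ho hs => rho_le_dist ho (h o ho hs)

/-- exactly one more facility `o` is open -/
lemma rho_open {o : ℕ} (ho : o < V.n) (h : ∀ i < V.n, s'.st i ≠ 0 ↔ i = o ∨ s.st i ≠ 0) (j : ℕ) :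
    rho V s' j = min (rho V s j) (V.dist j o) := by
  refine le_antisymm (le_min (rho_mono (fun i hi hs => (h i hi).2 (Or.inr hs)) j)
    (rho_le_dist ho ((h o ho).2 (Or.inl rfl))))
    (le_rho ((min_le_left _ _).trans (rho_le_r0 s j)) fun i hi hs => ?_)
  rcases (h i hi).1 hs with rfl | hs'
  · exact min_le_right _ _
  · exact (min_le_left _ _).trans (rho_le_dist hi hs')

/-- the level needed by client `j` at a used facility (`le_tau`, `Valid.tri`, `rho ≤ r0 ≤ L`) -/
lemma lev_rho_le_tau (hV : V.Valid Hd) {j i : ℕ} (hj : j < V.nc) (hi : i < V.n)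
    (hx : 0 < V.x j i) : O.lev (rho V s j - V.dist j i) ≤ tau O V s i := by
  have h1 : rho V s j ≤ V.L := (rho_le_r0 s j).trans (hV.r0_le j hj)
  refine le_tau (O.lev_mono (by omega)) fun o ho hs => O.lev_mono (le_min ?_ (by omega))
  have h2 := rho_le_dist (V := V) (j := j) ho hs
  have h3 := hV.tri j hj i hi o ho hx
  omega

lemma pend_some (h : (pend O V s).isSome = true) :
    src O V s < V.n ∧ s.st (src O V s) = 0 ∧ tau O V s (src O V s) < s.lam (src O V s) := by
  obtain ⟨i, hi⟩ := Option.isSome_iff_exists.1 h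
  have e : src O V s = i := by simp [src, hi]
  rw [e]
  have h1 := List.find?_some hi
  have h2 := List.mem_of_find?_eq_some hi
  simp only [decide_eq_true_eq] at h1
  exact ⟨List.mem_range.1 h2, h1.1, h1.2⟩

lemma pend_none (h : (pend O V s).isSome = false) :
    src O V s = s.ptr ∧ ∀ i < V.n, s.st i = 0 → s.lam i ≤ tau O V s i := by
  have hn : pend O V s = none := by
    cases e : pend O V s with
    | none => rfl
    | some i => rw [e] at h; simp at h
  refine ⟨by simp [src, hn], fun i hi hs => ?_⟩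
  have h1 := List.find?_eq_none.1 hn i (List.mem_range.2 hi)
  simp only [decide_eq_true_eq, not_and, not_lt] at h1
  exact h1 hs

lemma src_lt (hp : s.ptr < V.n) : src O V s < V.n := by
  cases e : (pend O V s).isSome with
  | true => exact (pend_some e).1
  | false => rw [(pend_none e).1]; exact hp

lemma heavy_some (h : (heavy O V Θ s).isSome = true) :
    (heavy O V Θ s).getD 0 < V.n ∧ s.st ((heavy O V Θ s).getD 0) = 0 ∧
      0 < V.y ((heavy O V Θ s).getD 0) ∧ (Θ : ℚ) ≤ fk O V s ((heavy O V Θ s).getD 0) := by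
  obtain ⟨i, hi⟩ := Option.isSome_iff_exists.1 h
  have e : (heavy O V Θ s).getD 0 = i := by simp [hi]
  rw [e]
  have h1 := List.find?_some hi
  have h2 := List.mem_of_find?_eq_some hi
  simp only [decide_eq_true_eq] at h1
  exact ⟨List.mem_range.1 h2, h1.1, h1.2.1, h1.2.2⟩

lemma heavy_none (h : (heavy O V Θ s).isSome = false) :
    ∀ o < V.n, s.st o = 0 → 0 < V.y o → fk O V s o < Θ := by
  have hn : heavy O V Θ s = none := by
    cases e : heavy O V Θ s with
    | none => rfl
    | some i => rw [e] at h; simp at h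
  intro o ho hs hy
  have h1 := List.find?_eq_none.1 hn o (List.mem_range.2 ho)
  simp only [decide_eq_true_eq, not_and, not_le] at h1
  exact h1 hs hy

lemma mem_moves (h : s' ∈ moves O V s) :
    (s' = move0 O V s ∧ mchk V.n (AA O V (move0 O V s)) = true) ∨
      ∃ o < V.n, s.st o = 0 ∧ 0 < V.y o ∧ ∃ b, s' = ev O V s o b := by
  have hc : ∀ o ∈ cands V s, o < V.n ∧ s.st o = 0 ∧ 0 < V.y o := by
    intro o ho
    simp only [cands, List.mem_filter, List.mem_range, decide_eq_true_eq] at ho
    exact ⟨ho.1, ho.2.1, ho.2.2⟩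
  unfold moves at h
  rcases List.mem_append.1 h with h | h
  · split_ifs at h with hm
    · exact Or.inl ⟨List.mem_singleton.1 h, hm⟩
    · simp at h
  · right
    rcases List.mem_append.1 h with h | h
    · obtain ⟨o, ho, rfl⟩ := List.mem_map.1 h
      exact ⟨o, (hc o ho).1, (hc o ho).2.1, (hc o ho).2.2, false, rfl⟩
    · obtain ⟨o, ho, rfl⟩ := List.mem_map.1 h
      exact ⟨o, (hc o ho).1, (hc o ho).2.1, (hc o ho).2.2, true, rfl⟩

/-! ### monotone quantities -/

lemma AA_nonneg (hV : V.Valid Hd) (s : St) {i : ℕ} (hi : i < V.n) (o : ℕ) :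
    0 ≤ AA O V s i o := by
  unfold AA
  exact div_nonneg (mul_nonneg (hV.y_nonneg i hi) (Nat.cast_nonneg _)) (Nat.cast_nonneg _)

/-- fewer alive particles and the same clocks: smaller kill matrix and smaller `fk` -/
lemma AA_le_of (hV : V.Valid Hd) (hal : ∀ i < V.n, s'.al i ≤ s.al i)
    (hc : ∀ i < V.n, s'.clk i = s.clk i) :
    (∀ i < V.n, ∀ o, AA O V s' i o ≤ AA O V s i o) ∧ ∀ o, fk O V s' o ≤ fk O V s o := by
  have key : ∀ i < V.n, ∀ o, AA O V s' i o ≤ AA O V s i o := by
    intro i hi o
    unfold AA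
    refine div_le_div_of_nonneg_right
      (mul_le_mul_of_nonneg_left ?_ (hV.y_nonneg i hi)) (Nat.cast_nonneg _)
    have h1 := hal i hi
    have h2 : kill O V s' i o ≤ kill O V s i o := by
      unfold kill
      rw [hc i hi]
      split_ifs
      · omega
      · exact le_rfl
    exact_mod_cast h2
  refine ⟨key, fun o => ?_⟩
  unfold fk
  refine Finset.sum_le_sum fun i hi => ?_
  split_ifs
  · exact key i (Finset.mem_range.1 hi) o
  · exact le_rfl

lemma Ft_nonneg (hV : V.Valid Hd) (s : St) : 0 ≤ Ft O V s := by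
  unfold Ft
  refine Finset.sum_nonneg fun i hi => ?_
  split_ifs
  · exact div_nonneg (mul_nonneg (hV.y_nonneg i (Finset.mem_range.1 hi)) (Nat.cast_nonneg _))
      (Nat.cast_nonneg _)
  · exact le_rfl

lemma Ft_le_of (hV : V.Valid Hd) (hst : ∀ i < V.n, s.st i ≠ 0 → s'.st i ≠ 0)
    (hmu : ∀ i < V.n, s'.mu i ≤ s.mu i) (hc : ∀ i < V.n, s.clk i ≤ s'.clk i) :
    Ft O V s' ≤ Ft O V s := by
  unfold Ft
  refine Finset.sum_le_sum fun i hi => ?_
  have hi' := Finset.mem_range.1 hi
  have hy := hV.y_nonneg i hi'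
  by_cases h1 : V.free i = true ∧ s'.st i = 0
  · have h2 : s.st i = 0 := by
      by_contra h3
      exact hst i hi' h3 h1.2
    rw [if_pos h1, if_pos ⟨h1.1, h2⟩]
    refine div_le_div_of_nonneg_right (mul_le_mul_of_nonneg_left ?_ hy) (Nat.cast_nonneg _)
    have h3 : min (s'.mu i) (mm O.M (s'.clk i) (tau O V s' i)) ≤
        min (s.mu i) (mm O.M (s.clk i) (tau O V s i)) :=
      min_le_min (hmu i hi') (mm_mono _ (hc i hi') (tau_mono hst i))
    exact_mod_cast h3
  · rw [if_neg h1]
    split_ifs
    · exact div_nonneg (mul_nonneg hy (Nat.cast_nonneg _)) (Nat.cast_nonneg _)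
    · exact le_rfl

/-! ### the invariant -/

lemma h54_le_lev {z : ℕ} (hz : 1 ≤ z) : O.M ≤ O.lev z := O.lev_one.trans (O.lev_mono hz)

lemma h54_AA_init (hV : V.Valid Hd) {i k : ℕ} (hi : i < V.n) (hk : k < V.n) :
    AA O V (init O V) i k = if k = i ∧ V.y i ≠ 1 then V.y i else 0 := by
  have hM : (O.M : ℚ) ≠ 0 := by exact_mod_cast O.M_pos.ne'
  have hal : (init O V).al i = if V.y i = 1 then 0 else O.M := by
    unfold St.al init
    rw [St.make_st hi, St.make_mu hi]
    split_ifs <;> simp_all
  have hc : (init O V).clk i = 0 := by simp [St.clk, init]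
  unfold AA kill
  rw [hal, hc]
  by_cases h : k = i
  · subst h
    rw [if_pos (hV.J_self k hk), lv, hV.D_self k hk, Nat.zero_min, O.lev_zero]
    by_cases hy : V.y k = 1
    · simp [hy]
    · simp [hy, mm, hM]
  · have h1 : O.M ≤ lv O V i k :=
      h54_le_lev (le_min (hV.D_pos i hi k hk (Ne.symm h)) hV.L_pos)
    have h2 : mm O.M 0 (lv O V i k) = O.M := by unfold mm; omega
    rw [h2]
    split_ifs <;> simp_all

/-- `M ≤ lev 1 ≤ TT`; off-diagonal kills vanish since `1 ≤ min (D i o) L`; witness
`w i = if y i = 1 then 1 else 1 / (1 - y i)`. -/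
lemma inv_init (hV : V.Valid Hd) : Inv O V Θ (init O V) := by
  have hM : (0 : ℚ) < O.M := by exact_mod_cast O.M_pos
  have hst : ∀ i < V.n, (init O V).st i = if V.y i = 1 then 1 else 0 := fun i hi => St.make_st hi
  have hlam : ∀ i < V.n, (init O V).lam i = TT O V := fun i hi => St.make_lam hi
  have hmu : ∀ i < V.n, (init O V).mu i = O.M := fun i hi => St.make_mu hi
  refine ⟨Nat.zero_le _, Nat.zero_le _, fun i hi => ?_, fun i hi => (hlam i hi).le,
    fun i hi => (hmu i hi).le, fun i hi _ => ?_, fun i hi _ => ?_, fun i hi _ => ?_,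
    fun i hi h => ?_, ?_, fun o ho _ _ => ?_, ?_⟩
  · rw [hst i hi]; split_ifs <;> omega
  · rw [hlam i hi]; exact tau_le_TT _ i
  · rw [hmu i hi]; exact min_le_left _ _
  · have h1 : O.M ≤ TT O V := h54_le_lev hV.L_pos
    have hc : (init O V).clk i = 0 := by simp [St.clk, init]
    rw [hmu i hi, hlam i hi, hc]
    unfold mm; omega
  · rw [hst i hi] at h
    by_cases hy : V.y i = 1
    · rw [hy]; exact one_pos
    · simp [hy] at h
  · refine ⟨fun i => if V.y i = 1 then 1 else 1 / (1 - V.y i), fun i hi => ?_, fun i hi => ?_⟩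
    · have := hV.y_le i hi
      dsimp only
      split_ifs
      · exact zero_le_one
      · exact div_nonneg zero_le_one (by linarith)
    · rw [Finset.sum_eq_single i (fun k hk hki => by
          rw [h54_AA_init hV hi (mem_range.1 hk), if_neg (fun h => hki h.1), zero_mul])
        (fun h => absurd (mem_range.2 hi) h), h54_AA_init hV hi hi]
      by_cases hy : V.y i = 1
      · simp [hy]
      · have h1 : 1 - V.y i ≠ 0 := fun h => hy (by linarith)
        simp only [hy, if_false, ne_eq, not_false_eq_true, and_self, if_true]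
        exact le_of_eq (by field_simp; ring)
  · have : fk O V (init O V) o = 0 := Finset.sum_eq_zero fun i hi => by
      split_ifs with h
      · rw [h54_AA_init hV (mem_range.1 hi) ho, if_neg fun h' => h.2 h'.1.symm]
      · rfl
    rw [this]; positivity
  · have h0 : nfree V (init O V) = 0 := by
      unfold nfree
      rw [card_eq_zero, filter_eq_empty_iff]
      intro i hi
      rw [hst i (mem_range.1 hi)]
      split_ifs <;> simp
    rw [h0, Nat.cast_zero, zero_mul, zero_add]
    refine Finset.sum_le_sum fun i hi => ?_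
    have h1 := hV.y_nonneg i (mem_range.1 hi)
    have h2 := hV.y_le i (mem_range.1 hi)
    by_cases h : V.free i = true ∧ (init O V).st i = 0
    · rw [if_pos h, if_pos h.1, div_le_iff₀ hM]
      refine mul_le_mul_of_nonneg_left ?_ h1
      exact_mod_cast (min_le_left _ _).trans (hmu i (mem_range.1 hi)).le
    · rw [if_neg h]
      split_ifs <;> linarith

/-- `ptr = n`, so all clocks `i < n` are unchanged. -/
lemma inv_wrap (hV : V.Valid Hd) (h : Inv O V Θ s) (ht : s.t < TT O V) (hp : V.n ≤ s.ptr) :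
    Inv O V Θ s.wrap := by
  have hc : ∀ i < V.n, s.wrap.clk i = s.clk i := fun i hi => by
    simp [St.clk, St.wrap, hi.trans_le hp]
  have hA := AA_le_of (O := O) (s := s) (s' := s.wrap) hV (fun _ _ => le_rfl) hc
  refine ⟨ht, Nat.zero_le _, h.st_le, h.lam_le, h.mu_le, h.tau_le, fun i hi hs => ?_,
    fun i hi hs => ?_, h.y_pos, h.minv.mono fun i hi k _ => hA.1 i hi k,
    fun o ho hs hy => (hA.2 o).trans (h.fk_le o ho hs hy), ?_⟩
  · have := h.mu_lo i hi hs
    change mm O.M (s.t + 1 + 1) (s.lam i) ≤ s.mu i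
    unfold mm at this ⊢
    omega
  · rw [hc i hi]; exact h.mu_hi i hi hs
  · have h1 := Ft_le_of (O := O) (s := s) (s' := s.wrap) hV (fun _ _ h' => h') (fun _ _ => le_rfl)
      fun i hi => (hc i hi).ge
    have h2 : nfree V s.wrap = nfree V s := rfl
    have := h.nfree_le
    rw [h2]; linarith

/-- No pending facility: `lam = tau` on closed facilities, so `Ft` drops by at least `fk o`:
termwise `min mu (mm clk (min tau (lv i o))) ≤ mu - kill`. -/
lemma inv_fopen (hV : V.Valid Hd) (h : Inv O V Θ s) (hp : (pend O V s).isSome = false) {o : ℕ}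
    (ho : o < V.n) (hs : s.st o = 0) (hy : 0 < V.y o) (hfk : (Θ : ℚ) ≤ fk O V s o) :
    Inv O V Θ (fopen V s o) := by
  have hst : ∀ i < V.n, (fopen V s o).st i = if i = o then 2 else s.st i :=
    fun i hi => St.make_st hi
  have hlam : ∀ i < V.n, (fopen V s o).lam i = s.lam i := fun i hi => St.make_lam hi
  have hmu : ∀ i < V.n, (fopen V s o).mu i = s.mu i := fun i hi => St.make_mu hi
  have hclk : ∀ i, (fopen V s o).clk i = s.clk i := fun i => rfl
  have h0 : ∀ i < V.n, (fopen V s o).st i = 0 → i ≠ o ∧ s.st i = 0 := by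
    intro i hi h1
    rw [hst i hi] at h1
    split_ifs at h1 with h2
    exact ⟨h2, h1⟩
  have hop : ∀ i < V.n, s.st i ≠ 0 → (fopen V s o).st i ≠ 0 := fun i hi h1 h2 => h1 (h0 i hi h2).2
  have hoo : (fopen V s o).st o ≠ 0 := by rw [hst o ho, if_pos rfl]; norm_num
  have hal : ∀ i < V.n, (fopen V s o).al i ≤ s.al i := by
    intro i hi
    unfold St.al
    by_cases h1 : (fopen V s o).st i = 0
    · rw [if_pos h1, if_pos (h0 i hi h1).2, hmu i hi]
    · rw [if_neg h1]
      exact Nat.zero_le _
  obtain ⟨hA, hf⟩ := AA_le_of (O := O) hV hal fun i _ => hclk i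
  refine ⟨h.t_le, h.ptr_le, fun i hi => ?_, fun i hi => ?_, fun i hi => ?_, fun i hi h1 => ?_,
    fun i hi h1 => ?_, fun i hi h1 => ?_, fun i hi h1 => ?_,
    h.minv.mono fun i hi k _ => hA i hi k,
    fun i hi h1 h2 => (hf i).trans (h.fk_le i hi (h0 i hi h1).2 h2), ?_⟩
  · rw [hst i hi]
    split_ifs
    exacts [le_rfl, h.st_le i hi]
  · rw [hlam i hi]
    exact h.lam_le i hi
  · rw [hmu i hi]
    exact h.mu_le i hi
  · rw [hlam i hi]
    exact (tau_mono hop i).trans (h.tau_le i hi (h0 i hi h1).2)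
  · rw [hlam i hi, hmu i hi]
    exact h.mu_lo i hi (h0 i hi h1).2
  · rw [hlam i hi, hmu i hi, hclk]
    exact h.mu_hi i hi (h0 i hi h1).2
  · by_cases h2 : i = o
    · rw [h2]
      exact hy
    · rw [hst i hi, if_neg h2] at h1
      exact h.y_pos i hi h1
  · have hn : nfree V (fopen V s o) ≤ nfree V s + 1 := by
      unfold nfree
      refine le_trans (card_le_card (t := insert o ((range V.n).filter fun i => s.st i = 2)) ?_)
        (card_insert_le _ _)
      intro i hi
      obtain ⟨hi1, hi2⟩ := mem_filter.1 hi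
      by_cases h2 : i = o
      · exact mem_insert.2 (Or.inl h2)
      · rw [hst i (mem_range.1 hi1), if_neg h2] at hi2
        exact mem_insert.2 (Or.inr (mem_filter.2 ⟨hi1, hi2⟩))
    have hn' : (nfree V (fopen V s o) : ℚ) ≤ nfree V s + 1 := by exact_mod_cast hn
    have hM : (0 : ℚ) < O.M := by exact_mod_cast O.M_pos
    have hF : Ft O V (fopen V s o) + fk O V s o ≤ Ft O V s := by
      unfold Ft fk
      rw [← sum_add_distrib]
      refine sum_le_sum fun i hi => ?_
      have hi' := mem_range.1 hi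
      have hy0 := hV.y_nonneg i hi'
      by_cases hfr : V.free i = true
      · by_cases hio : i = o
        · subst hio
          rw [if_neg fun h2 => hoo h2.2, if_neg fun h2 => h2.2 rfl, if_pos ⟨hfr, hs⟩, add_zero]
          positivity
        · by_cases hsi : s.st i = 0
          · have hs' : (fopen V s o).st i = 0 := by rw [hst i hi', if_neg hio, hsi]
            rw [if_pos ⟨hfr, hs'⟩, if_pos ⟨hfr, hio⟩, if_pos ⟨hfr, hsi⟩, hmu i hi', hclk, AA,
              ← add_div, ← mul_add]
            refine div_le_div_of_nonneg_right (mul_le_mul_of_nonneg_left ?_ hy0) hM.le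
            have k1 := mm_mono O.M (le_refl (s.clk i)) ((pend_none hp).2 i hi' hsi)
            have k2 := h.mu_hi i hi' hsi
            have k3 := mm_mono O.M (le_refl (s.clk i)) (tau_le_lv (O := O) (i := i) ho hoo)
            have k4 : kill O V s i o ≤ s.mu i - mm O.M (s.clk i) (lv O V i o) := by
              unfold kill St.al
              rw [if_pos hsi]
              split_ifs
              exacts [le_rfl, Nat.zero_le _]
            have k5 : min (s.mu i) (mm O.M (s.clk i) (tau O V (fopen V s o) i)) + kill O V s i o ≤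
                min (s.mu i) (mm O.M (s.clk i) (tau O V s i)) := by omega
            exact_mod_cast k5
          · have k4 : kill O V s i o = 0 := by
              unfold kill St.al
              rw [if_neg hsi]
              simp
            rw [if_neg fun h2 => hop i hi' hsi h2.2, if_pos ⟨hfr, hio⟩, if_neg fun h2 => hsi h2.2,
              AA, k4]
            simp
      · rw [if_neg fun h2 => hfr h2.1, if_neg fun h2 => hfr h2.1, if_neg fun h2 => hfr h2.1,
          add_zero]
    have h1 := h.nfree_le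
    have hΘ : (0 : ℚ) ≤ Θ := Nat.cast_nonneg _
    nlinarith [mul_le_mul_of_nonneg_right hn' hΘ]

lemma h49_clk_le (s : St) (i : ℕ) : s.clk i ≤ s.t + 1 := by
  unfold St.clk
  split_ifs <;> omega

lemma h49_inv_of (hV : V.Valid Hd) (h : Inv O V Θ s) (ht : s'.t = s.t) (hp : s'.ptr = s.ptr)
    (h1 : ∀ i < V.n, s.st i ≠ 0 → s'.st i ≠ 0) (h2 : ∀ i < V.n, s'.st i ≤ 2)
    (h3 : ∀ i < V.n, s'.st i = 2 ↔ s.st i = 2) (h4 : ∀ i < V.n, s'.st i ≠ 0 → 0 < V.y i)
    (h5 : ∀ i < V.n, s'.lam i ≤ s.lam i) (h6 : ∀ i < V.n, s'.mu i ≤ s.mu i)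
    (h7 : ∀ i < V.n, s'.st i = 0 → tau O V s' i ≤ s'.lam i)
    (h8 : ∀ i < V.n, s'.st i = 0 → mm O.M (s.t + 1) (s'.lam i) ≤ s'.mu i)
    (h9 : ∀ i < V.n, s'.st i = 0 → s'.mu i ≤ mm O.M (s.clk i) (s'.lam i)) : Inv O V Θ s' := by
  have hc : ∀ i, s'.clk i = s.clk i := fun i => by unfold St.clk; rw [ht, hp]
  have h0 : ∀ i < V.n, s'.st i = 0 → s.st i = 0 := fun i hi hs => by
    by_contra hn
    exact h1 i hi hn hs
  have hal : ∀ i < V.n, s'.al i ≤ s.al i := fun i hi => by
    unfold St.al
    by_cases hs : s'.st i = 0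
    · rw [if_pos hs, if_pos (h0 i hi hs)]
      exact h6 i hi
    · rw [if_neg hs]
      exact Nat.zero_le _
  obtain ⟨a1, a2⟩ := AA_le_of (O := O) hV hal fun i _ => hc i
  refine ⟨ht ▸ h.t_le, hp ▸ h.ptr_le, h2, fun i hi => (h5 i hi).trans (h.lam_le i hi),
    fun i hi => (h6 i hi).trans (h.mu_le i hi), h7, fun i hi hs => ?_, fun i hi hs => ?_, h4,
    h.minv.mono fun i hi k _ => a1 i hi k,
    fun o ho hs hy => (a2 o).trans (h.fk_le o ho (h0 o ho hs) hy), ?_⟩
  · rw [ht]
    exact h8 i hi hs
  · rw [hc]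
    exact h9 i hi hs
  · have e : nfree V s' = nfree V s := by
      unfold nfree
      congr 1
      exact Finset.filter_congr fun i hi => h3 i (Finset.mem_range.1 hi)
    have := Ft_le_of (O := O) hV h1 h6 fun i _ => (hc i).ge
    rw [e]
    linarith [h.nfree_le]

/-- New target `≤ min tau (lv i o) ≤ evl`; alive counts only drop, clocks unchanged. -/
lemma inv_ev (hV : V.Valid Hd) (h : Inv O V Θ s) {o : ℕ} (ho : o < V.n) (hs : s.st o = 0)
    (hy : 0 < V.y o) (b : Bool) : Inv O V Θ (ev O V s o b) := by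
  have est : ∀ i < V.n, (ev O V s o b).st i = if i = o then 1 else s.st i :=
    fun i hi => St.make_st hi
  have ela : ∀ i < V.n, (ev O V s o b).lam i = evl O V s o i := fun i hi => St.make_lam hi
  have emu : ∀ i < V.n, (ev O V s o b).mu i = if s.st i = 0 ∧ i ≠ o then
      min (s.mu i) (mm O.M (if b = true ∧ i = src O V s then s.t + 1 else s.clk i) (evl O V s o i))
      else s.mu i := fun i hi => St.make_mu hi
  have hl : ∀ i, evl O V s o i ≤ s.lam i := fun i => by
    unfold evl
    split_ifs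
    · exact min_le_left _ _
    · exact le_rfl
  have h1 : ∀ i < V.n, s.st i ≠ 0 → (ev O V s o b).st i ≠ 0 := fun i hi hn => by
    rw [est i hi]
    split_ifs
    · exact one_ne_zero
    · exact hn
  have h0 : ∀ i < V.n, (ev O V s o b).st i = 0 → s.st i = 0 ∧ i ≠ o := fun i hi hz => by
    rw [est i hi] at hz
    split_ifs at hz with hio
    exact ⟨hz, hio⟩
  refine h49_inv_of hV h rfl rfl h1 (fun i hi => ?_) (fun i hi => ?_) (fun i hi hn => ?_)
    (fun i hi => ?_) (fun i hi => ?_) (fun i hi hz => ?_) (fun i hi hz => ?_) (fun i hi hz => ?_)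
  · rw [est i hi]
    split_ifs
    · omega
    · exact h.st_le i hi
  · rw [est i hi]
    split_ifs with hio
    · rw [hio, hs]
      omega
    · exact Iff.rfl
  · rw [est i hi] at hn
    split_ifs at hn with hio
    · rw [hio]
      exact hy
    · exact h.y_pos i hi hn
  · rw [ela i hi]
    exact hl i
  · rw [emu i hi]
    split_ifs
    · exact min_le_left _ _
    · exact min_le_left _ _
    · exact le_rfl
  · have a1 := (tau_mono (O := O) h1 i).trans (h.tau_le i hi (h0 i hi hz).1)
    have a2 : tau O V (ev O V s o b) i ≤ lv O V i o :=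
      tau_le_lv ho (by rw [est o ho, if_pos rfl]; exact one_ne_zero)
    rw [ela i hi]
    unfold evl
    split_ifs
    · exact le_min a1 a2
    · exact a1
  · rw [ela i hi, emu i hi, if_pos (h0 i hi hz)]
    refine le_min ((mm_mono O.M le_rfl (hl i)).trans (h.mu_lo i hi (h0 i hi hz).1))
      (mm_mono O.M ?_ le_rfl)
    split_ifs
    · exact le_rfl
    · exact h49_clk_le s i
  · rw [ela i hi, emu i hi, if_pos (h0 i hi hz)]
    refine (min_le_right _ _).trans (mm_mono O.M ?_ le_rfl)
    split_ifs
    · exact h49_clk_le s i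
    · exact le_rfl

lemma inv_move0_pend (hV : V.Valid Hd) (h : Inv O V Θ s) (hp : (pend O V s).isSome = true) :
    Inv O V Θ (move0 O V s) := by
  obtain ⟨-, -, hlt⟩ := pend_some hp
  have e : move0 O V s = St.make V.n s.t s.ptr s.st
      (fun i => if i = src O V s then s.lam i - 1 else s.lam i)
      (fun i => if i = src O V s then min (s.mu i) (mm O.M (s.clk i) (s.lam i - 1))
        else s.mu i) := if_pos hp
  have est : ∀ i < V.n, (move0 O V s).st i = s.st i := fun i hi => by rw [e, St.make_st hi]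
  have ela : ∀ i < V.n, (move0 O V s).lam i = if i = src O V s then s.lam i - 1 else s.lam i :=
    fun i hi => by rw [e, St.make_lam hi]
  have emu : ∀ i < V.n, (move0 O V s).mu i =
      if i = src O V s then min (s.mu i) (mm O.M (s.clk i) (s.lam i - 1)) else s.mu i :=
    fun i hi => by rw [e, St.make_mu hi]
  have h1 : ∀ i < V.n, s.st i ≠ 0 → (move0 O V s).st i ≠ 0 := fun i hi hn => by
    rwa [est i hi]
  refine h49_inv_of hV h (by rw [e]; rfl) (by rw [e]; rfl) h1 (fun i hi => ?_) (fun i hi => ?_)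
    (fun i hi hn => ?_) (fun i hi => ?_) (fun i hi => ?_) (fun i hi hz => ?_) (fun i hi hz => ?_)
    (fun i hi hz => ?_)
  · rw [est i hi]
    exact h.st_le i hi
  · rw [est i hi]
  · rw [est i hi] at hn
    exact h.y_pos i hi hn
  · rw [ela i hi]
    split_ifs <;> omega
  · rw [emu i hi]
    split_ifs
    · exact min_le_left _ _
    · exact le_rfl
  · rw [est i hi] at hz
    have a1 := tau_mono (O := O) h1 i
    have a2 := h.tau_le i hi hz
    rw [ela i hi]
    split_ifs with hi'
    · rw [← hi'] at hlt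
      omega
    · omega
  · rw [est i hi] at hz
    rw [ela i hi, emu i hi]
    split_ifs
    · exact le_min ((mm_mono O.M le_rfl (Nat.sub_le _ _)).trans (h.mu_lo i hi hz))
        (mm_mono O.M (h49_clk_le s i) le_rfl)
    · exact h.mu_lo i hi hz
  · rw [est i hi] at hz
    rw [ela i hi, emu i hi]
    split_ifs
    · exact min_le_right _ _
    · exact h.mu_hi i hi hz

/-- Only the clock of `ptr` moves; its kills grow by at most one particle (`mm_succ`), of mass
`y / M ≤ 1`, and `fk < Θ` before. -/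
lemma inv_move0_tick (hV : V.Valid Hd) (h : Inv O V Θ s) (hptr : s.ptr < V.n)
    (hp : (pend O V s).isSome = false) (hh : (heavy O V Θ s).isSome = false)
    (hm : MInv V.n (AA O V (move0 O V s))) : Inv O V Θ (move0 O V s) := by
  have hsrc : src O V s = s.ptr := (pend_none hp).1
  have e : move0 O V s = St.make V.n s.t (s.ptr + 1) s.st s.lam
      (fun i => if i = s.ptr ∧ s.st i = 0 then min (s.mu i) (mm O.M (s.t + 1) (s.lam i))
        else s.mu i) := by
    unfold move0
    rw [if_neg (by simp [hp]), hsrc]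
  have ht : (move0 O V s).t = s.t := by rw [e]; rfl
  have hptr' : (move0 O V s).ptr = s.ptr + 1 := by rw [e]; rfl
  have hst : ∀ i < V.n, (move0 O V s).st i = s.st i := fun i hi => by rw [e, St.make_st hi]
  have hlam : ∀ i < V.n, (move0 O V s).lam i = s.lam i := fun i hi => by rw [e, St.make_lam hi]
  have hmu : ∀ i < V.n, (move0 O V s).mu i =
      if i = s.ptr ∧ s.st i = 0 then min (s.mu i) (mm O.M (s.t + 1) (s.lam i)) else s.mu i :=
    fun i hi => by rw [e, St.make_mu hi]
  have hmule : ∀ i < V.n, (move0 O V s).mu i ≤ s.mu i := fun i hi => by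
    rw [hmu i hi]; split_ifs
    · exact min_le_left _ _
    · exact le_rfl
  have hclk : ∀ i, (move0 O V s).clk i = if i = s.ptr then s.t + 1 else s.clk i := fun i => by
    unfold St.clk
    rw [ht, hptr']
    split_ifs <;> omega
  have hclkp : s.clk s.ptr = s.t := by simp [St.clk]
  have hclk' : ∀ i, s.clk i ≤ (move0 O V s).clk i := fun i => by
    rw [hclk]; split_ifs with h1
    · rw [h1, hclkp]; omega
    · exact le_rfl
  have hal : ∀ i < V.n, (move0 O V s).al i ≤ s.al i := fun i hi => by
    unfold St.al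
    rw [hst i hi]
    split_ifs
    · exact hmule i hi
    · exact le_rfl
  have htau : ∀ i, tau O V (move0 O V s) i ≤ tau O V s i :=
    tau_mono fun o ho h0 => by rwa [hst o ho]
  have hM : (0 : ℚ) < O.M := by exact_mod_cast O.M_pos
  have hM1 : (1 : ℚ) ≤ O.M := by exact_mod_cast O.M_pos
  have hkill : ∀ i < V.n, ∀ o, kill O V (move0 O V s) i o ≤
      kill O V s i o + if i = s.ptr then 1 else 0 := fun i hi o => by
    unfold kill
    have h1 := hal i hi
    rw [hclk]
    by_cases hi' : i = s.ptr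
    · have h2 := mm_succ O.M s.t (lv O V i o)
      have h3 : s.clk i = s.t := by rw [hi', hclkp]
      rw [if_pos hi', if_pos hi', h3]
      split_ifs <;> omega
    · rw [if_neg hi', if_neg hi']
      split_ifs <;> omega
  have hAA : ∀ i < V.n, ∀ o, AA O V (move0 O V s) i o ≤
      AA O V s i o + if i = s.ptr then 1 else 0 := fun i hi o => by
    unfold AA
    have h1 : (kill O V (move0 O V s) i o : ℚ) ≤
        (kill O V s i o : ℚ) + if i = s.ptr then 1 else 0 := by
      have := hkill i hi o
      split_ifs at this ⊢ <;> exact_mod_cast this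
    have h2 := hV.y_nonneg i hi
    have h3 := hV.y_le i hi
    have h4 : V.y i * (if i = s.ptr then (1 : ℚ) else 0) / O.M ≤ if i = s.ptr then 1 else 0 := by
      split_ifs
      · rw [div_le_iff₀ hM]; linarith
      · simp
    calc V.y i * (kill O V (move0 O V s) i o : ℚ) / O.M
        ≤ V.y i * ((kill O V s i o : ℚ) + if i = s.ptr then 1 else 0) / O.M := by gcongr
      _ = V.y i * (kill O V s i o : ℚ) / O.M +
          V.y i * (if i = s.ptr then (1 : ℚ) else 0) / O.M := by ring
      _ ≤ _ := by linarith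
  refine ⟨ht ▸ h.t_le, by rw [hptr']; omega, fun i hi => by rw [hst i hi]; exact h.st_le i hi,
    fun i hi => by rw [hlam i hi]; exact h.lam_le i hi,
    fun i hi => (hmule i hi).trans (h.mu_le i hi), fun i hi h0 => ?_, fun i hi h0 => ?_,
    fun i hi h0 => ?_, fun i hi h0 => h.y_pos i hi (by rwa [hst i hi] at h0), hm,
    fun o ho h0 hy => ?_, ?_⟩
  · rw [hst i hi] at h0
    rw [hlam i hi]
    exact (htau i).trans (h.tau_le i hi h0)
  · rw [hst i hi] at h0
    rw [hlam i hi, ht, hmu i hi]
    have := h.mu_lo i hi h0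
    split_ifs
    · exact le_min this le_rfl
    · exact this
  · rw [hst i hi] at h0
    rw [hlam i hi, hclk, hmu i hi]
    by_cases hi' : i = s.ptr
    · rw [if_pos ⟨hi', h0⟩, if_pos hi']
      exact min_le_right _ _
    · rw [if_neg fun h' => hi' h'.1, if_neg hi']
      exact h.mu_hi i hi h0
  · rw [hst o ho] at h0
    have h1 := heavy_none hh o ho h0 hy
    have h2 : fk O V (move0 O V s) o ≤ fk O V s o +
        ∑ i ∈ range V.n, if i = s.ptr then (1 : ℚ) else 0 := by
      unfold fk
      rw [← Finset.sum_add_distrib]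
      refine Finset.sum_le_sum fun i hi => ?_
      have := hAA i (Finset.mem_range.1 hi) o
      by_cases h3 : V.free i = true ∧ i ≠ o
      · rw [if_pos h3, if_pos h3]; exact this
      · rw [if_neg h3, if_neg h3]; split_ifs <;> norm_num
    rw [Finset.sum_ite_eq' (range V.n) s.ptr fun _ => (1 : ℚ),
      if_pos (Finset.mem_range.2 hptr)] at h2
    linarith
  · have h1 : nfree V (move0 O V s) = nfree V s := by
      unfold nfree
      rw [Finset.filter_congr fun i hi => by rw [hst i (Finset.mem_range.1 hi)]]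
    have h2 : Ft O V (move0 O V s) ≤ Ft O V s :=
      Ft_le_of hV (fun i hi h0 => by rwa [hst i hi]) hmule fun i _ => hclk' i
    have := h.nfree_le
    rw [h1]
    linarith

/-- case distinction along the definition of `step` (`List.argmin_mem`, `mem_moves`, `mchk_iff`;
if `moves` is empty the state does not change) -/
lemma inv_step (hV : V.Valid Hd) (h : Inv O V Θ s) : Inv O V Θ (step O V Hd Θ pen s) := by
  unfold step
  split_ifs with h1 h2 h3
  · exact h
  · exact inv_wrap hV h (not_le.1 h1) h2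
  · obtain ⟨k1, k2, k3, k4⟩ := heavy_some h3.2
    exact inv_fopen hV h h3.1 k1 k2 k3 k4
  · cases hm : (moves O V s).argmin (Phi O V Hd Θ pen) with
    | none => exact h
    | some s' =>
      rw [Option.getD_some]
      rcases mem_moves (List.argmin_mem hm) with ⟨rfl, hc⟩ | ⟨o, ho, hs, hy, b, rfl⟩
      · by_cases hp : (pend O V s).isSome = true
        · exact inv_move0_pend hV h hp
        · have hp' : (pend O V s).isSome = false := by simpa using hp
          have hh : (heavy O V Θ s).isSome = false := by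
            by_contra hh
            exact h3 ⟨hp', Bool.not_eq_false _ ▸ hh⟩
          exact inv_move0_tick hV h (not_le.1 h2) hp' hh
            ((mchk_iff fun i hi k _ => AA_nonneg hV _ hi k).1 hc)
      · exact inv_ev hV h ho hs hy b

/-! ### termination -/

lemma h69_card_open {o k t p : ℕ} {b c : ℕ → ℕ} (ho : o < V.n) (hs : s.st o = 0) (hk : k ≠ 0) :
    ((range V.n).filter fun i =>
        (St.make V.n t p (fun i => if i = o then k else s.st i) b c).st i = 0).card <
      ((range V.n).filter fun i => s.st i = 0).card := by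
  refine card_lt_card ⟨fun i hi => ?_, fun hsub => ?_⟩
  · rw [mem_filter] at hi ⊢
    refine ⟨hi.1, ?_⟩
    have h2 := hi.2
    rw [St.make_st (mem_range.1 hi.1)] at h2
    split_ifs at h2 with h
    · exact absurd h2 hk
    · exact h2
  · have h1 : o ∈ (range V.n).filter fun i => s.st i = 0 := mem_filter.2 ⟨mem_range.2 ho, hs⟩
    have h2 := (mem_filter.1 (hsub h1)).2
    rw [St.make_st ho, if_pos rfl] at h2
    exact hk h2

lemma h69_card_same {t p : ℕ} {b c : ℕ → ℕ} :
    ((range V.n).filter fun i => (St.make V.n t p s.st b c).st i = 0).card =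
      ((range V.n).filter fun i => s.st i = 0).card := by
  congr 1
  exact filter_congr fun i hi => by rw [St.make_st (mem_range.1 hi)]

lemma h69_sum_lam {t p : ℕ} {a b c : ℕ → ℕ} :
    ∑ i ∈ range V.n, (St.make V.n t p a b c).lam i = ∑ i ∈ range V.n, b i :=
  sum_congr rfl fun _ hi => St.make_lam (mem_range.1 hi)

lemma meas_wrap (h : Inv O V Θ s) (ht : s.t < TT O V) (hp : V.n ≤ s.ptr) :
    meas O V s.wrap < meas O V s := by
  have h1 : s.ptr = V.n := le_antisymm h.ptr_le hp
  obtain ⟨k, hk⟩ : ∃ k, TT O V - s.t = k + 1 := ⟨TT O V - s.t - 1, by omega⟩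
  have hk' : TT O V - (s.t + 1) = k := by omega
  have e : meas O V s.wrap = ((range V.n).filter fun i => s.st i = 0).card +
      ∑ i ∈ range V.n, s.lam i + ((TT O V - (s.t + 1)) * (V.n + 1) - 0) := rfl
  rw [e]
  unfold meas
  rw [hk, hk', h1, Nat.succ_mul]
  omega

lemma meas_fopen {o : ℕ} (ho : o < V.n) (hs : s.st o = 0) :
    meas O V (fopen V s o) < meas O V s := by
  unfold meas fopen
  have := h69_card_open (V := V) (t := s.t) (p := s.ptr) (b := s.lam) (c := s.mu) ho hs
    (two_ne_zero)
  rw [h69_sum_lam, St.make_t, St.make_ptr]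
  omega

lemma meas_ev {o : ℕ} (ho : o < V.n) (hs : s.st o = 0) (b : Bool) :
    meas O V (ev O V s o b) < meas O V s := by
  unfold meas ev
  rw [h69_sum_lam, St.make_t, St.make_ptr]
  have h2 : ∑ i ∈ range V.n, evl O V s o i ≤ ∑ i ∈ range V.n, s.lam i :=
    sum_le_sum fun i _ => by
      unfold evl
      split_ifs
      · exact min_le_left _ _
      · exact le_rfl
  exact Nat.add_lt_add_right (Nat.add_lt_add_of_lt_of_le (h69_card_open ho hs one_ne_zero) h2) _

lemma meas_move0 (ht : s.t < TT O V) (hp : s.ptr < V.n) :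
    meas O V (move0 O V s) < meas O V s := by
  unfold meas move0
  split_ifs with hpd
  · obtain ⟨h1, _, h3⟩ := pend_some hpd
    rw [h69_card_same, h69_sum_lam, St.make_t, St.make_ptr]
    have h2 : ∑ i ∈ range V.n, (if i = src O V s then s.lam i - 1 else s.lam i) <
        ∑ i ∈ range V.n, s.lam i := by
      refine sum_lt_sum (fun i _ => ?_) ⟨src O V s, mem_range.2 h1, ?_⟩
      · split_ifs <;> omega
      · rw [if_pos rfl]; omega
    omega
  · rw [h69_card_same, h69_sum_lam, St.make_t, St.make_ptr]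
    obtain ⟨k, hk⟩ : ∃ k, TT O V - s.t = k + 1 := ⟨TT O V - s.t - 1, by omega⟩
    rw [hk, Nat.succ_mul]
    omega

lemma meas_init : meas O V (init O V) ≤ nsteps O V := by
  unfold meas init nsteps
  rw [h69_sum_lam, St.make_t, St.make_ptr, sum_const, card_range, smul_eq_mul, Nat.sub_zero,
    Nat.sub_zero]
  refine Nat.add_le_add_right (Nat.add_le_add_right ?_ _) _
  exact (card_filter_le _ _).trans (card_range _).le

lemma meas_pos (h : Inv O V Θ s) (ht : s.t < TT O V) : 0 < meas O V s := by
  have h1 := h.ptr_le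
  obtain ⟨k, hk⟩ : ∃ k, TT O V - s.t = k + 1 := ⟨TT O V - s.t - 1, by omega⟩
  unfold meas
  rw [hk, Nat.succ_mul]
  omega

end Proc

end Crest.Agent.R310
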