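import Crest.Agent.R310.ProcDefs

/-! Row 310: the rounding process runs in polynomial time. -/

set_option autoImplicit false
set_option linter.dupNamespace false

namespace Crest.Agent.R310

open Finset Crest.Agent.Lib.PT

section
variable {α : Type} [Enc α] {s : α → St} {i j o : α → ℕ}

@[fun_prop] lemma pt_St_st (hs : PT s) (hi : PT i) : PT fun a => (s a).st (i a) := by
  simp only [St.st]; fun_prop
@[fun_prop] lemma pt_St_lam (hs : PT s) (hi : PT i) : PT fun a => (s a).lam (i a) := by
  simp only [St.lam]; fun_prop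
@[fun_prop] lemma pt_St_mu (hs : PT s) (hi : PT i) : PT fun a => (s a).mu (i a) := by
  simp only [St.mu]; fun_prop
@[fun_prop] lemma pt_St_clk (hs : PT s) (hi : PT i) : PT fun a => (s a).clk (i a) := by
  simp only [St.clk]; fun_prop
@[fun_prop] lemma pt_St_al (hs : PT s) (hi : PT i) : PT fun a => (s a).al (i a) := by
  simp only [St.al]; fun_prop
@[fun_prop] lemma pt_St_wrap (hs : PT s) : PT fun a => (s a).wrap := by
  simp only [St.wrap]; fun_prop
@[fun_prop] lemma pt_St_make {n t p : α → ℕ} {x y z : α → ℕ → ℕ} (hn : PT n) (hb : PB n)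
    (ht : PT t) (hp : PT p) (hx : PT fun q : α × ℕ => x q.1 q.2)
    (hy : PT fun q : α × ℕ => y q.1 q.2) (hz : PT fun q : α × ℕ => z q.1 q.2) :
    PT fun a => St.make (n a) (t a) (p a) (x a) (y a) (z a) := by
  simp only [St.make]; fun_prop

end

namespace Proc

variable {α : Type} [Enc α] {g : ℚ} (O : OfferSys g) {V : α → VI} {s : α → St} {i j o : α → ℕ}

@[fun_prop] lemma pt_TT (hV : VI.PTF V) : PT fun a => TT O (V a) := by
  simp only [TT]; fun_prop
@[fun_prop] lemma pb_TT (hV : VI.PTF V) : PB fun a => TT O (V a) := by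
  simp only [TT]; fun_prop
@[fun_prop] lemma pt_lv (hV : VI.PTF V) (hi : PT i) (ho : PT o) :
    PT fun a => lv O (V a) (i a) (o a) := by
  simp only [lv]; fun_prop
@[fun_prop] lemma pt_tau (hV : VI.PTF V) (hs : PT s) (hi : PT i) :
    PT fun a => tau O (V a) (s a) (i a) := by
  simp only [tau]; fun_prop
@[fun_prop] lemma pt_kill (hV : VI.PTF V) (hs : PT s) (hi : PT i) (ho : PT o) :
    PT fun a => kill O (V a) (s a) (i a) (o a) := by
  simp only [kill]; fun_prop
@[fun_prop] lemma pt_AA (hV : VI.PTF V) (hs : PT s) (hi : PT i) (ho : PT o) :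
    PT fun a => AA O (V a) (s a) (i a) (o a) := by
  simp only [AA]; fun_prop
@[fun_prop] lemma pt_opn (hV : VI.PTF V) (hs : PT s) : PT fun a => opn (V a) (s a) := by
  simp only [opn]; fun_prop
@[fun_prop] lemma pt_rho (hV : VI.PTF V) (hs : PT s) (hj : PT j) :
    PT fun a => rho (V a) (s a) (j a) := by
  simp only [rho, VI.rho]; fun_prop
@[fun_prop] lemma pt_Psi (hV : VI.PTF V) (hs : PT s) (hj : PT j) :
    PT fun a => Psi O (V a) (s a) (j a) := by
  simp only [Psi]; fun_prop
@[fun_prop] lemma pt_NN (hV : VI.PTF V) (hs : PT s) (hi : PT i) :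
    PT fun a => NN O (V a) (s a) (i a) := by
  simp only [NN]; fun_prop
@[fun_prop] lemma pt_Mt (hV : VI.PTF V) (hs : PT s) : PT fun a => Mt O (V a) (s a) := by
  simp only [Mt]; fun_prop
@[fun_prop] lemma pt_Ff (hV : VI.PTF V) (hs : PT s) : PT fun a => Ff O (V a) (s a) := by
  simp only [Ff]; fun_prop
@[fun_prop] lemma pt_QQ (Hd Θ : ℕ) (hV : VI.PTF V) (hs : PT s) :
    PT fun a => QQ O (V a) Hd Θ (s a) := by
  simp only [QQ]; fun_prop
@[fun_prop] lemma pt_Phi (Hd Θ : ℕ) {pen : α → ℚ} (hV : VI.PTF V) (hpen : PT pen) (hs : PT s) :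
    PT fun a => Phi O (V a) Hd Θ (pen a) (s a) := by
  simp only [Phi, VI.mass]; fun_prop
@[fun_prop] lemma pt_pend (hV : VI.PTF V) (hs : PT s) : PT fun a => pend O (V a) (s a) := by
  simp only [pend]; fun_prop
@[fun_prop] lemma pt_fk (hV : VI.PTF V) (hs : PT s) (ho : PT o) :
    PT fun a => fk O (V a) (s a) (o a) := by
  simp only [fk]; fun_prop
@[fun_prop] lemma pt_heavy (Θ : ℕ) (hV : VI.PTF V) (hs : PT s) :
    PT fun a => heavy O (V a) Θ (s a) := by
  simp only [heavy]; fun_prop
@[fun_prop] lemma pt_src (hV : VI.PTF V) (hs : PT s) : PT fun a => src O (V a) (s a) := by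
  simp only [src]; fun_prop
@[fun_prop] lemma pt_move0 (hV : VI.PTF V) (hs : PT s) : PT fun a => move0 O (V a) (s a) := by
  simp only [move0]; fun_prop
@[fun_prop] lemma pt_evl (hV : VI.PTF V) (hs : PT s) (ho : PT o) (hi : PT i) :
    PT fun a => evl O (V a) (s a) (o a) (i a) := by
  simp only [evl]; fun_prop
@[fun_prop] lemma pt_ev (b : Bool) (hV : VI.PTF V) (hs : PT s) (ho : PT o) :
    PT fun a => ev O (V a) (s a) (o a) b := by
  simp only [ev]; fun_prop
@[fun_prop] lemma pt_fopen (hV : VI.PTF V) (hs : PT s) (ho : PT o) :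
    PT fun a => fopen (V a) (s a) (o a) := by
  simp only [fopen]; fun_prop
@[fun_prop] lemma pt_cands (hV : VI.PTF V) (hs : PT s) : PT fun a => cands (V a) (s a) := by
  simp only [cands]; fun_prop
@[fun_prop] lemma pt_moves (hV : VI.PTF V) (hs : PT s) : PT fun a => moves O (V a) (s a) := by
  simp only [moves]; fun_prop
@[fun_prop] lemma pt_step (Hd Θ : ℕ) {pen : α → ℚ} (hV : VI.PTF V) (hpen : PT pen) (hs : PT s) :
    PT fun a => step O (V a) Hd Θ (pen a) (s a) := by
  simp only [step]; fun_prop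
@[fun_prop] lemma pt_init (hV : VI.PTF V) : PT fun a => init O (V a) := by
  simp only [init]; fun_prop

/-- size invariant, valid for every virtual instance -/
def Small (V : VI) (s : St) : Prop :=
  s.t ≤ TT O V ∧ s.ptr ≤ V.n ∧ s.tab.length ≤ V.n ∧
    ∀ e ∈ s.tab, e.1 ≤ 2 ∧ e.2.1 ≤ TT O V ∧ e.2.2 ≤ O.M

private lemma h77_make (V : VI) {t p : ℕ} {a b c : ℕ → ℕ} (ht : t ≤ TT O V) (hp : p ≤ V.n)
    (ha : ∀ i, a i ≤ 2) (hb : ∀ i, b i ≤ TT O V) (hc : ∀ i, c i ≤ O.M) :
    Small O V (St.make V.n t p a b c) := by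
  refine ⟨ht, hp, by simp [St.make], fun e he => ?_⟩
  simp only [St.make, List.mem_map] at he
  obtain ⟨i, -, rfl⟩ := he
  exact ⟨ha i, hb i, hc i⟩

private lemma h77_acc (V : VI) {s : St} (h : Small O V s) (i : ℕ) :
    s.st i ≤ 2 ∧ s.lam i ≤ TT O V ∧ s.mu i ≤ O.M := by
  simp only [St.st, St.lam, St.mu]
  by_cases hi : i < s.tab.length
  · rw [List.getD_eq_getElem _ _ hi]
    exact h.2.2.2 _ (List.getElem_mem hi)
  · rw [List.getD_eq_default _ _ (not_lt.1 hi)]
    simp

private lemma h77_ev (V : VI) {s : St} (h : Small O V s) (o : ℕ) (b : Bool) :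
    Small O V (ev O V s o b) := by
  refine h77_make O V h.1 h.2.1 (fun i => ?_) (fun i => ?_) (fun i => ?_)
  · have := (h77_acc O V h i).1
    split_ifs <;> omega
  · have := (h77_acc O V h i).2.1
    unfold evl
    split_ifs <;> omega
  · have := (h77_acc O V h i).2.2
    split_ifs <;> omega

private lemma h77_move0 (V : VI) {s : St} (h : Small O V s) (hp : s.ptr < V.n) :
    Small O V (move0 O V s) := by
  unfold move0
  split_ifs
  · refine h77_make O V h.1 h.2.1 (fun i => (h77_acc O V h i).1) (fun i => ?_) (fun i => ?_)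
    · have := (h77_acc O V h i).2.1
      split_ifs <;> omega
    · have := (h77_acc O V h i).2.2
      split_ifs <;> omega
  · refine h77_make O V h.1 hp (fun i => (h77_acc O V h i).1) (fun i => (h77_acc O V h i).2.1)
      (fun i => ?_)
    have := (h77_acc O V h i).2.2
    split_ifs <;> omega

lemma small_init (V : VI) : Small O V (init O V) :=
  h77_make O V (Nat.zero_le _) (Nat.zero_le _) (fun i => by split_ifs <;> omega)
    (fun _ => le_rfl) (fun _ => le_rfl)

/-- accessors are bounded as well (default entry `(1,0,0)`); every branch of `step` builds its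
table from bounded values (`List.argmin_mem`) -/
lemma small_step (V : VI) (Hd Θ : ℕ) (pen : ℚ) (s : St) (h : Small O V s) :
    Small O V (step O V Hd Θ pen s) := by
  unfold step
  split_ifs with h1 h2 h3
  · exact h
  · exact ⟨not_le.1 h1, Nat.zero_le _, h.2.2⟩
  · refine h77_make O V h.1 h.2.1 (fun i => ?_) (fun i => (h77_acc O V h i).2.1)
      (fun i => (h77_acc O V h i).2.2)
    have := (h77_acc O V h i).1
    split_ifs <;> omega
  · rcases hm : (moves O V s).argmin (Phi O V Hd Θ pen) with _ | s'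
    · exact h
    · have hs' : s' ∈ moves O V s := List.argmin_mem hm
      show Small O V s'
      simp only [moves, List.mem_append, List.mem_map] at hs'
      rcases hs' with hs' | ⟨o, -, rfl⟩ | ⟨o, -, rfl⟩
      · split_ifs at hs'
        · rw [List.mem_singleton.1 hs']
          exact h77_move0 O V h (not_le.1 h2)
        · simp at hs'
      · exact h77_ev O V h o false
      · exact h77_ev O V h o true

lemma small_sz (V : VI) (s : St) (h : Small O V s) :
    sz s ≤ 100 * (V.n + 1) * (TT O V + O.M + V.n + 1) := by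
  obtain ⟨h1, h2, h3, h4⟩ := h
  have a1 := sz_nat_le_self s.t
  have a2 := sz_nat_le_self s.ptr
  have a3 := sz_list_le s.tab (6 * (TT O V + O.M) + 17) fun e he => by
    obtain ⟨b1, b2, b3⟩ := h4 e he
    have c1 := sz_nat_le_self e.1
    have c2 := sz_nat_le_self e.2.1
    have c3 := sz_nat_le_self e.2.2
    rw [sz_prod, sz_prod]
    omega
  have a4 : (6 * (TT O V + O.M) + 17 + 1) * s.tab.length ≤ (6 * (TT O V + O.M) + 17 + 1) * V.n :=
    Nat.mul_le_mul_left _ h3
  rw [sz_St, sz_pair, sz_pair]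
  nlinarith [Nat.zero_le (V.n * V.n), Nat.zero_le (V.n * TT O V), Nat.zero_le (V.n * O.M),
    Nat.zero_le O.M]

lemma pt_proc (Hd Θ : ℕ) {pen : α → ℚ} (hV : VI.PTF V) (hpen : PT pen) :
    PT fun a => proc O (V a) Hd Θ (pen a) := by
  have h : PT fun a => fin O (V a) Hd Θ (pen a) :=
    PT.iterate_inv (f := fun a s => step O (V a) Hd Θ (pen a) s) (fun a s => Small O (V a) s)
      (fun a => 100 * ((V a).n + 1) * (TT O (V a) + O.M + (V a).n + 1)) (by fun_prop)
      (by simp only [nsteps]; fun_prop) (by simp only [nsteps]; fun_prop) (by fun_prop)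
      (by fun_prop) (fun a => small_init O _) (fun a s h => small_step O _ _ _ _ s h)
      (fun a s h => small_sz O _ s h)
  simp only [proc]; fun_prop

end Proc

end Crest.Agent.R310
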