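import Crest.Agent.R310.ProcPhi
import Crest.Agent.R310.ProcPT

/-! Row 310: the rounding process meets `ProcSpec`. -/

set_option autoImplicit false
set_option linter.dupNamespace false

namespace Crest.Agent.R310

open Finset Crest.Agent.Lib.PT

namespace Proc

variable {g : ℚ} {O : OfferSys g} {V : VI} {Hd Θ : ℕ} {pen : ℚ} {s : St}

lemma inv_iter (hV : V.Valid Hd) (k : ℕ) :
    Inv O V Θ ((step O V Hd Θ pen)^[k] (init O V)) := by
  induction k with
  | zero => exact inv_init hV
  | succ k ih => rw [Function.iterate_succ_apply']; exact inv_step hV ih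

lemma phi_iter (hV : V.Valid Hd) (hpen : 0 ≤ pen) (k : ℕ) :
    Phi O V Hd Θ pen ((step O V Hd Θ pen)^[k] (init O V)) ≤ Phi O V Hd Θ pen (init O V) := by
  induction k with
  | zero => exact le_rfl
  | succ k ih =>
    rw [Function.iterate_succ_apply']
    exact (phi_step hV (inv_iter hV k) hpen).trans ih

/-- Induction: `TT ≤ t` or `meas + k ≤ meas init` after `k` steps (`step` is the identity once
`TT ≤ t`); then `meas_init`, `meas_pos`. -/
lemma fin_t (hV : V.Valid Hd) (hpen : 0 ≤ pen) : TT O V ≤ (fin O V Hd Θ pen).t := by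
  have key : ∀ k, TT O V ≤ ((step O V Hd Θ pen)^[k] (init O V)).t ∨
      meas O V ((step O V Hd Θ pen)^[k] (init O V)) + k ≤ meas O V (init O V) := by
    intro k
    induction k with
    | zero => right; simp
    | succ k ih =>
      rw [Function.iterate_succ_apply']
      by_cases ht : TT O V ≤ ((step O V Hd Θ pen)^[k] (init O V)).t
      · left
        have e : step O V Hd Θ pen ((step O V Hd Θ pen)^[k] (init O V)) =
            (step O V Hd Θ pen)^[k] (init O V) := by
          generalize (step O V Hd Θ pen)^[k] (init O V) = s at ht ⊢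
          unfold step
          rw [if_pos ht]
        rw [e]; exact ht
      · right
        have h1 := meas_step (pen := pen) hV (inv_iter (Θ := Θ) (pen := pen) hV k) hpen
          (not_le.1 ht)
        have h2 := ih.resolve_left ht
        omega
  by_contra hc
  have h1 := (key (nsteps O V)).resolve_left hc
  have h2 := meas_init (O := O) (V := V)
  have h3 := meas_pos (inv_iter (Θ := Θ) (pen := pen) hV (nsteps O V)) (not_le.1 hc)
  omega

/-- Closed facilities have all `M` particles alive (`Isum_full`), open ones get no offers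
(`off_zero`); `G_le`; `NN init i = y i`; `y (1 - y)` and the free `y` are bounded by the terms of
`W`. -/
lemma phi_init (hV : V.Valid Hd) (hpen : 0 ≤ pen) :
    Phi O V Hd Θ pen (init O V) ≤ V.C0 g + pen * ((2 * Hd + 2 * Θ + 6 : ℕ) * V.W) := by
  have hM : (0 : ℚ) < O.M := by exact_mod_cast O.M_pos
  have hst : ∀ i < V.n, (init O V).st i = if V.y i = 1 then 1 else 0 := fun i hi =>
    St.make_st hi
  have hmu : ∀ i < V.n, (init O V).mu i = O.M := fun i hi => St.make_mu hi
  have hNN : ∀ i < V.n, NN O V (init O V) i = V.y i := by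
    intro i hi
    unfold NN
    rw [hst i hi, hmu i hi]
    by_cases hy : V.y i = 1
    · simp [hy]
    · simp only [hy, if_false, zero_ne_one]
      rw [mul_div_assoc, div_self hM.ne', mul_one]
  have hPsi : ∀ j < V.nc, Psi O V (init O V) j ≤ g * (V.prof j).D + 1 := by
    intro j hj
    have hP := hV.prof hj
    have hρ : rho V (init O V) j ≤ (V.prof j).L := (rho_le_r0 _ j).trans (hV.r0_le j hj)
    have h1 := O.G_le _ hP _ hρ
    have h2 : ∑ i ∈ range V.n, V.x j i * Isum O.M (O.off (V.prof j) i (rho V (init O V) j))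
        ((init O V).lam i) ((init O V).al i) = 0 := by
      refine Finset.sum_eq_zero fun i hi => ?_
      have hi' := mem_range.1 hi
      by_cases hy : V.y i = 1
      · have hs : (init O V).st i ≠ 0 := by rw [hst i hi', if_pos hy]; exact one_ne_zero
        have hd : rho V (init O V) j ≤ (V.prof j).d i := by
          have := rho_le_dist (V := V) (j := j) hi' hs
          simpa [VI.prof, hi'] using this
        rw [Isum_zero _ (fun t => O.off_zero _ hP i (by simp only [VI.prof]; omega) _ hd t),
          mul_zero]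
      · have ha : (init O V).al i = O.M := by
          unfold St.al
          rw [hst i hi', if_neg hy, if_pos rfl, hmu i hi']
        rw [ha, Isum_full, mul_zero]
    unfold Psi
    rw [h2, add_zero]
    exact h1
  have hMt : Mt O V (init O V) = V.mass :=
    Finset.sum_congr rfl fun i hi => hNN i (mem_range.1 hi)
  have hA : ∑ i ∈ range V.n, NN O V (init O V) i * (1 - NN O V (init O V) i) ≤ V.W := by
    refine Finset.sum_le_sum fun i hi => ?_
    have hi' := mem_range.1 hi
    rw [hNN i hi']
    have := hV.y_nonneg i hi'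
    have := hV.y_le i hi'
    split_ifs <;> nlinarith
  have hB : Ff O V (init O V) ≤ V.W := by
    refine Finset.sum_le_sum fun i hi => ?_
    have hi' := mem_range.1 hi
    have h0 := hV.y_nonneg i hi'
    have h1 := hV.y_le i hi'
    split_ifs
    · have ha : ((init O V).al i : ℚ) ≤ O.M := by
        have : (init O V).al i ≤ O.M := by
          unfold St.al
          rw [hmu i hi']
          split_ifs <;> omega
        exact_mod_cast this
      rw [div_le_iff₀ hM]
      exact mul_le_mul_of_nonneg_left ha h0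
    · linarith
  have hC : ∑ j ∈ range V.nc, V.w j * Psi O V (init O V) j ≤ V.C0 g :=
    Finset.sum_le_sum fun j hj => mul_le_mul_of_nonneg_left (hPsi j (mem_range.1 hj))
      (hV.w_nonneg j (mem_range.1 hj))
  have hQ : (Mt O V (init O V) - V.mass) ^ 2 + QQ O V Hd Θ (init O V) ≤
      ((2 * Hd + 2 * Θ + 6 : ℕ) : ℚ) * V.W := by
    rw [hMt, sub_self]
    unfold QQ
    have e1 : (0 : ℚ) ≤ 2 * ((Hd + 2 : ℕ) : ℚ) := by positivity
    have e2 : (0 : ℚ) ≤ 2 * ((Θ : ℚ) + 1) := by positivity
    have h1 := mul_le_mul_of_nonneg_left hA e1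
    have h2 := mul_le_mul_of_nonneg_left hB e2
    push_cast at h1 h2 ⊢
    nlinarith
  unfold Phi
  have := mul_le_mul_of_nonneg_left hQ hpen
  linarith

/-- At the end all particles are dead (`mu ≤ mm clk lam = 0`); `OfferSys.hU'` with the state levels
for closed facilities (`lev_rho_le_tau`), any level for open ones and for the entry `n` (there
`rho ≤ d`, `lev 0 = 0`, and the offers vanish). -/
lemma psi_fin (hV : V.Valid Hd) (h : Inv O V Θ s) (ht : TT O V ≤ s.t) {j : ℕ} (hj : j < V.nc) :
    (rho V s j : ℚ) ≤ Psi O V s j := by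
  have hP := hV.prof hj
  have hρ : rho V s j ≤ (V.prof j).L := (rho_le_r0 s j).trans (hV.r0_le j hj)
  have key := O.hU' hP hρ (fun l => if l < V.n ∧ s.st l = 0 then s.lam l else TT O V) (by
    intro l hl hx
    by_cases h1 : l < V.n ∧ s.st l = 0
    · rw [if_pos h1]
      have hx' : 0 < V.x j l := by simpa [VI.prof, h1.1] using hx
      have hd : (V.prof j).d l = V.dist j l := by simp [VI.prof, h1.1]
      rw [hd]
      exact (lev_rho_le_tau hV hj h1.1 hx').trans (h.tau_le l h1.1 h1.2)
    · rw [if_neg h1]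
      exact O.lev_mono ((Nat.sub_le _ _).trans hρ))
  refine key.trans ?_
  unfold Psi
  have hm : (V.prof j).m = V.n + 1 := rfl
  rw [hm, sum_range_succ]
  have hlast : Isum O.M (O.off (V.prof j) V.n (rho V s j))
      (if V.n < V.n ∧ s.st V.n = 0 then s.lam V.n else TT O V) 0 = 0 := by
    refine Isum_zero _ (fun t => O.off_zero _ hP V.n (by rw [hm]; omega) _ ?_ t) _ _
    have hd : (V.prof j).d V.n = V.r0 j := by simp [VI.prof]
    rw [hd]
    exact rho_le_r0 s j
  rw [hlast, mul_zero, add_zero]
  refine add_le_add_right (le_of_eq (sum_congr rfl fun i hi => ?_)) _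
  have hi' := mem_range.1 hi
  have hx : (V.prof j).x i = V.x j i := by simp [VI.prof, hi']
  rw [hx]
  congr 1
  by_cases h0 : s.st i = 0
  · have h1 := h.mu_hi i hi' h0
    have h2 := h.lam_le i hi'
    have h3 : s.al i = 0 := by
      unfold St.al
      rw [if_pos h0]
      unfold mm St.clk at h1
      split_ifs at h1 <;> omega
    rw [if_pos ⟨hi', h0⟩, h3]
  · have hz : ∀ t, O.off (V.prof j) i (rho V s j) t = 0 := fun t => by
      refine O.off_zero _ hP i (by rw [hm]; omega) _ ?_ t
      have hd : (V.prof j).d i = V.dist j i := by simp [VI.prof, hi']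
      rw [hd]
      exact rho_le_dist hi' h0
    rw [Isum_zero _ hz, Isum_zero _ hz]

private lemma h19_NN (hV : V.Valid Hd) (h : Inv O V Θ s) {i : ℕ} (hi : i < V.n) :
    0 ≤ NN O V s i ∧ NN O V s i ≤ 1 := by
  unfold NN
  split_ifs
  · exact ⟨zero_le_one, le_rfl⟩
  · have hM : (0 : ℚ) < O.M := by exact_mod_cast O.M_pos
    have h1 : (s.mu i : ℚ) ≤ O.M := by exact_mod_cast h.mu_le i hi
    have h2 := hV.y_nonneg i hi
    have h3 := hV.y_le i hi
    have h4 : (0 : ℚ) ≤ s.mu i := Nat.cast_nonneg _
    refine ⟨by positivity, ?_⟩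
    rw [div_le_one hM]
    nlinarith
/-- `0 ≤ NN ≤ 1` (`mu ≤ M`, `y ≤ 1`) -/
lemma QQ_nonneg (hV : V.Valid Hd) (h : Inv O V Θ s) : 0 ≤ QQ O V Hd Θ s := by
  unfold QQ Ff
  refine add_nonneg (mul_nonneg (by positivity) (sum_nonneg fun i hi => ?_))
    (mul_nonneg (by positivity) (sum_nonneg fun i hi => ?_))
  · have := h19_NN hV h (mem_range.1 hi)
    exact mul_nonneg this.1 (sub_nonneg.2 this.2)
  · have := hV.y_nonneg i (mem_range.1 hi)
    split_ifs
    · positivity
    · exact le_rfl

/-- open = status `1` (there `NN = 1`, elsewhere `NN ≥ 0`) or status `2` -/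
lemma length_opn (hV : V.Valid Hd) (h : Inv O V Θ s) :
    ((opn V s).length : ℚ) ≤ Mt O V s + nfree V s := by
  have h1 : ((opn V s).length : ℚ) = ∑ i ∈ range V.n, if s.st i ≠ 0 then (1 : ℚ) else 0 := by
    rw [sum_boole, opn, ← List.toFinset_card_of_nodup ((List.nodup_range).filter _)]
    congr 2
    ext i
    simp
  have h2 : (nfree V s : ℚ) = ∑ i ∈ range V.n, if s.st i = 2 then (1 : ℚ) else 0 := by
    rw [sum_boole, nfree]
  rw [h1, h2, Mt, ← sum_add_distrib]
  refine sum_le_sum fun i hi => ?_
  have hi' := mem_range.1 hi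
  have h3 := h19_NN hV h hi'
  have h4 := h.st_le i hi'
  by_cases e1 : s.st i = 1
  · have : NN O V s i = 1 := by unfold NN; rw [if_pos e1]
    rw [this, e1]
    norm_num
  · by_cases e2 : s.st i = 2
    · rw [e2]
      norm_num
      exact h3.1
    · have e0 : s.st i = 0 := by omega
      rw [e0]
      norm_num
      exact h3.1

end Proc

open Proc in
theorem procSpec {g : ℚ} (O : OfferSys g) : ProcSpec g (proc O) := by
  refine ⟨fun Hd Θ _ _ _ _ hV hpen => pt_proc O Hd Θ hV hpen, fun V Hd Θ pen hV hΘ hpen => ?_⟩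
  have hI : Inv O V Θ (fin O V Hd Θ pen) := inv_iter hV _
  have hΘ' : (0 : ℚ) < Θ := by exact_mod_cast hΘ
  refine ⟨fun o ho => ?_, Mt O V (fin O V Hd Θ pen) - V.mass, ?_, ?_⟩
  · have := mem_opn.1 ho
    exact ⟨this.1, hI.y_pos o this.1 this.2⟩
  · have h1 := length_opn hV hI
    have h2 := hI.nfree_le
    have h3 := Ft_nonneg (O := O) hV (fin O V Hd Θ pen)
    have h4 : (nfree V (fin O V Hd Θ pen) : ℚ) ≤ V.W / Θ := by
      rw [le_div_iff₀ hΘ']; linarith
    simp only [proc]
    linarith
  · have h1 := phi_iter (O := O) (Θ := Θ) hV hpen (nsteps O V)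
    have h2 := phi_init (O := O) (Θ := Θ) hV hpen
    have h3 := QQ_nonneg hV hI
    have h4 : ∑ j ∈ range V.nc, V.w j * (V.rho (proc O V Hd Θ pen) j : ℚ) ≤
        ∑ j ∈ range V.nc, V.w j * Psi O V (fin O V Hd Θ pen) j :=
      sum_le_sum fun j hj => mul_le_mul_of_nonneg_left
        (psi_fin hV hI (fin_t hV hpen) (mem_range.1 hj)) (hV.w_nonneg j (mem_range.1 hj))
    have h5 : Phi O V Hd Θ pen (fin O V Hd Θ pen) ≤ _ := h1.trans h2
    unfold Phi at h5
    nlinarith [mul_nonneg hpen h3]

end Crest.Agent.R310
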