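import Crest.Agent.R310.ProcInv

/-! Row 310: the potential of the rounding process does not increase. -/

set_option autoImplicit false
set_option linter.dupNamespace false

namespace Crest.Agent.R310

open Finset Crest.Agent.Lib.PT

/-- Pathwise variance inequality. With `δ = N' - N`, `Δ = ∑ δ = a + b`, `a = ∑_P δ`,
`b = ∑_{∉ P} δ ∈ [-θ, 0]`: `Δ² ≤ 2a² + 2b² ≤ 2h ∑ δ² + 2θ (F - F')`, and
`N'(1-N') = N(1-N) + (1-2N) δ - δ²`. -/
lemma var_alg (n : ℕ) (N N' : ℕ → ℚ) (P : Finset ℕ) (h : ℕ) (θ M0 F F' : ℚ) (hP : P ⊆ range n)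
    (hc : P.card ≤ h) (hdrop : ∀ i < n, i ∉ P → N' i ≤ N i)
    (hb : ∑ i ∈ range n \ P, (N i - N' i) ≤ θ) (hF : ∑ i ∈ range n \ P, (N i - N' i) ≤ F - F') :
    (∑ i ∈ range n, N' i - M0) ^ 2 + (2 * (h : ℚ) * ∑ i ∈ range n, N' i * (1 - N' i) + 2 * θ * F') ≤
      (∑ i ∈ range n, N i - M0) ^ 2 + (2 * (h : ℚ) * ∑ i ∈ range n, N i * (1 - N i) + 2 * θ * F) +
        ∑ i ∈ range n, (2 * (∑ k ∈ range n, N k - M0) + 2 * (h : ℚ) * (1 - 2 * N i)) *
          (N' i - N i) := by
  have hb0 : 0 ≤ ∑ i ∈ range n \ P, (N i - N' i) := sum_nonneg fun i hi =>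
    sub_nonneg.2 (hdrop i (mem_range.1 (mem_sdiff.1 hi).1) (mem_sdiff.1 hi).2)
  have hsplit : ∑ i ∈ range n, (N' i - N i) =
      ∑ i ∈ P, (N' i - N i) - ∑ i ∈ range n \ P, (N i - N' i) := by
    rw [← sum_sdiff hP, sub_eq_add_neg (∑ i ∈ P, (N' i - N i)), ← sum_neg_distrib, add_comm]
    simp only [neg_sub]
  have ha : (∑ i ∈ P, (N' i - N i)) ^ 2 ≤ (h : ℚ) * ∑ i ∈ range n, (N' i - N i) ^ 2 := by
    refine sq_sum_le_card_mul_sum_sq.trans ?_
    exact mul_le_mul (by exact_mod_cast hc)
      (sum_le_sum_of_subset_of_nonneg hP fun i _ _ => sq_nonneg _)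
      (sum_nonneg fun i _ => sq_nonneg _) (Nat.cast_nonneg _)
  have hbb : (∑ i ∈ range n \ P, (N i - N' i)) ^ 2 ≤ θ * (F - F') := by
    rw [sq]; exact mul_le_mul hb hF hb0 (hb0.trans hb)
  have e1 : ∑ i ∈ range n, N' i = ∑ i ∈ range n, N i + ∑ i ∈ range n, (N' i - N i) := by
    rw [sum_sub_distrib]; ring
  have e2 : ∑ i ∈ range n, N' i * (1 - N' i) = ∑ i ∈ range n, N i * (1 - N i) +
      ∑ i ∈ range n, (1 - 2 * N i) * (N' i - N i) - ∑ i ∈ range n, (N' i - N i) ^ 2 := by
    rw [← sum_add_distrib, ← sum_sub_distrib]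
    exact sum_congr rfl fun i _ => by ring
  have e3 : ∑ i ∈ range n, (2 * (∑ k ∈ range n, N k - M0) + 2 * (h : ℚ) * (1 - 2 * N i)) *
      (N' i - N i) = 2 * (∑ k ∈ range n, N k - M0) * ∑ i ∈ range n, (N' i - N i) +
        2 * (h : ℚ) * ∑ i ∈ range n, (1 - 2 * N i) * (N' i - N i) := by
    rw [mul_sum, mul_sum, ← sum_add_distrib]
    exact sum_congr rfl fun i _ => by ring
  rw [e3, e2, e1, hsplit]
  nlinarith [sq_nonneg (∑ i ∈ P, (N' i - N i) + ∑ i ∈ range n \ P, (N i - N' i))]

namespace Proc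

variable {g : ℚ} {O : OfferSys g} {V : VI} {Hd Θ : ℕ} {pen : ℚ} {s s' : St}

/-! ### who dies in which move -/

private lemma h15_ev_al (s : St) (o : ℕ) (b : Bool) {i : ℕ} (hi : i < V.n) :
    (ev O V s o b).al i = if s.st i = 0 ∧ i ≠ o then
      min (s.mu i) (mm O.M (if b = true ∧ i = src O V s then s.t + 1 else s.clk i) (evl O V s o i))
      else 0 := by
  unfold St.al ev
  rw [St.make_st hi, St.make_mu hi]
  by_cases hio : i = o
  · simp [hio]
  · by_cases hs : s.st i = 0 <;> simp [hio, hs]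

private lemma h15_move0_st (s : St) {i : ℕ} (hi : i < V.n) : (move0 O V s).st i = s.st i := by
  unfold move0
  split_ifs <;> rw [St.make_st hi]

private lemma h15_move0_mu_le (s : St) {i : ℕ} (hi : i < V.n) : (move0 O V s).mu i ≤ s.mu i := by
  unfold move0
  split_ifs with hp
  · rw [St.make_mu hi]
    split_ifs
    · exact min_le_left _ _
    · exact le_rfl
  · rw [St.make_mu hi]
    split_ifs
    · exact min_le_left _ _
    · exact le_rfl

private lemma h15_move0_mu (s : St) {i : ℕ} (hi : i < V.n)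
    (hne : i ≠ src O V s ∨ s.st i ≠ 0) : (move0 O V s).mu i = s.mu i := by
  unfold move0
  split_ifs with hp
  · rw [St.make_mu hi, if_neg]
    intro h
    rcases hne with hne | hne
    · exact hne h
    · exact hne (h ▸ (pend_some hp).2.1)
  · rw [St.make_mu hi, if_neg]
    intro h
    rcases hne with hne | hne
    · exact hne h.1
    · exact hne h.2

private lemma h15_move0_al (s : St) {i : ℕ} (hi : i < V.n) (hne : i ≠ src O V s) :
    (move0 O V s).al i = s.al i := by
  unfold St.al
  rw [h15_move0_st s hi, h15_move0_mu s hi (Or.inl hne)]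

private lemma h15_move0_clk (s : St) {i : ℕ} (hne : i ≠ src O V s) :
    (move0 O V s).clk i = s.clk i := by
  unfold move0
  split_ifs with hp
  · rfl
  · have h1 := (pend_none (O := O) (V := V) (s := s) (by simpa using hp)).1
    rw [h1] at hne
    unfold St.clk
    rw [St.make_t, St.make_ptr]
    split_ifs <;> omega

private lemma h15_dead_ev (hV : V.Valid Hd) (h : Inv O V Θ s) {o i : ℕ} (hi : i < V.n) (b : Bool)
    (hne : ¬(b = true ∧ i = src O V s)) : dead O V s (ev O V s o b) i = AA O V s i o := by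
  have key : s.al i = (ev O V s o b).al i + kill O V s i o := by
    rw [h15_ev_al s o b hi, if_neg hne]
    unfold kill evl
    by_cases hio : i = o
    · subst hio
      rw [if_neg (fun h' => h'.2 rfl), if_pos (hV.J_self i hi), lv, hV.D_self i hi, Nat.zero_min,
        O.lev_zero, mm_zero]
      omega
    · by_cases hs : s.st i = 0
      · have h1 := h.mu_hi i hi hs
        have h2 : s.al i = s.mu i := if_pos hs
        rw [if_pos ⟨hs, hio⟩, h2]
        by_cases hJ : V.J o i = true
        · rw [if_pos ⟨hs, hio, hJ⟩, if_pos hJ, mm_min]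
          omega
        · rw [if_neg (fun h' => hJ h'.2.2), if_neg hJ]
          omega
      · have h2 : s.al i = 0 := if_neg hs
        rw [if_neg (fun h' => hs h'.1), h2]
        split_ifs <;> omega
  unfold dead AA
  rw [key]
  push_cast
  ring

lemma al_ev_le (s : St) (o : ℕ) (b : Bool) {i : ℕ} (hi : i < V.n) :
    (ev O V s o b).al i ≤ s.al i := by
  rw [h15_ev_al s o b hi]
  by_cases h : s.st i = 0 ∧ i ≠ o
  · rw [if_pos h, St.al, if_pos h.1]
    exact min_le_left _ _
  · rw [if_neg h]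
    exact Nat.zero_le _

lemma al_move0_le (s : St) {i : ℕ} (hi : i < V.n) : (move0 O V s).al i ≤ s.al i := by
  unfold St.al
  rw [h15_move0_st s hi]
  split_ifs
  · exact h15_move0_mu_le s hi
  · exact le_rfl

/-- `mu ≤ mm clk lam` and `mm_min`; for `i = o` use `J o o`, `D o o = 0`, `lev 0 = 0`. -/
lemma dead_ev_false (hV : V.Valid Hd) (h : Inv O V Θ s) {o i : ℕ} (ho : o < V.n) (hi : i < V.n) :
    dead O V s (ev O V s o false) i = AA O V s i o := by
  exact h15_dead_ev hV h hi false (by simp)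

lemma dead_ev_true (hV : V.Valid Hd) (h : Inv O V Θ s) {o i : ℕ} (ho : o < V.n) (hi : i < V.n)
    (hne : i ≠ src O V s) : dead O V s (ev O V s o true) i = AA O V s i o := by
  exact h15_dead_ev hV h hi true fun h' => hne h'.2

lemma dead_move0 {i : ℕ} (hi : i < V.n) (hne : i ≠ src O V s) :
    dead O V s (move0 O V s) i = 0 := by
  unfold dead
  rw [h15_move0_al s hi hne]
  simp

lemma AA_move0_row (s : St) {k : ℕ} (hk : k < V.n) (hne : k ≠ src O V s) (o : ℕ) :
    AA O V (move0 O V s) k o = AA O V s k o := by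
  unfold AA kill
  rw [h15_move0_al s hk hne, h15_move0_clk s hne]

/-- tick case: the new row of the source is dominated by the kills of the `true` events -/
lemma AA_move0_le (hV : V.Valid Hd) (hptr : s.ptr < V.n) (hp : (pend O V s).isSome = false)
    (o : ℕ) : AA O V (move0 O V s) (src O V s) o ≤ dead O V s (ev O V s o true) (src O V s) := by
  have hsrc : src O V s = s.ptr := (pend_none hp).1
  have hi : src O V s < V.n := src_lt hptr
  have e : move0 O V s = St.make V.n s.t (s.ptr + 1) s.st s.lam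
      (fun i => if i = src O V s ∧ s.st i = 0 then min (s.mu i) (mm O.M (s.t + 1) (s.lam i))
        else s.mu i) := by
    unfold move0
    rw [if_neg (by simp [hp])]
  have hc : (move0 O V s).clk (src O V s) = s.t + 1 := by
    rw [e, hsrc]
    simp [St.clk]
  have key : (ev O V s o true).al (src O V s) + kill O V (move0 O V s) (src O V s) o ≤
      s.al (src O V s) := by
    have h0 := al_move0_le (O := O) s hi
    have h1 := al_ev_le (O := O) s o true hi
    unfold kill
    rw [hc]
    by_cases hJ : V.J o (src O V s) = true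
    · rw [if_pos hJ]
      rw [h15_ev_al s o true hi] at h1 ⊢
      by_cases hs : s.st (src O V s) = 0 ∧ src O V s ≠ o
      · rw [if_pos hs, if_pos ⟨rfl, rfl⟩] at h1 ⊢
        unfold evl at h1 ⊢
        rw [if_pos ⟨hs.1, hs.2, hJ⟩, mm_min] at h1 ⊢
        omega
      · rw [if_neg hs]
        omega
    · rw [if_neg hJ]
      omega
  unfold dead AA
  refine div_le_div_of_nonneg_right
    (mul_le_mul_of_nonneg_left ?_ (hV.y_nonneg _ hi)) (Nat.cast_nonneg _)
  have key' : (((ev O V s o true).al (src O V s) : ℕ) : ℚ) +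
      (kill O V (move0 O V s) (src O V s) o : ℚ) ≤ (s.al (src O V s) : ℚ) := by
    exact_mod_cast key
  linarith

lemma NN_ev {o i : ℕ} (hi : i < V.n) (hs : s.st o = 0) (b : Bool) :
    NN O V (ev O V s o b) i - NN O V s i =
      (if i = o then 1 else 0) - dead O V s (ev O V s o b) i := by
  have est : (ev O V s o b).st i = if i = o then 1 else s.st i := St.make_st hi
  have emu : (ev O V s o b).mu i = if s.st i = 0 ∧ i ≠ o then
      min (s.mu i) (mm O.M (if b = true ∧ i = src O V s then s.t + 1 else s.clk i) (evl O V s o i))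
      else s.mu i := St.make_mu hi
  unfold NN dead St.al
  rw [est]
  by_cases hio : i = o
  · subst hio
    simp [hs]
  · rw [if_neg hio, if_neg hio]
    by_cases h0 : s.st i = 0
    · simp only [h0, if_true, zero_ne_one, if_false]
      ring
    · rw [emu, if_neg (fun h' : s.st i = 0 ∧ i ≠ o => h0 h'.1)]
      simp [h0]

/-- in the pending case the source is closed (`pend_some`) -/
lemma NN_move0 {i : ℕ} (hi : i < V.n) :
    NN O V (move0 O V s) i - NN O V s i = -dead O V s (move0 O V s) i := by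
  unfold NN dead St.al
  rw [h15_move0_st s hi]
  by_cases h0 : s.st i = 0
  · simp only [h0, if_true, zero_ne_one, if_false]
    ring
  · rw [h15_move0_mu s hi (Or.inr h0)]
    simp [h0]

/-! ### clients -/

private lemma helper28_open (hV : V.Valid Hd) {j i : ℕ} (hj : j < V.nc) (hi : i < V.n)
    (h0 : s'.st i ≠ 0) (lam mu : ℕ) :
    Isum O.M (O.off (V.prof j) i (rho V s' j)) lam mu = 0 := by
  refine Isum_zero _ (fun t => O.off_zero _ (hV.prof hj) i (Nat.lt_succ_of_lt hi) _ ?_ t) _ _
  simpa only [VI.prof, if_pos hi] using rho_le_dist (j := j) hi h0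

private lemma helper28_rho (hV : V.Valid Hd) (s : St) {j : ℕ} (hj : j < V.nc) :
    rho V s j ≤ (V.prof j).L := (rho_le_r0 s j).trans (hV.r0_le j hj)

private lemma helper28_closed (hV : V.Valid Hd) (h : Inv O V Θ s) {j i : ℕ} (hj : j < V.nc)
    (hi : i < V.n) (hst : ∀ i < V.n, s.st i ≠ 0 → s'.st i ≠ 0) (h0 : s'.st i = 0)
    (hcl : s'.lam i ≤ s.lam i ∧ mm O.M (s.t + 1) (s'.lam i) ≤ s'.mu i ∧ s'.mu i ≤ s.mu i) :
    Isum O.M (O.off (V.prof j) i (rho V s' j)) (s'.lam i) (s'.al i) ≤
      Isum O.M (O.off (V.prof j) i (rho V s j)) (s.lam i) (s.al i) +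
        O.off (V.prof j) i (rho V s j) s.t * ((s.al i : ℚ) - (s'.al i : ℚ)) / (O.M : ℚ) := by
  have h1 : s.st i = 0 := by
    by_contra h1
    exact hst i hi h1 h0
  rw [St.al, St.al, if_pos h0, if_pos h1]
  exact Isum_step (fun t t' ht => O.off_mono _ (hV.prof hj) i (Nat.lt_succ_of_lt hi) _
    (helper28_rho hV s hj) _ (rho_mono hst j) t t' ht) hcl.1 hcl.2.1 hcl.2.2 (h.mu_le i hi)

private lemma helper28_Ff (O : OfferSys g) (V : VI) (s s' : St) : Ff O V s - Ff O V s' =
    ∑ i ∈ range V.n, if V.free i = true then dead O V s s' i else 0 := by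
  rw [Ff, Ff, ← sum_sub_distrib]
  refine sum_congr rfl fun i _ => ?_
  split_ifs
  · rw [dead]; ring
  · exact sub_zero _

private lemma helper28_dead (hV : V.Valid Hd) {i : ℕ} (hi : i < V.n) (h : s'.al i ≤ s.al i) :
    0 ≤ if V.free i = true then dead O V s s' i else 0 := by
  split_ifs
  · refine div_nonneg (mul_nonneg (hV.y_nonneg i hi) (sub_nonneg.2 ?_)) (Nat.cast_nonneg _)
    exact_mod_cast h
  · exact le_rfl

/-- Monotone part (no payment): `G_mono`; termwise `Isum_step` for facilities closed in `s'`, and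
`off_zero` (`rho_le_dist`) with `Isum_nonneg` for facilities open in `s'`. -/
lemma psi_mono (hV : V.Valid Hd) (h : Inv O V Θ s) {j : ℕ} (hj : j < V.nc)
    (hst : ∀ i < V.n, s.st i ≠ 0 → s'.st i ≠ 0)
    (hcl : ∀ i < V.n, s'.st i = 0 → s'.lam i ≤ s.lam i ∧
      mm O.M (s.t + 1) (s'.lam i) ≤ s'.mu i ∧ s'.mu i ≤ s.mu i) :
    Psi O V s' j ≤ Psi O V s j + ∑ i ∈ range V.n, V.x j i *
      (O.off (V.prof j) i (rho V s j) s.t * ((s.al i : ℚ) - (s'.al i : ℚ)) / (O.M : ℚ)) := by
  rw [Psi, Psi, add_assoc, ← sum_add_distrib]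
  refine add_le_add (O.G_mono _ (hV.prof hj) _ (helper28_rho hV s hj) _ (rho_mono hst j))
    (sum_le_sum fun i hi => ?_)
  have hi' := mem_range.1 hi
  rw [← mul_add]
  refine mul_le_mul_of_nonneg_left ?_ (hV.x_nonneg j hj i hi')
  by_cases h0 : s'.st i = 0
  · exact helper28_closed hV h hj hi' hst h0 (hcl i hi' h0)
  · have hn := O.off_nonneg _ (hV.prof hj) i (Nat.lt_succ_of_lt hi') _ (helper28_rho hV s hj)
    have e : s'.al i = 0 := if_neg h0
    rw [helper28_open hV hj hi' h0, e, Nat.cast_zero, sub_zero]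
    exact add_nonneg (Isum_nonneg _ hn _ _)
      (div_nonneg (mul_nonneg (hn _) (Nat.cast_nonneg _)) (Nat.cast_nonneg _))

lemma h58_ev_st (s : St) (o : ℕ) (b : Bool) {i : ℕ} (hi : i < V.n) :
    (ev O V s o b).st i = if i = o then 1 else s.st i := St.make_st hi

lemma h58_ev_lam (s : St) (o : ℕ) (b : Bool) {i : ℕ} (hi : i < V.n) :
    (ev O V s o b).lam i = evl O V s o i := St.make_lam hi

lemma h58_ev_lam_le (s : St) (o : ℕ) (b : Bool) {i : ℕ} (hi : i < V.n) :
    (ev O V s o b).lam i ≤ s.lam i := by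
  rw [h58_ev_lam s o b hi]
  unfold evl
  split_ifs
  · exact min_le_left _ _
  · exact le_rfl

lemma h58_ev_mu_le (s : St) (o : ℕ) (b : Bool) {i : ℕ} (hi : i < V.n) :
    (ev O V s o b).mu i ≤ s.mu i := by
  unfold ev
  rw [St.make_mu hi]
  by_cases h : s.st i = 0 ∧ i ≠ o
  · rw [if_pos h]; exact min_le_left _ _
  · rw [if_neg h]

lemma h58_clk (s : St) (i : ℕ) : s.t ≤ s.clk i := by
  unfold St.clk
  split_ifs <;> omega

/-- If `x j o = 0` or `rho ≤ dist j o` (offer zero) use `psi_mono`. Otherwise the new `rho` is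
`dist j o` (`rho_open`); apply `OfferSys.hP'` to the profile with `lam l, mu l` the state values for
closed `l < n` and `0` otherwise, `lam' l, mu' l` the new values for closed `l < n`, `l ≠ o`, and `0`
otherwise (`lev_rho_le_tau` in both states via `inv_ev`, `Valid.jump`; clocks are `t` or `t+1`);
terms of open facilities and of the entry `n` vanish by `off_zero`; finally `x / y ≤ 1`. -/
lemma psi_ev (hV : V.Valid Hd) (h : Inv O V Θ s) (ht : s.t < TT O V) {o : ℕ} (ho : o < V.n)
    (hs : s.st o = 0) (hy : 0 < V.y o) (b : Bool) {j : ℕ} (hj : j < V.nc) :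
    Psi O V (ev O V s o b) j ≤ Psi O V s j -
      V.x j o * O.off (V.prof j) o (rho V s j) s.t / V.y o + ∑ i ∈ range V.n, V.x j i *
        (O.off (V.prof j) i (rho V s j) s.t *
          ((s.al i : ℚ) - ((ev O V s o b).al i : ℚ)) / (O.M : ℚ)) := by
  have h' : Inv O V Θ (ev O V s o b) := inv_ev hV h ho hs hy b
  have hP := hV.prof hj
  have hst : ∀ i < V.n, (ev O V s o b).st i ≠ 0 ↔ i = o ∨ s.st i ≠ 0 := by
    intro i hi
    rw [h58_ev_st s o b hi]
    by_cases hio : i = o
    · simp [hio]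
    · simp [hio]
  have hPx : ∀ i < V.n, (V.prof j).x i = V.x j i := fun i hi => if_pos hi
  have hPd : ∀ i < V.n, (V.prof j).d i = V.dist j i := fun i hi => if_pos hi
  have hPdn : (V.prof j).d V.n = V.r0 j := if_neg (lt_irrefl _)
  have hPm : (V.prof j).m = V.n + 1 := rfl
  have hρL : rho V s j ≤ (V.prof j).L := (rho_le_r0 s j).trans (hV.r0_le j hj)
  have ho' : o < (V.prof j).m := Nat.lt_succ_of_lt ho
  by_cases hA : V.x j o = 0 ∨ rho V s j ≤ V.dist j o
  · have h0 : V.x j o * O.off (V.prof j) o (rho V s j) s.t / V.y o = 0 := by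
      rcases hA with hA | hA
      · rw [hA, zero_mul, zero_div]
      · rw [O.off_zero _ hP o ho' _ (by rw [hPd o ho]; exact hA), mul_zero, zero_div]
    rw [h0, sub_zero]
    exact psi_mono hV h hj (fun i hi hi0 => (hst i hi).2 (Or.inr hi0)) fun i hi hi0 =>
      ⟨h58_ev_lam_le s o b hi, h'.mu_lo i hi hi0, h58_ev_mu_le s o b hi⟩
  push Not at hA
  obtain ⟨hx0, hd⟩ := hA
  have hx : 0 < V.x j o := lt_of_le_of_ne (hV.x_nonneg j hj o ho) (Ne.symm hx0)
  have hρ' : rho V (ev O V s o b) j = V.dist j o := by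
    rw [rho_open ho hst j, min_eq_right hd.le]
  obtain ⟨s', hs'⟩ : ∃ s', s' = ev O V s o b := ⟨_, rfl⟩
  have ht' : s'.t = s.t := by rw [hs']; rfl
  have hlam : ∀ i < V.n, s'.lam i ≤ s.lam i := fun i hi => hs' ▸ h58_ev_lam_le s o b hi
  have hlam2 : ∀ i < V.n, s'.st i = 0 → 0 < V.x j i →
      s'.lam i ≤ O.lev (V.dist j o + V.dist j i) := by
    intro i hi hi0 hxi
    have hn : ¬ (i = o ∨ s.st i ≠ 0) := fun hh => (hst i hi).2 hh (hs' ▸ hi0)
    push Not at hn
    obtain ⟨hJ, hD⟩ := hV.jump j hj i hi o ho hxi hx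
    rw [hs', h58_ev_lam s o b hi]
    unfold evl
    rw [if_pos ⟨hn.2, hn.1, hJ⟩]
    exact (min_le_right _ _).trans (O.lev_mono ((min_le_left _ _).trans hD))
  rw [← hs'] at h' hst hρ' ⊢
  have hopen : ∀ i < V.n, s.st i ≠ 0 → rho V s j ≤ V.dist j i := fun i hi hi0 =>
    rho_le_dist hi hi0
  have hopen' : ∀ i < V.n, s'.st i ≠ 0 → V.dist j o ≤ V.dist j i := fun i hi hi0 =>
    hρ' ▸ rho_le_dist hi hi0
  have hr0 := rho_le_r0 (V := V) s j
  have H := O.hP' hP hρL ho' (by rw [hPx o ho]; exact hx) (by rw [hPd o ho]; exact hd)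
    (t := s.t) ht
    (fun l => if l < V.n ∧ s.st l = 0 then s.lam l else 0)
    (fun l => if l < V.n ∧ s'.st l = 0 then s'.lam l else 0)
    (fun l => if l < V.n then s.al l else 0) (fun l => if l < V.n then s'.al l else 0) (by
      intro l hl hxl
      rw [hPd o ho]
      by_cases hln : l < V.n
      · rw [hPx l hln] at hxl
        rw [hPd l hln]
        simp only [hln, true_and, if_true, St.al]
        have A : O.lev (rho V s j - V.dist j l) ≤ (if s.st l = 0 then s.lam l else 0) ∧
            (if s.st l = 0 then s.lam l else 0) ≤ O.lev (V.prof j).L ∧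
            mm O.M (s.t + 1) (if s.st l = 0 then s.lam l else 0) ≤
              (if s.st l = 0 then s.mu l else 0) ∧
            (if s.st l = 0 then s.mu l else 0) ≤
              mm O.M s.t (if s.st l = 0 then s.lam l else 0) := by
          by_cases h0 : s.st l = 0
          · simp only [h0, if_true]
            exact ⟨(lev_rho_le_tau hV hj hln hxl).trans (h.tau_le l hln h0), h.lam_le l hln,
              h.mu_lo l hln h0, (h.mu_hi l hln h0).trans (mm_mono _ (h58_clk s l) le_rfl)⟩
          · simp only [h0, if_false, mm_zero, Nat.zero_le, le_refl, and_true]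
            rw [Nat.sub_eq_zero_of_le (hopen l hln h0), O.lev_zero]
        have B : (if s'.st l = 0 then s'.lam l else 0) ≤ (if s.st l = 0 then s.lam l else 0) ∧
            O.lev (V.dist j o - V.dist j l) ≤ (if s'.st l = 0 then s'.lam l else 0) ∧
            (if s'.st l = 0 then s'.lam l else 0) ≤ O.lev (V.dist j o + V.dist j l) ∧
            mm O.M (s.t + 1) (if s'.st l = 0 then s'.lam l else 0) ≤
              (if s'.st l = 0 then s'.mu l else 0) ∧
            (if s'.st l = 0 then s'.mu l else 0) ≤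
              mm O.M s.t (if s'.st l = 0 then s'.lam l else 0) := by
          by_cases h0 : s'.st l = 0
          · have h1 : s.st l = 0 := by
              by_contra h1
              exact (hst l hln).2 (Or.inr h1) h0
            simp only [h0, h1, if_true]
            refine ⟨hlam l hln, ?_, hlam2 l hln h0 hxl, ht' ▸ h'.mu_lo l hln h0,
              (h'.mu_hi l hln h0).trans (mm_mono _ (ht' ▸ h58_clk s' l) le_rfl)⟩
            exact hρ' ▸ (lev_rho_le_tau hV hj hln hxl).trans (h'.tau_le l hln h0)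
          · simp only [h0, if_false, mm_zero, Nat.zero_le, le_refl, and_true, true_and]
            rw [Nat.sub_eq_zero_of_le (hopen' l hln h0), O.lev_zero]
        exact ⟨A.1, A.2.1, B.1, B.2.1, B.2.2.1, A.2.2.1, A.2.2.2, B.2.2.2.1, B.2.2.2.2⟩
      · have hl' : l = V.n := by rw [hPm] at hl; omega
        subst hl'
        rw [hPdn]
        simp only [lt_irrefl, false_and, if_false, mm_zero, Nat.zero_le, le_refl, and_true,
          true_and]
        rw [Nat.sub_eq_zero_of_le hr0, Nat.sub_eq_zero_of_le (hd.le.trans hr0), O.lev_zero]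
        exact ⟨le_rfl, le_rfl⟩)
  rw [hPd o ho, hPm, Finset.sum_range_succ, Finset.sum_range_succ] at H
  have hn' : V.n < (V.prof j).m := Nat.lt_succ_self _
  have z1 : ∀ t, O.off (V.prof j) V.n (V.dist j o) t = 0 :=
    O.off_zero _ hP _ hn' _ (by rw [hPdn]; exact hd.le.trans hr0)
  have z2 : ∀ t, O.off (V.prof j) V.n (rho V s j) t = 0 :=
    O.off_zero _ hP _ hn' _ (by rw [hPdn]; exact hr0)
  rw [Isum_zero _ z1, Isum_zero _ z2, z2, zero_mul, zero_div, add_zero, mul_zero, add_zero,
    add_zero] at H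
  have e1 : ∑ l ∈ range V.n, (V.prof j).x l * Isum O.M (O.off (V.prof j) l (V.dist j o))
        (if l < V.n ∧ s'.st l = 0 then s'.lam l else 0) (if l < V.n then s'.al l else 0) =
      ∑ i ∈ range V.n, V.x j i * Isum O.M (O.off (V.prof j) i (V.dist j o)) (s'.lam i)
        (s'.al i) := by
    refine Finset.sum_congr rfl fun l hl => ?_
    have hln := Finset.mem_range.1 hl
    rw [hPx l hln, if_pos hln]
    by_cases h0 : s'.st l = 0
    · rw [if_pos ⟨hln, h0⟩]
    · have z : ∀ t, O.off (V.prof j) l (V.dist j o) t = 0 :=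
        O.off_zero _ hP _ (Nat.lt_succ_of_lt hln) _ (by rw [hPd l hln]; exact hopen' l hln h0)
      rw [Isum_zero _ z, Isum_zero _ z]
  have e2 : ∑ l ∈ range V.n, (V.prof j).x l * (Isum O.M (O.off (V.prof j) l (rho V s j))
        (if l < V.n ∧ s.st l = 0 then s.lam l else 0) (if l < V.n then s.al l else 0) +
        O.off (V.prof j) l (rho V s j) s.t * (((if l < V.n then s.al l else 0 : ℕ) : ℚ) -
          ((if l < V.n then s'.al l else 0 : ℕ) : ℚ)) / (O.M : ℚ)) =
      ∑ i ∈ range V.n, V.x j i * Isum O.M (O.off (V.prof j) i (rho V s j)) (s.lam i) (s.al i) +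
      ∑ i ∈ range V.n, V.x j i * (O.off (V.prof j) i (rho V s j) s.t *
          ((s.al i : ℚ) - (s'.al i : ℚ)) / (O.M : ℚ)) := by
    rw [← Finset.sum_add_distrib]
    refine Finset.sum_congr rfl fun l hl => ?_
    have hln := Finset.mem_range.1 hl
    rw [hPx l hln, if_pos hln, if_pos hln, mul_add]
    by_cases h0 : s.st l = 0
    · rw [if_pos ⟨hln, h0⟩]
    · have z : ∀ t, O.off (V.prof j) l (rho V s j) t = 0 :=
        O.off_zero _ hP _ (Nat.lt_succ_of_lt hln) _ (by rw [hPd l hln]; exact hopen l hln h0)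
      rw [Isum_zero _ z, Isum_zero _ z]
  rw [e1, e2] at H
  have hoff : V.x j o * O.off (V.prof j) o (rho V s j) s.t / V.y o ≤
      O.off (V.prof j) o (rho V s j) s.t := by
    rw [div_le_iff₀ hy, mul_comm]
    exact mul_le_mul_of_nonneg_left (hV.x_le j hj o ho) (O.off_nonneg _ hP o ho' _ hρL _)
  unfold Psi
  rw [hρ']
  linarith

/-- exchange of sums; if `y i = 0` then `x j i = 0` -/
lemma sum_UU (hV : V.Valid Hd) (s s' : St) :
    ∑ j ∈ range V.nc, V.w j * ∑ i ∈ range V.n, V.x j i *
        (O.off (V.prof j) i (rho V s j) s.t * ((s.al i : ℚ) - (s'.al i : ℚ)) / (O.M : ℚ)) =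
      ∑ i ∈ range V.n, UU O V s i / V.y i * dead O V s s' i := by
  simp only [mul_sum]
  rw [sum_comm]
  refine sum_congr rfl fun i hi => ?_
  have hi' := mem_range.1 hi
  unfold UU dead
  rw [sum_div, sum_mul]
  refine sum_congr rfl fun j hj => ?_
  have hj' := mem_range.1 hj
  rcases (hV.y_nonneg i hi').eq_or_lt with h0 | h0
  · have hx : V.x j i = 0 := le_antisymm (h0 ▸ hV.x_le j hj' i hi') (hV.x_nonneg j hj' i hi')
    simp [hx]
  · field_simp

/-! ### the variance term -/

/-- `var_alg` with `P = {i < n | i = o ∨ i = src ∨ (¬ free i ∧ J o i)}`, `h = Hd + 2`, `θ = Θ + 1`: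
outside `P` the drop is `AA s i o`, nonzero only for free `i ≠ o`, so the total is at most `fk s o`,
and at most `Ff s - Ff s'` because all alive counts drop. -/
lemma var_ev (hV : V.Valid Hd) (h : Inv O V Θ s) {o : ℕ} (ho : o < V.n) (hs : s.st o = 0)
    (hy : 0 < V.y o) (b : Bool) :
    (Mt O V (ev O V s o b) - V.mass) ^ 2 + QQ O V Hd Θ (ev O V s o b) ≤
      (Mt O V s - V.mass) ^ 2 + QQ O V Hd Θ s + ∑ i ∈ range V.n,
        (2 * (Mt O V s - V.mass) + 2 * ((Hd + 2 : ℕ) : ℚ) * (1 - 2 * NN O V s i)) *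
          (NN O V (ev O V s o b) i - NN O V s i) := by
  set P := (range V.n).filter fun i => i = o ∨ i = src O V s ∨ (V.free i = false ∧ V.J o i = true)
    with hP
  have key : ∀ i < V.n, i ∉ P → i ≠ o ∧ NN O V s i - NN O V (ev O V s o b) i = AA O V s i o ∧
      dead O V s (ev O V s o b) i = AA O V s i o ∧ (V.free i = true ∨ AA O V s i o = 0) := by
    intro i hi hn
    simp only [hP, mem_filter, mem_range, hi, true_and, not_or] at hn
    have h1 : dead O V s (ev O V s o b) i = AA O V s i o := by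
      cases b
      · exact dead_ev_false hV h ho hi
      · exact dead_ev_true hV h ho hi hn.2.1
    have h2 := NN_ev (O := O) hi hs b
    rw [if_neg hn.1] at h2
    refine ⟨hn.1, by linarith, h1, ?_⟩
    by_cases h3 : V.free i = true
    · exact Or.inl h3
    · refine Or.inr ?_
      have h4 : ¬ V.J o i = true := fun h4 => hn.2.2 ⟨by simpa using h3, h4⟩
      rw [AA, kill, if_neg h4, Nat.cast_zero, mul_zero, zero_div]
  have := var_alg V.n (NN O V s) (NN O V (ev O V s o b)) P (Hd + 2) ((Θ : ℚ) + 1) V.mass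
    (Ff O V s) (Ff O V (ev O V s o b)) (filter_subset _ _) ?_ ?_ ?_ ?_
  · exact this
  · have h1 : P ⊆ insert o (insert (src O V s)
        ((range V.n).filter fun i => V.free i = false ∧ V.J o i = true)) := by
      intro i hi
      simp only [hP, mem_filter, mem_insert] at hi ⊢
      tauto
    have h2 := card_insert_le o (insert (src O V s)
        ((range V.n).filter fun i => V.free i = false ∧ V.J o i = true))
    have h3 := card_insert_le (src O V s)
        ((range V.n).filter fun i => V.free i = false ∧ V.J o i = true)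
    have h4 := hV.deg o ho
    have h5 := card_le_card h1
    omega
  · intro i hi hn
    have h1 := (key i hi hn).2.1
    have h2 := AA_nonneg (O := O) hV s hi o
    linarith
  · refine le_trans ?_ (h.fk_le o ho hs hy)
    rw [fk]
    refine le_trans (sum_le_sum fun i hi => ?_) (sum_le_sum_of_subset_of_nonneg sdiff_subset
      fun i hi _ => ?_)
    · obtain ⟨h1, h2, -, h4⟩ := key i (mem_range.1 (mem_sdiff.1 hi).1) (mem_sdiff.1 hi).2
      rw [h2]
      rcases h4 with h4 | h4
      · rw [if_pos ⟨h4, h1⟩]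
      · rw [h4, ite_self]
    · split_ifs
      · exact AA_nonneg hV s (mem_range.1 hi) o
      · exact le_rfl
  · rw [helper28_Ff]
    refine le_trans (sum_le_sum fun i hi => ?_) (sum_le_sum_of_subset_of_nonneg sdiff_subset
      fun i hi _ => helper28_dead hV (mem_range.1 hi) (al_ev_le s o b (mem_range.1 hi)))
    obtain ⟨-, h2, h3, h4⟩ := key i (mem_range.1 (mem_sdiff.1 hi).1) (mem_sdiff.1 hi).2
    rw [h2, h3]
    rcases h4 with h4 | h4
    · rw [if_pos h4]
    · rw [h4, ite_self]

/-- `var_alg` with `P = {src}` -/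
lemma var_move0 (hV : V.Valid Hd) (hp : s.ptr < V.n) :
    (Mt O V (move0 O V s) - V.mass) ^ 2 + QQ O V Hd Θ (move0 O V s) ≤
      (Mt O V s - V.mass) ^ 2 + QQ O V Hd Θ s + ∑ i ∈ range V.n,
        (2 * (Mt O V s - V.mass) + 2 * ((Hd + 2 : ℕ) : ℚ) * (1 - 2 * NN O V s i)) *
          (NN O V (move0 O V s) i - NN O V s i) := by
  have key : ∀ i < V.n, i ∉ ({src O V s} : Finset ℕ) →
      NN O V s i - NN O V (move0 O V s) i = 0 := by
    intro i hi hn
    have h1 := NN_move0 (O := O) (s := s) hi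
    rw [dead_move0 hi (by simpa using hn)] at h1
    linarith
  have h0 : ∑ i ∈ range V.n \ {src O V s}, (NN O V s i - NN O V (move0 O V s) i) = 0 :=
    sum_eq_zero fun i hi => key i (mem_range.1 (mem_sdiff.1 hi).1) (mem_sdiff.1 hi).2
  have := var_alg V.n (NN O V s) (NN O V (move0 O V s)) {src O V s} (Hd + 2) ((Θ : ℚ) + 1) V.mass
    (Ff O V s) (Ff O V (move0 O V s)) (singleton_subset_iff.2 (mem_range.2 (src_lt hp)))
    (by rw [card_singleton]; omega) (fun i hi hn => by linarith [key i hi hn])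
    (by rw [h0]; positivity) (by
      rw [h0, helper28_Ff]
      exact sum_nonneg fun i hi =>
        helper28_dead hV (mem_range.1 hi) (al_move0_le s (mem_range.1 hi)))
  exact this

/-! ### the potential -/

/-- `psi_ev` summed with weights, `sum_UU`, `var_ev`, `NN_ev` -/
lemma phi_ev (hV : V.Valid Hd) (h : Inv O V Θ s) (hpen : 0 ≤ pen) (ht : s.t < TT O V) {o : ℕ}
    (ho : o < V.n) (hs : s.st o = 0) (hy : 0 < V.y o) (b : Bool) :
    Phi O V Hd Θ pen (ev O V s o b) ≤ Phi O V Hd Θ pen s +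
      (-cc O V Hd pen s o + ∑ k ∈ range V.n, cc O V Hd pen s k * dead O V s (ev O V s o b) k) := by
  have h1 : ∑ j ∈ range V.nc, V.w j * Psi O V (ev O V s o b) j ≤
      ∑ j ∈ range V.nc, V.w j * Psi O V s j - UU O V s o / V.y o +
        ∑ i ∈ range V.n, UU O V s i / V.y i * dead O V s (ev O V s o b) i := by
    rw [← sum_UU hV, UU, Finset.sum_div, ← Finset.sum_sub_distrib, ← Finset.sum_add_distrib]
    refine Finset.sum_le_sum fun j hj => ?_
    have hj' := Finset.mem_range.1 hj
    refine (mul_le_mul_of_nonneg_left (psi_ev hV h ht ho hs hy b hj') (hV.w_nonneg j hj')).trans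
      (le_of_eq ?_)
    ring
  have h2 := mul_le_mul_of_nonneg_left (var_ev hV h ho hs hy b) hpen
  have h3 : ∑ i ∈ range V.n,
      (2 * (Mt O V s - V.mass) + 2 * ((Hd + 2 : ℕ) : ℚ) * (1 - 2 * NN O V s i)) *
        (NN O V (ev O V s o b) i - NN O V s i) =
      (2 * (Mt O V s - V.mass) + 2 * ((Hd + 2 : ℕ) : ℚ) * (1 - 2 * NN O V s o)) -
        ∑ i ∈ range V.n,
          (2 * (Mt O V s - V.mass) + 2 * ((Hd + 2 : ℕ) : ℚ) * (1 - 2 * NN O V s i)) *
            dead O V s (ev O V s o b) i := by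
    rw [Finset.sum_congr rfl fun i hi => by rw [NN_ev (Finset.mem_range.1 hi) hs b, mul_sub],
      Finset.sum_sub_distrib]
    simp only [mul_ite, mul_one, mul_zero]
    rw [Finset.sum_ite_eq' (range V.n) o, if_pos (Finset.mem_range.2 ho)]
  have h4 : ∑ k ∈ range V.n, cc O V Hd pen s k * dead O V s (ev O V s o b) k =
      ∑ i ∈ range V.n, UU O V s i / V.y i * dead O V s (ev O V s o b) i - pen *
        ∑ i ∈ range V.n,
          (2 * (Mt O V s - V.mass) + 2 * ((Hd + 2 : ℕ) : ℚ) * (1 - 2 * NN O V s i)) *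
            dead O V s (ev O V s o b) i := by
    rw [Finset.mul_sum, ← Finset.sum_sub_distrib]
    refine Finset.sum_congr rfl fun i _ => ?_
    unfold cc
    ring
  rw [h3] at h2
  rw [h4]
  unfold Phi
  rw [cc]
  linarith

/-- `psi_mono`, `sum_UU`, `var_move0`, `NN_move0`, `dead_move0` -/
lemma phi_move0 (hV : V.Valid Hd) (h : Inv O V Θ s) (hpen : 0 ≤ pen) (hp : s.ptr < V.n) :
    Phi O V Hd Θ pen (move0 O V s) ≤ Phi O V Hd Θ pen s +
      cc O V Hd pen s (src O V s) * dead O V s (move0 O V s) (src O V s) := by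
  have hsrc := Finset.mem_range.2 (src_lt (O := O) hp)
  have hst : ∀ i < V.n, (move0 O V s).st i = s.st i := by
    intro i hi
    unfold move0
    split_ifs <;> exact St.make_st hi
  have hcl : ∀ i < V.n, (move0 O V s).st i = 0 → (move0 O V s).lam i ≤ s.lam i ∧
      mm O.M (s.t + 1) ((move0 O V s).lam i) ≤ (move0 O V s).mu i ∧
        (move0 O V s).mu i ≤ s.mu i := by
    intro i hi h0
    rw [hst i hi] at h0
    have hlo := h.mu_lo i hi h0
    unfold move0
    by_cases hpd : (pend O V s).isSome = true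
    · rw [if_pos hpd, St.make_lam hi, St.make_mu hi]
      by_cases hi' : i = src O V s
      · rw [if_pos hi', if_pos hi']
        refine ⟨Nat.sub_le _ _, le_min ((mm_mono _ le_rfl (Nat.sub_le _ _)).trans hlo)
          (mm_mono _ ?_ le_rfl), min_le_left _ _⟩
        unfold St.clk
        split_ifs <;> omega
      · rw [if_neg hi', if_neg hi']
        exact ⟨le_rfl, hlo, le_rfl⟩
    · rw [if_neg hpd, St.make_lam hi, St.make_mu hi]
      split_ifs
      · exact ⟨le_rfl, le_min hlo le_rfl, min_le_left _ _⟩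
      · exact ⟨le_rfl, hlo, le_rfl⟩
  have h1 : ∑ j ∈ range V.nc, V.w j * Psi O V (move0 O V s) j ≤
      ∑ j ∈ range V.nc, V.w j * Psi O V s j +
        ∑ i ∈ range V.n, UU O V s i / V.y i * dead O V s (move0 O V s) i := by
    rw [← sum_UU hV, ← Finset.sum_add_distrib]
    refine Finset.sum_le_sum fun j hj => ?_
    have hj' := Finset.mem_range.1 hj
    refine (mul_le_mul_of_nonneg_left (psi_mono hV h hj' (fun i hi h0 => by rwa [hst i hi]) hcl)
      (hV.w_nonneg j hj')).trans (le_of_eq ?_)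
    ring
  have h2 := mul_le_mul_of_nonneg_left (var_move0 (O := O) (Θ := Θ) hV hp) hpen
  rw [Finset.sum_eq_single_of_mem _ hsrc fun i hi hne => by
    rw [dead_move0 (Finset.mem_range.1 hi) hne, mul_zero]] at h1
  rw [Finset.sum_eq_single_of_mem _ hsrc fun i hi hne => by
    rw [NN_move0 (Finset.mem_range.1 hi), dead_move0 (Finset.mem_range.1 hi) hne, neg_zero,
      mul_zero], NN_move0 (Finset.mem_range.1 hsrc)] at h2
  unfold Phi cc
  linarith

lemma phi_wrap (s : St) : Phi O V Hd Θ pen s.wrap = Phi O V Hd Θ pen s := by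
  rfl

/-- `NN` is unchanged, `Ff` drops; clients: as in `psi_mono`, but the freed facility `o` contributes
`0 ≤` its old term, so no benefit term is needed. -/
lemma phi_fopen (hV : V.Valid Hd) (h : Inv O V Θ s) (hpen : 0 ≤ pen) {o : ℕ} (ho : o < V.n)
    (hs : s.st o = 0) : Phi O V Hd Θ pen (fopen V s o) ≤ Phi O V Hd Θ pen s := by
  have est : ∀ i < V.n, (fopen V s o).st i = if i = o then 2 else s.st i := fun i hi =>
    St.make_st hi
  have elam : ∀ i < V.n, (fopen V s o).lam i = s.lam i := fun i hi => St.make_lam hi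
  have emu : ∀ i < V.n, (fopen V s o).mu i = s.mu i := fun i hi => St.make_mu hi
  have hst : ∀ i < V.n, s.st i ≠ 0 → (fopen V s o).st i ≠ 0 := fun i hi h0 => by
    rw [est i hi]
    split_ifs
    · exact two_ne_zero
    · exact h0
  have hal : ∀ i < V.n, (fopen V s o).al i ≤ s.al i := fun i hi => by
    rw [St.al, St.al, emu i hi]
    by_cases h0 : s.st i = 0
    · rw [if_pos h0]
      split_ifs
      · exact le_rfl
      · exact Nat.zero_le _
    · rw [if_neg h0, if_neg (hst i hi h0)]
  have hN : ∀ i ∈ range V.n, NN O V (fopen V s o) i = NN O V s i := fun i hi => by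
    have hi' := mem_range.1 hi
    rw [NN, NN, est i hi', emu i hi']
    by_cases hio : i = o
    · rw [if_pos hio, if_neg (by norm_num), hio, hs, if_neg (by norm_num)]
    · rw [if_neg hio]
  have hM : Mt O V (fopen V s o) = Mt O V s := sum_congr rfl hN
  have hF : Ff O V (fopen V s o) ≤ Ff O V s := by
    rw [← sub_nonneg, helper28_Ff]
    exact sum_nonneg fun i hi => helper28_dead hV (mem_range.1 hi) (hal i (mem_range.1 hi))
  have hQ : QQ O V Hd Θ (fopen V s o) ≤ QQ O V Hd Θ s := by
    rw [QQ, QQ, sum_congr rfl fun i hi => by rw [hN i hi]]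
    have : (0 : ℚ) ≤ 2 * ((Θ : ℚ) + 1) := by positivity
    linarith [mul_le_mul_of_nonneg_left hF this]
  rw [Phi, Phi, hM]
  refine add_le_add (sum_le_sum fun j hj => ?_) (mul_le_mul_of_nonneg_left (by linarith) hpen)
  have hj' := mem_range.1 hj
  refine mul_le_mul_of_nonneg_left ?_ (hV.w_nonneg j hj')
  refine add_le_add (O.G_mono _ (hV.prof hj') _ (helper28_rho hV s hj') _ (rho_mono hst j))
    (sum_le_sum fun i hi => ?_)
  have hi' := mem_range.1 hi
  refine mul_le_mul_of_nonneg_left ?_ (hV.x_nonneg j hj' i hi')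
  by_cases h0 : (fopen V s o).st i = 0
  · have h1 : s.st i = 0 := by
      by_contra h1
      exact hst i hi' h1 h0
    have h2 := helper28_closed hV h hj' hi' hst h0
      ⟨(elam i hi').le, by rw [elam i hi', emu i hi']; exact h.mu_lo i hi' h1, (emu i hi').le⟩
    have e : (fopen V s o).al i = s.al i := by
      rw [St.al, St.al, if_pos h0, if_pos h1, emu i hi']
    rw [e, sub_self, mul_zero, zero_div, add_zero] at h2
    rw [e]
    exact h2
  · rw [helper28_open hV hj' hi' h0]
    exact Isum_nonneg _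
      (O.off_nonneg _ (hV.prof hj') i (Nat.lt_succ_of_lt hi') _ (helper28_rho hV s hj')) _ _

lemma h31_move0_st (s : St) {i : ℕ} (hi : i < V.n) : (move0 O V s).st i = s.st i := by
  unfold move0
  split_ifs <;> exact St.make_st hi

lemma h31_AA_zero (hV : V.Valid Hd) {o : ℕ} (ho : o < V.n) (hn : ¬ (s.st o = 0 ∧ 0 < V.y o))
    (k : ℕ) : AA O V s o k = 0 := by
  unfold AA
  by_cases hs : s.st o = 0
  · have hy : V.y o = 0 := le_antisymm (not_lt.1 fun hy => hn ⟨hs, hy⟩) (hV.y_nonneg o ho)
    rw [hy, zero_mul, zero_div]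
  · have hk : kill O V s o k = 0 := by
      unfold kill St.al
      rw [if_neg hs]
      split_ifs
      · exact Nat.zero_sub _
      · rfl
    rw [hk, Nat.cast_zero, mul_zero, zero_div]

lemma h31_ev_mem {o : ℕ} (ho : o < V.n) (hs : s.st o = 0) (hy : 0 < V.y o) (b : Bool) :
    ev O V s o b ∈ moves O V s := by
  have hc : o ∈ cands V s := by
    unfold cands
    rw [List.mem_filter, List.mem_range, decide_eq_true_iff]
    exact ⟨ho, hs, hy⟩
  unfold moves
  refine List.mem_append_right _ ?_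
  cases b
  · exact List.mem_append_left _ (List.mem_map.2 ⟨o, hc, rfl⟩)
  · exact List.mem_append_right _ (List.mem_map.2 ⟨o, hc, rfl⟩)

lemma h31_ev_false (hV : V.Valid Hd) (h : Inv O V Θ s) (hpen : 0 ≤ pen) (ht : s.t < TT O V)
    {o : ℕ} (ho : o < V.n) (hs : s.st o = 0) (hy : 0 < V.y o)
    (hle : -cc O V Hd pen s o + ∑ k ∈ range V.n, cc O V Hd pen s k * AA O V s k o ≤ 0) :
    ∃ s' ∈ moves O V s, Phi O V Hd Θ pen s' ≤ Phi O V Hd Θ pen s := by
  refine ⟨_, h31_ev_mem ho hs hy false, ?_⟩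
  have h1 := phi_ev hV h hpen ht ho hs hy false
  rw [Finset.sum_congr rfl fun k hk => by rw [dead_ev_false hV h ho (mem_range.1 hk)]] at h1
  linarith

/-- `avg_allowed` if `mchk` holds, else `avg_blocked` (in the pending case `mchk` holds by
`AA_le_of` and `MInv.mono`), with `cand o := st o = 0 ∧ 0 < y o`, `i = src`, `c = cc`,
`b = dead s (move0 s) src`, `A2 o = dead s (ev s o true) src`. -/
lemma exists_move (hV : V.Valid Hd) (h : Inv O V Θ s) (hpen : 0 ≤ pen) (ht : s.t < TT O V)
    (hp : s.ptr < V.n) : ∃ s' ∈ moves O V s, Phi O V Hd Θ pen s' ≤ Phi O V Hd Θ pen s := by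
  have hi : src O V s < V.n := src_lt hp
  have h0 : ∀ i < V.n, ∀ k < V.n, 0 ≤ AA O V s i k := fun i hi k _ => AA_nonneg hV s hi k
  have hc : ∀ o < V.n, ¬ (s.st o = 0 ∧ 0 < V.y o) → ∀ k < V.n, AA O V s o k = 0 :=
    fun o ho hn k _ => h31_AA_zero hV ho hn k
  by_cases hm : mchk V.n (AA O V (move0 O V s)) = true
  · have hb : 0 ≤ dead O V s (move0 O V s) (src O V s) := by
      unfold dead
      have h1 : ((move0 O V s).al (src O V s) : ℚ) ≤ s.al (src O V s) := by
        exact_mod_cast al_move0_le s hi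
      exact div_nonneg (mul_nonneg (hV.y_nonneg _ hi) (sub_nonneg.2 h1)) (Nat.cast_nonneg _)
    have hci : ¬ (s.st (src O V s) = 0 ∧ 0 < V.y (src O V s)) →
        dead O V s (move0 O V s) (src O V s) = 0 := by
      intro hn
      unfold dead
      by_cases hs : s.st (src O V s) = 0
      · have hy : V.y (src O V s) = 0 :=
          le_antisymm (not_lt.1 fun hy => hn ⟨hs, hy⟩) (hV.y_nonneg _ hi)
        rw [hy, zero_mul, zero_div]
      · have h1 : s.al (src O V s) = 0 := if_neg hs
        have h2 : (move0 O V s).al (src O V s) = 0 :=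
          Nat.le_zero.1 (h1 ▸ al_move0_le (O := O) s hi)
        rw [h1, h2, sub_self, mul_zero, zero_div]
    rcases avg_allowed h.minv h0 hi (cc O V Hd pen s) hb (fun o => s.st o = 0 ∧ 0 < V.y o) hc hci
      with h1 | ⟨o, ho, ⟨hs, hy⟩, h1⟩
    · refine ⟨move0 O V s, ?_, ?_⟩
      · unfold moves
        rw [if_pos hm]
        exact List.mem_append_left _ (List.mem_singleton_self _)
      · have h2 := phi_move0 hV h hpen hp
        linarith
    · exact h31_ev_false hV h hpen ht ho hs hy h1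
  · have hn : ¬ MInv V.n (AA O V (move0 O V s)) := fun hM =>
      hm ((mchk_iff fun i hi k _ => AA_nonneg hV _ hi k).2 hM)
    have hpend : (pend O V s).isSome = false := by
      by_contra hpe
      have hpe' : (pend O V s).isSome = true := Bool.of_not_eq_false hpe
      refine hn (h.minv.mono fun i hi k _ => ?_)
      refine (AA_le_of hV (fun i hi => al_move0_le s hi) fun i _ => ?_).1 i hi k
      unfold move0
      rw [if_pos hpe']
      rfl
    obtain ⟨o, ho, ⟨hs, hy⟩, h1⟩ := avg_blocked (A' := AA O V (move0 O V s)) h.minv h0 hi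
      (cc O V Hd pen s) (fun o => s.st o = 0 ∧ 0 < V.y o)
      (fun o => dead O V s (ev O V s o true) (src O V s))
      (fun k hk hne o _ => AA_move0_row s hk hne o) (fun o _ => AA_move0_le hV hp hpend o) hn hc
      (fun hn' k _ => h31_AA_zero hV hi (by rw [h31_move0_st s hi]; exact hn') k)
    rcases h1 with h1 | h1
    · exact h31_ev_false hV h hpen ht ho hs hy h1
    · refine ⟨_, h31_ev_mem ho hs hy true, ?_⟩
      have h2 := phi_ev hV h hpen ht ho hs hy true
      have h3 : ∑ k ∈ range V.n, cc O V Hd pen s k * dead O V s (ev O V s o true) k =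
          ∑ k ∈ range V.n, cc O V Hd pen s k * AA O V s k o + cc O V Hd pen s (src O V s) *
            (dead O V s (ev O V s o true) (src O V s) - AA O V s (src O V s) o) := by
        rw [← Finset.add_sum_erase _ _ (mem_range.2 hi), ← Finset.add_sum_erase _ _ (mem_range.2 hi),
          Finset.sum_congr rfl fun k hk => by
            rw [dead_ev_true hV h ho (mem_range.1 (mem_of_mem_erase hk)) (ne_of_mem_erase hk)]]
        ring
      linarith

/-- the last branch of `step` -/
lemma h31_argmin (hV : V.Valid Hd) (h : Inv O V Θ s) (hpen : 0 ≤ pen) (ht : s.t < TT O V)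
    (hp : s.ptr < V.n) :
    ((moves O V s).argmin (Phi O V Hd Θ pen)).getD s ∈ moves O V s ∧
      Phi O V Hd Θ pen (((moves O V s).argmin (Phi O V Hd Θ pen)).getD s) ≤
        Phi O V Hd Θ pen s := by
  obtain ⟨s', hs', hle⟩ := exists_move hV h hpen ht hp
  cases hm : (moves O V s).argmin (Phi O V Hd Θ pen) with
  | none =>
    rw [List.argmin_eq_none] at hm
    rw [hm] at hs'
    exact absurd hs' List.not_mem_nil
  | some m =>
    rw [Option.getD_some]
    exact ⟨List.argmin_mem (Option.mem_def.2 hm),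
      (List.le_of_mem_argmin hs' (Option.mem_def.2 hm)).trans hle⟩

/-- `List.argmin` is a minimiser (`List.le_of_mem_argmin` / `argmin_le_of_mem`) -/
lemma phi_step (hV : V.Valid Hd) (h : Inv O V Θ s) (hpen : 0 ≤ pen) :
    Phi O V Hd Θ pen (step O V Hd Θ pen s) ≤ Phi O V Hd Θ pen s := by
  unfold step
  split_ifs with h1 h2 h3
  · exact le_rfl
  · exact (phi_wrap s).le
  · obtain ⟨ho, hs, -, -⟩ := heavy_some h3.2
    exact phi_fopen hV h hpen ho hs
  · exact (h31_argmin hV h hpen (not_le.1 h1) (not_le.1 h2)).2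

/-- `moves` is nonempty by `exists_move` -/
lemma meas_step (hV : V.Valid Hd) (h : Inv O V Θ s) (hpen : 0 ≤ pen) (ht : s.t < TT O V) :
    meas O V (step O V Hd Θ pen s) < meas O V s := by
  unfold step
  split_ifs with h1 h2 h3
  · exact absurd ht (not_lt.2 h1)
  · exact meas_wrap h ht h2
  · obtain ⟨ho, hs, -, -⟩ := heavy_some h3.2
    exact meas_fopen ho hs
  · rcases mem_moves (h31_argmin hV h hpen ht (not_le.1 h2)).1 with ⟨e, -⟩ | ⟨o, ho, hs, -, b, e⟩
    · rw [e]
      exact meas_move0 ht (not_le.1 h2)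
    · rw [e]
      exact meas_ev ho hs b

end Proc

end Crest.Agent.R310
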