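import Crest.Agent.R310.VIValid

/-! Row 310: costs in the virtual instance. -/

set_option autoImplicit false
set_option linter.dupNamespace false

namespace Crest.Agent.R310

open Finset

namespace MkV

variable {I : II} {K : ℕ} {y y1 : ℕ → ℚ} {core isU : ℕ → Bool} {usr : ℕ → ℕ}

/-- `List.argmin_mem`, `List.le_of_mem_argmin` -/
lemma nb_spec {i : ℕ} (hi : i < I.N) (hb : big K y1 core i = true) (a : ℕ) :
    nb I K y1 core a < I.N ∧ big K y1 core (nb I K y1 core a) = true ∧
      I.dd a (nb I K y1 core a) ≤ I.dd a i := by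
  have hmem : i ∈ (List.range I.N).filter (big K y1 core) := by simp [hi, hb]
  unfold nb
  cases h : ((List.range I.N).filter (big K y1 core)).argmin (I.dd a) with
  | none =>
    rw [List.argmin_eq_none] at h
    rw [h] at hmem
    simp at hmem
  | some m =>
    have h1 := List.argmin_mem (Option.mem_def.2 h)
    have h2 := List.le_of_mem_argmin hmem (Option.mem_def.2 h)
    simp only [List.mem_filter, List.mem_range] at h1
    exact ⟨h1.1, h1.2, h2⟩

private lemma h67_sum_ite {N m : ℕ} {P : Prop} [Decidable P] (h : P → m < N) (Ψ : ℕ → ℚ) :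
    ∑ q ∈ range N, (if P ∧ m = q then (1 : ℚ) else 0) * Ψ q = if P then Ψ m else 0 := by
  by_cases hP : P
  · simp [hP, h hP]
  · simp [hP]

private lemma h67_tch {j : ℕ} (ht : tch I K y1 core isU j = true) :
    (I.cl j = true ∧ isU j = false) ∧
      ∃ i < I.N, big K y1 core i = true ∧ 0 < I.nf y1 j i := by
  simpa only [tch, act, decide_eq_true_eq] using ht

/-- Weighted sums over the virtual clients (split `range (2 N)`, exchange the sums; `usr j < N`,
`nb j < N`; a touching `j < N` is an active client). -/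
lemma sum_vw (hU : ∀ j ∈ I.C, isU j = true → usr j < I.N) (Φ : ℕ → ℚ) :
    ∑ a ∈ range (2 * I.N), vw I K y1 core isU usr a * Φ a =
      ∑ j ∈ I.C, ((if isU j = true then Φ (I.N + usr j) else Φ j) +
        (if tch I K y1 core isU j = true then Φ (I.N + nb I K y1 core j) else 0)) := by
  rw [two_mul, Finset.sum_range_add, II.C, Finset.sum_filter]
  have h1 : ∑ a ∈ range I.N, vw I K y1 core isU usr a * Φ a =
      ∑ a ∈ range I.N, (if act I isU a = true then 1 else 0) * Φ a :=
    Finset.sum_congr rfl fun a ha => by rw [vw, if_pos (mem_range.1 ha)]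
  have h2 : ∑ q ∈ range I.N, vw I K y1 core isU usr (I.N + q) * Φ (I.N + q) =
      ∑ j ∈ range I.N, ((if I.cl j = true ∧ isU j = true then Φ (I.N + usr j) else 0) +
        (if tch I K y1 core isU j = true then Φ (I.N + nb I K y1 core j) else 0)) := by
    have h3 : ∀ q, vw I K y1 core isU usr (I.N + q) = ∑ j ∈ range I.N,
        ((if (I.cl j = true ∧ isU j = true) ∧ usr j = q then 1 else 0) +
          (if tch I K y1 core isU j = true ∧ nb I K y1 core j = q then 1 else 0)) := by
      intro q
      rw [vw, if_neg (by omega), Nat.add_sub_cancel_left]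
      simp only [and_assoc]
    simp only [h3, Finset.sum_mul]
    rw [Finset.sum_comm]
    refine Finset.sum_congr rfl fun j hj => ?_
    simp only [add_mul]
    rw [Finset.sum_add_distrib,
      h67_sum_ite (fun h => hU j (II.mem_C.2 ⟨mem_range.1 hj, h.1⟩) h.2) (fun q => Φ (I.N + q)),
      h67_sum_ite (fun h => ?_) (fun q => Φ (I.N + q))]
    obtain ⟨_, i, hi, hb, _⟩ := h67_tch h
    exact (nb_spec hi hb j).1
  rw [h1, h2, ← Finset.sum_add_distrib]
  refine Finset.sum_congr rfl fun j _ => ?_
  by_cases hc : I.cl j = true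
  · by_cases hu : isU j = true
    · simp [act, hc, hu]
    · simp [act, hc, hu]
  · have ht : ¬ tch I K y1 core isU j = true := fun h => hc (h67_tch h).1.1
    simp [act, hc, ht]

private lemma h68_prof_D (a : ℕ) : ((mkVI I K y1 core isU usr).prof a).D =
    ∑ v ∈ range (I.N * I.N), vx I K y1 core isU a v * ((I.dd (a % I.N) (v % I.N) : ℚ) + 1) +
      (1 - ∑ v ∈ range (I.N * I.N), vx I K y1 core isU a v) * (vr0 I K y1 core isU a : ℚ) := by
  show ∑ l ∈ range (I.N * I.N + 1), (if l < I.N * I.N then vx I K y1 core isU a l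
      else 1 - ∑ v ∈ range (I.N * I.N), vx I K y1 core isU a v) *
      (((if l < I.N * I.N then I.dd (a % I.N) (l % I.N) + 1 else vr0 I K y1 core isU a : ℕ)) : ℚ) = _
  rw [sum_range_succ, if_neg (lt_irrefl _), if_neg (lt_irrefl _)]
  congr 1
  refine sum_congr rfl fun v hv => ?_
  rw [if_pos (mem_range.1 hv), if_pos (mem_range.1 hv)]
  push_cast
  rfl

private lemma h68_tch {j : ℕ} (ht : tch I K y1 core isU j = true) :
    isU j = false ∧ nb I K y1 core j < I.N ∧ core (nb I K y1 core j) = true := by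
  simp only [tch, act, decide_eq_true_eq] at ht
  obtain ⟨⟨-, h1⟩, i, hi, hb, -⟩ := ht
  obtain ⟨h2, h3, -⟩ := nb_spec (I := I) hi hb j
  simp only [big, decide_eq_true_eq] at h3
  exact ⟨h1, h2, h3.1⟩

/-- `sum_xq` with `φ = 1` and `φ o = dd q o + 1`; the inactive entry has mass `0` -/
lemma D_core (hI : I.Valid) (hy : I.YOK y1) (h1 : 1 ≤ I.mass y1) {q : ℕ} (hq : q < I.N)
    (hc : core q = true) :
    ((mkVI I K y1 core isU usr).prof (I.N + q)).D = I.Dc y1 q + 1 := by
  have e1 : ∀ v, vx I K y1 core isU (I.N + q) v = xq I K y1 core q v := fun v => by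
    simp [vx]
  have e2 : (I.N + q) % I.N = q := by rw [Nat.add_mod_left, Nat.mod_eq_of_lt hq]
  have s1 := sum_xq (K := K) hI hy hq hc fun _ => 1
  have s2 := sum_xq (K := K) hI hy hq hc fun o => (I.dd q o : ℚ) + 1
  have s3 := II.nf_sum hy h1 q
  simp only [mul_one] at s1
  rw [h68_prof_D]
  simp only [e1, e2]
  rw [s1, s2, s3, sub_self, zero_mul, add_zero]
  simp only [mul_add, mul_one, sum_add_distrib, s3]
  rfl

/-- `sum_xa`; the inactive entry carries `∑_{big o} nf a o`, at distance `dd a (nb a) + 1` when `a`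
touches a big core (`nb_spec`), and has mass `0` otherwise -/
lemma D_act (hI : I.Valid) (hy : I.YOK y1) (h1 : 1 ≤ I.mass y1) {a : ℕ} (ha : a < I.N)
    (hact : act I isU a = true) :
    ((mkVI I K y1 core isU usr).prof a).D ≤ I.Dc y1 a + 1 := by
  have e1 : ∀ v, vx I K y1 core isU a v = xa I K y1 core isU a v := fun v => by
    simp [vx, ha]
  have e2 : a % I.N = a := Nat.mod_eq_of_lt ha
  have s1 := sum_xa (I := I) (K := K) (y1 := y1) (core := core) (isU := isU) a fun _ => 1
  have s2 := sum_xa (I := I) (K := K) (y1 := y1) (core := core) (isU := isU) a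
    fun o => (I.dd a o : ℚ) + 1
  have s3 := II.nf_sum hy h1 a
  simp only [mul_one] at s1
  rw [if_pos hact] at s1 s2
  have s4 : I.Dc y1 a + 1 = ∑ o ∈ range I.N, I.nf y1 a o * ((I.dd a o : ℚ) + 1) := by
    simp only [mul_add, mul_one, sum_add_distrib, s3]
    rfl
  rw [h68_prof_D]
  simp only [e1, e2]
  rw [s1, s2, s4]
  nth_rewrite 2 [← s3]
  rw [← sum_sub_distrib, sum_mul, ← sum_add_distrib]
  refine sum_le_sum fun o ho => ?_
  by_cases hb : big K y1 core o = true
  · rw [if_pos hb, if_pos hb, zero_add, sub_zero]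
    rcases (II.nf_nonneg (I := I) (y := y1) a o).eq_or_lt with h0 | h0
    · rw [← h0, zero_mul, zero_mul]
    · refine mul_le_mul_of_nonneg_left ?_ h0.le
      have ht : tch I K y1 core isU a = true := by
        simp only [tch, decide_eq_true_eq]
        exact ⟨hact, o, mem_range.1 ho, hb, h0⟩
      have h3 := (nb_spec (I := I) (mem_range.1 ho) hb a).2.2
      rw [vr0, if_pos ⟨ha, ht⟩]
      exact_mod_cast Nat.add_le_add_right h3 1
  · rw [if_neg hb, if_neg hb, sub_self, zero_mul, add_zero]

/-- `Col.touch` with `i = nb j`, `i'` the touched big core, `1 - y1 i ≤ 1 / K⁴` -/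
lemma Dc_nb_le (hC : I.Col K y y1 core isU usr) (hK : 100 ≤ K) {j : ℕ} (hj : j ∈ I.C)
    (ht : tch I K y1 core isU j = true) :
    I.Dc y1 (nb I K y1 core j) ≤ 18 / K * I.Dc y j := by
  obtain ⟨⟨_, hu⟩, i, hi, hb, hpos⟩ := h67_tch ht
  obtain ⟨h1, h2, h3⟩ := nb_spec hi hb j
  simp only [big, decide_eq_true_eq] at h2
  have h4 := hC.touch j hj hu _ h1 h2.1 i hi hpos h3
  have hK0 : (0 : ℚ) < K := by exact_mod_cast (by omega : 0 < K)
  have h5 : 0 ≤ I.Dc y j := II.Dc_nonneg j
  refine h4.trans (mul_le_mul_of_nonneg_right ?_ h5)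
  calc 18 * (1 - y1 (nb I K y1 core j)) * (K : ℚ) ^ 3 ≤ 18 * (1 / (K : ℚ) ^ 4) * (K : ℚ) ^ 3 := by
        gcongr
        exact h2.2
    _ = 18 / (K : ℚ) := by field_simp

/-- (e) `sum_vw`, `D_core`, `D_act`, `Dc_nb_le`, `Col.ucost`, `Col.ncost`; every client costs at
most `2 (g + 1) ≤ 6` additively; users do not touch. -/
theorem C0_le (hI : I.Valid) (hC : I.Col K y y1 core isU usr) (hK : 100 ≤ K) {g : ℚ}
    (hg1 : 3 / 2 ≤ g) (hg2 : g ≤ 2) :
    I.ucost isU usr + (mkVI I K y1 core isU usr).C0 g ≤
      g * (1 + 50 / K) * I.lpcost y + 6 * (I.C.card : ℚ) := by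
  have hK0 : (0 : ℚ) < K := by exact_mod_cast (by omega : 0 < K)
  have hs := sum_vw (K := K) (y1 := y1) (core := core) (fun j hj hu => (hC.usr_core j hj hu).1)
    fun a => g * ((mkVI I K y1 core isU usr).prof a).D + 1
  have e0 : (mkVI I K y1 core isU usr).C0 g = _ := hs
  have hu := hC.ucost g hg1 hg2
  have key : I.ucost isU usr + (mkVI I K y1 core isU usr).C0 g ≤
      ∑ j ∈ I.C, ((if isU j = true then (I.dd j (usr j) : ℚ) + g * I.Dc y1 (usr j) else 0) +
        (g * (1 + 50 / K) * (if isU j = true then 0 else I.Dc y j) + 6)) := by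
    rw [e0, II.ucost, ← sum_add_distrib]
    refine sum_le_sum fun j hj => ?_
    by_cases hU : isU j = true
    · have ht : ¬ tch I K y1 core isU j = true := fun h => by
        have := (h68_tch h).1
        rw [hU] at this
        cases this
      obtain ⟨u1, u2⟩ := hC.usr_core j hj hU
      simp only [if_pos hU, if_neg ht]
      rw [D_core hI hC.yok hC.one_le u1 u2]
      linarith
    · have hU' : isU j = false := by simpa using hU
      have hact : act I isU j = true := by
        simp only [act, decide_eq_true_eq]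
        exact ⟨(II.mem_C.1 hj).2, hU'⟩
      have d1 := D_act (K := K) (core := core) (usr := usr) hI hC.yok hC.one_le
        (II.mem_C.1 hj).1 hact
      have d2 := hC.ncost j hj hU'
      have d0 : 0 ≤ I.Dc y j := II.Dc_nonneg j
      have g0 : 0 ≤ g := by linarith
      have d3 := mul_le_mul_of_nonneg_left (d1.trans (add_le_add_left d2 1)) g0
      have q0 : 0 ≤ g * (1 / K * I.Dc y j) := by positivity
      simp only [if_neg hU]
      have e1 : g * ((1 + 6 / K) * I.Dc y j + 1) =
          g * I.Dc y j + 6 * (g * (1 / K * I.Dc y j)) + g := by ring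
      have e2 : g * (1 + 50 / K) * I.Dc y j = g * I.Dc y j + 50 * (g * (1 / K * I.Dc y j)) := by
        ring
      rw [e1] at d3
      rw [e2]
      split_ifs with ht
      · obtain ⟨-, n1, n2⟩ := h68_tch ht
        rw [D_core hI hC.yok hC.one_le n1 n2]
        have d4 := mul_le_mul_of_nonneg_left (Dc_nb_le hC hK hj ht) g0
        have e3 : g * (18 / K * I.Dc y j) = 18 * (g * (1 / K * I.Dc y j)) := by ring
        rw [e3] at d4
        linarith
      · linarith
  have e4 : I.lpcost y = ∑ j ∈ I.C, (if isU j = true then I.Dc y j else 0) +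
      ∑ j ∈ I.C, (if isU j = true then 0 else I.Dc y j) := by
    rw [II.lpcost, ← sum_add_distrib]
    refine sum_congr rfl fun j _ => ?_
    split_ifs <;> simp
  rw [sum_add_distrib, sum_add_distrib, ← mul_sum, sum_const, nsmul_eq_mul] at key
  rw [e4, mul_add]
  linarith

/-- `rho S a` is `r0 a` or dominates `dset (a % N)` (induction on `S`, `dset_le`) -/
lemma rho_cases (S : List ℕ) (f0 a : ℕ) :
    (mkVI I K y1 core isU usr).rho S a = vr0 I K y1 core isU a ∨
      I.dset (a % I.N) (f0 :: S.map (· % I.N)).toFinset ≤ (mkVI I K y1 core isU usr).rho S a := by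
  induction S with
  | nil => exact Or.inl rfl
  | cons o S ih =>
    have e : (mkVI I K y1 core isU usr).rho (o :: S) a =
        min (I.dd (a % I.N) (o % I.N) + 1) ((mkVI I K y1 core isU usr).rho S a) := rfl
    have h1 : I.dset (a % I.N) (f0 :: (o :: S).map (· % I.N)).toFinset ≤
        I.dd (a % I.N) (o % I.N) := II.dset_le (by simp)
    have h2 : I.dset (a % I.N) (f0 :: (o :: S).map (· % I.N)).toFinset ≤
        I.dset (a % I.N) (f0 :: S.map (· % I.N)).toFinset := by
      refine II.dset_mono _ fun x hx => ?_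
      simp only [List.mem_toFinset, List.map_cons, List.mem_cons] at hx ⊢
      tauto
    rw [e]
    omega

/-- (f) `sum_vw`; termwise `rho_cases`, `dset_le_L`, `dset_tri`. -/
theorem cost_le (hI : I.Valid) (hU : ∀ j ∈ I.C, isU j = true → usr j < I.N) (S : List ℕ)
    (f0 : ℕ) :
    (I.cost (f0 :: S.map (· % I.N)).toFinset : ℚ) ≤ I.ucost isU usr +
      ∑ a ∈ range (mkVI I K y1 core isU usr).nc,
        (mkVI I K y1 core isU usr).w a * ((mkVI I K y1 core isU usr).rho S a : ℚ) := by
  have hs := sum_vw (K := K) (y1 := y1) (core := core) hU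
    fun a => ((mkVI I K y1 core isU usr).rho S a : ℚ)
  have e0 : ∑ a ∈ range (mkVI I K y1 core isU usr).nc,
      (mkVI I K y1 core isU usr).w a * ((mkVI I K y1 core isU usr).rho S a : ℚ) = _ := hs
  set T := (f0 :: S.map (· % I.N)).toFinset with hT
  have hcore : ∀ q < I.N, I.dset q T ≤ (mkVI I K y1 core isU usr).rho S (I.N + q) := by
    intro q hq
    have h1 := rho_cases (I := I) (K := K) (y1 := y1) (core := core) (isU := isU) (usr := usr)
      S f0 (I.N + q)
    rw [Nat.add_mod_left, Nat.mod_eq_of_lt hq, vr0, if_neg (fun h => by omega), ← hT] at h1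
    have h2 := II.dset_le_L (I := I) q T
    omega
  rw [e0, II.ucost, ← sum_add_distrib, II.cost, Nat.cast_sum]
  refine sum_le_sum fun j hj => ?_
  have hjN := (II.mem_C.1 hj).1
  by_cases hu : isU j = true
  · have h1 := II.dset_tri hI j (usr j) T
    have h2 := hcore _ (hU j hj hu)
    have h3 : ((I.dset j T : ℕ) : ℚ) ≤ (I.dd j (usr j) : ℚ) +
        ((mkVI I K y1 core isU usr).rho S (I.N + usr j) : ℚ) := by
      exact_mod_cast h1.trans (Nat.add_le_add_left h2 _)
    rw [if_pos hu, if_pos hu]
    split_ifs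
    · have := Nat.cast_nonneg (α := ℚ) ((mkVI I K y1 core isU usr).rho S (I.N + nb I K y1 core j))
      linarith
    · linarith
  · have h1 := rho_cases (I := I) (K := K) (y1 := y1) (core := core) (isU := isU) (usr := usr)
      S f0 j
    rw [Nat.mod_eq_of_lt hjN, vr0, ← hT] at h1
    rw [if_neg hu, if_neg hu, zero_add]
    by_cases ht : tch I K y1 core isU j = true
    · rw [if_pos ⟨hjN, ht⟩] at h1
      rw [if_pos ht]
      have h2 := II.dset_tri hI j (nb I K y1 core j) T
      have h3 := hcore _ (h68_tch ht).2.1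
      have h4 : I.dset j T ≤ (mkVI I K y1 core isU usr).rho S j +
          (mkVI I K y1 core isU usr).rho S (I.N + nb I K y1 core j) := by omega
      exact_mod_cast h4
    · rw [if_neg fun h => ht h.2] at h1
      rw [if_neg ht, add_zero]
      have h2 := II.dset_le_L (I := I) j T
      have h4 : I.dset j T ≤ (mkVI I K y1 core isU usr).rho S j := by omega
      exact_mod_cast h4

end MkV

end Crest.Agent.R310
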