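import Crest.Agent.R310.VIDefs

/-! Row 310: the virtual instance is a polynomial-time family. -/

set_option autoImplicit false
set_option linter.dupNamespace false

namespace Crest.Agent.R310

open Finset Crest.Agent.Lib.PT

variable {α : Type} [Enc α] {I : α → II} {y1 : α → ℕ → ℚ} {core isU : α → ℕ → Bool}
  {usr : α → ℕ → ℕ} {i j : α → ℕ}

@[fun_prop] lemma pt_rk {N : α → ℕ} {f : α → ℕ → ℚ} (hN : PT N) (hb : PB N)
    (hf : PT fun p : α × ℕ => f p.1 p.2) (hi : PT i) : PT fun a => rk (N a) (f a) (i a) := by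
  simp only [rk]; fun_prop

@[fun_prop] lemma pt_cmf {N : α → ℕ} {f : α → ℕ → ℚ} (H : ℕ) (hN : PT N) (hb : PB N)
    (hf : PT fun p : α × ℕ => f p.1 p.2) (hi : PT i) : PT fun a => cmf (N a) (f a) H (i a) := by
  simp only [cmf]; fun_prop

namespace MkV

variable (K : ℕ)

@[fun_prop] lemma pt_big (hy : PT fun p : α × ℕ => y1 p.1 p.2)
    (hc : PT fun p : α × ℕ => core p.1 p.2) (hi : PT i) :
    PT fun a => big K (y1 a) (core a) (i a) := by
  simp only [big]; fun_prop

@[fun_prop] lemma pt_xf (hI : II.PTF I) (hy : PT fun p : α × ℕ => y1 p.1 p.2)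
    (hc : PT fun p : α × ℕ => core p.1 p.2) (hi : PT i) (hj : PT j) :
    PT fun a => xf (I a) (y1 a) (core a) (i a) (j a) := by
  simp only [xf]; fun_prop

@[fun_prop] lemma pt_blk (hI : II.PTF I) (hy : PT fun p : α × ℕ => y1 p.1 p.2)
    (hc : PT fun p : α × ℕ => core p.1 p.2) (hi : PT i) (hj : PT j) :
    PT fun a => blk (I a) K (y1 a) (core a) (i a) (j a) := by
  simp only [blk]; fun_prop

@[fun_prop] lemma pt_vy (hI : II.PTF I) (hy : PT fun p : α × ℕ => y1 p.1 p.2)
    (hc : PT fun p : α × ℕ => core p.1 p.2) (hi : PT i) :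
    PT fun a => vy (I a) K (y1 a) (core a) (i a) := by
  simp only [vy]; fun_prop

@[fun_prop] lemma pt_vfree (hI : II.PTF I) (hy : PT fun p : α × ℕ => y1 p.1 p.2)
    (hc : PT fun p : α × ℕ => core p.1 p.2) (hi : PT i) :
    PT fun a => vfree (I a) K (y1 a) (core a) (i a) := by
  simp only [vfree]; fun_prop

@[fun_prop] lemma pt_act (hI : II.PTF I) (hU : PT fun p : α × ℕ => isU p.1 p.2) (hi : PT i) :
    PT fun a => act (I a) (isU a) (i a) := by
  simp only [act]; fun_prop

@[fun_prop] lemma pt_xa (hI : II.PTF I) (hy : PT fun p : α × ℕ => y1 p.1 p.2)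
    (hc : PT fun p : α × ℕ => core p.1 p.2) (hU : PT fun p : α × ℕ => isU p.1 p.2) (hi : PT i)
    (hj : PT j) : PT fun a => xa (I a) K (y1 a) (core a) (isU a) (i a) (j a) := by
  simp only [xa]; fun_prop

@[fun_prop] lemma pt_xq (hI : II.PTF I) (hy : PT fun p : α × ℕ => y1 p.1 p.2)
    (hc : PT fun p : α × ℕ => core p.1 p.2) (hi : PT i) (hj : PT j) :
    PT fun a => xq (I a) K (y1 a) (core a) (i a) (j a) := by
  simp only [xq]; fun_prop

@[fun_prop] lemma pt_vx (hI : II.PTF I) (hy : PT fun p : α × ℕ => y1 p.1 p.2)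
    (hc : PT fun p : α × ℕ => core p.1 p.2) (hU : PT fun p : α × ℕ => isU p.1 p.2) (hi : PT i)
    (hj : PT j) : PT fun a => vx (I a) K (y1 a) (core a) (isU a) (i a) (j a) := by
  simp only [vx]; fun_prop

@[fun_prop] lemma pt_tch (hI : II.PTF I) (hy : PT fun p : α × ℕ => y1 p.1 p.2)
    (hc : PT fun p : α × ℕ => core p.1 p.2) (hU : PT fun p : α × ℕ => isU p.1 p.2) (hi : PT i) :
    PT fun a => tch (I a) K (y1 a) (core a) (isU a) (i a) := by
  simp only [tch]; fun_prop

@[fun_prop] lemma pt_nb (hI : II.PTF I) (hy : PT fun p : α × ℕ => y1 p.1 p.2)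
    (hc : PT fun p : α × ℕ => core p.1 p.2) (hi : PT i) :
    PT fun a => nb (I a) K (y1 a) (core a) (i a) := by
  simp only [nb]; fun_prop

@[fun_prop] lemma pt_vr0 (hI : II.PTF I) (hy : PT fun p : α × ℕ => y1 p.1 p.2)
    (hc : PT fun p : α × ℕ => core p.1 p.2) (hU : PT fun p : α × ℕ => isU p.1 p.2) (hi : PT i) :
    PT fun a => vr0 (I a) K (y1 a) (core a) (isU a) (i a) := by
  simp only [vr0]; fun_prop

@[fun_prop] lemma pt_vJ (hI : II.PTF I) (hy : PT fun p : α × ℕ => y1 p.1 p.2)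
    (hc : PT fun p : α × ℕ => core p.1 p.2) (hi : PT i) (hj : PT j) :
    PT fun a => vJ (I a) K (y1 a) (core a) (i a) (j a) := by
  simp only [vJ]; fun_prop

@[fun_prop] lemma pt_vw (hI : II.PTF I) (hy : PT fun p : α × ℕ => y1 p.1 p.2)
    (hc : PT fun p : α × ℕ => core p.1 p.2) (hU : PT fun p : α × ℕ => isU p.1 p.2)
    (hu : PT fun p : α × ℕ => usr p.1 p.2) (hi : PT i) :
    PT fun a => vw (I a) K (y1 a) (core a) (isU a) (usr a) (i a) := by
  simp only [vw]; fun_prop

end MkV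

theorem ptf_mkVI (K : ℕ) (hI : II.PTF I) (hy : PT fun p : α × ℕ => y1 p.1 p.2)
    (hc : PT fun p : α × ℕ => core p.1 p.2) (hU : PT fun p : α × ℕ => isU p.1 p.2)
    (hu : PT fun p : α × ℕ => usr p.1 p.2) :
    VI.PTF fun a => mkVI (I a) K (y1 a) (core a) (isU a) (usr a) where
  n := by simp only [mkVI]; fun_prop
  nb := by simp only [mkVI]; fun_prop
  nc := by simp only [mkVI]; fun_prop
  ncb := by simp only [mkVI]; fun_prop
  L := by simp only [mkVI]; fun_prop
  Lb := by simp only [mkVI]; fun_prop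
  y := by simp only [mkVI]; fun_prop
  x := by simp only [mkVI]; fun_prop
  x0 := by simp only [mkVI]; fun_prop
  r0 := by simp only [mkVI]; fun_prop
  dist := by simp only [mkVI]; fun_prop
  D := by simp only [mkVI]; fun_prop
  J := by simp only [mkVI]; fun_prop
  free := by simp only [mkVI]; fun_prop
  w := by simp only [mkVI]; fun_prop

@[fun_prop] lemma pt_ucost (hI : II.PTF I) (hU : PT fun p : α × ℕ => isU p.1 p.2)
    (hu : PT fun p : α × ℕ => usr p.1 p.2) : PT fun a => (I a).ucost (isU a) (usr a) := by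
  simp only [II.ucost, II.C, Finset.sum_filter]; fun_prop

end Crest.Agent.R310
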