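import Crest.Agent.R310.VIRank

/-! Row 310: the virtual instance is valid; its mass and fractionality. -/

set_option autoImplicit false
set_option linter.dupNamespace false

namespace Crest.Agent.R310

open Finset

namespace MkV

variable {I : II} {K : ℕ} {y1 : ℕ → ℚ} {core isU : ℕ → Bool} {usr : ℕ → ℕ}

lemma N_pos (hI : I.Valid) : 0 < I.N := by
  have h : 1 ≤ I.F.card := hI.k_pos.trans hI.k_le
  obtain ⟨i, hi⟩ := Finset.card_pos.1 h
  have := (II.mem_F.1 hi).1
  omega

lemma HH_pos (hK : 1 ≤ K) : 0 < HH K := by unfold HH; positivity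

lemma xf_nonneg (q o : ℕ) : 0 ≤ xf I y1 core q o := by
  unfold xf; split_ifs
  · exact II.nf_nonneg _ _
  · exact le_rfl

lemma xf_le (hy : I.YOK y1) (q o : ℕ) : xf I y1 core q o ≤ y1 o := by
  unfold xf; split_ifs
  · exact II.nf_le hy _ _
  · exact hy.nonneg o

lemma h58_nf_split (hI : I.Valid) (hy : I.YOK y1) {q : ℕ} (hc : core q = true) (o : ℕ) :
    I.nf y1 q o = (if o = q then y1 q else 0) + xf I y1 core q o := by
  unfold xf
  by_cases h : o = q
  · subst h
    rw [if_pos rfl, if_neg (fun hh => hh.2 rfl), add_zero, II.nf_self hI hy]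
  · rw [if_neg h, if_pos ⟨hc, h⟩, zero_add]

/-- `nf_sum` and `nf_self` -/
lemma sum_xf (hI : I.Valid) (hy : I.YOK y1) (h1 : 1 ≤ I.mass y1) {q : ℕ} (hq : q < I.N) :
    ∑ o ∈ range I.N, xf I y1 core q o = if core q = true then 1 - y1 q else 0 := by
  split_ifs with hc
  · have h := II.nf_sum hy h1 q
    simp only [h58_nf_split (core := core) hI hy hc] at h
    rw [sum_add_distrib, sum_ite_eq', if_pos (mem_range.2 hq)] at h
    linarith
  · exact sum_eq_zero fun o _ => if_neg fun hh => hc hh.1

/-- `rk_lt` -/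
lemma blk_lt {o q : ℕ} (hq : q < I.N) : blk I K y1 core o q < I.N := by
  unfold blk
  exact lt_of_le_of_lt (Nat.div_le_self _ _) (rk_lt hq)

/-- Sums against the assignment of a core client: `sum_range_sq`; for each `o` only the copy
`b = blk o q < N` contributes, except `v = q` (and `xf q q = 0`); `nf_self`. -/
lemma sum_xq (hI : I.Valid) (hy : I.YOK y1) {q : ℕ} (hq : q < I.N) (hc : core q = true)
    (φ : ℕ → ℚ) :
    ∑ v ∈ range (I.N * I.N), xq I K y1 core q v * φ (v % I.N) =
      ∑ o ∈ range I.N, I.nf y1 q o * φ o := by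
  have hN : 0 < I.N := by omega
  have h1 : ∀ v, xq I K y1 core q v * φ (v % I.N) = (if v = q then y1 q * φ q else 0) +
      (if v / I.N = blk I K y1 core (v % I.N) q then xf I y1 core q (v % I.N) * φ (v % I.N)
        else 0) := by
    intro v
    unfold xq
    rw [if_pos hc]
    by_cases h : v = q
    · subst h
      have : xf I y1 core v v = 0 := if_neg fun hh => hh.2 rfl
      rw [if_pos rfl, if_pos rfl, Nat.mod_eq_of_lt hq, this, zero_mul, ite_self, add_zero]
    · rw [if_neg h, if_neg h, zero_add]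
      split_ifs
      · rfl
      · exact zero_mul _
  have hq2 : q < I.N * I.N := lt_of_lt_of_le hq (Nat.le_mul_self _)
  simp only [h1, h58_nf_split (core := core) hI hy hc, add_mul, ite_mul, zero_mul]
  rw [sum_add_distrib, sum_add_distrib, sum_ite_eq', if_pos (mem_range.2 hq2), sum_range_sq,
    sum_comm]
  congr 1
  · rw [sum_ite_eq', if_pos (mem_range.2 hq)]
  · refine sum_congr rfl fun o ho => ?_
    have ho' := mem_range.1 ho
    have e1 : ∀ b, (o + I.N * b) / I.N = b := fun b => by
      rw [Nat.add_mul_div_left _ _ hN, Nat.div_eq_of_lt ho', zero_add]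
    have e2 : ∀ b, (o + I.N * b) % I.N = o := fun b => by
      rw [Nat.add_mul_mod_self_left, Nat.mod_eq_of_lt ho']
    simp only [e1, e2]
    rw [sum_ite_eq', if_pos (mem_range.2 (blk_lt hq))]

/-- `sum_range_sq_low` -/
lemma sum_xa (a : ℕ) (φ : ℕ → ℚ) :
    ∑ v ∈ range (I.N * I.N), xa I K y1 core isU a v * φ (v % I.N) =
      if act I isU a = true then
        ∑ o ∈ range I.N, (if big K y1 core o = true then 0 else I.nf y1 a o * φ o) else 0 := by
  rw [sum_range_sq_low _ _ fun v hv => by
    unfold xa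
    rw [if_neg (fun hh => absurd hh.2.1 (not_lt.2 hv)), zero_mul]]
  split_ifs with ha
  · refine sum_congr rfl fun o ho => ?_
    have ho' := mem_range.1 ho
    unfold xa
    rw [Nat.mod_eq_of_lt ho']
    by_cases hb : big K y1 core o = true
    · rw [if_pos hb, if_neg (fun hh => by rw [hb] at hh; exact absurd hh.2.2 (by decide)),
        zero_mul]
    · rw [if_neg hb, if_pos ⟨ha, ho', by simpa using hb⟩]
  · refine sum_eq_zero fun o _ => ?_
    unfold xa
    rw [if_neg (fun hh => ha hh.1), zero_mul]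

/-- `cmf_cases`, `xf_nonneg`, `xf_le` -/
lemma vy_bounds (hy : I.YOK y1) (v : ℕ) : 0 ≤ vy I K y1 core v ∧ vy I K y1 core v ≤ 1 := by
  unfold vy
  split_ifs with h
  · exact ⟨hy.nonneg v, hy.le_one v⟩
  · rcases cmf_cases (N := I.N) (f := fun q' => xf I y1 core q' (v % I.N)) (HH K) (v / I.N) with
      h0 | ⟨q, -, -, h0⟩
    · rw [h0]
      exact ⟨le_rfl, zero_le_one⟩
    · rw [h0]
      exact ⟨xf_nonneg _ _, (xf_le hy _ _).trans (hy.le_one _)⟩

/-- (d) `cmf_cases`, `xf_le`, `YOK.mem_F` -/
lemma vy_pos_mem (hy : I.YOK y1) {v : ℕ} (h : 0 < vy I K y1 core v) : v % I.N ∈ I.F := by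
  unfold vy at h
  split_ifs at h with hv
  · rw [Nat.mod_eq_of_lt hv]
    exact hy.mem_F h
  · rcases cmf_cases (N := I.N) (f := fun q' => xf I y1 core q' (v % I.N)) (HH K) (v / I.N) with
      h0 | ⟨q, -, -, h0⟩
    · rw [h0] at h
      exact absurd h (lt_irrefl _)
    · rw [h0] at h
      exact hy.mem_F (h.trans_le (xf_le hy _ _))

/-- for `v ≥ N` use `le_cmf` -/
lemma xq_bounds (hy : I.YOK y1) {q : ℕ} (hq : q < I.N) (v : ℕ) :
    0 ≤ xq I K y1 core q v ∧ xq I K y1 core q v ≤ vy I K y1 core v := by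
  have h0 := (vy_bounds (K := K) (core := core) hy v).1
  unfold xq
  split_ifs with h1 h2 h3
  · refine ⟨hy.nonneg q, ?_⟩
    rw [h2, vy, if_pos hq]
  · refine ⟨xf_nonneg _ _, ?_⟩
    unfold vy
    split_ifs with hv
    · rw [Nat.mod_eq_of_lt hv]
      exact xf_le hy _ _
    · rw [h3]
      exact le_cmf (f := fun q' => xf I y1 core q' (v % I.N)) hq
  · exact ⟨le_rfl, h0⟩
  · exact ⟨le_rfl, h0⟩

lemma vx_bounds (hy : I.YOK y1) {a : ℕ} (ha : a < 2 * I.N) (v : ℕ) :
    0 ≤ vx I K y1 core isU a v ∧ vx I K y1 core isU a v ≤ vy I K y1 core v := by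
  unfold vx
  split_ifs with h
  · unfold xa
    split_ifs with h1
    · refine ⟨II.nf_nonneg _ _, ?_⟩
      rw [vy, if_pos h1.2.1]
      exact II.nf_le hy _ _
    · exact ⟨le_rfl, (vy_bounds hy v).1⟩
  · exact xq_bounds hy (by omega) v

/-- `sum_xq`, `sum_xa` with `φ = 1`, `nf_sum` -/
lemma sum_vx_le (hI : I.Valid) (hy : I.YOK y1) (h1 : 1 ≤ I.mass y1) {a : ℕ} (ha : a < 2 * I.N) :
    ∑ v ∈ range (I.N * I.N), vx I K y1 core isU a v ≤ 1 := by
  unfold vx
  by_cases h : a < I.N
  · simp only [h, if_true]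
    have := sum_xa (I := I) (K := K) (y1 := y1) (core := core) (isU := isU) a fun _ => 1
    simp only [mul_one] at this
    rw [this]
    split_ifs
    · rw [← II.nf_sum hy h1 a]
      refine sum_le_sum fun o _ => ?_
      split_ifs
      · exact II.nf_nonneg _ _
      · exact le_rfl
    · exact zero_le_one
  · simp only [h, if_false]
    by_cases hc : core (a - I.N) = true
    · have := sum_xq (K := K) hI hy (q := a - I.N) (by omega) hc fun _ => 1
      simp only [mul_one] at this
      rw [this, II.nf_sum hy h1]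
    · rw [sum_eq_zero fun v _ => by unfold xq; exact if_neg hc]
      exact zero_le_one

/-- The set is covered by `{o}` and, over the at most `H + 1` cores `q < N` with `0 < xq q o`
(`q = o`, or `blk (o % N) q = o / N`: `card_block_le`), the at most two `i < N` with
`0 < nf y1 q i` and `1 / 2 < y1 i` (`nf_two`; a non-free `i` is below `N` and big;
`0 < xq q i` gives `0 < nf y1 q i` by `nf_self`). `Finset.card_biUnion_le_card_mul`. -/
lemma deg_le (hI : I.Valid) (hy : I.YOK y1) (hK : 100 ≤ K) (o : ℕ) :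
    ((range (I.N * I.N)).filter fun i =>
      vfree I K y1 core i = false ∧ vJ I K y1 core o i = true).card ≤ 2 * HH K + 3 := by
  classical
  set Q : Finset ℕ := insert o ((range I.N).filter fun q =>
    rk I.N (fun q' => xf I y1 core q' (o % I.N)) q / HH K = o / I.N) with hQ
  have hQc : Q.card ≤ HH K + 1 :=
    (card_insert_le _ _).trans (Nat.add_le_add_right (card_block_le (HH_pos (by omega)) _) 1)
  set T : ℕ → Finset ℕ := fun q => (range I.N).filter fun i => 0 < I.nf y1 q i ∧ 1 / 2 < y1 i
    with hT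
  have hsub : ((range (I.N * I.N)).filter fun i =>
      vfree I K y1 core i = false ∧ vJ I K y1 core o i = true) ⊆ insert o (Q.biUnion T) := by
    intro i hi
    obtain ⟨-, hf, hJ⟩ := mem_filter.1 hi
    rw [vJ, decide_eq_true_iff] at hJ
    rcases hJ with rfl | hJ | ⟨q, hq, hqo, hqi⟩
    · exact mem_insert_self _ _
    · rw [hf] at hJ
      exact absurd hJ Bool.false_ne_true
    · have hb : i < I.N ∧ big K y1 core i = true := by
        rw [vfree, decide_eq_false_iff_not, not_not] at hf
        exact hf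
      have hb2 := hb.2
      rw [big, decide_eq_true_iff] at hb2
      have hK1 : (100 : ℚ) ≤ K := by exact_mod_cast hK
      have hK4 : (1 : ℚ) / (K : ℚ) ^ 4 ≤ 1 / 100 :=
        one_div_le_one_div_of_le (by norm_num)
          (hK1.trans (le_self_pow₀ (by linarith) (by norm_num)))
      refine mem_insert_of_mem (mem_biUnion.2 ⟨q, ?_, mem_filter.2
        ⟨mem_range.2 hb.1, ?_, by linarith [hb2.2]⟩⟩)
      · unfold xq at hqo
        split_ifs at hqo with h1 h2 h3
        · rw [← h2]
          exact mem_insert_self _ _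
        · exact mem_insert_of_mem (mem_filter.2 ⟨mem_range.2 hq, h3.symm⟩)
        · exact absurd hqo (lt_irrefl _)
        · exact absurd hqo (lt_irrefl _)
      · unfold xq at hqi
        split_ifs at hqi with h1 h2 h3
        · rw [h2, II.nf_self hI hy]
          exact hqi
        · rw [Nat.mod_eq_of_lt hb.1, xf, if_pos ⟨h1, h2⟩] at hqi
          exact hqi
        · exact absurd hqi (lt_irrefl _)
        · exact absurd hqi (lt_irrefl _)
  have h1 := card_biUnion_le_card_mul Q T 2 fun q _ => II.nf_two hy q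
  have h2 := (card_le_card hsub).trans (card_insert_le _ _)
  omega

/-- (a) -/
theorem valid (hI : I.Valid) (hy : I.YOK y1) (h1 : 1 ≤ I.mass y1) (hK : 100 ≤ K) :
    (mkVI I K y1 core isU usr).Valid (2 * HH K + 3) := by
  refine
    { y_nonneg := fun i _ => (vy_bounds hy i).1
      y_le := fun i _ => (vy_bounds hy i).2
      x_nonneg := fun j hj i _ => (vx_bounds hy hj i).1
      x_le := fun j hj i _ => (vx_bounds hy hj i).2
      x0_nonneg := fun j hj => sub_nonneg.2 (sum_vx_le hI hy h1 hj)
      x_sum := fun j _ => add_sub_cancel _ _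
      w_nonneg := fun j _ => ?_
      L_pos := Nat.le_add_left 1 I.L
      r0_pos := fun j _ => ?_
      r0_le := fun j _ => ?_
      dist_pos := fun j _ i _ => Nat.le_add_left 1 _
      dist_le := fun j _ i _ => Nat.add_le_add_right (hI.le_L _ _) 1
      D_self := fun i _ => if_pos rfl
      D_pos := fun i _ o _ hne => ?_
      J_self := fun i _ => ?_
      jump := fun j hj i _ o _ hi ho => ⟨?_, ?_⟩
      tri := fun j _ i _ o _ _ => ?_
      deg := fun o _ => deg_le hI hy hK o }
  · change 0 ≤ vw I K y1 core isU usr j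
    unfold vw
    split_ifs
    · exact zero_le_one
    · exact le_rfl
    · refine sum_nonneg fun a _ => add_nonneg ?_ ?_ <;> split_ifs <;> norm_num
  · change 1 ≤ vr0 I K y1 core isU j
    unfold vr0
    split_ifs <;> exact Nat.le_add_left 1 _
  · change vr0 I K y1 core isU j ≤ I.L + 1
    unfold vr0
    split_ifs
    · exact Nat.add_le_add_right (hI.le_L _ _) 1
    · exact le_rfl
  · change 1 ≤ if i = o then 0 else I.dd (i % I.N) (o % I.N) + 1
    rw [if_neg hne]
    exact Nat.le_add_left 1 _
  · change vJ I K y1 core i i = true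
    unfold vJ
    exact decide_eq_true (Or.inl rfl)
  · change vJ I K y1 core o i = true
    change 0 < vx I K y1 core isU j i at hi
    change 0 < vx I K y1 core isU j o at ho
    change j < 2 * I.N at hj
    unfold vJ
    refine decide_eq_true (Or.inr ?_)
    unfold vx at hi ho
    by_cases h : j < I.N
    · left
      rw [if_pos h] at hi
      unfold xa at hi
      split_ifs at hi with h2
      · unfold vfree
        refine decide_eq_true fun h3 => ?_
        rw [h2.2.2] at h3
        exact Bool.false_ne_true h3.2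
      · exact absurd hi (lt_irrefl _)
    · rw [if_neg h] at hi ho
      exact Or.inr ⟨j - I.N, by omega, ho, hi⟩
  · change (if i = o then 0 else I.dd (i % I.N) (o % I.N) + 1) ≤
      I.dd (j % I.N) (o % I.N) + 1 + (I.dd (j % I.N) (i % I.N) + 1)
    split_ifs
    · exact Nat.zero_le _
    · have h2 := hI.tri (i % I.N) (j % I.N) (o % I.N)
      have h3 := hI.symm (i % I.N) (j % I.N)
      omega
  · change I.dd (j % I.N) (o % I.N) + 1 ≤
      I.dd (j % I.N) (i % I.N) + 1 + (if i = o then 0 else I.dd (i % I.N) (o % I.N) + 1)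
    split_ifs with h
    · subst h
      exact le_rfl
    · have h2 := hI.tri (j % I.N) (i % I.N) (o % I.N)
      omega

/-- the mass of the copies: `sum_range_sq`, `sum_cmf_le` for every `o`, `sum_xf` -/
lemma extra_le (hI : I.Valid) (hy : I.YOK y1) (h1 : 1 ≤ I.mass y1) (hK : 100 ≤ K) :
    ∑ v ∈ range (I.N * I.N), (if v < I.N then 0 else vy I K y1 core v) ≤
      I.Wc y1 core / (HH K : ℚ) := by
  have hH : 0 < HH K := HH_pos (by omega)
  have hH' : (0 : ℚ) < HH K := by exact_mod_cast hH
  have hN := N_pos hI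
  obtain ⟨M, hM⟩ : ∃ M, I.N = M + 1 := ⟨I.N - 1, by omega⟩
  have h2 : ∑ v ∈ range (I.N * I.N), (if v < I.N then 0 else vy I K y1 core v) =
      ∑ o ∈ range I.N, ∑ b ∈ range M,
        cmf I.N (fun q' => xf I y1 core q' o) (HH K) (b + 1) := by
    rw [sum_range_sq, sum_comm]
    refine sum_congr rfl fun o ho => ?_
    have ho' := mem_range.mp ho
    have e : range I.N = range (M + 1) := by rw [hM]
    rw [e, sum_range_succ', mul_zero, add_zero, if_pos ho', add_zero]
    refine sum_congr rfl fun b _ => ?_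
    have h3 : ¬ o + I.N * (b + 1) < I.N := by
      rw [mul_add, mul_one]; omega
    rw [if_neg h3, vy, if_neg h3, Nat.add_mul_mod_self_left, Nat.mod_eq_of_lt ho',
      Nat.add_mul_div_left _ _ hN, Nat.div_eq_of_lt ho', zero_add]
  rw [h2, le_div_iff₀ hH', mul_comm, mul_sum]
  calc ∑ o ∈ range I.N, (HH K : ℚ) * ∑ b ∈ range M,
        cmf I.N (fun q' => xf I y1 core q' o) (HH K) (b + 1)
      ≤ ∑ o ∈ range I.N, ∑ q ∈ range I.N, xf I y1 core q o :=
        sum_le_sum fun o _ => sum_cmf_le hH (fun q _ => xf_nonneg q o) M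
    _ = ∑ q ∈ range I.N, ∑ o ∈ range I.N, xf I y1 core q o := sum_comm
    _ ≤ I.Wc y1 core := by
        refine sum_le_sum fun q hq => ?_
        rw [sum_xf hI hy h1 (mem_range.mp hq)]
        split_ifs
        · exact le_rfl
        · exact hy.nonneg q

/-- (b) -/
theorem mass_le (hI : I.Valid) (hy : I.YOK y1) (h1 : 1 ≤ I.mass y1) (hK : 100 ≤ K) :
    (mkVI I K y1 core isU usr).mass ≤ I.mass y1 + I.Wc y1 core / (HH K : ℚ) := by
  have h2 := extra_le (K := K) (core := core) hI hy h1 hK
  have h3 : ∑ v ∈ range (I.N * I.N), (if v < I.N then y1 v else 0) = I.mass y1 := by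
    rw [sum_range_sq_low _ _ fun v hv => if_neg (not_lt.mpr hv)]
    exact sum_congr rfl fun v hv => if_pos (mem_range.mp hv)
  have h4 : (mkVI I K y1 core isU usr).mass =
      ∑ v ∈ range (I.N * I.N), (if v < I.N then y1 v else 0) +
        ∑ v ∈ range (I.N * I.N), (if v < I.N then 0 else vy I K y1 core v) := by
    rw [← sum_add_distrib]
    show ∑ v ∈ range (I.N * I.N), vy I K y1 core v = _
    refine sum_congr rfl fun v _ => ?_
    by_cases hv : v < I.N
    · rw [if_pos hv, if_pos hv, vy, if_pos hv, add_zero]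
    · rw [if_neg hv, if_neg hv, zero_add]
  rw [h4, h3]
  linarith

/-- (c) termwise for `v < N`: a core that is not big has `y1 ≤ 1 < K⁴ (1 - y1)`; the copies are
free, `extra_le`. -/
theorem W_le (hI : I.Valid) (hy : I.YOK y1) (h1 : 1 ≤ I.mass y1) (hK : 100 ≤ K) :
    (mkVI I K y1 core isU usr).W ≤ 2 * (K : ℚ) ^ 4 * I.Wc y1 core := by
  have h2 := extra_le (K := K) (core := core) hI hy h1 hK
  have hK1 : (1 : ℚ) ≤ K := by exact_mod_cast (by omega : 1 ≤ K)
  have hK4 : (1 : ℚ) ≤ (K : ℚ) ^ 4 := one_le_pow₀ hK1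
  have hH : (1 : ℚ) ≤ HH K := by exact_mod_cast (HH_pos (by omega) : 0 < HH K)
  have hW : 0 ≤ I.Wc y1 core := by
    refine sum_nonneg fun i _ => ?_
    split_ifs
    · linarith [hy.le_one i]
    · exact hy.nonneg i
  have h3 : ∑ v ∈ range (I.N * I.N),
      (if v < I.N then (if big K y1 core v = true then 1 - y1 v else y1 v) else 0) ≤
        (K : ℚ) ^ 4 * I.Wc y1 core := by
    rw [sum_range_sq_low _ _ fun v hv => if_neg (not_lt.mpr hv), II.Wc, mul_sum]
    refine sum_le_sum fun v hv => ?_
    rw [if_pos (mem_range.mp hv)]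
    have a0 := hy.nonneg v
    have a1 := hy.le_one v
    by_cases hb : big K y1 core v = true
    · have hb' := hb
      rw [big, decide_eq_true_iff] at hb'
      rw [if_pos hb, if_pos hb'.1]
      exact le_mul_of_one_le_left (by linarith) hK4
    · have hb' := hb
      rw [big, decide_eq_true_iff, not_and, not_le] at hb'
      rw [if_neg hb]
      by_cases hc : core v = true
      · rw [if_pos hc]
        have a2 := hb' hc
        rw [div_lt_iff₀ (by linarith)] at a2
        linarith
      · rw [if_neg hc]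
        exact le_mul_of_one_le_left a0 hK4
  have h4 : (mkVI I K y1 core isU usr).W = ∑ v ∈ range (I.N * I.N),
      (if v < I.N then (if big K y1 core v = true then 1 - y1 v else y1 v) else 0) +
        ∑ v ∈ range (I.N * I.N), (if v < I.N then 0 else vy I K y1 core v) := by
    rw [← sum_add_distrib]
    show ∑ v ∈ range (I.N * I.N), (if vfree I K y1 core v = true then vy I K y1 core v
      else 1 - vy I K y1 core v) = _
    refine sum_congr rfl fun v _ => ?_
    by_cases hv : v < I.N
    · by_cases hb : big K y1 core v = true <;> simp [vfree, vy, hv, hb]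
    · simp [vfree, hv]
  have h5 : I.Wc y1 core / (HH K : ℚ) ≤ (K : ℚ) ^ 4 * I.Wc y1 core :=
    (div_le_self hW hH).trans (le_mul_of_one_le_left hW hK4)
  rw [h4]
  linarith

end MkV

end Crest.Agent.R310
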