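import Crest.Agent.R310.ColCost
import Crest.Agent.R310.VIPT
import Crest.Agent.R310.VIValid
import Crest.Agent.R310.VICost
import Crest.Agent.R310.ProcMain
import Crest.Agent.R310.Bridge

/-! Row 310: the pseudo-approximation from the LP solver, the collapse and the process. -/

set_option autoImplicit false
set_option linter.dupNamespace false

namespace Crest.Agent.R310

open Finset Crest.Agent.Lib.PT

namespace Ps

variable (lp : II → ℕ → ℕ → ℚ) (proc : VI → ℕ → ℕ → ℚ → List ℕ) (K : ℕ)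

def Hd : ℕ := 2 * MkV.HH K + 3
def Th : ℕ := 48 * K ^ 9
def cq : ℕ := 2 * Hd K + 2 * Th K + 6
/-- the constant in `z² ≤ cA (s + 1)` -/
def cA : ℕ := (4 * K + 1) * (cq K * (12 * K ^ 9) + 1)
/-- the virtual instance for the mass `κ` -/
def vi (I : II) (κ : ℕ) : VI :=
  mkVI I K (Col.y1 I K (lp I κ)) (Col.core I K (lp I κ)) (Col.isU I K (lp I κ))
    (Col.usr I K (lp I κ))
def pen (I : II) (B : ℚ) (κ : ℕ) : ℚ := B / K / ((cq K : ℚ) * (vi lp K I κ).W + 1)
def facs (I : II) : List ℕ := (List.range I.N).filter fun i => I.fa i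
def round (I : II) (B : ℚ) (κ : ℕ) : List ℕ :=
  (facs I).headD 0 :: (proc (vi lp K I κ) (Hd K) (Th K) (pen lp K I B κ)).map (· % I.N)
def alg (I : II) (B : ℚ) : List (List ℕ) :=
  (facs I).map (fun i => [i]) ++ (List.range (I.N + 1)).map fun κ => round lp proc K I B κ

variable {lp proc K} {g : ℚ}

lemma pt_alg (hlp : LPSpec lp) (hp : ProcSpec g proc) {α : Type} [Enc α] {I : α → II}
    {B : α → ℚ} (hI : II.PTF I) (hB : PT B) : PT fun a => alg lp proc K (I a) (B a) := by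
  have hy : PT fun q : (α × ℕ) × ℕ => lp (I q.1.1) q.1.2 q.2 :=
    hlp.1 (by fun_prop) (by fun_prop) (by fun_prop)
  have hI' : II.PTF fun p : α × ℕ => I p.1 := by fun_prop
  have hy' : PT fun q : ((α × ℕ) × ℕ) × ℕ => lp (I q.1.1.1) q.1.1.2 q.2 :=
    hlp.1 (by fun_prop) (by fun_prop) (by fun_prop)
  have hI'' : II.PTF fun p : (α × ℕ) × ℕ => I p.1.1 := by fun_prop
  have hv : VI.PTF fun p : α × ℕ => vi lp K (I p.1) p.2 :=
    ptf_mkVI K hI' (Col.pt_y1 K hI'' hy' (by fun_prop)) (Col.pt_core K hI'' hy' (by fun_prop))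
      (Col.pt_isU K hI'' hy' (by fun_prop)) (Col.pt_usr K hI'' hy' (by fun_prop))
  have hW : PT fun p : α × ℕ => (vi lp K (I p.1) p.2).W := by
    simp only [VI.W]
    have := hv.y
    have := hv.free
    refine PT.rat_sum_range hv.n hv.nb ?_
    exact PT.ite ((hv.free).decide_eq_true) hv.y ((PT.const 1).ratSub hv.y)
  have hpen : PT fun p : α × ℕ => pen lp K (I p.1) (B p.1) p.2 := by
    simp only [pen]; fun_prop
  have hpr := hp.1 (Hd K) (Th K) hv hpen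
  have hr : PT fun p : α × ℕ => round lp proc K (I p.1) (B p.1) p.2 := by
    simp only [round, facs]
    exact PT.cons (by fun_prop) (PT.map (g := fun (p : α × ℕ) x => x % (I p.1).N) hpr (by fun_prop))
  simp only [alg]
  refine PT.append ?_ (PT.map (by fun_prop) hr)
  simp only [facs]; fun_prop

/-- Savings bound. Otherwise mix `1_O` with the savings solution at weight `a = 1/(3K⁴)`
(`exists_mix`): the mass is at most `k - a Wc/(2K) ≤ κ - 1`, the cost at most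
`B + a 2K³ (1 + 2/K) B ≤ (1 + 1/K) B`, so the LP value at `κ - 1` is at most
`(1 + 1/K) B + 1 ≤ (1 + 2/K) B`. -/
lemma Wc_le (hlp : LPSpec lp) {I : II} {B : ℚ} {O : Finset ℕ} (hI : I.Valid) (hO : O ⊆ I.F)
    (hne : O.Nonempty) (hk : O.card ≤ I.k) (hB : (I.cost O : ℚ) ≤ B) (hK : 100 ≤ K)
    (hKB : (K : ℚ) ≤ B) {κ : ℕ} (h2 : 2 ≤ κ) (hκ : κ ≤ I.k)
    (hgood : I.lpcost (lp I κ) ≤ (1 + 2 / (K : ℚ)) * B)
    (hbad : (1 + 2 / (K : ℚ)) * B < I.lpcost (lp I (κ - 1)))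
    {y1 : ℕ → ℚ} {core isU : ℕ → Bool} {usr : ℕ → ℕ}
    (hC : I.Col K (lp I κ) y1 core isU usr) :
    I.Wc y1 core ≤ 6 * (K : ℚ) ^ 5 * ((I.k - κ + 1 : ℕ) : ℚ) := by
  by_contra hW
  rw [not_le] at hW
  have hK' : (100 : ℚ) ≤ K := by exact_mod_cast hK
  have hK0 : (0 : ℚ) < K := by linarith
  have hB0 : (0 : ℚ) ≤ B := by linarith
  have hσ : ((I.k - κ + 1 : ℕ) : ℚ) = (I.k : ℚ) - κ + 1 := by
    push_cast [Nat.cast_sub hκ]; ring
  have hκ1 : ((κ - 1 : ℕ) : ℚ) = (κ : ℚ) - 1 := by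
    rw [Nat.cast_sub (by omega : 1 ≤ κ)]; norm_num
  have hκk : (κ : ℚ) ≤ I.k := by exact_mod_cast hκ
  have hOk : (O.card : ℚ) ≤ I.k := by exact_mod_cast hk
  rw [hσ] at hW
  obtain ⟨x', y', hf, hm, hx⟩ := hC.sav
  rw [(hlp.2 I κ hI (by omega) (hκ.trans hI.k_le)).2.1] at hm
  set a : ℚ := 1 / (3 * (K : ℚ) ^ 4) with ha
  have hK4 : (1 : ℚ) ≤ (K : ℚ) ^ 4 := one_le_pow₀ (by linarith)
  have ha0 : 0 ≤ a := by positivity
  have ha1 : a ≤ 1 := by
    rw [ha, div_le_one (by positivity)]; linarith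
  obtain ⟨x'', y'', hf', hm', hx'⟩ := II.exists_mix hI hO hne hf ha0 ha1
  have h1 : (I.k : ℚ) - κ + 1 ≤ a * (I.Wc y1 core / (2 * K)) := by
    have e : a * (I.Wc y1 core / (2 * K)) = I.Wc y1 core / (6 * (K : ℚ) ^ 5) := by
      rw [ha]; field_simp; ring
    rw [e, le_div_iff₀ (by positivity)]
    linarith
  have hmass : I.mass y'' ≤ ((κ - 1 : ℕ) : ℚ) := by
    rw [hκ1, hm']
    have h3 := mul_le_mul_of_nonneg_left hm ha0
    have h4 := mul_le_mul_of_nonneg_left hOk (sub_nonneg.2 ha1)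
    have h5 := mul_le_mul_of_nonneg_left hκk ha0
    nlinarith
  have hlp' := (hlp.2 I (κ - 1) hI (by omega) ((Nat.sub_le _ _).trans (hκ.trans hI.k_le))).2.2
    x'' y'' hf' hmass
  have hBK : 1 ≤ B / K := by rw [le_div_iff₀ hK0]; linarith
  have h6 : a * I.xcost x' ≤ B / K := by
    have h7 : I.xcost x' ≤ 2 * (K : ℚ) ^ 3 * ((1 + 2 / (K : ℚ)) * B) :=
      hx.trans (mul_le_mul_of_nonneg_left hgood (by positivity))
    refine (mul_le_mul_of_nonneg_left h7 ha0).trans ?_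
    have e : a * (2 * (K : ℚ) ^ 3 * ((1 + 2 / (K : ℚ)) * B)) =
        2 / 3 * (1 + 2 / (K : ℚ)) * (B / K) := by
      rw [ha]; field_simp
    have h8 : 2 / (K : ℚ) ≤ 1 / 2 := by
      rw [div_le_iff₀ hK0]; linarith
    rw [e]
    exact mul_le_of_le_one_left (by positivity) (by linarith)
  have h9 : (1 - a) * (I.cost O : ℚ) ≤ B :=
    (mul_le_of_le_one_left (Nat.cast_nonneg _) (by linarith)).trans hB
  have e2 : (1 + 2 / (K : ℚ)) * B = B + 2 * (B / K) := by ring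
  rw [e2] at hbad
  linarith

/-- `z² ≤ A σ` gives `z ≤ σ / 4 + A` (as `(σ/4 + A)² ≥ A σ`) -/
lemma le_of_sq_le {z A σ : ℚ} (hA : 0 ≤ A) (hσ : 0 ≤ σ) (h : z ^ 2 ≤ A * σ) : z ≤ σ / 4 + A := by
  nlinarith [sq_nonneg (σ / 4 - A), sq_nonneg (z - (σ / 4 + A))]

lemma h18_head {I : II} {O : Finset ℕ} (hO : O ⊆ I.F) (hne : O.Nonempty) :
    (facs I).headD 0 ∈ I.F := by
  have hmem : ∀ i, i ∈ facs I ↔ i ∈ I.F := fun i => by simp [facs, II.mem_F]
  obtain ⟨o, ho⟩ := hne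
  have h1 := (hmem o).2 (hO ho)
  rw [← hmem]
  cases h : facs I with
  | nil => rw [h] at h1; simp at h1
  | cons a l => simp

lemma h18_arith {g u B L c U C0 S p z W q : ℚ} (hg1 : 3 / 2 ≤ g) (hg2 : g ≤ 2) (hu0 : 0 < u)
    (hu : u ≤ 1 / 100) (hB : 0 < B) (hL : L ≤ (1 + 2 * u) * B) (hc : c ≤ u * B) (hU : 0 ≤ U)
    (hS : 0 ≤ S) (hC : U + C0 ≤ g * (1 + 50 * u) * L + 6 * c) (hqW : 0 ≤ q * W)
    (hp : p * (q * W + 1) = u * B) (h : S + p * z ^ 2 ≤ C0 + p * (q * W)) :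
    u * z ^ 2 ≤ (4 + u) * (q * W + 1) ∧ U + S ≤ (g + 120 * u) * B := by
  have huB : 0 < u * B := mul_pos hu0 hB
  have hp0 : 0 < p := by
    by_contra hn
    have := mul_nonpos_of_nonpos_of_nonneg (not_lt.1 hn) (show 0 ≤ q * W + 1 by linarith)
    linarith
  have h1 : g * (1 + 50 * u) * L ≤ g * (1 + 50 * u) * ((1 + 2 * u) * B) :=
    mul_le_mul_of_nonneg_left hL (by positivity)
  have h2 : g * (1 + 50 * u) * (1 + 2 * u) ≤ g + 106 * u := by
    have e : g * (1 + 50 * u) * (1 + 2 * u) = g + g * (52 * u + 100 * u * u) := by ring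
    have h3 : 52 * u + 100 * u * u ≤ 53 * u := by nlinarith
    have h4 : g * (52 * u + 100 * u * u) ≤ 2 * (53 * u) :=
      mul_le_mul hg2 h3 (by positivity) (by norm_num)
    linarith
  have h3 : g * (1 + 50 * u) * ((1 + 2 * u) * B) ≤ (g + 106 * u) * B := by
    rw [← mul_assoc]; exact mul_le_mul_of_nonneg_right h2 hB.le
  have h4 : p * (q * W) ≤ u * B := by nlinarith
  have h5 : 0 ≤ p * z ^ 2 := by positivity
  have h6 : U + C0 ≤ (g + 112 * u) * B := by nlinarith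
  have h7 : (g + 112 * u) * B ≤ 4 * B := mul_le_mul_of_nonneg_right (by linarith) hB.le
  refine ⟨?_, by nlinarith⟩
  have h8 : p * z ^ 2 ≤ (4 + u) * B := by nlinarith
  have h9 : p * (u * z ^ 2) ≤ p * ((4 + u) * (q * W + 1)) := by
    calc p * (u * z ^ 2) = u * (p * z ^ 2) := by ring
      _ ≤ u * ((4 + u) * B) := mul_le_mul_of_nonneg_left h8 hu0.le
      _ = (4 + u) * (u * B) := by ring
      _ = p * ((4 + u) * (q * W + 1)) := by rw [← hp]; ring
  exact le_of_mul_le_mul_left h9 hp0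

/-- The rounding step. Put `V = vi lp K I κ`, `σ = k - κ + 1`, `Wc ≤ 6 K⁵ σ` (`Wc_le` with
`Col.col_spec`), `V.W ≤ 12 K⁹ σ` (`MkV.W_le`), `V.mass ≤ κ + σ/4` (`MkV.mass_le`), `V.W / Th ≤ σ/4`,
`ucost + C0 ≤ g (1+50/K)(1+2/K) B + 6 B/K ≤ 4 B` (`MkV.C0_le`), `pen * (cq W) ≤ B/K`,
`z² ≤ (4K+1)(cq W + 1) ≤ cA σ`, so the length is at most `1 + κ + 3σ/4 + cA ≤ k + cA + 2`;
cost by `MkV.cost_le`; membership by `MkV.vy_pos_mem`; the head of `facs` is a facility. -/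
lemma round_spec (hlp : LPSpec lp) (hp : ProcSpec g proc) (hg1 : 3 / 2 ≤ g) (hg2 : g ≤ 2)
    {I : II} {B : ℚ} {O : Finset ℕ} (hI : I.Valid) (hO : O ⊆ I.F)
    (hne : O.Nonempty) (hk : O.card ≤ I.k) (hB : (I.cost O : ℚ) ≤ B) (hK : 100 ≤ K)
    (hKB : (K : ℚ) ≤ B) (hn : ((K * I.C.card : ℕ) : ℚ) ≤ B) {κ : ℕ} (h2 : 2 ≤ κ) (hκ : κ ≤ I.k)
    (hgood : I.lpcost (lp I κ) ≤ (1 + 2 / (K : ℚ)) * B)
    (hbad : (1 + 2 / (K : ℚ)) * B < I.lpcost (lp I (κ - 1))) :
    (round lp proc K I B κ).toFinset ⊆ I.F ∧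
      (round lp proc K I B κ).toFinset.card ≤ I.k + (cA K + 2) ∧
      (I.cost (round lp proc K I B κ).toFinset : ℚ) ≤ (g + 120 / (K : ℚ)) * B := by
  obtain ⟨hy, hmass, -⟩ := hlp.2 I κ hI (by omega) (hκ.trans hI.k_le)
  have hH : Col.Hyp I K (lp I κ) := ⟨hI, hy, by rw [hmass]; exact_mod_cast h2, hK⟩
  have hC := Col.col_spec hH
  have hWc := Wc_le hlp hI hO hne hk hB hK hKB h2 hκ hgood hbad hC
  have hV : (vi lp K I κ).Valid (Hd K) := MkV.valid hI hC.yok hC.one_le hK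
  have hWle : (vi lp K I κ).W ≤ _ := MkV.W_le hI hC.yok hC.one_le hK
  have hM : (vi lp K I κ).mass ≤ _ := MkV.mass_le hI hC.yok hC.one_le hK
  have hC0 : _ + (vi lp K I κ).C0 g ≤ _ := MkV.C0_le hI hC hK hg1 hg2
  have hK0 : (0 : ℚ) < K := by exact_mod_cast (by omega : 0 < K)
  have hK100 : (100 : ℚ) ≤ K := by exact_mod_cast hK
  have hB0 : 0 < B := hK0.trans_le hKB
  have hW0 : 0 ≤ (vi lp K I κ).W := sum_nonneg fun i hi => by
    have h1 := hV.y_nonneg i (mem_range.1 hi)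
    have h2 := hV.y_le i (mem_range.1 hi)
    split_ifs <;> linarith
  have hqW : 0 ≤ (cq K : ℚ) * (vi lp K I κ).W := mul_nonneg (Nat.cast_nonneg _) hW0
  have hpen : pen lp K I B κ * ((cq K : ℚ) * (vi lp K I κ).W + 1) = (K : ℚ)⁻¹ * B := by
    rw [pen, div_mul_cancel₀ _ (by linarith), div_eq_inv_mul]
  have hpen0 : 0 ≤ pen lp K I B κ := div_nonneg (div_nonneg hB0.le hK0.le) (by linarith)
  have hTh : 0 < Th K := by unfold Th; positivity
  obtain ⟨hmem, z, hlen, hcost⟩ := hp.2 (vi lp K I κ) (Hd K) (Th K) (pen lp K I B κ) hV hTh hpen0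
  have hcl := MkV.cost_le (K := K) (y1 := Col.y1 I K (lp I κ)) (core := Col.core I K (lp I κ)) hI
    (fun j hj hu => (hC.usr_core j hj hu).1)
    (proc (vi lp K I κ) (Hd K) (Th K) (pen lp K I B κ)) ((facs I).headD 0)
  have hU : 0 ≤ I.ucost (Col.isU I K (lp I κ)) (Col.usr I K (lp I κ)) :=
    sum_nonneg fun j _ => by split_ifs <;> positivity
  have hS : 0 ≤ ∑ j ∈ range (vi lp K I κ).nc, (vi lp K I κ).w j *
      ((vi lp K I κ).rho (proc (vi lp K I κ) (Hd K) (Th K) (pen lp K I B κ)) j : ℚ) :=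
    sum_nonneg fun j hj => mul_nonneg (hV.w_nonneg j (mem_range.1 hj)) (Nat.cast_nonneg _)
  have hc : (I.C.card : ℚ) ≤ (K : ℚ)⁻¹ * B := by
    rw [le_inv_mul_iff₀ hK0]; exact_mod_cast hn
  obtain ⟨hz, hfin⟩ := h18_arith (u := (K : ℚ)⁻¹) (q := (cq K : ℚ)) hg1 hg2 (inv_pos.2 hK0)
    (by rw [one_div]; exact inv_anti₀ (by norm_num) hK100) hB0 hgood hc hU hS hC0 hqW hpen hcost
  refine ⟨fun i hi => ?_, ?_, hcl.trans hfin⟩
  · rw [List.mem_toFinset, round, List.mem_cons, List.mem_map] at hi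
    rcases hi with rfl | ⟨o, ho, rfl⟩
    · exact h18_head hO hne
    · exact MkV.vy_pos_mem hC.yok (hmem o ho).2
  · obtain ⟨σ, hσ⟩ : ∃ σ : ℚ, σ = ((I.k - κ + 1 : ℕ) : ℚ) := ⟨_, rfl⟩
    rw [← hσ] at hWc
    have hσ' : σ = (I.k : ℚ) - κ + 1 := by rw [hσ]; push_cast [Nat.cast_sub hκ]; ring
    have hσ1 : 1 ≤ σ := by
      have : (κ : ℚ) ≤ I.k := by exact_mod_cast hκ
      linarith
    have hW : (vi lp K I κ).W ≤ 12 * (K : ℚ) ^ 9 * σ := by
      refine hWle.trans ((mul_le_mul_of_nonneg_left hWc (by positivity)).trans (le_of_eq ?_))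
      ring
    have h1 : I.Wc (Col.y1 I K (lp I κ)) (Col.core I K (lp I κ)) / (MkV.HH K : ℚ) ≤ σ / 4 := by
      rw [MkV.HH, div_le_iff₀ (by positivity)]
      push_cast
      linarith
    have h3 : (vi lp K I κ).W / (Th K : ℚ) ≤ σ / 4 := by
      rw [Th, div_le_iff₀ (by positivity)]
      push_cast
      linarith
    have h4 : z ^ 2 ≤ (cA K : ℚ) * σ := by
      rw [inv_mul_le_iff₀ hK0] at hz
      have e : (K : ℚ) * ((4 + (K : ℚ)⁻¹) * ((cq K : ℚ) * (vi lp K I κ).W + 1)) =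
          (4 * K + 1) * ((cq K : ℚ) * (vi lp K I κ).W + 1) := by field_simp
      rw [e] at hz
      have h5 : (cq K : ℚ) * (vi lp K I κ).W + 1 ≤ ((cq K : ℚ) * (12 * (K : ℚ) ^ 9) + 1) * σ := by
        have := mul_le_mul_of_nonneg_left hW (Nat.cast_nonneg (α := ℚ) (cq K))
        linarith
      refine hz.trans ((mul_le_mul_of_nonneg_left h5 (by positivity)).trans (le_of_eq ?_))
      rw [cA]; push_cast; ring
    have h5 := le_of_sq_le (Nat.cast_nonneg _) (by linarith) h4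
    have h6 := hC.mass_le
    have h7 : (round lp proc K I B κ).toFinset.card ≤
        (proc (vi lp K I κ) (Hd K) (Th K) (pen lp K I B κ)).length + 1 := by
      refine (List.toFinset_card_le _).trans (le_of_eq ?_)
      simp [round]
    have h8 : (((proc (vi lp K I κ) (Hd K) (Th K) (pen lp K I B κ)).length + 1 : ℕ) : ℚ) ≤
        ((I.k + (cA K + 2) : ℕ) : ℚ) := by
      push_cast
      linarith
    exact h7.trans (by exact_mod_cast h8)

/-- If `lpcost (lp I 1) ≤ (1 + 2/K) B` a single facility works (`exists_single`). Otherwise there is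
a client (else all costs vanish), so `K ≤ B`; `κ = k` is good (`exists_mix` with `a = 0`, or the
integral solution directly); take the least good `κ ≥ 1` (`Nat.find`), it is `≥ 2`, and apply
`round_spec` (`κ ≤ k ≤ |F| ≤ N`). -/
lemma alg_spec (hlp : LPSpec lp) (hp : ProcSpec g proc) (hg1 : 3 / 2 ≤ g) (hg2 : g ≤ 2)
    (hK : 100 ≤ K) {I : II} {B : ℚ} {O : Finset ℕ} (hI : I.Valid) (hO : O ⊆ I.F)
    (hne : O.Nonempty) (hk : O.card ≤ I.k) (hB : (I.cost O : ℚ) ≤ B)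
    (hn : ((K * I.C.card : ℕ) : ℚ) ≤ B) :
    ∃ T ∈ alg lp proc K I B, T.toFinset ⊆ I.F ∧ T ≠ [] ∧ T.toFinset.card ≤ I.k + (cA K + 2) ∧
      (I.cost T.toFinset : ℚ) ≤ (g + 120 / (K : ℚ)) * B := by
  have hB0 : 0 ≤ B := le_trans (Nat.cast_nonneg _) hB
  have hKq : (100 : ℚ) ≤ K := by exact_mod_cast hK
  have hk1 := hI.k_pos
  have hkF := hI.k_le
  obtain ⟨hy1, hm1, -⟩ := hlp.2 I 1 hI le_rfl (hk1.trans hkF)
  by_cases h1 : I.lpcost (lp I 1) ≤ (1 + 2 / (K : ℚ)) * B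
  · obtain ⟨i, hi, hc⟩ := II.exists_single hI hy1 (by rw [hm1, Nat.cast_one])
    have e : [i].toFinset = {i} := by simp
    refine ⟨[i], List.mem_append_left _ (List.mem_map.2 ⟨i, ?_, rfl⟩), ?_, List.cons_ne_nil _ _,
      ?_, ?_⟩
    · simpa [facs] using II.mem_F.1 hi
    · rw [e]
      exact singleton_subset_iff.2 hi
    · rw [e, card_singleton]
      omega
    · rw [e]
      refine (hc.trans h1).trans (mul_le_mul_of_nonneg_right ?_ hB0)
      have : 2 / (K : ℚ) ≤ 120 / K := div_le_div_of_nonneg_right (by norm_num) (by positivity)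
      linarith
  · have hC : I.C.Nonempty := by
      by_contra hc
      rw [not_nonempty_iff_eq_empty] at hc
      refine h1 ?_
      rw [II.lpcost, hc, sum_empty]
      positivity
    have hKB : (K : ℚ) ≤ B := by
      refine le_trans ?_ hn
      exact_mod_cast Nat.le_mul_of_pos_right K hC.card_pos
    have hgood : I.lpcost (lp I I.k) ≤ (1 + 2 / (K : ℚ)) * B := by
      obtain ⟨x, y, hf, hm, hx⟩ := II.exists_mix hI hO hne
        (II.feas_nf hy1 (by rw [hm1, Nat.cast_one])) (a := 0) le_rfl zero_le_one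
      have h2 := (hlp.2 I I.k hI hk1 hkF).2.2 x y hf (by
        rw [hm, sub_zero, one_mul, zero_mul, add_zero]
        exact_mod_cast hk)
      rw [hx, sub_zero, one_mul, zero_mul, add_zero] at h2
      have h3 : 1 ≤ B / K := (one_le_div (by positivity)).2 hKB
      have h4 : (1 + 2 / (K : ℚ)) * B = B + 2 * (B / K) := by ring
      linarith
    have hex : ∃ κ, 1 ≤ κ ∧ I.lpcost (lp I κ) ≤ (1 + 2 / (K : ℚ)) * B := ⟨I.k, hk1, hgood⟩
    have hκ := Nat.find_spec hex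
    have hκk : Nat.find hex ≤ I.k := Nat.find_min' hex ⟨hk1, hgood⟩
    have h2 : 2 ≤ Nat.find hex := by
      by_contra hc
      have e : Nat.find hex = 1 := by omega
      exact h1 (e ▸ hκ.2)
    have hbad : (1 + 2 / (K : ℚ)) * B < I.lpcost (lp I (Nat.find hex - 1)) := by
      by_contra hc
      exact Nat.find_min hex (m := Nat.find hex - 1) (by omega) ⟨by omega, not_lt.1 hc⟩
    obtain ⟨r1, r2, r3⟩ := round_spec hlp hp hg1 hg2 hI hO hne hk hB hK hKB hn h2 hκk hκ.2 hbad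
    have hFN : I.F.card ≤ I.N := (card_filter_le _ _).trans (card_range _).le
    exact ⟨_, List.mem_append_right _ (List.mem_map.2 ⟨Nat.find hex,
      List.mem_range.2 (by omega), rfl⟩), r1, List.cons_ne_nil _ _, r2, r3⟩

end Ps

/-- The pseudo-approximation from offer systems. -/
theorem pseudo_of_offers
    (h : ∀ g : ℚ, 1 + 2 / Real.exp 1 < (g : ℝ) → Nonempty (OfferSys g)) (ε : ℝ) (hε : 0 < ε) :
    ∃ c K alg, PseudoSpec (1 + 2 / Real.exp 1 + ε) c K alg := by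
  have h1 := Real.exp_one_gt_d9
  have h2 := Real.exp_one_lt_d9
  have h3 : 1 / 2 ≤ 2 / Real.exp 1 := by
    rw [le_div_iff₀ (by linarith)]; linarith
  have h4 : 2 / Real.exp 1 < 1 := by
    rw [div_lt_one (by linarith)]; linarith
  obtain ⟨g, hg1, hg2⟩ := exists_rat_btwn
    (show 1 + 2 / Real.exp 1 < min 2 (1 + 2 / Real.exp 1 + ε / 2) from
      lt_min (by linarith) (by linarith))
  obtain ⟨O⟩ := h g hg1
  obtain ⟨lp, hlp⟩ := lp_exists
  obtain ⟨K0, hK0⟩ := exists_nat_ge (240 / ε)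
  have hga : (3 / 2 : ℚ) ≤ g := by
    have : ((3 / 2 : ℚ) : ℝ) ≤ g := by push_cast; linarith
    exact_mod_cast this
  have hgb : g ≤ 2 := by
    have : (g : ℝ) ≤ ((2 : ℚ) : ℝ) := by push_cast; exact hg2.le.trans (min_le_left _ _)
    exact_mod_cast this
  refine ⟨Ps.cA (K0 + 100) + 2, K0 + 100, Ps.alg lp (Proc.proc O) (K0 + 100),
    fun hI hB => Ps.pt_alg hlp (procSpec O) hI hB, fun I B Os hI hO hne hk hB hn => ?_⟩
  obtain ⟨T, hT, h5, h6, h7, h8⟩ :=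
    Ps.alg_spec hlp (procSpec O) hga hgb (by omega : 100 ≤ K0 + 100) hI hO hne hk hB hn
  refine ⟨T, hT, h5, h6, h7, ?_⟩
  have hB0 : (0 : ℝ) ≤ B := by
    have : (0 : ℚ) ≤ B := le_trans (by positivity) hB
    exact_mod_cast this
  have h9 : (I.cost T.toFinset : ℝ) ≤ ((g : ℝ) + 120 / ((K0 + 100 : ℕ) : ℝ)) * B := by
    have := (Rat.cast_le (K := ℝ)).2 h8
    push_cast at this ⊢
    exact this
  refine h9.trans (mul_le_mul_of_nonneg_right ?_ hB0)
  have h10 : (120 : ℝ) / ((K0 + 100 : ℕ) : ℝ) ≤ ε / 2 := by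
    rw [div_le_iff₀ (by positivity)]
    rw [div_le_iff₀ hε] at hK0
    push_cast
    nlinarith
  have := hg2.le.trans (min_le_right _ _)
  linarith

end Crest.Agent.R310
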