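import Crest.Agent.R310.Closed

/-! Row 310, table route: analytic lemmas (tangent bounds for the gain, piecewise linear rows). -/

set_option autoImplicit false
set_option linter.dupNamespace false

namespace Crest.Agent.R310.Tb

open Finset MeasureTheory

/-- linear interpolation -/
def lp (x : ℝ) (f : Bool → ℝ) : ℝ := (1 - x) * f false + x * f true

theorem lp_mono {x : ℝ} (h0 : 0 ≤ x) (h1 : x ≤ 1) {f g : Bool → ℝ} (h : ∀ a, f a ≤ g a) :
    lp x f ≤ lp x g :=
  add_le_add (mul_le_mul_of_nonneg_left (h _) (by linarith)) (mul_le_mul_of_nonneg_left (h _) h0)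

theorem lp_const (x c : ℝ) : lp x (fun _ => c) = c := by
  simp only [lp]; ring

theorem lp_le {x c : ℝ} (h0 : 0 ≤ x) (h1 : x ≤ 1) {f : Bool → ℝ} (h : ∀ a, f a ≤ c) :
    lp x f ≤ c := (lp_mono h0 h1 h).trans_eq (lp_const x c)

theorem le_lp {x c : ℝ} (h0 : 0 ≤ x) (h1 : x ≤ 1) {f : Bool → ℝ} (h : ∀ a, c ≤ f a) :
    c ≤ lp x f := (lp_const x c).symm.trans_le (lp_mono h0 h1 h)

theorem lp_max {x : ℝ} (h0 : 0 ≤ x) (h1 : x ≤ 1) (f g : Bool → ℝ) :
    max (lp x f) (lp x g) ≤ lp x fun a => max (f a) (g a) :=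
  max_le (lp_mono h0 h1 fun _ => le_max_left _ _) (lp_mono h0 h1 fun _ => le_max_right _ _)

theorem tangent {w H : ℝ → ℝ} (hp : Prim w H) {τ0 τ1 : ℝ} (hm : MonotoneOn w (Set.Icc τ0 τ1))
    {p q : ℝ} (h1 : p ∈ Set.Icc τ0 τ1) (h2 : q ∈ Set.Icc τ0 τ1) :
    H q + w q * (p - q) ≤ H p := by
  rcases le_total q p with h | h
  · have := intervalIntegral.integral_mono_on (μ := volume) h
      (intervalIntegrable_const (c := w q)) (hp.cont.intervalIntegrable q p)
      (fun x hx => hm h2 ⟨h2.1.trans hx.1, hx.2.trans h1.2⟩ hx.1)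
    rw [hp.int, intervalIntegral.integral_const, smul_eq_mul] at this
    linarith
  · have := intervalIntegral.integral_mono_on (μ := volume) h
      (hp.cont.intervalIntegrable p q) (intervalIntegrable_const (c := w q))
      (fun x hx => hm ⟨h1.1.trans hx.1, hx.2.trans h2.2⟩ h2 hx.2)
    rw [hp.int, intervalIntegral.integral_const, smul_eq_mul] at this
    linarith

theorem prim_convex {w H : ℝ → ℝ} (hp : Prim w H) {τ0 τ1 : ℝ}
    (hm : MonotoneOn w (Set.Icc τ0 τ1)) {x : ℝ} (h0 : 0 ≤ x) (h1 : x ≤ 1) {p : Bool → ℝ}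
    (h : ∀ a, p a ∈ Set.Icc τ0 τ1) : H (lp x p) ≤ lp x fun a => H (p a) := by
  have hq : lp x p ∈ Set.Icc τ0 τ1 := ⟨le_lp h0 h1 fun a => (h a).1, lp_le h0 h1 fun a => (h a).2⟩
  have := lp_mono h0 h1 fun a => tangent hp hm (h a) hq
  refine le_trans (le_of_eq ?_) this
  simp only [lp]; ring

/-- the full window integral -/
noncomputable def Vw (w : ℝ → ℝ) (s lam : ℝ) : ℝ := ∫ u in (0 : ℝ)..1, w (min s (lam - u))

theorem Vw_tan {w H : ℝ → ℝ} (hp : Prim w H) {τ0 τ1 : ℝ} (hm : MonotoneOn w (Set.Icc τ0 τ1))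
    {s lam σ : ℝ} (h0 : τ0 ≤ σ) (h1 : σ ≤ s) (h2 : s ≤ τ1) (h3 : τ0 + 1 ≤ lam)
    (h4 : lam - 1 ≤ τ1) : H σ + w σ * (lam - σ) - H (lam - 1) ≤ Vw w s lam := by
  have hs : s ∈ Set.Icc τ0 τ1 := ⟨h0.trans h1, h2⟩
  have hσ : σ ∈ Set.Icc τ0 τ1 := ⟨h0, h1.trans h2⟩
  have a1 : H σ + w σ * (lam - σ) ≤ frz w H s lam := by
    rcases le_total lam s with h | h
    · rw [frz_of_le _ _ h]
      exact tangent hp hm ⟨by linarith, h.trans h2⟩ hσ
    · rw [frz_of_ge _ _ h]
      have t1 := tangent hp hm hs hσ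
      have t2 := mul_le_mul_of_nonneg_left (hm hσ hs h1) (sub_nonneg.2 h)
      linarith
  have a2 : frz w H s (lam - 1) ≤ H (lam - 1) := by
    rcases le_total (lam - 1) s with h | h
    · rw [frz_of_le _ _ h]
    · rw [frz_of_ge _ _ h]
      have t1 := tangent hp hm (p := lam - 1) ⟨by linarith, h4⟩ hs
      linarith
  rw [Vw, hp.int_frz, sub_zero]
  linarith

theorem Vw_flat (w : ℝ → ℝ) {s lam : ℝ} (h : s ≤ lam - 1) : Vw w s lam = w s := by
  rw [Vw, intervalIntegral.integral_congr (g := fun _ => w s) fun u hu => by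
    rw [Set.uIcc_of_le zero_le_one] at hu
    rw [min_eq_left (by linarith [hu.2])]]
  simp

theorem gain_lb {v w : ℝ → ℝ} (cv : Continuous v) (cw : Continuous w) {τ0 τ1 : ℝ}
    (hm : MonotoneOn v (Set.Icc τ0 τ1)) (hwv : ∀ x ∈ Set.Icc τ0 τ1, w x ≤ v x)
    {s lam lamV : ℝ} (c μ : ℝ) (h0 : τ0 ≤ s) (h2 : s ≤ τ1) (h3 : τ0 + 1 ≤ lamV) (h4 : lamV ≤ lam) :
    Vw w s lamV - c - max 0 (min 1 (μ - s)) * (v s - c) ≤
      gainV (fun _ => 1) v c τ0 s lam μ := by
  have hm0 : 0 ≤ max 0 (min 1 (μ - s)) := le_max_left _ _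
  have hm1 : max 0 (min 1 (μ - s)) ≤ 1 := max_le zero_le_one (min_le_left _ _)
  have hc : Continuous fun u => v (min s (lam - u)) - c := by fun_prop
  have hc' : Continuous fun u => w (min s (lamV - u)) := by fun_prop
  have hc2 : Continuous fun u => w (min s (lamV - u)) - c := by fun_prop
  have mem : ∀ l u : ℝ, τ0 + 1 ≤ l → u ≤ 1 → min s (l - u) ∈ Set.Icc τ0 τ1 := fun l u hl hu =>
    ⟨le_min h0 (by linarith), (min_le_left _ _).trans h2⟩
  simp only [gainV, one_mul]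
  rw [min_eq_left (by linarith : (1 : ℝ) ≤ lam - τ0),
    ← intervalIntegral.integral_interval_sub_left (a := 0) (hc.intervalIntegrable _ _)
      (hc.intervalIntegrable _ _)]
  have b1 := intervalIntegral.integral_mono_on (μ := volume) zero_le_one
    (hc2.intervalIntegrable 0 1) (hc.intervalIntegrable 0 1) fun u hu =>
      sub_le_sub_right ((hwv _ (mem _ _ h3 hu.2)).trans (hm (mem _ _ h3 hu.2)
        (mem _ _ (h3.trans h4) hu.2) (min_le_min_left _ (by linarith)))) c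
  have b2 := intervalIntegral.integral_mono_on (μ := volume) hm0
    (hc.intervalIntegrable 0 _) (intervalIntegrable_const (c := v s - c)) fun u hu =>
      sub_le_sub_right (hm (mem _ _ (h3.trans h4) (hu.2.trans hm1)) ⟨h0, h2⟩ (min_le_left _ _)) c
  rw [intervalIntegral.integral_sub (hc'.intervalIntegrable _ _) intervalIntegrable_const] at b1
  simp only [intervalIntegral.integral_const, smul_eq_mul, sub_zero, one_mul] at b1 b2
  rw [Vw]
  linarith

/-! ### the tip solution -/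

noncomputable def Ef (s : ℝ) : ℝ := 2 / 3 * Real.exp (min 0 s)

noncomputable def Ff (x : ℝ) : ℝ := 2 / 3 * (Real.exp (min 0 x) + max x 0)

theorem prim_E : Prim Ef Ff :=
  ((prim_exp.min 0).const_mul (2 / 3)).congr (fun _ => rfl) (c := 0) fun x => by
    simp [Ff]

theorem Ff_tan (s lam : ℝ) : Ff s + Ef s * (lam - s) = Ef s * (1 + lam - min 0 s) := by
  rcases le_total 0 s with h | h
  · simp only [Ff, Ef, min_eq_left h, max_eq_left h, Real.exp_zero]; ring
  · simp only [Ff, Ef, min_eq_right h, max_eq_right h]; ring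

theorem Ff_neg {x : ℝ} (h : x ≤ 0) : Ff x = 2 / 3 * Real.exp x := by
  simp only [Ff, min_eq_right h, max_eq_right h, add_zero]

theorem Ef_neg {x : ℝ} (h : x ≤ 0) : Ef x = 2 / 3 * Real.exp x := by
  simp only [Ef, min_eq_right h]

theorem Ef_pos {x : ℝ} (h : 0 ≤ x) : Ef x = 2 / 3 := by
  simp only [Ef, min_eq_left h, Real.exp_zero, mul_one]

theorem exp_le_cubic {l : ℝ} (h : |l| ≤ 1) :
    Real.exp l ≤ 1 + l + l ^ 2 / 2 + 2 / 9 * |l| ^ 3 := by
  have := (abs_le.1 (Real.exp_bound h (n := 3) (by norm_num))).2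
  simp only [Finset.sum_range_succ, Finset.sum_range_zero, Nat.factorial] at this
  norm_num at this
  linarith

/-! ### piecewise linear rows -/

noncomputable def plp (y : ℕ → ℝ) (n : ℕ) (p : ℝ) : ℝ :=
  y 0 + ∑ t ∈ range n, (y (t + 1) - y t) * ((max p t - t) - (max p (t + 1) - (t + 1)))

noncomputable def Plp (y : ℕ → ℝ) (n : ℕ) (p : ℝ) : ℝ :=
  y 0 * p + ∑ t ∈ range n, (y (t + 1) - y t) *
    ((max p t - t) ^ 2 / 2 - (max p (t + 1) - (t + 1)) ^ 2 / 2)

noncomputable def cumR (y : ℕ → ℝ) (q : ℕ) : ℝ := ∑ t ∈ range q, (y t + y (t + 1))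

theorem prim_plp (y : ℕ → ℝ) (n : ℕ) : Prim (plp y n) (Plp y n) :=
  ((prim_const (y 0)).add (Prim.sum (n := n)
    (φ := fun t p => (max p t - t) + (-1) * (max p (t + 1) - (t + 1)))
    (Φ := fun t p => (max p t - t) ^ 2 / 2 + (-1) * ((max p (t + 1) - (t + 1)) ^ 2 / 2))
    (fun t _ => (prim_pl t).add ((prim_pl (t + 1)).const_mul (-1)))
    fun t => y (t + 1) - y t)).congr
    (fun x => by simp only [plp, neg_mul, one_mul, sub_eq_add_neg]) (c := 0)
    fun x => by simp only [Plp, neg_mul, one_mul, sub_eq_add_neg, add_zero]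

theorem plp_top (y : ℕ → ℝ) (n : ℕ) {p : ℝ} (h : (n : ℝ) ≤ p) :
    plp y n p = y n ∧ Plp y n p = cumR y n / 2 + y n * (p - n) := by
  induction n with
  | zero => simp [plp, Plp, cumR]
  | succ n ih =>
    push_cast at h
    obtain ⟨i1, i2⟩ := ih (by linarith)
    simp only [plp, Plp, cumR, sum_range_succ] at i1 i2 ⊢
    rw [max_eq_left (by linarith : (n : ℝ) ≤ p), max_eq_left h]
    push_cast
    constructor
    · linarith
    · linear_combination i2

theorem plp_cell (y : ℕ → ℝ) {n q : ℕ} (hq : q < n) {f : ℝ} (h0 : 0 ≤ f) (h1 : f ≤ 1) :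
    plp y n (q + f) = (1 - f) * y q + f * y (q + 1) ∧
      Plp y n (q + f) = cumR y q / 2 + y q * f + (y (q + 1) - y q) * f ^ 2 / 2 := by
  induction n with
  | zero => omega
  | succ n ih =>
    rcases Nat.lt_succ_iff_lt_or_eq.1 hq with h | rfl
    · obtain ⟨i1, i2⟩ := ih h
      have h' : (q : ℝ) + 1 ≤ n := by exact_mod_cast h
      simp only [plp, Plp, sum_range_succ] at i1 i2 ⊢
      rw [max_eq_right (by linarith : (q : ℝ) + f ≤ n),
        max_eq_right (by linarith : (q : ℝ) + f ≤ n + 1)]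
      constructor
      · linarith
      · linear_combination i2
    · obtain ⟨i1, i2⟩ := plp_top y q (p := q + f) (by linarith)
      simp only [plp, Plp, sum_range_succ] at i1 i2 ⊢
      rw [max_eq_left (by linarith : (q : ℝ) ≤ q + f),
        max_eq_right (by linarith : (q : ℝ) + f ≤ q + 1)]
      constructor
      · linear_combination i1
      · linear_combination i2

noncomputable def pl (y : ℕ → ℝ) (σ : ℝ) : ℝ := plp y 26 (12 * σ + 20)

noncomputable def Pl (y : ℕ → ℝ) (σ : ℝ) : ℝ := Plp y 26 (12 * σ + 20) / 12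

/-- time of the grid position `p` -/
noncomputable def sN (p : ℝ) : ℝ := (p - 20) / 12

theorem prim_pl' (y : ℕ → ℝ) : Prim (pl y) (Pl y) :=
  ⟨(prim_plp y 26).cont.comp (by fun_prop), fun p q => by
    simp only [pl, Pl]
    rw [intervalIntegral.integral_comp_mul_add (plp y 26) (by norm_num : (12 : ℝ) ≠ 0),
      (prim_plp y 26).int, smul_eq_mul]
    ring⟩

theorem pl_cell (y : ℕ → ℝ) {q : ℕ} (hq : q < 26) {f : ℝ} (h0 : 0 ≤ f) (h1 : f ≤ 1) :
    pl y (sN (q + f)) = (1 - f) * y q + f * y (q + 1) ∧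
      Pl y (sN (q + f)) = (cumR y q / 2 + y q * f + (y (q + 1) - y q) * f ^ 2 / 2) / 12 := by
  have e : 12 * sN (q + f) + 20 = q + f := by rw [sN]; ring
  obtain ⟨i1, i2⟩ := plp_cell y hq h0 h1
  rw [pl, Pl, e, i1, i2]
  exact ⟨rfl, rfl⟩

theorem cumR_succ (y : ℕ → ℝ) (q : ℕ) : cumR y (q + 1) = cumR y q + (y q + y (q + 1)) := by
  rw [cumR, sum_range_succ]; rfl

theorem pl_node (y : ℕ → ℝ) {j : ℕ} (hj : j ≤ 26) :
    pl y (sN j) = y j ∧ Pl y (sN j) = cumR y j / 24 := by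
  rcases Nat.lt_or_ge j 26 with h | h
  · obtain ⟨i1, i2⟩ := pl_cell y h le_rfl zero_le_one
    rw [add_zero] at i1 i2
    rw [i1, i2]
    constructor <;> ring
  · obtain rfl : j = 25 + 1 := by omega
    obtain ⟨i1, i2⟩ := pl_cell y (q := 25) (by norm_num) zero_le_one le_rfl
    rw [Nat.cast_add, Nat.cast_one, i1, i2, cumR_succ y 25]
    constructor <;> ring

theorem exists_cell {σ : ℝ} (h : σ ∈ Set.Icc (sN 0) (sN 26)) :
    ∃ q : ℕ, q < 26 ∧ ∃ f : ℝ, 0 ≤ f ∧ f ≤ 1 ∧ σ = sN (q + f) := by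
  obtain ⟨h0, h1⟩ := h
  simp only [sN] at h0 h1 ⊢
  rcases eq_or_lt_of_le h1 with h2 | h2
  · exact ⟨25, by norm_num, 1, zero_le_one, le_rfl, by rw [h2]; norm_num⟩
  · have hp : 0 ≤ 12 * σ + 20 := by linarith
    refine ⟨⌊12 * σ + 20⌋₊, (Nat.floor_lt hp).2 (by push_cast; linarith),
      12 * σ + 20 - ⌊12 * σ + 20⌋₊, sub_nonneg.2 (Nat.floor_le hp), ?_, by ring⟩
    linarith [Nat.lt_floor_add_one (12 * σ + 20)]

theorem mono_cells {g : ℝ → ℝ} (n : ℕ)
    (h : ∀ t : ℕ, t < n → MonotoneOn g (Set.Icc (sN t) (sN (t + 1)))) :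
    MonotoneOn g (Set.Icc (sN 0) (sN n)) := by
  induction n with
  | zero => simp
  | succ n ih =>
    have h0 : sN 0 ≤ sN n := by
      have := Nat.cast_nonneg (α := ℝ) n
      simp only [sN]; linarith
    have h1 : sN n ≤ sN (n + 1) := by simp only [sN]; linarith
    have := (ih fun t ht => h t (by omega)).union_right (h n (by omega)) (isGreatest_Icc h0)
      (isLeast_Icc h1)
    rw [Set.Icc_union_Icc_eq_Icc h0 h1] at this
    push_cast
    exact this

end Crest.Agent.R310.Tb
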