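import Crest.Agent.R310.TbA

/-! Row 310, table route: interpolation algebra. -/

set_option autoImplicit false
set_option linter.dupNamespace false

namespace Crest.Agent.R310.Tb

theorem lp_add (x : ℝ) (f g : Bool → ℝ) : lp x (fun a => f a + g a) = lp x f + lp x g := by
  simp only [lp]; ring

theorem lp_sub (x : ℝ) (f g : Bool → ℝ) : lp x (fun a => f a - g a) = lp x f - lp x g := by
  simp only [lp]; ring

theorem lp_mul (x : ℝ) (f g : Bool → ℝ) : lp x f * lp x g =
    lp x (fun a => f a * g a) - x * (1 - x) * ((f true - f false) * (g true - g false)) := by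
  simp only [lp]; ring

/-- admissible weights for the interpolation deficit -/
def Adm (ω : Bool → ℝ) : Prop :=
  (ω false = 1 / 4 ∧ ω true = 1 / 4) ∨ (ω false = 0 ∧ ω true = 1) ∨ (ω false = 1 ∧ ω true = 0)

theorem Adm.le {ω : Bool → ℝ} (h : Adm ω) {x : ℝ} (h0 : 0 ≤ x) (h1 : x ≤ 1) {D D' : ℝ}
    (hD : D ≤ D') (hD' : 0 ≤ D') : x * (1 - x) * D ≤ lp x fun a => ω a * D' := by
  have h2 : 0 ≤ x * (1 - x) := mul_nonneg h0 (by linarith)
  have h3 : x * (1 - x) ≤ lp x ω := by
    rcases h with ⟨a, b⟩ | ⟨a, b⟩ | ⟨a, b⟩ <;> simp only [lp, a, b] <;>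
      nlinarith [sq_nonneg (x - 1 / 2), sq_nonneg x, sq_nonneg (1 - x)]
  calc x * (1 - x) * D ≤ x * (1 - x) * D' := mul_le_mul_of_nonneg_left hD h2
    _ ≤ lp x ω * D' := mul_le_mul_of_nonneg_right h3 hD'
    _ = _ := by simp only [lp]; ring

theorem adm_q : Adm fun _ => 1 / 4 := Or.inl ⟨rfl, rfl⟩

def I2 (x z : ℝ) (f : Bool → Bool → ℝ) : ℝ := lp z fun b => lp x fun a => f a b

def I3 (x z t : ℝ) (f : Bool → Bool → Bool → ℝ) : ℝ :=
  lp z fun b => lp x fun a => lp t fun τ => f a b τ

def I4 (x y z t : ℝ) (f : Bool → Bool → Bool → Bool → ℝ) : ℝ :=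
  lp z fun b => lp x fun a => lp y fun c => lp t fun τ => f a c b τ

def Ik (y z t : ℝ) (f : Bool → Bool → Bool → ℝ) : ℝ :=
  lp z fun b => lp y fun c => lp t fun τ => f c b τ

def Is (x y z : ℝ) (f : Bool → Bool → Bool → ℝ) : ℝ :=
  lp z fun b => lp x fun a => lp y fun c => f a c b

/-- all four fractions lie in the unit interval -/
structure Fr (x y z t : ℝ) : Prop where
  x0 : 0 ≤ x
  x1 : x ≤ 1
  y0 : 0 ≤ y
  y1 : y ≤ 1
  z0 : 0 ≤ z
  z1 : z ≤ 1
  t0 : 0 ≤ t
  t1 : t ≤ 1

theorem Fr.swap {x y z t : ℝ} (h : Fr x y z t) : Fr y x z t :=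
  ⟨h.y0, h.y1, h.x0, h.x1, h.z0, h.z1, h.t0, h.t1⟩

theorem I2_mono {x y z t : ℝ} (h : Fr x y z t) {f g : Bool → Bool → ℝ}
    (H : ∀ a b, f a b ≤ g a b) : I2 x z f ≤ I2 x z g :=
  lp_mono h.z0 h.z1 fun b => lp_mono h.x0 h.x1 fun a => H a b

theorem I3_mono {x y z t : ℝ} (h : Fr x y z t) {f g : Bool → Bool → Bool → ℝ}
    (H : ∀ a b τ, f a b τ ≤ g a b τ) : I3 x z t f ≤ I3 x z t g :=
  lp_mono h.z0 h.z1 fun b => lp_mono h.x0 h.x1 fun a => lp_mono h.t0 h.t1 fun τ => H a b τ

theorem I4_mono {x y z t : ℝ} (h : Fr x y z t) {f g : Bool → Bool → Bool → Bool → ℝ}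
    (H : ∀ a c b τ, f a c b τ ≤ g a c b τ) : I4 x y z t f ≤ I4 x y z t g :=
  lp_mono h.z0 h.z1 fun b => lp_mono h.x0 h.x1 fun a => lp_mono h.y0 h.y1 fun c =>
    lp_mono h.t0 h.t1 fun τ => H a c b τ

theorem Is_mono {x y z t : ℝ} (h : Fr x y z t) {f g : Bool → Bool → Bool → ℝ}
    (H : ∀ a c b, f a c b ≤ g a c b) : Is x y z f ≤ Is x y z g :=
  lp_mono h.z0 h.z1 fun b => lp_mono h.x0 h.x1 fun a => lp_mono h.y0 h.y1 fun c => H a c b

theorem Ik_mono {x y z t : ℝ} (h : Fr x y z t) {f g : Bool → Bool → Bool → ℝ}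
    (H : ∀ c b τ, f c b τ ≤ g c b τ) : Ik y z t f ≤ Ik y z t g :=
  lp_mono h.z0 h.z1 fun b => lp_mono h.y0 h.y1 fun c => lp_mono h.t0 h.t1 fun τ => H c b τ

theorem I4_const (x y z t c : ℝ) : I4 x y z t (fun _ _ _ _ => c) = c := by
  simp only [I4, lp_const]

theorem I4_swap (x y z t : ℝ) (f : Bool → Bool → Bool → Bool → ℝ) :
    I4 y x z t f = I4 x y z t fun a c b τ => f c a b τ := by
  simp only [I4, lp]; ring

theorem I4_add (x y z t : ℝ) (f g : Bool → Bool → Bool → Bool → ℝ) :
    I4 x y z t (fun a c b τ => f a c b τ + g a c b τ) = I4 x y z t f + I4 x y z t g := by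
  simp only [I4, lp_add]

theorem neg_mul_le {u v cz czm mz mzm : ℝ} (h1 : -u ≤ cz) (h2 : u ≤ czm) (h3 : v ≤ mz)
    (h4 : -v ≤ mzm) (p1 : 0 ≤ cz) (p2 : 0 ≤ czm) (p3 : 0 ≤ mz) (p4 : 0 ≤ mzm) :
    -(u * v) ≤ max (cz * mz) (czm * mzm) := by
  rcases le_total 0 u with a | a <;> rcases le_total 0 v with b | b
  · exact le_max_of_le_left (by nlinarith [mul_nonneg a b, mul_nonneg p1 p3])
  · exact le_max_of_le_right (by nlinarith [mul_le_mul h2 h4 (by linarith) p2])
  · exact le_max_of_le_left (by nlinarith [mul_le_mul h1 h3 b p1])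
  · exact le_max_of_le_left (by nlinarith [mul_nonneg_of_nonpos_of_nonpos a b, mul_nonneg p1 p3])

/-- product of the price term and the missed window -/
theorem PM_le {x y z t : ℝ} (h : Fr x y z t) (P : Bool → Bool → Bool → Bool → ℝ)
    (M : Bool → Bool → Bool → ℝ) {cz czm mz mzm : ℝ} {XX : Bool → Bool → ℝ}
    (h1 : ∀ a c τ, P a c false τ - P a c true τ ≤ cz)
    (h2 : ∀ a c τ, P a c true τ - P a c false τ ≤ czm)
    (h3 : ∀ a τ, M a true τ - M a false τ ≤ mz) (h4 : ∀ a τ, M a false τ - M a true τ ≤ mzm)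
    (p1 : 0 ≤ cz) (p2 : 0 ≤ czm) (p3 : 0 ≤ mz) (p4 : 0 ≤ mzm)
    (hX : ∀ c b, (P true c b true - P false c b true - (P true c b false - P false c b false)) *
      (M true b true - M false b true - (M true b false - M false b false)) ≤ XX c b)
    (hX0 : ∀ c b, 0 ≤ XX c b) :
    I4 x y z t P * I3 x z t M ≤ I4 x y z t (fun a c b τ => P a c b τ * M a b τ) +
      x * (1 - x) * Ik y z t (fun c b τ =>
        XX c b / 4 - (P true c b τ - P false c b τ) * (M true b τ - M false b τ)) +
      z * (1 - z) * max (cz * mz) (czm * mzm) +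
      t * (1 - t) * Is x y z (fun a c b =>
        -((P a c b true - P a c b false) * (M a b true - M a b false))) := by
  have e1 : ∀ b, (lp x fun a => lp y fun c => lp t fun τ => P a c b τ) *
      (lp x fun a => lp t fun τ => M a b τ) =
      (lp x fun a => lp y fun c => lp t fun τ => P a c b τ * M a b τ) +
      x * (1 - x) * (lp y fun c => t * (1 - t) *
        ((P true c b true - P false c b true - (P true c b false - P false c b false)) *
        (M true b true - M false b true - (M true b false - M false b false))) -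
        lp t fun τ => (P true c b τ - P false c b τ) * (M true b τ - M false b τ)) +
      t * (1 - t) * lp x fun a => lp y fun c =>
        -((P a c b true - P a c b false) * (M a b true - M a b false)) := fun b => by
    simp only [lp]; ring
  have e2 : ∀ b, (lp y fun c => t * (1 - t) *
        ((P true c b true - P false c b true - (P true c b false - P false c b false)) *
        (M true b true - M false b true - (M true b false - M false b false))) -
        lp t fun τ => (P true c b τ - P false c b τ) * (M true b τ - M false b τ)) ≤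
      lp y fun c => lp t fun τ =>
        XX c b / 4 - (P true c b τ - P false c b τ) * (M true b τ - M false b τ) := fun b =>
    lp_mono h.y0 h.y1 fun c => by
      have := adm_q.le h.t0 h.t1 (hX c b) (hX0 c b)
      rw [lp_sub, lp_const] at *
      linarith
  have hx : 0 ≤ x * (1 - x) := mul_nonneg h.x0 (by linarith [h.x1])
  have hz : 0 ≤ z * (1 - z) := mul_nonneg h.z0 (by linarith [h.z1])
  have e3 := lp_mono h.z0 h.z1 fun b => (e1 b).le.trans
    (add_le_add_left (add_le_add_right (mul_le_mul_of_nonneg_left (e2 b) hx) _) _)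
  have e4 := neg_mul_le
    (u := (lp x fun a => lp y fun c => lp t fun τ => P a c true τ) -
      lp x fun a => lp y fun c => lp t fun τ => P a c false τ)
    (v := (lp x fun a => lp t fun τ => M a true τ) - lp x fun a => lp t fun τ => M a false τ)
    (by
      rw [neg_sub]
      simp only [← lp_sub]
      exact lp_le h.x0 h.x1 fun a => lp_le h.y0 h.y1 fun c => lp_le h.t0 h.t1 fun τ => h1 a c τ)
    (by
      simp only [← lp_sub]
      exact lp_le h.x0 h.x1 fun a => lp_le h.y0 h.y1 fun c => lp_le h.t0 h.t1 fun τ => h2 a c τ)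
    (by
      simp only [← lp_sub]
      exact lp_le h.x0 h.x1 fun a => lp_le h.t0 h.t1 fun τ => h3 a τ)
    (by
      rw [neg_sub]
      simp only [← lp_sub]
      exact lp_le h.x0 h.x1 fun a => lp_le h.t0 h.t1 fun τ => h4 a τ) p1 p2 p3 p4
  have e5 := mul_le_mul_of_nonneg_left e4 hz
  rw [I4, I3, lp_mul]
  refine le_trans (add_le_add e3 (le_of_eq_of_le (by ring) e5)) (le_of_eq ?_)
  simp only [I4, Ik, Is, lp]; ring

/-- product of the exact tip profile and a multilinear coefficient -/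
theorem EZ_le {x y z t : ℝ} (h : Fr x y z t) {Es : ℝ} {LE HE : Bool → ℝ}
    (Z : Bool → Bool → Bool → ℝ) (h1 : lp t LE ≤ Es) (h2 : Es ≤ lp t HE) :
    I3 x z t (fun a b τ => min (LE τ * Z a b τ) (HE τ * Z a b τ)) -
      t * (1 - t) * I2 x z (fun a b => max ((LE true - LE false) * (Z a b true - Z a b false))
        ((HE true - HE false) * (Z a b true - Z a b false))) ≤ Es * I3 x z t Z := by
  have ht : 0 ≤ t * (1 - t) := mul_nonneg h.t0 (by linarith [h.t1])
  have e : ∀ a b, (lp t fun τ => min (LE τ * Z a b τ) (HE τ * Z a b τ)) -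
      t * (1 - t) * max ((LE true - LE false) * (Z a b true - Z a b false))
        ((HE true - HE false) * (Z a b true - Z a b false)) ≤ Es * lp t (Z a b) := fun a b => by
    rcases le_total 0 (lp t (Z a b)) with h0 | h0
    · have a1 := mul_le_mul_of_nonneg_right h1 h0
      have a2 := lp_mono h.t0 h.t1 fun τ => min_le_left (LE τ * Z a b τ) (HE τ * Z a b τ)
      have a3 := mul_le_mul_of_nonneg_left (le_max_left
        ((LE true - LE false) * (Z a b true - Z a b false))
        ((HE true - HE false) * (Z a b true - Z a b false))) ht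
      rw [lp_mul] at a1
      linarith
    · have a1 := mul_le_mul_of_nonpos_right h2 h0
      have a2 := lp_mono h.t0 h.t1 fun τ => min_le_right (LE τ * Z a b τ) (HE τ * Z a b τ)
      have a3 := mul_le_mul_of_nonneg_left (le_max_right
        ((LE true - LE false) * (Z a b true - Z a b false))
        ((HE true - HE false) * (Z a b true - Z a b false))) ht
      rw [lp_mul] at a1
      linarith
  refine le_of_eq_of_le ?_ ((I2_mono h e).trans_eq ?_) <;> simp only [I2, I3, lp] <;> ring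

/-- charging the deficits to the vertices -/
theorem fin_le {x y z t : ℝ} (h : Fr x y z t) (val : Bool → Bool → Bool → Bool → ℝ)
    {Dk Dk' Ds Ds' ωk ωr : Bool → Bool → Bool → ℝ} {Dr : ℝ}
    (hk : ∀ c b τ, Dk c b τ ≤ Dk' c b τ) (hk0 : ∀ c b τ, 0 ≤ Dk' c b τ)
    (hs : ∀ a c b, Ds a c b ≤ Ds' a c b) (hs0 : ∀ a c b, 0 ≤ Ds' a c b) (hr : 0 ≤ Dr)
    (ak : ∀ c b, Adm fun a => ωk a c b) (ar : ∀ a c, Adm fun b => ωr a c b) :
    I4 x y z t (fun a c b τ =>
        val a c b τ - ωk a c b * Dk' c b τ - ωr a c b * Dr - 1 / 4 * Ds' a c b) ≤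
      I4 x y z t val - x * (1 - x) * Ik y z t Dk - z * (1 - z) * Dr -
        t * (1 - t) * Is x y z Ds := by
  have e1 := Ik_mono h fun c b τ => (ak c b).le h.x0 h.x1 (hk c b τ) (hk0 c b τ)
  have e2 := lp_mono h.x0 h.x1 fun a => lp_mono h.y0 h.y1 fun c =>
    (ar a c).le h.z0 h.z1 (le_refl Dr) hr
  have e3 := Is_mono h fun a c b => adm_q.le h.t0 h.t1 (hs a c b) (hs0 a c b)
  simp only [lp_const] at e2 e3
  have f1 : Ik y z t (fun c b τ => x * (1 - x) * Dk c b τ) = x * (1 - x) * Ik y z t Dk := by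
    simp only [Ik, lp]; ring
  have f3 : Is x y z (fun a c b => t * (1 - t) * Ds a c b) = t * (1 - t) * Is x y z Ds := by
    simp only [Is, lp]; ring
  have f4 : I4 x y z t (fun a c b τ =>
        val a c b τ - ωk a c b * Dk' c b τ - ωr a c b * Dr - 1 / 4 * Ds' a c b) =
      I4 x y z t val - Ik y z t (fun c b τ => lp x fun a => ωk a c b * Dk' c b τ) -
        (lp x fun a => lp y fun c => lp z fun b => ωr a c b * Dr) -
        Is x y z (fun a c b => 1 / 4 * Ds' a c b) := by
    simp only [I4, Ik, Is, lp]; ring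
  rw [f1] at e1
  rw [f3] at e3
  linarith

end Crest.Agent.R310.Tb
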