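import Crest.Agent.R310.TbB

/-! Row 310, table route: lower bound for one observer in one box (real level). -/

set_option autoImplicit false
set_option linter.dupNamespace false

namespace Crest.Agent.R310.Tb

/-- bilinear combination of four rows plus the exact tip profile -/
noncomputable def wr (e x y : ℝ) (Y : Bool → Bool → ℕ → ℝ) (σ : ℝ) : ℝ :=
  e * Ef σ + lp x fun a => lp y fun c => pl (Y a c) σ

noncomputable def Hr (e x y : ℝ) (Y : Bool → Bool → ℕ → ℝ) (σ : ℝ) : ℝ :=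
  e * Ff σ + lp x fun a => lp y fun c => Pl (Y a c) σ

theorem prim_lp (x : ℝ) {f F : Bool → ℝ → ℝ} (h : ∀ a, Prim (f a) (F a)) :
    Prim (fun σ => lp x fun a => f a σ) (fun σ => lp x fun a => F a σ) :=
  ((h false).const_mul (1 - x)).add ((h true).const_mul x)

theorem prim_wr (e x y : ℝ) (Y : Bool → Bool → ℕ → ℝ) : Prim (wr e x y Y) (Hr e x y Y) :=
  (prim_E.const_mul e).add (prim_lp x fun a => prim_lp y fun c => prim_pl' (Y a c))

/-- the cross term of the lower end of the window -/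
noncomputable def cross (Y : Bool → Bool → ℕ → ℝ) (lv : Bool → Bool → ℝ) (c b : Bool) : ℝ :=
  Pl (Y true c) (lv false b - 1) - Pl (Y false c) (lv false b - 1) -
    Pl (Y true c) (lv true b - 1) + Pl (Y false c) (lv true b - 1)

theorem Hr_le {x y z t e : ℝ} (h : Fr x y z t) {Y : Bool → Bool → ℕ → ℝ}
    (hm : MonotoneOn (wr e x y Y) (Set.Icc (sN 0) (sN 26))) {lv : Bool → Bool → ℝ}
    (h1 : ∀ a b, sN 0 + 1 ≤ lv a b) (h2 : ∀ a b, lv a b - 1 ≤ sN 26) :
    Hr e x y Y (I2 x z lv - 1) ≤ I2 x z (fun a b => e * Ff (lv a b - 1)) +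
      Is x y z (fun a c b => Pl (Y a c) (lv a b - 1)) +
      x * (1 - x) * lp z fun b => lp y fun c => cross Y lv c b := by
  have mem : ∀ a b, lv a b - 1 ∈ Set.Icc (sN 0) (sN 26) := fun a b =>
    ⟨by linarith [h1 a b], h2 a b⟩
  have e1 : I2 x z lv - 1 = lp z fun b => lp x fun a => lv a b - 1 := by
    simp only [I2, lp]; ring
  rw [e1]
  refine (prim_convex (prim_wr e x y Y) hm h.z0 h.z1 fun b =>
    ⟨le_lp h.x0 h.x1 fun a => (mem a b).1, lp_le h.x0 h.x1 fun a => (mem a b).2⟩).trans ?_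
  refine (lp_mono h.z0 h.z1 fun b =>
    prim_convex (prim_wr e x y Y) hm h.x0 h.x1 fun a => mem a b).trans_eq ?_
  simp only [Hr, I2, Is, cross, lp]; ring

/-- shape of the lower bound for the window integral -/
def VLB (x y z t Es V : ℝ) (ZV : Bool → Bool → Bool → ℝ) (Tv : Bool → Bool → Bool → Bool → ℝ)
    (FV : Bool → Bool → ℝ) (Dk Ds : Bool → Bool → Bool → ℝ) : Prop :=
  Es * I3 x z t ZV + I4 x y z t Tv - I2 x z FV - x * (1 - x) * Ik y z t Dk -
    t * (1 - t) * Is x y z Ds ≤ V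

theorem sN_mono {p q : ℝ} (h : p ≤ q) : sN p ≤ sN q := by
  simp only [sN]; linarith

theorem sN_mem {q : ℕ} (hq : q < 26) {f : ℝ} (h0 : 0 ≤ f) (h1 : f ≤ 1) :
    sN (q + f) ∈ Set.Icc (sN 0) (sN 26) := by
  have a : (q : ℝ) + 1 ≤ 26 := by exact_mod_cast hq
  exact ⟨sN_mono (by positivity), sN_mono (by linarith)⟩

/-- node index of the end `τ` of the time cell `q` -/
def tn (q : ℕ) (τ : Bool) : ℕ := cond τ (q + 1) q

theorem min_cell (q : ℕ) {t : ℝ} (h0 : 0 ≤ t) (h1 : t ≤ 1) :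
    min 0 (sN (q + t)) = lp t fun τ => min 0 (sN (tn q τ)) := by
  simp only [lp, tn, cond_true, cond_false, Nat.cast_add, Nat.cast_one]
  rcases Nat.lt_or_ge q 20 with h | h
  · have a : (q : ℝ) + 1 ≤ 20 := by exact_mod_cast h
    rw [min_eq_right, min_eq_right, min_eq_right] <;> simp only [sN] <;> linarith
  · have a : (20 : ℝ) ≤ q := by exact_mod_cast h
    rw [min_eq_left (a := (0 : ℝ)) (b := sN (q + t)), min_eq_left (a := (0 : ℝ)) (b := sN q),
      min_eq_left (a := (0 : ℝ)) (b := sN (q + 1))] <;> (try simp only [sN]) <;> linarith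

theorem pl_lp (y : ℕ → ℝ) {q : ℕ} (hq : q < 26) {t : ℝ} (h0 : 0 ≤ t) (h1 : t ≤ 1) :
    pl y (sN (q + t)) = lp t fun τ => y (tn q τ) := (pl_cell y hq h0 h1).1

theorem VLB_A {x y z t e : ℝ} (h : Fr x y z t) {Y : Bool → Bool → ℕ → ℝ}
    (hm : MonotoneOn (wr e x y Y) (Set.Icc (sN 0) (sN 26))) {lv : Bool → Bool → ℝ}
    (h1 : ∀ a b, sN 0 + 1 ≤ lv a b) (h2 : ∀ a b, lv a b - 1 ≤ sN 26) {q : ℕ} (hq : q < 26) :
    VLB x y z t (e * Ef (sN (q + t))) (Vw (wr e x y Y) (sN (q + t)) (I2 x z lv))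
      (fun a b τ => 1 + lv a b - min 0 (sN (tn q τ)))
      (fun a c b τ => cumR (Y a c) (tn q τ) / 24 + Y a c (tn q τ) * (lv a b - sN (tn q τ)) -
        Pl (Y a c) (lv a b - 1))
      (fun a b => e * Ff (lv a b - 1))
      (fun c b τ => (Y true c (tn q τ) - Y false c (tn q τ)) * (lv true b - lv false b) +
        cross Y lv c b)
      (fun a c _ => -((Y a c (q + 1) - Y a c q) / 24)) := by
  have hs := sN_mem hq h.t0 h.t1
  have l1 : sN 0 + 1 ≤ I2 x z lv := le_lp h.z0 h.z1 fun b => le_lp h.x0 h.x1 fun a => h1 a b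
  have l2 : I2 x z lv ≤ sN 26 + 1 :=
    lp_le h.z0 h.z1 fun b => lp_le h.x0 h.x1 fun a => by linarith [h2 a b]
  have a1 := Vw_tan (prim_wr e x y Y) hm hs.1 le_rfl hs.2 l1 (by linarith)
  have a2 := Hr_le h hm h1 h2
  have a3 := Ff_tan (sN (q + t)) (I2 x z lv)
  rw [min_cell q h.t0 h.t1] at a3
  refine le_trans (le_of_eq ?_) ((sub_le_sub_left a2 _).trans a1)
  simp only [Hr, wr, (pl_cell _ hq h.t0 h.t1).1, (pl_cell _ hq h.t0 h.t1).2]
  simp only [I2, I3, I4, Ik, Is, lp, tn, cond_true, cond_false, cumR_succ, Nat.cast_add,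
    Nat.cast_one] at a3 ⊢
  generalize min 0 (sN (q + 1)) = m1 at *
  generalize min 0 (sN q) = m0 at *
  generalize Ef (sN (q + t)) = E at *
  generalize Ff (sN (q + t)) = F at *
  simp only [sN] at *
  linear_combination (-e) * a3

theorem VLB_B {x y z t e : ℝ} (h : Fr x y z t) (he : 0 ≤ e) {Y : Bool → Bool → ℕ → ℝ}
    (hm : MonotoneOn (wr e x y Y) (Set.Icc (sN 0) (sN 26))) {lv : Bool → Bool → ℝ}
    (h1 : ∀ a b, sN 0 + 1 ≤ lv a b) (h2 : ∀ a b, lv a b - 1 ≤ sN 26) {s : ℝ} (hs : s ≤ sN 26)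
    {j : ℕ} (hj : sN j ≤ s) {LN : ℝ} (hL : LN ≤ Ef (sN j)) (Es : ℝ) :
    VLB x y z t Es (Vw (wr e x y Y) s (I2 x z lv)) (fun _ _ _ => 0)
      (fun a c b _ => cumR (Y a c) j / 24 + Y a c j * (lv a b - sN j) -
        Pl (Y a c) (lv a b - 1) + e * LN * (1 + lv a b - min 0 (sN j)))
      (fun a b => e * Ff (lv a b - 1))
      (fun c b _ => (Y true c j - Y false c j) * (lv true b - lv false b) + cross Y lv c b)
      (fun _ _ _ => 0) := by
  have hj' : j ≤ 26 := by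
    have := hj.trans hs
    simp only [sN] at this
    exact_mod_cast (by linarith : (j : ℝ) ≤ 26)
  have l1 : sN 0 + 1 ≤ I2 x z lv := le_lp h.z0 h.z1 fun b => le_lp h.x0 h.x1 fun a => h1 a b
  have l2 : I2 x z lv ≤ sN 26 + 1 :=
    lp_le h.z0 h.z1 fun b => lp_le h.x0 h.x1 fun a => by linarith [h2 a b]
  have a1 := Vw_tan (prim_wr e x y Y) hm (sN_mono (Nat.cast_nonneg j)) hj hs l1 (by linarith)
  have a2 := Hr_le h hm h1 h2
  have a3 := Ff_tan (sN j) (I2 x z lv)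
  have a4 : 0 ≤ 1 + I2 x z lv - min 0 (sN j) := by
    have := min_le_left 0 (sN j)
    simp only [sN] at l1
    linarith
  have a5 := mul_le_mul_of_nonneg_left (mul_le_mul_of_nonneg_right hL a4) he
  refine le_trans ?_ ((sub_le_sub_left a2 _).trans a1)
  simp only [Hr, wr, (pl_node _ hj').1, (pl_node _ hj').2]
  simp only [I2, I3, I4, Ik, Is, lp] at a3 a5 ⊢
  generalize min 0 (sN j) = m0 at *
  generalize Ef (sN j) = E at *
  generalize Ff (sN j) = F at *
  apply le_of_sub_nonneg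
  refine le_of_le_of_eq (sub_nonneg.2 a5) ?_
  linear_combination (-e) * a3

theorem VLB_C {x y z t e : ℝ} (h : Fr x y z t) (Y : Bool → Bool → ℕ → ℝ)
    {lv : Bool → Bool → ℝ} {q : ℕ} (hq : q < 26) (h1 : ∀ a b, sN (q + 1) + 1 ≤ lv a b) :
    VLB x y z t (e * Ef (sN (q + t))) (Vw (wr e x y Y) (sN (q + t)) (I2 x z lv))
      (fun _ _ _ => 1) (fun a c _ τ => Y a c (tn q τ)) (fun _ _ => 0) (fun _ _ _ => 0)
      (fun _ _ _ => 0) := by
  have l1 : sN (q + 1) + 1 ≤ I2 x z lv :=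
    le_lp h.z0 h.z1 fun b => le_lp h.x0 h.x1 fun a => h1 a b
  have l2 : sN (q + t) ≤ sN (q + 1) := sN_mono (by linarith [h.t1])
  rw [VLB, Vw_flat _ (by linarith)]
  simp only [wr, pl_lp _ hq h.t0 h.t1]
  simp only [I2, I3, I4, Ik, Is, lp]
  exact le_of_eq (by ring)

theorem obs_core {x y z t Es V Φ Bm : ℝ} (h : Fr x y z t) {ZV M W Dk Ds : Bool → Bool → Bool → ℝ}
    {Tv P : Bool → Bool → Bool → Bool → ℝ} {FV βs βv XX : Bool → Bool → ℝ} {LE HE : Bool → ℝ}
    (hV : VLB x y z t Es V ZV Tv FV Dk Ds)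
    (hG : I2 x z βs + V - (Es + I4 x y z t P - Bm) * I3 x z t M - Es - I3 x z t W ≤ Φ)
    (hβ : ∀ a b, βv a b ≤ βs a b - FV a b) (l1 : lp t LE ≤ Es) (l2 : Es ≤ lp t HE)
    {cz czm mz mzm : ℝ}
    (h1 : ∀ a c τ, P a c false τ - P a c true τ ≤ cz)
    (h2 : ∀ a c τ, P a c true τ - P a c false τ ≤ czm)
    (h3 : ∀ a τ, M a true τ - M a false τ ≤ mz) (h4 : ∀ a τ, M a false τ - M a true τ ≤ mzm)
    (p1 : 0 ≤ cz) (p2 : 0 ≤ czm) (p3 : 0 ≤ mz) (p4 : 0 ≤ mzm)
    (hX : ∀ c b, (P true c b true - P false c b true - (P true c b false - P false c b false)) *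
      (M true b true - M false b true - (M true b false - M false b false)) ≤ XX c b)
    (hX0 : ∀ c b, 0 ≤ XX c b) {Dk' Ds' ωk ωr : Bool → Bool → Bool → ℝ}
    (hk : ∀ c b τ, Dk c b τ + (XX c b / 4 -
      (P true c b τ - P false c b τ) * (M true b τ - M false b τ)) ≤ Dk' c b τ)
    (hk0 : ∀ c b τ, 0 ≤ Dk' c b τ)
    (hs : ∀ a c b, Ds a c b - (P a c b true - P a c b false) * (M a b true - M a b false) +
      max ((LE true - LE false) *
          (ZV a b true - M a b true - 1 - (ZV a b false - M a b false - 1)))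
        ((HE true - HE false) *
          (ZV a b true - M a b true - 1 - (ZV a b false - M a b false - 1))) ≤ Ds' a c b)
    (hs0 : ∀ a c b, 0 ≤ Ds' a c b)
    (ak : ∀ c b, Adm fun a => ωk a c b) (ar : ∀ a c, Adm fun b => ωr a c b) :
    I4 x y z t (fun a c b τ => βv a b - W a b τ + Tv a c b τ +
      min (LE τ * (ZV a b τ - M a b τ - 1)) (HE τ * (ZV a b τ - M a b τ - 1)) -
      P a c b τ * M a b τ + Bm * M a b τ - ωk a c b * Dk' c b τ -
      ωr a c b * max (cz * mz) (czm * mzm) - 1 / 4 * Ds' a c b) ≤ Φ := by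
  have a1 := PM_le h P M h1 h2 h3 h4 p1 p2 p3 p4 hX hX0
  have a2 := EZ_le h (fun a b τ => ZV a b τ - M a b τ - 1) l1 l2
  have a3 := I2_mono h hβ
  refine (fin_le h _ hk hk0 hs hs0 (le_max_of_le_left (mul_nonneg p1 p3)) ak ar).trans ?_
  refine le_trans ?_ hG
  rw [VLB] at hV
  have f1 : I4 x y z t (fun a c b τ => βv a b - W a b τ + Tv a c b τ +
      min (LE τ * (ZV a b τ - M a b τ - 1)) (HE τ * (ZV a b τ - M a b τ - 1)) -
      P a c b τ * M a b τ + Bm * M a b τ) = I2 x z βv - I3 x z t W + I4 x y z t Tv +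
      I3 x z t (fun a b τ => min (LE τ * (ZV a b τ - M a b τ - 1))
        (HE τ * (ZV a b τ - M a b τ - 1))) -
      I4 x y z t (fun a c b τ => P a c b τ * M a b τ) + Bm * I3 x z t M := by
    simp only [I2, I3, I4, lp]; ring
  have f2 : ∀ f g : Bool → Bool → Bool → ℝ,
      Ik y z t (fun c b τ => f c b τ + g c b τ) = Ik y z t f + Ik y z t g := fun f g => by
    simp only [Ik, lp_add]
  have f3 : ∀ (f g : Bool → Bool → Bool → ℝ) (u : Bool → Bool → ℝ),
      Is x y z (fun a c b => f a c b - g a c b + u a b) =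
        Is x y z f + Is x y z (fun a c b => -g a c b) + I2 x z u := fun f g u => by
    simp only [Is, I2, lp]; ring
  have f4 : I3 x z t (fun a b τ => ZV a b τ - M a b τ - 1) = I3 x z t ZV - I3 x z t M - 1 := by
    simp only [I3, lp]; ring
  have f5 : I2 x z (fun a b => βs a b - FV a b) = I2 x z βs - I2 x z FV := by
    simp only [I2, lp_sub]
  rw [f1, f2, f3]
  rw [f4] at a2
  rw [f5] at a3
  linarith

end Crest.Agent.R310.Tb
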