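import Crest.Agent.R310.TbC

/-! Row 310, table route: the integer checker. -/

set_option autoImplicit false
set_option linter.dupNamespace false

namespace Crest.Agent.R310.Tb

local infixl:65 " +' " => Nat.add
local infixl:65 " -' " => Nat.sub
local infixl:70 " *' " => Nat.mul

structure Dat where
  X : ℕ → ℕ
  L1 : ℕ → ℕ
  U : ℕ → ℕ → ℕ
  Y : ℕ → ℕ → ℕ → ℕ
  LE : ℕ → ℕ
  HE : ℕ → ℕ
  LN : ℕ → ℕ

abbrev B2 := Bool → Bool → ℕ
abbrev B3 := Bool → Bool → Bool → ℕ
abbrev B4 := Bool → Bool → Bool → Bool → ℕ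

def mx (a b : ℕ) : ℕ := a +' (b -' a)
def mn (a b : ℕ) : ℕ := a -' (a -' b)
def allB (p : Bool → Bool) : Bool := and (p false) (p true)
noncomputable def allN (p : ℕ → Bool) (n : ℕ) : Bool := Nat.rec true (fun i ih => and (p i) ih) n
noncomputable def frc (x : ℕ) (k : ℕ → Bool) : Bool := Nat.rec (k 0) (fun n _ => k (Nat.succ n)) x

/-! ### the common part -/

def dXX (P : B4) (M : B3) (c b : Bool) : ℕ :=
  ((P true c b true +' P false c b false) *' (M true b true +' M false b false) +'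
    (P false c b true +' P true c b false) *' (M false b true +' M true b false)) -'
  ((P true c b true +' P false c b false) *' (M false b true +' M true b false) +'
    (P false c b true +' P true c b false) *' (M true b true +' M false b false))

def dK (P : B4) (M Kp Kn : B3) (c b τ : Bool) : ℕ :=
  (Kp c b τ +' dXX P M c b *' 8 +'
    (P true c b τ *' M false b τ +' P false c b τ *' M true b τ) *' 32) -'
  (Kn c b τ +' (P true c b τ *' M true b τ +' P false c b τ *' M false b τ) *' 32)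

def mzp (M : B3) : ℕ :=
  mx (mx (M false true false -' M false false false) (M false true true -' M false false true))
    (mx (M true true false -' M true false false) (M true true true -' M true false true))

def mzn (M : B3) : ℕ :=
  mx (mx (M false false false -' M false true false) (M false false true -' M false true true))
    (mx (M true false false -' M true true false) (M true false true -' M true true true))

def dR (M : B3) (cz czm : ℕ) : ℕ := mx (cz *' mzp M) (czm *' mzn M) *' 32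

def dZp (Zp Zn : B3) (LE HE : Bool → ℕ) (a b : Bool) : ℕ :=
  mx (LE true -' LE false) (HE true -' HE false) *'
    ((Zp a b true +' Zn a b false) -' (Zn a b true +' Zp a b false)) *' 2048

def dZn (Zp Zn : B3) (LE HE : Bool → ℕ) (a b : Bool) : ℕ :=
  mn (LE true -' LE false) (HE true -' HE false) *'
    ((Zn a b true +' Zp a b false) -' (Zp a b true +' Zn a b false)) *' 2048

def dS (P : B4) (M Zp Zn : B3) (Sp Sn : B2) (LE HE : Bool → ℕ) (a c b : Bool) : ℕ :=
  (Sp a c +' (P a c b true *' M a b false +' P a c b false *' M a b true) *' 32 +'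
    dZp Zp Zn LE HE a b) -'
  (Sn a c +' (P a c b true *' M a b true +' P a c b false *' M a b false) *' 32 +'
    dZn Zp Zn LE HE a b)

def abN (βn : B2) (W Zp Zn : B3) (HE : Bool → ℕ) (a b τ : Bool) : ℕ :=
  100000000000000000000 +' βn a b +' W a b τ *' 103079215104 +'
    HE τ *' (Zn a b τ -' Zp a b τ) *' 2048

def abP (βp : B2) (M Zp Zn : B3) (Bm : ℕ) (LE : Bool → ℕ) (a b τ : Bool) : ℕ :=
  βp a b +' LE τ *' (Zp a b τ -' Zn a b τ) *' 2048 +' Bm *' M a b τ *' 32

def core (βp βn : B2) (W : B3) (Tp Tn : B4) (Zp Zn M : B3) (P : B4) (Bm : ℕ) (LE HE : Bool → ℕ)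
    (Kp Kn : B3) (Sp Sn : B2) (cz czm : ℕ) (ωk ωr : B3) (a c b τ : Bool) : ℕ :=
  (4 *' (abN βn W Zp Zn HE a b τ +' Tn a c b τ +' P a c b τ *' M a b τ *' 32) +'
    ωk a c b *' dK P M Kp Kn c b τ +' ωr a c b *' dR M cz czm +'
    dS P M Zp Zn Sp Sn LE HE a c b) -'
  4 *' (abP βp M Zp Zn Bm LE a b τ +' Tp a c b τ)

/-! ### rows -/

def nearN (i : ℕ) : Bool := and (Nat.ble 6 i) (Nat.ble i 14)
def nearC (i : ℕ) : Bool := and (Nat.ble 6 i) (Nat.ble i 13)

def Yf (d : Dat) (e : Bool) (i j t : ℕ) : ℕ := cond e (d.Y i j t -' d.LE t) (d.Y i j t)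

def YH (d : Dat) (e : Bool) (i j t : ℕ) : ℕ :=
  cond e (d.Y i j t -' d.LE t)
    (cond (and (nearN i) (nearN j)) (d.Y i j t +' (d.HE t -' d.LE t)) (d.Y i j t))

/-- the four rows of an observer -/
def rows (d : Dat) (e : Bool) (kc lc : ℕ) (a c : Bool) (t : ℕ) : ℕ := Yf d e (tn kc a) (tn lc c) t

noncomputable def cum (y : ℕ → ℕ) (q : ℕ) : ℕ :=
  Nat.rec 0 (fun t ih => ih +' (y t +' y (Nat.succ t))) q

noncomputable def NLq (y : ℕ → ℕ) (q F : ℕ) : ℕ :=
  4294967296 *' cum y q +' y q *' (131072 *' F -' F *' F) +' y (Nat.succ q) *' (F *' F)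

noncomputable def NL (Y : Bool → Bool → ℕ → ℕ) (lv : B2) (a' c a b : Bool) : ℕ :=
  NLq (Y a' c) (Nat.div (lv a b -' 786432) 65536) (Nat.mod (lv a b -' 786432) 65536)

noncomputable def crP (Y : Bool → Bool → ℕ → ℕ) (lv : B2) (c b : Bool) : ℕ :=
  NL Y lv true c false b +' NL Y lv false c true b

noncomputable def crN (Y : Bool → Bool → ℕ → ℕ) (lv : B2) (c b : Bool) : ℕ :=
  NL Y lv false c false b +' NL Y lv true c true b

noncomputable def tP (Y : Bool → Bool → ℕ → ℕ) (lv : B2) (j : ℕ) (a c b : Bool) : ℕ :=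
  4294967296 *' cum (Y a c) j +' Y a c j *' lv a b *' 131072

noncomputable def tN (Y : Bool → Bool → ℕ → ℕ) (lv : B2) (j : ℕ) (a c b : Bool) : ℕ :=
  Y a c j *' j *' 8589934592 +' NL Y lv a c a b

noncomputable def kP (Y : Bool → Bool → ℕ → ℕ) (lv : B2) (j : ℕ) (c b : Bool) : ℕ :=
  (Y true c j *' lv true b +' Y false c j *' lv false b) *' 131072 +' crP Y lv c b

noncomputable def kN (Y : Bool → Bool → ℕ → ℕ) (lv : B2) (j : ℕ) (c b : Bool) : ℕ :=
  (Y true c j *' lv false b +' Y false c j *' lv true b) *' 131072 +' crN Y lv c b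

def z2 (_ _ : Bool) : ℕ := 0
def z3 (_ _ _ : Bool) : ℕ := 0
def z4 (_ _ _ _ : Bool) : ℕ := 0

noncomputable def tPA (Y : Bool → Bool → ℕ → ℕ) (lv : B2) (q : ℕ) (a c b τ : Bool) : ℕ :=
  tP Y lv (tn q τ) a c b
noncomputable def tNA (Y : Bool → Bool → ℕ → ℕ) (lv : B2) (q : ℕ) (a c b τ : Bool) : ℕ :=
  tN Y lv (tn q τ) a c b
noncomputable def kPA (Y : Bool → Bool → ℕ → ℕ) (lv : B2) (q : ℕ) (c b τ : Bool) : ℕ :=
  kP Y lv (tn q τ) c b
noncomputable def kNA (Y : Bool → Bool → ℕ → ℕ) (lv : B2) (q : ℕ) (c b τ : Bool) : ℕ :=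
  kN Y lv (tn q τ) c b
def zPA (lv : B2) (a b _τ : Bool) : ℕ := 64 *' lv a b
def zNA (M : B3) (q : ℕ) (a b τ : Bool) : ℕ := 4194304 *' mn (tn q τ) 20 +' M a b τ
def sPA (Y : Bool → Bool → ℕ → ℕ) (q : ℕ) (a c : Bool) : ℕ := Y a c q *' 4294967296
def sNA (Y : Bool → Bool → ℕ → ℕ) (q : ℕ) (a c : Bool) : ℕ := Y a c (tn q true) *' 4294967296

def lnB (lv : B2) (j LN : ℕ) (a b : Bool) : ℕ :=
  LN *' (786432 +' lv a b -' 65536 *' mn j 20) *' 131072
noncomputable def tPB' (Y : Bool → Bool → ℕ → ℕ) (lv : B2) (j LN : ℕ) (a c b : Bool) : ℕ :=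
  tP Y lv j a c b +' lnB lv j LN a b
noncomputable def tPB (Y : Bool → Bool → ℕ → ℕ) (lv : B2) (j LN : ℕ) (a c b _τ : Bool) : ℕ :=
  tPB' Y lv j LN a c b
noncomputable def tNB (Y : Bool → Bool → ℕ → ℕ) (lv : B2) (j : ℕ) (a c b _τ : Bool) : ℕ :=
  tN Y lv j a c b
noncomputable def kPB (Y : Bool → Bool → ℕ → ℕ) (lv : B2) (j : ℕ) (c b _τ : Bool) : ℕ :=
  kP Y lv j c b
noncomputable def kNB (Y : Bool → Bool → ℕ → ℕ) (lv : B2) (j : ℕ) (c b _τ : Bool) : ℕ :=
  kN Y lv j c b
def zNB (M : B3) (a b τ : Bool) : ℕ := M a b τ +' 50331648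

def tPC (Y : Bool → Bool → ℕ → ℕ) (q : ℕ) (a c _b τ : Bool) : ℕ :=
  Y a c (tn q τ) *' 103079215104

/-! ### the time-free part of the gain -/

def wP (X lv : ℕ) : ℕ := X *' 1459166279268040704 +' 445302209249280 *' (1310720 -' lv)

def wN (lv : ℕ) : ℕ :=
  350199907024329768960 +' 445302209249280 *' (lv -' 1310720) +'
    283115520 *' (((lv -' 1310720) +' (1310720 -' lv)) *' ((lv -' 1310720) +' (1310720 -' lv))) +'
    160 *' (((lv -' 1310720) +' (1310720 -' lv)) *' ((lv -' 1310720) +' (1310720 -' lv)) *'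
      ((lv -' 1310720) +' (1310720 -' lv)))

def bPN (X : Bool → ℕ) (lv : B2) (a b : Bool) : ℕ :=
  X a *' 2111062325329920 +'
    Nat.div ((wP (X a) (lv a b) -' wN (lv a b)) *' 1227245714141527) 1152921504606846976

def bNN (X R : Bool → ℕ) (lv : B2) (a b : Bool) : ℕ :=
  R b *' 103079215104 +'
    Nat.div ((wN (lv a b) -' wP (X a) (lv a b)) *' 1227245714276972 +' 1152921504606846975)
      1152921504606846976

/-- one candidate; `βp βn` are used unless the exact tip part is merged with the window -/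
noncomputable def cand (e : Bool) (md q : ℕ) (Y : Bool → Bool → ℕ → ℕ) (lv : B2) (X R : Bool → ℕ)
    (βp βn : B2) (W M : B3) (P : B4) (LE HE : Bool → ℕ) (LN : ℕ → ℕ) (cz czm : ℕ) (ωk ωr : B3) :
    B4 :=
  cond (Nat.beq md 31)
    (core βp βn W (tPC Y q) z4 z3 M M P (cond e 1887436800 0) LE HE z3 z3 z2 z2 cz czm ωk ωr)
    (cond (Nat.beq md 30)
      (core (cond e (bPN X lv) βp) (cond e (bNN X R lv) βn) W (tPA Y lv q) (tNA Y lv q) (zPA lv)
        (zNA M q) M P (cond e 1887436800 0) LE HE (kPA Y lv q) (kNA Y lv q) (sPA Y q) (sNA Y q)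
        cz czm ωk ωr)
      (core (cond e (bPN X lv) βp) (cond e (bNN X R lv) βn) W (tPB Y lv md (cond e (LN md) 0))
        (tNB Y lv md) z3 (zNB M) M P (cond e 1887436800 0) LE HE (kPB Y lv md) (kNB Y lv md) z2 z2
        cz czm ωk ωr))

def rng (lv : B2) : Bool :=
  allB fun a => allB fun b => and (Nat.ble 786432 (lv a b)) (Nat.ble (lv a b) 2097152)

def rngC (lv : B2) (q : ℕ) : Bool :=
  allB fun a => allB fun b => Nat.ble (65536 *' q +' 851968) (lv a b)

def okc (md q : ℕ) (lv : B2) : Bool :=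
  cond (Nat.beq md 31) (rngC lv q) (and (rng lv) (or (Nat.beq md 30) (Nat.ble md q)))

/-! ### geometry -/

def isD (i j l : ℕ) : Bool := and (Nat.beq i j) (and (Nat.beq j l) (or (Nat.beq i 0) (Nat.beq i 10)))

def om (f0 f1 a : Bool) : ℕ := cond f0 (cond a 4 0) (cond f1 (cond a 0 4) 1)

def omK (rn : Bool → ℕ) (kc lc : ℕ) (a c b : Bool) : ℕ :=
  om (isD (rn b) (tn kc false) (tn lc c)) (isD (rn b) (tn kc true) (tn lc c)) a

def omR (rn : Bool → ℕ) (kc lc : ℕ) (a c b : Bool) : ℕ :=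
  om (isD (rn false) (tn kc a) (tn lc c)) (isD (rn true) (tn kc a) (tn lc c)) b

def Xn (d : Dat) (i : ℕ) (a : Bool) : ℕ := d.X (tn i a)
def Rn (d : Dat) (i : ℕ) (a : Bool) : ℕ := d.X (tn i a) *' 20480
def zp (X : ℕ) : ℕ := mn 14745600 (Nat.div (X *' 3554834186240) 100000000)

def d0 (d : Dat) (rc kc : ℕ) : ℕ :=
  cond (and (and (Nat.ble 9 rc) (Nat.ble rc 10)) (and (Nat.ble 9 kc) (Nat.ble kc 10))) 480
    (Nat.div (d.X rc +' d.X (rc +' 1) +' d.X kc +' d.X (kc +' 1) +' 1) 2)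

def l1 (d : Dat) (kc : ℕ) (a _b : Bool) : ℕ := d.L1 (tn kc a)

def l2 (d : Dat) (rc kc : ℕ) (a b : Bool) : ℕ :=
  Nat.div ((5 *' d0 d rc kc *' d.U rc kc +' 79872 *' (Xn d rc b +' Xn d kc a) +'
    (5 *' d0 d rc kc -' 1)) -' 346112 *' d0 d rc kc) (5 *' d0 d rc kc)

/-- convex combination of the two levels -/
def mix (d : Dat) (rc kc th : ℕ) (a b : Bool) : ℕ :=
  (64 -' th) *' l1 d kc a b +' th *' l2 d rc kc a b

def mM (lm : B2) (th q : ℕ) (a b τ : Bool) : ℕ :=
  th *' 786432 +' (64 -' th) *' (lm a b -' 65536 *' tn q τ)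

def cF (X R : Bool → ℕ) (t1 t2 tt : ℕ) (a b : Bool) : ℕ :=
  (t1 *' zp (X a) +' (t2 +' tt +' 2 *' (64 -' tt)) *' R b) -'
    (t1 *' R b +' t2 *' zp (X a) +' (tt *' 20480 +' (64 -' tt) *' 65536) *' X a)

def bPF (X : Bool → ℕ) (t1 : ℕ) (a _b : Bool) : ℕ := t1 *' zp (X a) *' 1610612736
def bNF (R : Bool → ℕ) (t1 : ℕ) (c : B2) (a b : Bool) : ℕ := (t1 *' R b +' c a b) *' 1610612736
def czP (c : B2) : ℕ := mx (c false true -' c false false) (c true true -' c true false)
def czN (c : B2) : ℕ := mx (c false false -' c false true) (c true false -' c true true)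

def wW (d : Dat) (e : Bool) (rc kc q : ℕ) (a b τ : Bool) : ℕ := YH d e (tn rc b) (tn kc a) (tn q τ)

def pP (d : Dat) (e : Bool) (kc lc q : ℕ) (c : B2) (a c' b τ : Bool) : ℕ :=
  64 *' YH d e (tn kc a) (tn lc c') (tn q τ) -' (c a b +' cond e 0 1887436800)

def eT (e : Bool) (T : ℕ → ℕ) (q : ℕ) (τ : Bool) : ℕ := cond e (T (tn q τ)) 0

noncomputable def candP (d : Dat) (e : Bool) (rc kc lc q t1 : ℕ) (c : B2) (md tv tm th : ℕ) : B4 :=
  cand e md q (rows d e kc lc) (mix d rc kc tv) (Xn d kc) (Rn d rc) (bPF (Xn d kc) t1)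
    (bNF (Rn d rc) t1 c) (wW d e rc kc q) (mM (mix d rc kc tm) th q) (pP d e kc lc q c)
    (eT e d.LE q) (eT e d.HE q) d.LN (czP c) (czN c) (omK (tn rc) kc lc) (omR (tn rc) kc lc)

def mx4 (f g : B4) (a c b τ : Bool) : ℕ := mx (f a c b τ) (g a c b τ)

noncomputable def obsP (d : Dat) (e : Bool) (rc kc lc q t1 : ℕ) (c : B2)
    (tv tm th0 th1 md0 md1 : ℕ) : B4 :=
  cond (Nat.beq tv 0) (candP d e rc kc lc q t1 c md1 tv 64 th1)
    (mx4 (candP d e rc kc lc q t1 c md0 0 tm th0) (candP d e rc kc lc q t1 c md1 tv 64 th1))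

def okP (d : Dat) (rc kc q tv md0 md1 : ℕ) : Bool :=
  and (okc md1 q (mix d rc kc tv)) (or (Nat.beq tv 0) (okc md0 q (mix d rc kc 0)))

def fld (h k : ℕ) : ℕ := mn (Nat.mod (Nat.shiftRight h k) 128) 64
def fmd (h k : ℕ) : ℕ := Nat.mod (Nat.shiftRight h k) 32

noncomputable def decP (d : Dat) (e : Bool) (rc kc lc q h : ℕ) (K : B4 → Bool) : Bool :=
  frc (fld h 0) fun tv => frc (fld h 7) fun tm => frc (fld h 14) fun th0 =>
  frc (fld h 21) fun th1 => frc (cond e 64 (fld h 28)) fun t1 => frc (fld h 35) fun t2 =>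
  frc (fld h 42) fun tt => frc (fmd h 49) fun md0 => frc (fmd h 54) fun md1 =>
    and (okP d rc kc q tv md0 md1)
      (K (obsP d e rc kc lc q t1 (cond e z2 (cF (Xn d kc) (Rn d rc) t1 t2 tt))
        tv tm th0 th1 md0 md1))

def fin2 (f g : B4) : Bool :=
  allB fun a => allB fun c => allB fun b => allB fun τ =>
    Nat.ble (f a c b τ +' g c a b τ) 800000000000000000000

def finT (f g : B4) : Bool :=
  allB fun a => allB fun c => allB fun b =>
    Nat.ble (f a c b true +' g c a b true) 800000000000000000000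

noncomputable def boxP (d : Dat) (e : Bool) (rc kc lc q h : ℕ) : Bool :=
  decP d e rc kc lc q (Nat.mod h 18446744073709551616) fun f =>
    decP d e rc lc kc q (Nat.shiftRight h 64) fun g => fin2 f g

/-- final-time observer (`E` and `U`) -/
noncomputable def candE (d : Dat) (e : Bool) (rn R : Bool → ℕ) (W : B3) (kc lc md : ℕ) : B4 :=
  cand e md 25 (rows d e kc lc) (mix d 0 kc 0) (Xn d kc) R (bPF (Xn d kc) 64) (bNF R 64 z2) W z3 z4
    (eT e d.LE 25) (eT e d.HE 25) d.LN 0 0 (omK rn kc lc) (omR rn kc lc)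

noncomputable def boxE (d : Dat) (e : Bool) (rn R : Bool → ℕ) (W W' : B3) (kc lc h : ℕ) : Bool :=
  frc (mn (fmd h 0) 26) fun m1 => frc (mn (fmd h 64) 26) fun m2 =>
    and (and (rng (mix d 0 kc 0)) (rng (mix d 0 lc 0)))
      (finT (candE d e rn R W kc lc m1) (candE d e rn R W' lc kc m2))

def c1 (v : ℕ) (_ : Bool) : ℕ := v
def c3 (v : ℕ) (_ _ _ : Bool) : ℕ := v

def slot (h i w : ℕ) : ℕ := Nat.mod (Nat.shiftRight h (i *' w)) (Nat.pow 2 w)

noncomputable def colR (d : Dat) (e : Bool) (rc kc lc h : ℕ) : Bool :=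
  and (boxE d e (tn rc) (Rn d rc) (wW d e rc kc 25) (wW d e rc lc 25) kc lc (slot h 26 128))
    (allN (fun q => boxP d e rc kc lc q (slot h q 128)) 26)

/-- all boxes of the pair of cells `(kc, lc)` -/
noncomputable def pairOK (d : Dat) (kc lc h : ℕ) : Bool :=
  and (boxE d (and (nearC kc) (nearC lc)) (c1 10) (c1 4915200)
      (c3 (cond (and (nearC kc) (nearC lc)) 29491200 39321600))
      (c3 (cond (and (nearC kc) (nearC lc)) 29491200 39321600)) kc lc (slot h 540 128))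
    (allN (fun rc => colR d (and (nearC rc) (and (nearC kc) (nearC lc))) rc kc lc
      (slot h rc 3456)) 20)

theorem allN_sound {p : ℕ → Bool} {n : ℕ} (h : allN p n = true) : ∀ i < n, p i = true := by
  induction n with
  | zero => intro i hi; omega
  | succ n ih =>
    have h' : (p n && allN p n) = true := h
    rw [Bool.and_eq_true] at h'
    intro i hi
    rcases Nat.lt_succ_iff_lt_or_eq.1 hi with h1 | rfl
    · exact ih h'.2 i h1
    · exact h'.1

theorem allB_sound {p : Bool → Bool} (h : allB p = true) (a : Bool) : p a = true := by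
  rw [allB, Bool.and_eq_true] at h
  cases a
  · exact h.1
  · exact h.2

theorem frc_eq (x : ℕ) (k : ℕ → Bool) : frc x k = k x := by
  cases x <;> rfl

end Crest.Agent.R310.Tb
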