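import Crest.Agent.R310.TbD

/-! Row 310, table route: soundness of the integer checker for one candidate. -/

set_option autoImplicit false
set_option linter.dupNamespace false

namespace Crest.Agent.R310.Tb

theorem cadd (a b : ℕ) : ((Nat.add a b : ℕ) : ℝ) = a + b := Nat.cast_add a b
theorem cmul (a b : ℕ) : ((Nat.mul a b : ℕ) : ℝ) = a * b := Nat.cast_mul a b

theorem csub (a b : ℕ) : ((Nat.sub a b : ℕ) : ℝ) = max 0 ((a : ℝ) - b) := by
  show ((a - b : ℕ) : ℝ) = _
  rcases le_total a b with h | h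
  · rw [Nat.sub_eq_zero_of_le h, max_eq_left (sub_nonpos.2 (by exact_mod_cast h)), Nat.cast_zero]
  · rw [Nat.cast_sub h, max_eq_right (sub_nonneg.2 (by exact_mod_cast h))]

theorem csub_ge (a b : ℕ) : (a : ℝ) - b ≤ ((Nat.sub a b : ℕ) : ℝ) := by
  rw [csub]; exact le_max_right _ _

theorem csub_eq {a b : ℕ} (h : b ≤ a) : ((Nat.sub a b : ℕ) : ℝ) = (a : ℝ) - b := Nat.cast_sub h

theorem mx_eq (a b : ℕ) : mx a b = max a b := by
  show a + (b - a) = _
  omega

theorem mn_eq (a b : ℕ) : mn a b = min a b := by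
  show a - (a - b) = _
  omega

theorem cmx (a b : ℕ) : ((mx a b : ℕ) : ℝ) = max (a : ℝ) b := by rw [mx_eq, Nat.cast_max]
theorem cmn (a b : ℕ) : ((mn a b : ℕ) : ℝ) = min (a : ℝ) b := by rw [mn_eq, Nat.cast_min]

theorem pos_neg (u v : ℝ) : max 0 (u - v) - max 0 (v - u) = u - v := by
  rcases le_total u v with h | h
  · rw [max_eq_left (by linarith), max_eq_right (by linarith)]; ring
  · rw [max_eq_right (by linarith), max_eq_left (by linarith)]; ring

theorem le_min_pn {l h u v : ℝ} (hl : l ≤ h) :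
    l * max 0 (u - v) - h * max 0 (v - u) ≤ min (l * (u - v)) (h * (u - v)) := by
  rcases le_total u v with a | a
  · rw [max_eq_left (by linarith), max_eq_right (by linarith)]
    exact le_min (by nlinarith) (by linarith)
  · rw [max_eq_right (by linarith), max_eq_left (by linarith)]
    exact le_min (by linarith) (by nlinarith)

theorem max_le_pn (l h u v : ℝ) :
    max (l * (u - v)) (h * (u - v)) ≤ max l h * max 0 (u - v) - min l h * max 0 (v - u) := by
  have a1 := le_max_left l h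
  have a2 := le_max_right l h
  have a3 := min_le_left l h
  have a4 := min_le_right l h
  rcases le_total u v with a | a
  · rw [max_eq_left (by linarith : u - v ≤ 0), max_eq_right (by linarith : 0 ≤ v - u)]
    exact max_le (by nlinarith) (by nlinarith)
  · rw [max_eq_right (by linarith : 0 ≤ u - v), max_eq_left (by linarith : v - u ≤ 0)]
    exact max_le (by nlinarith) (by nlinarith)

theorem mzp_ge (M : B3) (a τ : Bool) : (M a true τ : ℝ) - M a false τ ≤ mzp M := by
  refine (csub_ge _ _).trans (Nat.cast_le.2 ?_)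
  simp only [mzp, mx_eq]
  cases a <;> cases τ <;> omega

theorem mzn_ge (M : B3) (a τ : Bool) : (M a false τ : ℝ) - M a true τ ≤ mzn M := by
  refine (csub_ge _ _).trans (Nat.cast_le.2 ?_)
  simp only [mzn, mx_eq]
  cases a <;> cases τ <;> omega

/-- real value of a checker output -/
noncomputable def φR (f : B4) (a c b τ : Bool) : ℝ :=
  (400000000000000000000 - (f a c b τ : ℝ)) / 6079859496950169600

theorem core_sound {x y z t Es V Φ : ℝ} (h : Fr x y z t) {βp βn Sp Sn : B2}
    {W Zp Zn M Kp Kn ωk ωr : B3} {Tp Tn P : B4} {Bm cz czm : ℕ} {LE HE : Bool → ℕ}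
    {ZV Dk Ds : Bool → Bool → Bool → ℝ} {Tv : Bool → Bool → Bool → Bool → ℝ}
    {FV βs : Bool → Bool → ℝ} (hV : VLB x y z t Es V ZV Tv FV Dk Ds)
    (hG : I2 x z βs + V - (Es + I4 x y z t (fun a c b τ => (P a c b τ : ℝ) / 943718400) -
      (Bm : ℝ) / 943718400) * I3 x z t (fun a b τ => (M a b τ : ℝ) / 50331648) - Es -
      I3 x z t (fun a b τ => (W a b τ : ℝ) / 14745600) ≤ Φ)
    (hβ : ∀ a b, ((βp a b : ℝ) - βn a b) / 1519964874237542400 ≤ βs a b - FV a b)
    (hZ : ∀ a b τ, ZV a b τ - (M a b τ : ℝ) / 50331648 - 1 =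
      ((Zp a b τ : ℝ) - Zn a b τ) / 50331648)
    (hT : ∀ a c b τ, ((Tp a c b τ : ℝ) - Tn a c b τ) / 1519964874237542400 ≤ Tv a c b τ)
    (hK : ∀ c b τ, Dk c b τ ≤ ((Kp c b τ : ℝ) - Kn c b τ) / 1519964874237542400)
    (hS : ∀ a c b, Ds a c b ≤ ((Sp a c : ℝ) - Sn a c) / 1519964874237542400)
    (l1 : (lp t fun τ => (LE τ : ℝ) / 14745600) ≤ Es)
    (l2 : Es ≤ lp t fun τ => (HE τ : ℝ) / 14745600)
    (l3 : ∀ τ, LE τ ≤ HE τ) (l4 : LE false ≤ LE true) (l5 : HE false ≤ HE true)
    (hc1 : ∀ a c τ, (P a c false τ : ℝ) - P a c true τ ≤ cz)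
    (hc2 : ∀ a c τ, (P a c true τ : ℝ) - P a c false τ ≤ czm)
    (ak : ∀ c b, Adm fun a => (ωk a c b : ℝ) / 4) (ar : ∀ a c, Adm fun b => (ωr a c b : ℝ) / 4) :
    I4 x y z t (φR (core βp βn W Tp Tn Zp Zn M P Bm LE HE Kp Kn Sp Sn cz czm ωk ωr)) ≤ Φ := by
  refine le_trans (I4_mono h fun a c b τ => ?_) (obs_core h hV hG hβ l1 l2
    (cz := (cz : ℝ) / 943718400) (czm := (czm : ℝ) / 943718400)
    (mz := (mzp M : ℝ) / 50331648) (mzm := (mzn M : ℝ) / 50331648)
    (fun a c τ => by linarith [hc1 a c τ]) (fun a c τ => by linarith [hc2 a c τ])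
    (fun a τ => by linarith [mzp_ge M a τ]) (fun a τ => by linarith [mzn_ge M a τ])
    (by positivity) (by positivity) (by positivity) (by positivity)
    (XX := fun c b => (dXX P M c b : ℝ) / 47498902319923200) (fun c b => ?_)
    (fun c b => by positivity)
    (Dk' := fun c b τ => (dK P M Kp Kn c b τ : ℝ) / 1519964874237542400)
    (Ds' := fun a c b => (dS P M Zp Zn Sp Sn LE HE a c b : ℝ) / 1519964874237542400)
    (fun c b τ => ?_) (fun c b τ => by positivity) (fun a c b => ?_)
    (fun a c b => by positivity) ak ar)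
  · have a1 : _ ≤ ((core βp βn W Tp Tn Zp Zn M P Bm LE HE Kp Kn Sp Sn cz czm ωk ωr a c b τ : ℕ) : ℝ) :=
      csub_ge _ _
    have a2 := le_min_pn (u := (Zp a b τ : ℝ)) (v := Zn a b τ)
      (Nat.cast_le.2 (l3 τ) : (LE τ : ℝ) ≤ HE τ)
    have a3 : min ((LE τ : ℝ) / 14745600 * (((Zp a b τ : ℝ) - Zn a b τ) / 50331648))
        ((HE τ : ℝ) / 14745600 * (((Zp a b τ : ℝ) - Zn a b τ) / 50331648)) =
        min ((LE τ : ℝ) * (Zp a b τ - Zn a b τ)) ((HE τ : ℝ) * (Zp a b τ - Zn a b τ)) /
          742170348748800 := by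
      rw [← min_div_div_right (by norm_num)]
      congr 1 <;> ring
    have a4 : max ((cz : ℝ) / 943718400 * ((mzp M : ℝ) / 50331648))
        ((czm : ℝ) / 943718400 * ((mzn M : ℝ) / 50331648)) =
        (dR M cz czm : ℝ) / 1519964874237542400 := by
      simp only [dR, cmul, cmx, Nat.cast_ofNat]
      rw [max_mul_of_nonneg _ _ (by norm_num), ← max_div_div_right (by norm_num)]
      congr 1 <;> ring
    rw [hZ, a3, a4, φR]
    simp only [abN, abP, cadd, cmul, Nat.cast_ofNat] at a1
    simp only [csub (Zp a b τ), csub (Zn a b τ)] at a1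
    linarith [hT a c b τ]
  · have a1 : _ ≤ ((dXX P M c b : ℕ) : ℝ) := csub_ge _ _
    simp only [cadd, cmul] at a1
    linarith
  · have a1 : _ ≤ ((dK P M Kp Kn c b τ : ℕ) : ℝ) := csub_ge _ _
    simp only [cadd, cmul, Nat.cast_ofNat] at a1
    linarith [hK c b τ]
  · have a1 : _ ≤ ((dS P M Zp Zn Sp Sn LE HE a c b : ℕ) : ℝ) := csub_ge _ _
    have a2 := max_le_pn ((LE true : ℝ) - LE false) ((HE true : ℝ) - HE false)
      ((Zp a b true : ℝ) + Zn a b false) ((Zn a b true : ℝ) + Zp a b false)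
    have a3 : max (((LE true : ℝ) / 14745600 - (LE false : ℝ) / 14745600) *
          (((Zp a b true : ℝ) - Zn a b true) / 50331648 -
            ((Zp a b false : ℝ) - Zn a b false) / 50331648))
        (((HE true : ℝ) / 14745600 - (HE false : ℝ) / 14745600) *
          (((Zp a b true : ℝ) - Zn a b true) / 50331648 -
            ((Zp a b false : ℝ) - Zn a b false) / 50331648)) =
        max (((LE true : ℝ) - LE false) *
          ((Zp a b true : ℝ) + Zn a b false - (Zn a b true + Zp a b false)))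
          (((HE true : ℝ) - HE false) *
          ((Zp a b true : ℝ) + Zn a b false - (Zn a b true + Zp a b false))) /
          742170348748800 := by
      rw [← max_div_div_right (by norm_num)]
      congr 1 <;> ring
    rw [hZ, hZ, a3]
    simp only [dZp, dZn, cadd, cmul, cmx, cmn, csub_eq l4, csub_eq l5, Nat.cast_ofNat] at a1
    simp only [csub (Nat.add (Zp a b true) _), csub (Nat.add (Zn a b true) _), cadd] at a1
    linarith [hS a c b]

end Crest.Agent.R310.Tb
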