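import Crest.Agent.R310.TbE

/-! Row 310, table route: soundness of one candidate. -/

set_option autoImplicit false
set_option linter.dupNamespace false

namespace Crest.Agent.R310.Tb

theorem nadd (a b : ℕ) : Nat.add a b = a + b := (rfl)
theorem nmul (a b : ℕ) : Nat.mul a b = a * b := (rfl)
theorem nsub (a b : ℕ) : Nat.sub a b = a - b := (rfl)
theorem ndiv (a b : ℕ) : Nat.div a b = a / b := (rfl)
theorem nmod (a b : ℕ) : Nat.mod a b = a % b := (rfl)

theorem beq_t {a b : ℕ} (h : a = b) : Nat.beq a b = true := Nat.beq_eq ▸ h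

theorem beq_f {a b : ℕ} (h : a ≠ b) : Nat.beq a b = false := by
  rw [← Bool.not_eq_true, Nat.beq_eq]; exact h

theorem cdiv_le (a b : ℕ) : ((Nat.div a b : ℕ) : ℝ) ≤ (a : ℝ) / b := Nat.cast_div_le

theorem le_cdiv (a : ℕ) {b : ℕ} (hb : 0 < b) : ((a : ℝ) + 1) / b - 1 ≤ ((Nat.div a b : ℕ) : ℝ) := by
  have h1 : a < a / b * b + b := Nat.lt_div_mul_add hb
  have h2 : (a : ℝ) + 1 ≤ ((a / b : ℕ) : ℝ) * b + b := by exact_mod_cast h1
  have h3 : (0 : ℝ) < b := by exact_mod_cast hb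
  rw [sub_le_iff_le_add, div_le_iff₀ h3]
  show _ ≤ (((a / b : ℕ) : ℝ) + 1) * b
  linarith

/-- real row of an integer row -/
noncomputable def yR (y : ℕ → ℕ) (t : ℕ) : ℝ := (y t : ℝ) / 14745600

/-- real time of an integer position -/
noncomputable def tR (T : ℕ) : ℝ := sN ((T : ℝ) / 65536)

theorem cum_cast (y : ℕ → ℕ) (q : ℕ) : cumR (yR y) q = (cum y q : ℝ) / 14745600 := by
  induction q with
  | zero => simp [cumR, cum]
  | succ q ih =>
    have e : cum y (q + 1) = Nat.add (cum y q) (Nat.add (y q) (y (q + 1))) := rfl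
    rw [cumR_succ, ih, e, cadd, cadd, yR, yR]
    ring

theorem NL_cast (y : ℕ → ℕ) {T : ℕ} (h1 : 786432 ≤ T) (h2 : T ≤ 2097152) :
    Pl (yR y) (tR T - 1) = (NLq y (Nat.div (Nat.sub T 786432) 65536)
      (Nat.mod (Nat.sub T 786432) 65536) : ℝ) / 1519964874237542400 := by
  obtain ⟨q, hq⟩ : ∃ q, q = (T - 786432) / 65536 := ⟨_, rfl⟩
  obtain ⟨F, hF⟩ : ∃ F, F = (T - 786432) % 65536 := ⟨_, rfl⟩
  have e1 : Nat.div (Nat.sub T 786432) 65536 = q := by rw [ndiv, nsub, hq]
  have e2 : Nat.mod (Nat.sub T 786432) 65536 = F := by rw [nmod, nsub, hF]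
  have a1 : T = 786432 + 65536 * q + F := by omega
  have a2 : F < 65536 := by omega
  have a3 : q < 26 := by omega
  have a4 : (F : ℝ) < 65536 := by exact_mod_cast a2
  have a5 : tR T - 1 = sN (q + (F : ℝ) / 65536) := by
    rw [a1, tR, sN, sN]; push_cast; ring
  have a6 : Nat.mul F F ≤ Nat.mul 131072 F := by
    rw [nmul, nmul]
    exact Nat.mul_le_mul_right F (by omega)
  rw [e1, e2, a5, (pl_cell _ a3 (div_nonneg (Nat.cast_nonneg F) (by norm_num))
    (by linarith)).2, cum_cast, NLq]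
  simp only [cadd, cmul, csub_eq a6, yR, Nat.cast_ofNat, Nat.succ_eq_add_one]
  ring

theorem rng_le {lv : B2} (h : rng lv = true) (a b : Bool) : 786432 ≤ lv a b ∧ lv a b ≤ 2097152 := by
  have := allB_sound (allB_sound h a) b
  rw [Bool.and_eq_true, Nat.ble_eq, Nat.ble_eq] at this
  exact this

theorem eps_lo : (1227245714141527 : ℝ) / 1152921504606846976 ≤
    2 / Real.exp 1 * (1519964874237542400 / 1050599721072989306880) := by
  have h1 : 2 / 2.7182818286 ≤ 2 / Real.exp 1 :=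
    div_le_div_of_nonneg_left (by norm_num) (Real.exp_pos 1) Real.exp_one_lt_d9.le
  refine le_trans ?_ (mul_le_mul_of_nonneg_right h1 (by norm_num))
  norm_num

theorem eps_hi : 2 / Real.exp 1 * (1519964874237542400 / 1050599721072989306880) ≤
    (1227245714276972 : ℝ) / 1152921504606846976 := by
  have h1 : 2 / Real.exp 1 ≤ 2 / 2.7182818283 :=
    div_le_div_of_nonneg_left (by norm_num) (by norm_num) Real.exp_one_gt_d9.le
  refine le_trans (mul_le_mul_of_nonneg_right h1 (by norm_num)) ?_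
  norm_num

theorem bN_le (X R : Bool → ℕ) {lv : B2} (h : rng lv = true) (a b : Bool) :
    ((bPN X lv a b : ℝ) - bNN X R lv a b) / 1519964874237542400 ≤
      (1 + 2 / Real.exp 1) * ((X a : ℝ) / 720) - (R b : ℝ) / 14745600 - Ff (tR (lv a b) - 1) := by
  obtain ⟨h1, h2⟩ := rng_le h a b
  have h1' : (786432 : ℝ) ≤ lv a b := by exact_mod_cast h1
  have h2' : (lv a b : ℝ) ≤ 2097152 := by exact_mod_cast h2
  obtain ⟨l, hl⟩ : ∃ l : ℝ, l = tR (lv a b) := ⟨_, rfl⟩
  have e1 : (lv a b : ℝ) - 1310720 = 786432 * l := by rw [hl, tR, sN]; ring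
  have l1 : |l| ≤ 1 := abs_le.2 ⟨by linarith, by linarith⟩
  have e2 : max 0 ((lv a b : ℝ) - 1310720) + max 0 (1310720 - (lv a b : ℝ)) = 786432 * |l| := by
    rcases le_total 0 l with p | p
    · rw [max_eq_right (by linarith), max_eq_left (by linarith), abs_of_nonneg p]; linarith
    · rw [max_eq_left (by linarith), max_eq_right (by linarith), abs_of_nonpos p]; linarith
  have e3 := pos_neg (lv a b : ℝ) 1310720
  have e4 : (wP (X a) (lv a b) : ℝ) - wN (lv a b) = 1050599721072989306880 *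
      ((X a : ℝ) / 720 - (1 + l + l ^ 2 / 2 + 2 / 9 * |l| ^ 3) / 3) := by
    simp only [wP, wN, cadd, cmul, csub, Nat.cast_ofNat, e2]
    rw [← sq_abs l]
    linear_combination (-445302209249280) * e3 - 445302209249280 * e1
  have e5 := pos_neg (wP (X a) (lv a b) : ℝ) (wN (lv a b))
  have b1 := cdiv_le (Nat.mul (Nat.sub (wP (X a) (lv a b)) (wN (lv a b))) 1227245714141527)
    1152921504606846976
  have b2 := le_cdiv (Nat.add (Nat.mul (Nat.sub (wN (lv a b)) (wP (X a) (lv a b)))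
    1227245714276972) 1152921504606846975) (b := 1152921504606846976) (by norm_num)
  have b3 := mul_le_mul_of_nonneg_left eps_lo
    (le_max_left 0 ((wP (X a) (lv a b) : ℝ) - wN (lv a b)))
  have b4 := mul_le_mul_of_nonneg_left eps_hi
    (le_max_left 0 ((wN (lv a b) : ℝ) - wP (X a) (lv a b)))
  have b5 := mul_le_mul_of_nonneg_left (exp_le_cubic l1)
    (by positivity : 0 ≤ 2 / Real.exp 1)
  have e6 : Ff (l - 1) = 2 / Real.exp 1 * Real.exp l / 3 := by
    rw [Ff_neg (by linarith [(abs_le.1 l1).2]), Real.exp_sub]; ring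
  rw [← hl, e6, bPN, bNN, cadd, cadd, cmul, cmul]
  rw [cmul, csub] at b1
  rw [cadd, cmul, csub] at b2
  simp only [Nat.cast_ofNat] at b1 b2 ⊢
  have b6 : 2 / Real.exp 1 * (max 0 ((wP (X a) (lv a b) : ℝ) - wN (lv a b)) -
      max 0 ((wN (lv a b) : ℝ) - wP (X a) (lv a b))) = 2 / Real.exp 1 * (1050599721072989306880 *
      ((X a : ℝ) / 720 - (1 + l + l ^ 2 / 2 + 2 / 9 * |l| ^ 3) / 3)) := by rw [pos_neg, e4]
  linarith

/-- `1` or `0` -/
def eR (e : Bool) : ℝ := cond e 1 0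

theorem eR_nonneg (e : Bool) : 0 ≤ eR e := by cases e <;> simp [eR]

theorem tn_cast (q : ℕ) (τ : Bool) : sN (tn q τ) = tR (65536 * tn q τ) := by
  rw [tR]; push_cast; congr 1; ring

theorem min_sN (j : ℕ) : min 0 (sN j) = (min (j : ℝ) 20 - 20) / 12 := by
  rcases le_total (j : ℝ) 20 with h | h
  · rw [min_eq_left h, min_eq_right (by rw [sN]; linarith), sN]
  · rw [min_eq_right h, min_eq_left (by rw [sN]; linarith)]; ring

theorem T_cast (Y : Bool → Bool → ℕ → ℕ) {lv : B2} (h : rng lv = true) (j : ℕ) (a c b : Bool) :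
    ((tP Y lv j a c b : ℝ) - tN Y lv j a c b) / 1519964874237542400 =
      cumR (yR (Y a c)) j / 24 + yR (Y a c) j * (tR (lv a b) - sN j) -
        Pl (yR (Y a c)) (tR (lv a b) - 1) := by
  rw [NL_cast _ (rng_le h a b).1 (rng_le h a b).2, cum_cast]
  simp only [tP, tN, NL, cadd, cmul, Nat.cast_ofNat, yR, tR, sN]
  ring

theorem K_cast (Y : Bool → Bool → ℕ → ℕ) {lv : B2} (h : rng lv = true) (j : ℕ) (c b : Bool) :
    (yR (Y true c) j - yR (Y false c) j) * (tR (lv true b) - tR (lv false b)) +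
      cross (fun a c => yR (Y a c)) (fun a b => tR (lv a b)) c b =
      ((kP Y lv j c b : ℝ) - kN Y lv j c b) / 1519964874237542400 := by
  simp only [cross]
  rw [NL_cast _ (rng_le h false b).1 (rng_le h false b).2,
    NL_cast _ (rng_le h false b).1 (rng_le h false b).2,
    NL_cast _ (rng_le h true b).1 (rng_le h true b).2,
    NL_cast _ (rng_le h true b).1 (rng_le h true b).2]
  simp only [kP, kN, crP, crN, NL, cadd, cmul, Nat.cast_ofNat, yR, tR, sN]
  ring

theorem rng_mem {lv : B2} (h : rng lv = true) (a b : Bool) :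
    sN 0 + 1 ≤ tR (lv a b) ∧ tR (lv a b) - 1 ≤ sN 26 := by
  obtain ⟨h1, h2⟩ := rng_le h a b
  have h1' : (786432 : ℝ) ≤ lv a b := by exact_mod_cast h1
  have h2' : (lv a b : ℝ) ≤ 2097152 := by exact_mod_cast h2
  simp only [tR, sN]
  constructor <;> linarith

theorem cand_sound {x y z t Φ : ℝ} (h : Fr x y z t) {e : Bool} {md q : ℕ}
    {Y : Bool → Bool → ℕ → ℕ} {lv βp βn : B2} {X R LE HE : Bool → ℕ} {W M ωk ωr : B3} {P : B4}
    {LN : ℕ → ℕ} {cz czm : ℕ} {βs : Bool → Bool → ℝ} (hq : q < 26)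
    (hm : MonotoneOn (wr (eR e) x y fun a c => yR (Y a c)) (Set.Icc (sN 0) (sN 26)))
    (hC : md = 31 → rngC lv q = true) (hR : md ≠ 31 → rng lv = true)
    (hB : md ≠ 31 → md ≠ 30 → (md : ℝ) ≤ q + t)
    (hG : I2 x z βs + Vw (wr (eR e) x y fun a c => yR (Y a c)) (sN (q + t))
        (I2 x z fun a b => tR (lv a b)) -
      (eR e * Ef (sN (q + t)) + I4 x y z t (fun a c b τ => (P a c b τ : ℝ) / 943718400) -
        2 * eR e) * I3 x z t (fun a b τ => (M a b τ : ℝ) / 50331648) - eR e * Ef (sN (q + t)) -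
      I3 x z t (fun a b τ => (W a b τ : ℝ) / 14745600) ≤ Φ)
    (hβ : ∀ a b, ((βp a b : ℝ) - βn a b) / 1519964874237542400 ≤ βs a b)
    (hβN : e = true → ∀ a b,
      βs a b = (1 + 2 / Real.exp 1) * ((X a : ℝ) / 720) - (R b : ℝ) / 14745600)
    (hLN : ∀ j ≤ 26, (LN j : ℝ) / 14745600 ≤ Ef (sN j))
    (l1 : (lp t fun τ => (LE τ : ℝ) / 14745600) ≤ eR e * Ef (sN (q + t)))
    (l2 : eR e * Ef (sN (q + t)) ≤ lp t fun τ => (HE τ : ℝ) / 14745600)
    (l3 : ∀ τ, LE τ ≤ HE τ) (l4 : LE false ≤ LE true) (l5 : HE false ≤ HE true)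
    (hc1 : ∀ a c τ, (P a c false τ : ℝ) - P a c true τ ≤ cz)
    (hc2 : ∀ a c τ, (P a c true τ : ℝ) - P a c false τ ≤ czm)
    (ak : ∀ c b, Adm fun a => (ωk a c b : ℝ) / 4) (ar : ∀ a c, Adm fun b => (ωr a c b : ℝ) / 4) :
    I4 x y z t (φR (cand e md q Y lv X R βp βn W M P LE HE LN cz czm ωk ωr)) ≤ Φ := by
  have eB : 2 * eR e = ((cond e 1887436800 0 : ℕ) : ℝ) / 943718400 := by
    cases e <;> simp [eR] <;> norm_num
  rw [eB] at hG
  have hβ' : md ≠ 31 → ∀ a b, (((cond e (bPN X lv) βp) a b : ℝ) - (cond e (bNN X R lv) βn) a b) /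
      1519964874237542400 ≤ βs a b - eR e * Ff (tR (lv a b) - 1) := fun h31 a b => by
    cases e
    · simpa [eR] using hβ a b
    · rw [hβN rfl, cond_true, cond_true, eR, cond_true, one_mul]
      exact bN_le X R (hR h31) a b
  rw [cand]
  by_cases h31 : md = 31
  · rw [beq_t h31, cond_true]
    refine core_sound h (VLB_C h _ hq fun a b => ?_) hG (fun a b => by simpa using hβ a b)
      (fun a b τ => by simp [z3]; ring) (fun a c b τ => ?_) (fun c b τ => by simp [z3])
      (fun a c b => by simp [z2]) l1 l2 l3 l4 l5 hc1 hc2 ak ar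
    · have := allB_sound (allB_sound (hC h31) a) b
      rw [Nat.ble_eq, nadd, nmul] at this
      have h2 : (65536 * q + 851968 : ℝ) ≤ lv a b := by exact_mod_cast this
      simp only [tR, sN]
      linarith
    · simp only [tPC, z4, cmul, yR, Nat.cast_ofNat, Nat.cast_zero]
      exact le_of_eq (by ring)
  have hr := hR h31
  rw [beq_f h31, cond_false]
  by_cases h30 : md = 30
  · rw [beq_t h30, cond_true]
    refine core_sound h (VLB_A h hm (fun a b => (rng_mem hr a b).1)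
      (fun a b => (rng_mem hr a b).2) hq) hG (hβ' h31) (fun a b τ => ?_)
      (fun a c b τ => (T_cast Y hr _ a c b).le) (fun c b τ => (K_cast Y hr _ c b).le)
      (fun a c b => ?_) l1 l2 l3 l4 l5 hc1 hc2 ak ar
    · rw [min_sN]
      simp only [zPA, zNA, cadd, cmul, cmn, Nat.cast_ofNat, tR, sN]
      ring
    · simp only [sPA, sNA, cmul, yR, Nat.cast_ofNat, tn, cond_true]
      exact le_of_eq (by ring)
  rw [beq_f h30, cond_false]
  have hb := hB h31 h30
  have hq' : (q : ℝ) + 1 ≤ 26 := by exact_mod_cast hq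
  have hmd : md ≤ 26 := by exact_mod_cast (by linarith [h.t1] : (md : ℝ) ≤ 26)
  refine core_sound h (VLB_B h (eR_nonneg e) hm (fun a b => (rng_mem hr a b).1)
    (fun a b => (rng_mem hr a b).2) (sN_mem hq h.t0 h.t1).2 (sN_mono hb) (hLN md hmd) _) hG
    (hβ' h31) (fun a b τ => ?_) (fun a c b τ => ?_) (fun c b τ => (K_cast Y hr _ c b).le)
    (fun a c b => by simp [z2]) l1 l2 l3 l4 l5 hc1 hc2 ak ar
  · simp only [z3, zNB, cadd, Nat.cast_ofNat, Nat.cast_zero]
    ring
  · have a1 : Nat.mul 65536 (mn md 20) ≤ Nat.add 786432 (lv a b) := by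
      have := (rng_le hr a b).1
      rw [mn_eq, nmul, nadd]
      omega
    rw [← T_cast Y hr, min_sN]
    simp only [tPB, tPB', tNB, lnB, cadd, cmul, csub_eq a1, cmn, Nat.cast_ofNat, tR, sN]
    cases e <;> simp only [eR, cond_true, cond_false, Nat.cast_zero] <;> exact le_of_eq (by ring)

end Crest.Agent.R310.Tb
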