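import Crest.Agent.R310.TbF
import Crest.Agent.R310.Disc

/-! Row 310, table route: the certificate function and the soundness of the box checks. -/

set_option autoImplicit false
set_option linter.dupNamespace false

namespace Crest.Agent.R310.Tb

structure TabOK (d : Dat) : Prop where
  x0 : d.X 0 = 0
  x20 : d.X 20 = 420
  xm : ∀ i < 20, d.X i ≤ d.X (i + 1)
  xn : ∀ i, nearN i = true → 196 ≤ d.X i ∧ d.X i ≤ 284
  xle : ∀ i ≤ 20, d.X i ≤ 420
  l1a : ∀ i ≤ 20, 12288 ≤ d.L1 i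
  l1b : ∀ i ≤ 20, tR (64 * d.L1 i) ≤ 13 / 10 * Real.log (3 / 2 * (1 - (d.X i : ℝ) / 720))
  d0p : ∀ i < 20, ∀ j < 20, 0 < d0 d i j
  ub : ∀ i < 20, ∀ j < 20,
    13 / 10 * Real.log ((d0 d i j : ℝ) / 480) ≤ ((d.U i j : ℝ) - 73728) / 12288
  le : ∀ q < 26, ∀ f : ℝ, 0 ≤ f → f ≤ 1 → (lp f fun τ => yR d.LE (tn q τ)) ≤ Ef (sN (q + f))
  he : ∀ q : ℕ, q < 26 → ∀ f : ℝ, 0 ≤ f → f ≤ 1 →
    Ef (sN (q + f)) ≤ lp f fun τ => yR d.HE (tn q τ)
  ln : ∀ j ≤ 26, (d.LN j : ℝ) / 14745600 ≤ Ef (sN j)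
  lh : ∀ j ≤ 26, d.LE j ≤ d.HE j
  lem : ∀ q < 26, d.LE q ≤ d.LE (q + 1)
  hem : ∀ q < 26, d.HE q ≤ d.HE (q + 1)
  leB : ∀ j ≤ 26, d.LE j ≤ 29491200
  ym : ∀ i ≤ 20, ∀ j ≤ 20, ∀ q < 26, d.Y i j q ≤ d.Y i j (q + 1)
  yn0 : ∀ i j, nearN i = true → nearN j = true → ∀ t ≤ 26, 29491200 ≤ d.Y i j t
  yn : ∀ i j, nearN i = true → nearN j = true → ∀ q < 26, 12 * d.Y i j q + 12 * d.LE (q + 1) ≤
    12 * d.Y i j (q + 1) + 12 * d.LE q + if q < 20 then d.LN q else 0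
  yub : ∀ i ≤ 20, ∀ j ≤ 20, YH d false i j 26 + 65536 * d.X i ≤ 58982400

noncomputable def rowT (d : Dat) (i j : ℕ) (σ : ℝ) : ℝ :=
  pl (yR (d.Y i j)) σ + eR (nearN i && nearN j) * (Ef σ - pl (yR d.LE) σ)

noncomputable def hc (d : Dat) (i : ℕ) (x : ℝ) (j : ℕ) (y σ : ℝ) : ℝ :=
  lp x fun a => lp y fun c => rowT d (tn i a) (tn j c) σ

theorem tn_le {q n : ℕ} (h : q < n) (τ : Bool) : tn q τ ≤ n := by
  cases τ <;> simp only [tn, cond_true, cond_false] <;> omega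

theorem near_tn {i : ℕ} (h : nearC i = true) (a : Bool) : nearN (tn i a) = true := by
  simp only [nearC, nearN, Bool.and_eq_true, Nat.ble_eq] at h ⊢
  cases a <;> simp only [tn, cond_true, cond_false] <;> omega

theorem hc_cont (d : Dat) (i : ℕ) (x : ℝ) (j : ℕ) (y : ℝ) : Continuous (hc d i x j y) := by
  have h : ∀ i j, Continuous (rowT d i j) := fun i j =>
    (prim_pl' _).cont.add (continuous_const.mul (prim_E.cont.sub (prim_pl' _).cont))
  exact (continuous_const.mul ((continuous_const.mul (h _ _)).add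
    (continuous_const.mul (h _ _)))).add (continuous_const.mul
    ((continuous_const.mul (h _ _)).add (continuous_const.mul (h _ _))))

theorem Yf_near {d : Dat} (hT : TabOK d) {i j t : ℕ} (hi : nearN i = true) (hj : nearN j = true)
    (ht : t ≤ 26) : yR (Yf d true i j) t = yR (d.Y i j) t - yR d.LE t := by
  rw [yR, Yf, cond_true, csub_eq ((hT.leB t ht).trans (hT.yn0 i j hi hj t ht)), yR, yR]
  ring

theorem row_eq {d : Dat} (hT : TabOK d) {i j : ℕ} (hi : nearN i = true) (hj : nearN j = true)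
    {σ : ℝ} (hσ : σ ∈ Set.Icc (sN 0) (sN 26)) :
    Ef σ + pl (yR (Yf d true i j)) σ = rowT d i j σ := by
  obtain ⟨q, hq, f, h0, h1, rfl⟩ := exists_cell hσ
  simp only [rowT, hi, hj, Bool.and_self, eR, cond_true, pl_lp _ hq h0 h1,
    fun τ => Yf_near hT hi hj (tn_le hq τ), lp_sub]
  ring

theorem row_lo {d : Dat} (hT : TabOK d) {e : Bool} {i j : ℕ}
    (he : e = true → nearN i = true ∧ nearN j = true) {σ : ℝ} (hσ : σ ∈ Set.Icc (sN 0) (sN 26)) :
    eR e * Ef σ + pl (yR (Yf d e i j)) σ ≤ rowT d i j σ := by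
  cases e
  · obtain ⟨q, hq, f, h0, h1, rfl⟩ := exists_cell hσ
    have a := mul_nonneg (eR_nonneg (nearN i && nearN j)) (sub_nonneg.2 (hT.le q hq f h0 h1))
    have e : Yf d false i j = d.Y i j := rfl
    rw [rowT, e, pl_lp (yR d.LE) hq h0 h1, eR, cond_false]
    linarith
  · rw [eR, cond_true, one_mul, row_eq hT (he rfl).1 (he rfl).2 hσ]

theorem row_hi {d : Dat} (hT : TabOK d) {e : Bool} {i j q : ℕ}
    (he : e = true → nearN i = true ∧ nearN j = true) (hq : q < 26) {t : ℝ} (h0 : 0 ≤ t)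
    (h1 : t ≤ 1) : rowT d i j (sN (q + t)) ≤
      eR e * Ef (sN (q + t)) + lp t fun τ => (YH d e i j (tn q τ) : ℝ) / 14745600 := by
  cases e
  · have a := hT.he q hq t h0 h1
    rw [rowT, pl_lp _ hq h0 h1, pl_lp _ hq h0 h1]
    simp only [YH, cond_false]
    cases (nearN i && nearN j)
    · simp only [eR, cond_false, yR, zero_mul, add_zero, zero_add, le_refl]
    · simp only [eR, cond_true, cond_false, cadd, fun τ => csub_eq (hT.lh _ (tn_le hq τ))]
      simp only [lp, yR] at a ⊢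
      linarith
  · rw [← row_eq hT (he rfl).1 (he rfl).2 (sN_mem hq h0 h1), pl_lp _ hq h0 h1, eR, cond_true,
      one_mul]
    exact le_rfl

theorem cell_mem {q : ℕ} {σ : ℝ} (h : σ ∈ Set.Icc (sN q) (sN (q + 1))) :
    ∃ f : ℝ, 0 ≤ f ∧ f ≤ 1 ∧ σ = sN (q + f) := by
  obtain ⟨h1, h2⟩ := h
  simp only [sN] at h1 h2 ⊢
  exact ⟨12 * σ + 20 - q, by linarith, by linarith, by ring⟩

theorem pl_mono {y : ℕ → ℝ} (h : ∀ q < 26, y q ≤ y (q + 1)) :
    MonotoneOn (pl y) (Set.Icc (sN 0) (sN 26)) := by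
  have := mono_cells (g := pl y) 26 fun q hq σ h1 σ' h2 h12 => by
    obtain ⟨f, a0, a1, rfl⟩ := cell_mem h1
    obtain ⟨f', b0, b1, rfl⟩ := cell_mem h2
    rw [(pl_cell y hq a0 a1).1, (pl_cell y hq b0 b1).1]
    simp only [sN] at h12
    nlinarith [h q hq]
  exact_mod_cast this

theorem Ef_inc {q : ℕ} {f f' L : ℝ} (h0 : 0 ≤ f) (h1 : f ≤ f') (h2 : f' ≤ 1)
    (hL : L ≤ Ef (sN q)) :
    Ef (sN (q + f)) + (if q < 20 then L else 0) * ((f' - f) / 12) ≤ Ef (sN (q + f')) := by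
  split_ifs with h
  · have a : (q : ℝ) + 1 ≤ 20 := by exact_mod_cast h
    rw [Ef_neg (by rw [sN]; linarith)] at hL
    rw [Ef_neg (by rw [sN]; linarith), Ef_neg (by rw [sN]; linarith)]
    have e : sN (q + f') = sN (q + f) + (f' - f) / 12 := by simp only [sN]; ring
    have b1 := Real.add_one_le_exp ((f' - f) / 12)
    have b2 : Real.exp (sN q) ≤ Real.exp (sN (q + f)) := Real.exp_le_exp.2 (sN_mono (by linarith))
    have b3 := Real.exp_pos (sN (q + f))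
    rw [e, Real.exp_add]
    nlinarith [mul_le_mul_of_nonneg_left b1 b3.le,
      mul_le_mul_of_nonneg_right (hL.trans (mul_le_mul_of_nonneg_left b2 (by norm_num)))
        (by linarith : 0 ≤ (f' - f) / 12)]
  · have a : (20 : ℝ) ≤ q := by exact_mod_cast not_lt.1 h
    rw [Ef_pos (by rw [sN]; linarith), Ef_pos (by rw [sN]; linarith), zero_mul, add_zero]

theorem row_mono {d : Dat} (hT : TabOK d) {i j : ℕ} (hi : i ≤ 20) (hj : j ≤ 20) :
    MonotoneOn (rowT d i j) (Set.Icc (sN 0) (sN 26)) := by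
  cases hn : (nearN i && nearN j)
  · intro σ h1 σ' h2 h12
    simp only [rowT, hn, eR, cond_false, zero_mul, add_zero]
    exact pl_mono (fun q hq => div_le_div_of_nonneg_right (Nat.cast_le.2 (hT.ym i hi j hj q hq))
      (by norm_num)) h1 h2 h12
  · have hn' := hn
    rw [Bool.and_eq_true] at hn'
    have := mono_cells (g := rowT d i j) 26 fun q hq σ h1 σ' h2 h12 => by
      obtain ⟨f, a0, a1, rfl⟩ := cell_mem h1
      obtain ⟨f', b0, b1, rfl⟩ := cell_mem h2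
      have hf : f ≤ f' := by simp only [sN] at h12; linarith
      have c1 := Ef_inc a0 hf b1 (hT.ln q hq.le)
      have c2 : (12 * d.Y i j q + 12 * d.LE (q + 1) : ℝ) ≤ 12 * d.Y i j (q + 1) + 12 * d.LE q +
          14745600 * if q < 20 then (d.LN q : ℝ) / 14745600 else 0 := by
        have := hT.yn i j hn'.1 hn'.2 q hq
        split_ifs at this ⊢
        · rw [mul_div_cancel₀ _ (by norm_num)]
          exact_mod_cast this
        · rw [mul_zero]
          exact_mod_cast this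
      have c3 := mul_le_mul_of_nonneg_right c2 (sub_nonneg.2 hf)
      simp only [rowT, hn, eR, cond_true, (pl_cell _ hq a0 a1).1, (pl_cell _ hq b0 b1).1, yR]
      linarith
    exact_mod_cast this

theorem hc_mono {d : Dat} (hT : TabOK d) {i j : ℕ} (hi : i < 20) (hj : j < 20) {x y : ℝ}
    (x0 : 0 ≤ x) (x1 : x ≤ 1) (y0 : 0 ≤ y) (y1 : y ≤ 1) :
    MonotoneOn (hc d i x j y) (Set.Icc (sN 0) (sN 26)) := fun _ h1 _ h2 h12 =>
  lp_mono x0 x1 fun a => lp_mono y0 y1 fun c => row_mono hT (tn_le hi a) (tn_le hj c) h1 h2 h12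

theorem wr_eq (e x y : ℝ) (Y : Bool → Bool → ℕ → ℝ) (σ : ℝ) :
    wr e x y Y σ = lp x fun a => lp y fun c => e * Ef σ + pl (Y a c) σ := by
  simp only [wr, lp]; ring

theorem wr_le {d : Dat} (hT : TabOK d) {e : Bool} {i j : ℕ}
    (he : e = true → nearC i = true ∧ nearC j = true) {x y : ℝ}
    (x0 : 0 ≤ x) (x1 : x ≤ 1) (y0 : 0 ≤ y) (y1 : y ≤ 1) {σ : ℝ}
    (hσ : σ ∈ Set.Icc (sN 0) (sN 26)) :
    wr (eR e) x y (fun a c => yR (rows d e i j a c)) σ ≤ hc d i x j y σ := by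
  rw [wr_eq]
  exact lp_mono x0 x1 fun a => lp_mono y0 y1 fun c =>
    row_lo hT (fun h => ⟨near_tn (he h).1 a, near_tn (he h).2 c⟩) hσ

theorem wr_mono {d : Dat} (hT : TabOK d) {e : Bool} {i j : ℕ} (hi : i < 20) (hj : j < 20)
    (he : e = true → nearC i = true ∧ nearC j = true) {x y : ℝ}
    (x0 : 0 ≤ x) (x1 : x ≤ 1) (y0 : 0 ≤ y) (y1 : y ≤ 1) :
    MonotoneOn (wr (eR e) x y fun a c => yR (rows d e i j a c)) (Set.Icc (sN 0) (sN 26)) := by
  intro σ h1 σ' h2 h12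
  rw [wr_eq, wr_eq]
  refine lp_mono x0 x1 fun a => lp_mono y0 y1 fun c => ?_
  cases e
  · simp only [eR, cond_false, zero_mul, zero_add]
    exact pl_mono (fun q hq => div_le_div_of_nonneg_right
      (Nat.cast_le.2 (hT.ym _ (tn_le hi a) _ (tn_le hj c) q hq)) (by norm_num)) h1 h2 h12
  · simp only [eR, cond_true, one_mul]
    exact (row_eq hT (near_tn (he rfl).1 a) (near_tn (he rfl).2 c) h1).trans_le
      ((row_mono hT (tn_le hi a) (tn_le hj c) h1 h2 h12).trans_eq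
        (row_eq hT (near_tn (he rfl).1 a) (near_tn (he rfl).2 c) h2).symm)

theorem hc_near {d : Dat} (hT : TabOK d) {i j : ℕ} (hi : nearC i = true) (hj : nearC j = true)
    {x y : ℝ} (x0 : 0 ≤ x) (x1 : x ≤ 1) (y0 : 0 ≤ y) (y1 : y ≤ 1) {q : ℕ} (hq : q < 26) {t : ℝ}
    (h0 : 0 ≤ t) (h1 : t ≤ 1) : 2 ≤ hc d i x j y (sN (q + t)) := by
  refine le_lp x0 x1 fun a => le_lp y0 y1 fun c => ?_
  refine le_trans ?_ (row_lo hT (e := false) (by simp) (sN_mem hq h0 h1))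
  rw [eR, cond_false, zero_mul, zero_add, pl_lp _ hq h0 h1]
  refine le_lp h0 h1 fun τ => ?_
  have : (29491200 : ℝ) ≤ d.Y (tn i a) (tn j c) (tn q τ) := by
    exact_mod_cast hT.yn0 _ _ (near_tn hi a) (near_tn hj c) _ (tn_le hq τ)
  have e : Yf d false (tn i a) (tn j c) = d.Y (tn i a) (tn j c) := rfl
  rw [e, yR]
  linarith

theorem hc_hi {d : Dat} (hT : TabOK d) {e : Bool} {i j q : ℕ}
    (he : e = true → nearC i = true ∧ nearC j = true) (hq : q < 26) {x y t : ℝ}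
    (x0 : 0 ≤ x) (x1 : x ≤ 1) (y0 : 0 ≤ y) (y1 : y ≤ 1) (h0 : 0 ≤ t) (h1 : t ≤ 1) :
    hc d i x j y (sN (q + t)) ≤ eR e * Ef (sN (q + t)) + lp x fun a => lp y fun c =>
      lp t fun τ => (YH d e (tn i a) (tn j c) (tn q τ) : ℝ) / 14745600 := by
  refine (lp_mono x0 x1 fun a => lp_mono y0 y1 fun c =>
    row_hi hT (fun h => ⟨near_tn (he h).1 a, near_tn (he h).2 c⟩) hq h0 h1).trans_eq ?_
  simp only [lp_add, lp_const]

theorem Vw_sub {w : ℝ → ℝ} (hw : Continuous w) (s lam c : ℝ) :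
    Vw (fun σ => w σ - c) s lam = Vw w s lam - c := by
  have hc : Continuous fun u => w (min s (lam - u)) := by fun_prop
  simp only [Vw]
  rw [intervalIntegral.integral_sub (hc.intervalIntegrable _ _) intervalIntegrable_const]
  simp

theorem eT_ok {d : Dat} (hT : TabOK d) (e : Bool) {q : ℕ} (hq : q < 26) {t : ℝ} (h0 : 0 ≤ t)
    (h1 : t ≤ 1) :
    (lp t fun τ => (eT e d.LE q τ : ℝ) / 14745600) ≤ eR e * Ef (sN (q + t)) ∧
    eR e * Ef (sN (q + t)) ≤ (lp t fun τ => (eT e d.HE q τ : ℝ) / 14745600) ∧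
    (∀ τ, eT e d.LE q τ ≤ eT e d.HE q τ) ∧ eT e d.LE q false ≤ eT e d.LE q true ∧
    eT e d.HE q false ≤ eT e d.HE q true := by
  cases e
  · simp [eT, eR, lp]
  · simp only [eT, eR, cond_true, one_mul]
    exact ⟨hT.le q hq t h0 h1, hT.he q hq t h0 h1, fun τ => hT.lh _ (tn_le hq τ), hT.lem q hq,
      hT.hem q hq⟩

theorem adm_om (f0 f1 : Bool) : Adm fun a => (om f0 f1 a : ℝ) / 4 := by
  cases f0 <;> cases f1 <;> simp [Adm, om]

theorem zp_le (X : ℕ) : (zp X : ℝ) / 14745600 ≤ 1 ∧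
    (zp X : ℝ) / 14745600 ≤ (1 + 2 / Real.exp 1) * ((X : ℝ) / 720) := by
  have h1 : 2 / 2.7182818286 ≤ 2 / Real.exp 1 :=
    div_le_div_of_nonneg_left (by norm_num) (Real.exp_pos 1) Real.exp_one_lt_d9.le
  have h2 := cdiv_le (Nat.mul X 3554834186240) 100000000
  have h3 : (0.73575888 : ℝ) ≤ 2 / Real.exp 1 := le_trans (by norm_num) h1
  have h4 := mul_le_mul_of_nonneg_right h3 (Nat.cast_nonneg (α := ℝ) X)
  rw [cmul] at h2
  rw [zp, cmn]
  have h5 := min_le_left ((14745600 : ℕ) : ℝ) (Nat.div (Nat.mul X 3554834186240) 100000000 : ℕ)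
  have h6 := min_le_right ((14745600 : ℕ) : ℝ) (Nat.div (Nat.mul X 3554834186240) 100000000 : ℕ)
  simp only [Nat.cast_ofNat] at h2 h5 h6 ⊢
  constructor <;> linarith

/-- real position in a cell -/
noncomputable def xR (d : Dat) (i : ℕ) (x : ℝ) : ℝ := lp x fun a => (Xn d i a : ℝ) / 720

theorem zp_lp (d : Dat) (i : ℕ) {x : ℝ} (x0 : 0 ≤ x) (x1 : x ≤ 1) :
    (lp x fun a => (zp (Xn d i a) : ℝ) / 14745600) ≤ min 1 ((1 + 2 / Real.exp 1) * xR d i x) :=
  le_min (lp_le x0 x1 fun a => (zp_le _).1) ((lp_mono x0 x1 fun a => (zp_le _).2).trans_eq (by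
    simp only [xR, lp]; ring))

theorem Rn_cast (d : Dat) (i : ℕ) (b : Bool) :
    (Rn d i b : ℝ) / 14745600 = (Xn d i b : ℝ) / 720 := by
  rw [Rn, cmul, Xn]; push_cast; ring

theorem xR_near {d : Dat} (hT : TabOK d) {i : ℕ} (hi : nearC i = true) {x : ℝ} (x0 : 0 ≤ x)
    (x1 : x ≤ 1) : 196 / 720 ≤ xR d i x ∧ xR d i x ≤ 284 / 720 :=
  ⟨le_lp x0 x1 fun a => div_le_div_of_nonneg_right
      (by exact_mod_cast (hT.xn _ (near_tn hi a)).1) (by norm_num),
    lp_le x0 x1 fun a => div_le_div_of_nonneg_right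
      (by exact_mod_cast (hT.xn _ (near_tn hi a)).2) (by norm_num)⟩

theorem g_near {d : Dat} (hT : TabOK d) {i : ℕ} (hi : nearC i = true) {x : ℝ} (x0 : 0 ≤ x)
    (x1 : x ≤ 1) : (1 + 2 / Real.exp 1) * xR d i x ≤ 1 := by
  have h1 : 2 / Real.exp 1 ≤ 2 / 2.7182818283 :=
    div_le_div_of_nonneg_left (by norm_num) (by norm_num) Real.exp_one_gt_d9.le
  have h2 := xR_near hT hi x0 x1
  have h3 : 1 + 2 / Real.exp 1 ≤ 2 := by norm_num at h1; linarith
  nlinarith [mul_le_mul_of_nonneg_right h3 (by linarith [h2.1] : 0 ≤ xR d i x), h2.2]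

end Crest.Agent.R310.Tb
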