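import Crest.Agent.R310.TbG

/-! Row 310, table route: soundness of the box checks. -/

set_option autoImplicit false
set_option linter.dupNamespace false

namespace Crest.Agent.R310.Tb

theorem ct {α : Type} (a b : α) : cond true a b = a := (rfl)
theorem cf {α : Type} (a b : α) : cond false a b = b := (rfl)

theorem geomF {βT zh t1 t2 ch mix c m M P vs : ℝ} (b0 : 0 ≤ βT) (b1 : zh ≤ βT) (p1 : 0 ≤ t1)
    (q1 : t1 ≤ 1) (p2 : 0 ≤ t2) (q2 : t2 ≤ 1) (c0 : 0 ≤ ch) (c1 : (t1 - t2) * zh + mix ≤ ch)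
    (hc : c ≤ max 0 mix) (m0 : 0 ≤ m) (m1 : m ≤ 1) (hM : m ≤ M) (hP : vs - ch ≤ P) (P0 : 0 ≤ P) :
    t1 * zh - ch - P * M ≤ βT - c - m * (vs - c) := by
  have a1 : t1 * zh ≤ βT := by nlinarith
  have a2 : t2 * zh ≤ βT := by nlinarith
  have a3 : t1 * zh - ch ≤ βT - c := by
    rcases le_total mix 0 with h | h
    · rw [max_eq_left h] at hc; linarith
    · rw [max_eq_right h] at hc; linarith
  nlinarith [mul_le_mul_of_nonneg_left a3 (sub_nonneg.2 m1), mul_le_mul_of_nonneg_left a1 m0,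
    mul_le_mul_of_nonneg_left hP m0, mul_le_mul_of_nonneg_left hM P0]

theorem tR_mix (d : Dat) (rc kc : ℕ) {th : ℕ} (h : th ≤ 64) (a b : Bool) :
    tR (mix d rc kc th a b) = (1 - (th : ℝ) / 64) * tR (64 * l1 d kc a b) +
      (th : ℝ) / 64 * tR (64 * l2 d rc kc a b) := by
  simp only [mix, tR, sN, cadd, cmul, csub_eq h]
  push_cast
  ring

/-- lower level -/
noncomputable def loR (d : Dat) (kc : ℕ) (x : ℝ) : ℝ := lp x fun a => tR (64 * d.L1 (tn kc a))

/-- upper level -/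
noncomputable def hiR (d : Dat) (rc : ℕ) (z : ℝ) (kc : ℕ) (x : ℝ) : ℝ :=
  I2 x z fun a b => tR (64 * l2 d rc kc a b)

theorem I2_mix (d : Dat) (rc kc : ℕ) {th : ℕ} (h : th ≤ 64) (x z : ℝ) :
    (I2 x z fun a b => tR (mix d rc kc th a b)) =
      (1 - (th : ℝ) / 64) * loR d kc x + (th : ℝ) / 64 * hiR d rc z kc x := by
  simp only [tR_mix d rc kc h, loR, hiR, I2, lp, l1]
  ring

theorem loR_ge {d : Dat} (hT : TabOK d) {kc : ℕ} (hk : kc < 20) {x : ℝ} (x0 : 0 ≤ x) (x1 : x ≤ 1) :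
    sN 0 + 1 ≤ loR d kc x :=
  le_lp x0 x1 fun a => by
    have : (12288 : ℝ) ≤ d.L1 (tn kc a) := by exact_mod_cast hT.l1a _ (tn_le hk a)
    simp only [tR, sN]
    push_cast
    linarith

theorem mM_ge {x y z t : ℝ} (h : Fr x y z t) (lm : B2) {th : ℕ} (ht : th ≤ 64) (q : ℕ) {μ : ℝ}
    (hμ : μ ≤ I2 x z fun a b => tR (lm a b)) :
    max 0 (min 1 (μ - sN (q + t))) ≤ I3 x z t fun a b τ => (mM lm th q a b τ : ℝ) / 50331648 := by
  have a1 : max 0 (μ - sN (q + t)) ≤ I3 x z t fun a b τ => max 0 (tR (lm a b) - sN (tn q τ)) := by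
    refine max_le (le_lp h.z0 h.z1 fun b => le_lp h.x0 h.x1 fun a => le_lp h.t0 h.t1 fun τ =>
      le_max_left _ _) (le_trans ?_ (I3_mono h fun a b τ => le_max_right _ _))
    refine (sub_le_sub_right hμ _).trans_eq ?_
    simp only [I2, I3, lp, tn, cond_true, cond_false, sN]
    push_cast
    ring
  have a2 : (I3 x z t fun a b τ => (mM lm th q a b τ : ℝ) / 50331648) = (th : ℝ) / 64 +
      (1 - (th : ℝ) / 64) * I3 x z t fun a b τ => max 0 (tR (lm a b) - sN (tn q τ)) := by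
    have e : ∀ a b τ, (mM lm th q a b τ : ℝ) / 50331648 =
        (th : ℝ) / 64 + (1 - (th : ℝ) / 64) * max 0 (tR (lm a b) - sN (tn q τ)) := fun a b τ => by
      have e1 : tR (lm a b) - sN (tn q τ) = ((lm a b : ℝ) - 65536 * tn q τ) / 786432 := by
        simp only [tR, sN]; ring
      have e2 : max 0 (((lm a b : ℝ) - 65536 * tn q τ) / 786432) =
          max 0 ((lm a b : ℝ) - 65536 * tn q τ) / 786432 := by
        rw [← max_div_div_right (by norm_num), zero_div]
      rw [e1, e2, mM, cadd, cmul, cmul, csub_eq ht, csub, cmul]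
      push_cast
      ring
    simp only [e, I3, lp]
    ring
  have t0 : (0 : ℝ) ≤ (th : ℝ) / 64 := by positivity
  have t1 : (th : ℝ) / 64 ≤ 1 := by
    have : (th : ℝ) ≤ 64 := by exact_mod_cast ht
    linarith
  have m1 : max 0 (min 1 (μ - sN (q + t))) ≤ 1 := max_le zero_le_one (min_le_left _ _)
  have m2 : max 0 (min 1 (μ - sN (q + t))) ≤ max 0 (μ - sN (q + t)) :=
    max_le_max le_rfl (min_le_right _ _)
  rw [a2]
  nlinarith [mul_le_mul_of_nonneg_left (m2.trans a1) (sub_nonneg.2 t1),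
    mul_le_mul_of_nonneg_left m1 t0]

theorem okc_spec {md q : ℕ} {lv : B2} (h : okc md q lv = true) :
    (md = 31 → rngC lv q = true) ∧ (md ≠ 31 → rng lv = true) ∧ (md ≠ 31 → md ≠ 30 → md ≤ q) := by
  rw [okc] at h
  by_cases h31 : md = 31
  · rw [beq_t h31, cond_true] at h
    exact ⟨fun _ => h, fun a => absurd h31 a, fun a => absurd h31 a⟩
  · rw [beq_f h31, cond_false, Bool.and_eq_true, Bool.or_eq_true, Nat.beq_eq, Nat.ble_eq] at h
    exact ⟨fun a => absurd a h31, fun _ => h.1, fun _ a => h.2.resolve_left a⟩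

theorem okc_ge {md q : ℕ} {lv : B2} (h : okc md q lv = true) (a b : Bool) :
    sN 0 + 1 ≤ tR (lv a b) := by
  obtain ⟨h1, h2, -⟩ := okc_spec h
  by_cases h31 : md = 31
  · have := allB_sound (allB_sound (h1 h31) a) b
    rw [Nat.ble_eq, nadd, nmul] at this
    have h2 : (65536 * q + 851968 : ℝ) ≤ lv a b := by exact_mod_cast this
    have h3 : (0 : ℝ) ≤ q := Nat.cast_nonneg q
    simp only [tR, sN]
    linarith
  · exact (rng_mem (h2 h31) a b).1

theorem max_sub_le (u c c' : ℝ) : max 0 (u - c) - max 0 (u - c') ≤ max 0 (c' - c) := by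
  have a1 := le_max_left 0 (u - c')
  have a2 := le_max_right 0 (u - c')
  have a3 := le_max_left 0 (c' - c)
  have a4 := le_max_right 0 (c' - c)
  exact sub_le_iff_le_add.2 (max_le (by linarith) (by linarith))

theorem pP_cz (d : Dat) (e : Bool) (kc lc q : ℕ) (c : B2) (a c' τ : Bool) :
    (pP d e kc lc q c a c' false τ : ℝ) - pP d e kc lc q c a c' true τ ≤ czP c ∧
    (pP d e kc lc q c a c' true τ : ℝ) - pP d e kc lc q c a c' false τ ≤ czN c := by
  simp only [pP, czP, czN, csub, cadd, cmx]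
  constructor
  · refine (max_sub_le _ _ _).trans ?_
    rw [add_sub_add_right_eq_sub]
    cases a
    · exact le_max_left _ _
    · exact le_max_right _ _
  · refine (max_sub_le _ _ _).trans ?_
    rw [add_sub_add_right_eq_sub]
    cases a
    · exact le_max_left _ _
    · exact le_max_right _ _

theorem wW_le {d : Dat} (hT : TabOK d) {e : Bool} {rc kc q : ℕ}
    (he : e = true → nearC rc = true ∧ nearC kc = true) (hq : q < 26) {x y z t : ℝ}
    (h : Fr x y z t) : hc d rc z kc x (sN (q + t)) ≤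
      eR e * Ef (sN (q + t)) + I3 x z t fun a b τ => (wW d e rc kc q a b τ : ℝ) / 14745600 :=
  hc_hi hT he hq h.z0 h.z1 h.x0 h.x1 h.t0 h.t1

theorem beta_ge (g r k : ℝ) (hr : r ≤ 1) :
    0 ≤ min 1 (g * k) - min r (g * k) ∧ min 1 (g * k) - r ≤ min 1 (g * k) - min r (g * k) :=
  ⟨sub_nonneg.2 (min_le_min_right _ hr), sub_le_sub_left (min_le_left _ _) _⟩

theorem xR_le {d : Dat} (hT : TabOK d) {i : ℕ} (hi : i < 20) {x : ℝ} (x0 : 0 ≤ x) (x1 : x ≤ 1) :
    xR d i x ≤ 7 / 12 :=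
  lp_le x0 x1 fun a => by
    have : (Xn d i a : ℝ) ≤ 420 := by exact_mod_cast hT.xle _ (tn_le hi a)
    linarith

theorem candP_sound {d : Dat} (hT : TabOK d) {x y z t : ℝ} (h : Fr x y z t) {e : Bool}
    {rc kc lc q t1 t2 tt md tv tm th : ℕ} (hr : rc < 20) (hk : kc < 20) (hl : lc < 20)
    (hq : q < 26) (he : e = true → nearC rc = true ∧ nearC kc = true ∧ nearC lc = true)
    (h1 : t1 ≤ 64) (h2 : t2 ≤ 64) (h3 : tt ≤ 64) (h4 : th ≤ 64) (h5 : e = true → t1 = 64)
    (hok : okc md q (mix d rc kc tv) = true) {lam μ : ℝ}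
    (hlam : (I2 x z fun a b => tR (mix d rc kc tv a b)) ≤ lam)
    (hμ : μ ≤ I2 x z fun a b => tR (mix d rc kc tm a b)) :
    I4 x y z t (φR (candP d e rc kc lc q t1 (cond e z2 (cF (Xn d kc) (Rn d rc) t1 t2 tt))
      md tv tm th)) ≤
      min 1 ((1 + 2 / Real.exp 1) * xR d kc x) - min (xR d rc z) ((1 + 2 / Real.exp 1) * xR d kc x) +
      gainV (fun _ => 1) (fun σ => hc d kc x lc y σ - 2) (capR 2 (8 / 5) (xR d kc x) (xR d rc z))
        (sN 0) (sN (q + t)) lam μ - (hc d rc z kc x (sN (q + t)) - 2) := by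
  have hs := sN_mem hq h.t0 h.t1
  have he1 : e = true → nearC kc = true ∧ nearC lc = true := fun a => (he a).2
  have g1 := gain_lb (v := fun σ => hc d kc x lc y σ - 2)
    (w := fun σ => wr (eR e) x y (fun a c => yR (rows d e kc lc a c)) σ - 2)
    (lamV := I2 x z fun a b => tR (mix d rc kc tv a b))
    ((hc_cont _ _ _ _ _).sub continuous_const) ((prim_wr _ _ _ _).cont.sub continuous_const)
    (fun _ a _ b c => sub_le_sub_right (hc_mono hT hk hl h.x0 h.x1 h.y0 h.y1 a b c) 2)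
    (fun _ a => sub_le_sub_right (wr_le hT he1 h.x0 h.x1 h.y0 h.y1 a) 2)
    (capR 2 (8 / 5) (xR d kc x) (xR d rc z)) μ hs.1 hs.2
    (le_lp h.z0 h.z1 fun b => le_lp h.x0 h.x1 fun a => okc_ge hok a b) hlam
  rw [Vw_sub (prim_wr _ _ _ _).cont] at g1
  have g2 := mM_ge h _ h4 q hμ
  have g3 := wW_le hT (e := e) (rc := rc) (kc := kc) (fun a => ⟨(he a).1, (he a).2.1⟩) hq h
  have g4 := hc_hi hT he1 hq h.x0 h.x1 h.y0 h.y1 h.t0 h.t1
  have g5 := beta_ge (1 + 2 / Real.exp 1) (xR d rc z) (xR d kc x)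
    (by linarith [xR_le hT hr h.z0 h.z1])
  have m0 : 0 ≤ max 0 (min 1 (μ - sN (q + t))) := le_max_left _ _
  have m1 : max 0 (min 1 (μ - sN (q + t))) ≤ 1 := max_le zero_le_one (min_le_left _ _)
  obtain ⟨e1, e2, e3, e4, e5⟩ := eT_ok hT e hq h.t0 h.t1
  obtain ⟨o1, o2, o3⟩ := okc_spec hok
  refine cand_sound h hq (wr_mono hT hk hl he1 h.x0 h.x1 h.y0 h.y1) o1 o2
    (fun a b => le_add_of_le_of_nonneg (Nat.cast_le.2 (o3 a b)) h.t0)
    (βs := fun a b => cond e
      ((1 + 2 / Real.exp 1) * ((Xn d kc a : ℝ) / 720) - (Rn d rc b : ℝ) / 14745600)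
      ((t1 : ℝ) / 64 * ((zp (Xn d kc a) : ℝ) / 14745600 - (Xn d rc b : ℝ) / 720) -
        (cF (Xn d kc) (Rn d rc) t1 t2 tt a b : ℝ) / 943718400)) ?_ (fun a b => ?_)
    (fun a _ _ => by rw [a, ct]) hT.ln e1 e2 e3 e4 e5 (fun a c τ => (pP_cz _ _ _ _ _ _ a c τ).1)
    (fun a c τ => (pP_cz _ _ _ _ _ _ a c τ).2) (fun _ _ => adm_om _ _) (fun _ _ => adm_om _ _)
  · cases e
    · simp only [cf] at g1 g3 g4 ⊢
      have t1' : (t1 : ℝ) ≤ 64 := by exact_mod_cast h1
      have t2' : (t2 : ℝ) ≤ 64 := by exact_mod_cast h2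
      have t3' : (tt : ℝ) ≤ 64 := by exact_mod_cast h3
      have t3'' : (0 : ℝ) ≤ tt := Nat.cast_nonneg _
      have k1 := geomF (zh := (lp x fun a => (zp (Xn d kc a) : ℝ) / 14745600) - xR d rc z)
        (t1 := (t1 : ℝ) / 64) (t2 := (t2 : ℝ) / 64)
        (ch := I2 x z fun a b => (cF (Xn d kc) (Rn d rc) t1 t2 tt a b : ℝ) / 943718400)
        (mix := (tt : ℝ) / 64 * (xR d rc z - xR d kc x) +
          (1 - (tt : ℝ) / 64) * (2 * (xR d rc z - 8 / 5 * xR d kc x)))
        (c := capR 2 (8 / 5) (xR d kc x) (xR d rc z))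
        (P := I4 x y z t fun a c b τ => (pP d false kc lc q (cF (Xn d kc) (Rn d rc) t1 t2 tt)
          a c b τ : ℝ) / 943718400) (vs := hc d kc x lc y (sN (q + t)) - 2) g5.1
        ((sub_le_sub_right (zp_lp d kc h.x0 h.x1) _).trans g5.2) (by positivity) (by linarith)
        (by positivity) (by linarith)
        (le_lp h.z0 h.z1 fun b => le_lp h.x0 h.x1 fun a =>
          div_nonneg (Nat.cast_nonneg _) (by norm_num))
        (le_trans (le_of_eq (by simp only [I2, xR, lp]; ring)) (I2_mono h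
          (f := fun a b => ((t1 : ℝ) / 64 - (t2 : ℝ) / 64) *
            ((zp (Xn d kc a) : ℝ) / 14745600 - (Xn d rc b : ℝ) / 720) +
            ((tt : ℝ) / 64 * ((Xn d rc b : ℝ) / 720 - (Xn d kc a : ℝ) / 720) + (1 - (tt : ℝ) / 64) *
              (2 * ((Xn d rc b : ℝ) / 720 - 8 / 5 * ((Xn d kc a : ℝ) / 720))))) fun a b => by
            have a1 : _ ≤ ((cF (Xn d kc) (Rn d rc) t1 t2 tt a b : ℕ) : ℝ) := csub_ge _ _
            have a2 : (Rn d rc b : ℝ) = 20480 * Xn d rc b := by linarith [Rn_cast d rc b]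
            simp only [cadd, cmul, csub_eq h3, Nat.cast_ofNat, a2] at a1
            linarith))
        (max_le_max le_rfl (by
          have b1 := min_le_left (xR d rc z - xR d kc x) (2 * (xR d rc z - 8 / 5 * xR d kc x))
          have b2 := min_le_right (xR d rc z - xR d kc x) (2 * (xR d rc z - 8 / 5 * xR d kc x))
          nlinarith [mul_le_mul_of_nonneg_left b1 (by linarith : 0 ≤ (tt : ℝ) / 64),
            mul_le_mul_of_nonneg_left b2 (by linarith : 0 ≤ 1 - (tt : ℝ) / 64)])) m0 m1 g2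
        (le_trans (by
            simp only [eR, cf, zero_mul, zero_add] at g4
            refine (sub_le_sub_right (sub_le_sub_right g4 2) _).trans_eq ?_
            simp only [I2, I4, lp]; ring) (I4_mono h
          (f := fun a c b τ => (YH d false (tn kc a) (tn lc c) (tn q τ) : ℝ) / 14745600 - 2 -
            (cF (Xn d kc) (Rn d rc) t1 t2 tt a b : ℝ) / 943718400) fun a c b τ => by
            have a1 : _ ≤ ((pP d false kc lc q (cF (Xn d kc) (Rn d rc) t1 t2 tt) a c b τ : ℕ) : ℝ) :=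
              csub_ge _ _
            simp only [cadd, cmul, cf, Nat.cast_ofNat] at a1
            linarith))
        (le_lp h.z0 h.z1 fun b => le_lp h.x0 h.x1 fun a => le_lp h.y0 h.y1 fun c =>
          le_lp h.t0 h.t1 fun τ => div_nonneg (Nat.cast_nonneg _) (by norm_num))
      have k2 : (I2 x z fun a b =>
          (t1 : ℝ) / 64 * ((zp (Xn d kc a) : ℝ) / 14745600 - (Xn d rc b : ℝ) / 720) -
          (cF (Xn d kc) (Rn d rc) t1 t2 tt a b : ℝ) / 943718400) =
          (t1 : ℝ) / 64 * ((lp x fun a => (zp (Xn d kc a) : ℝ) / 14745600) - xR d rc z) -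
          I2 x z fun a b => (cF (Xn d kc) (Rn d rc) t1 t2 tt a b : ℝ) / 943718400 := by
        simp only [I2, xR, lp]; ring
      rw [k2]
      simp only [eR, cf, zero_mul, zero_add, mul_zero, sub_zero] at g1 g3 ⊢
      linarith
    · obtain ⟨n1, n2, n3⟩ := he rfl
      simp only [ct] at g1 g3 g4 ⊢
      have k1 : capR 2 (8 / 5) (xR d kc x) (xR d rc z) = 0 := by
        have b1 := (xR_near hT n1 h.z0 h.z1).2
        have b2 := (xR_near hT n2 h.x0 h.x1).1
        rw [capR, max_eq_left ((min_le_right _ _).trans (by linarith))]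
      have k2 : (I2 x z fun a b =>
          (1 + 2 / Real.exp 1) * ((Xn d kc a : ℝ) / 720) - (Rn d rc b : ℝ) / 14745600) =
          (1 + 2 / Real.exp 1) * xR d kc x - xR d rc z := by
        simp only [Rn_cast, I2, xR, lp]; ring
      have k3 : (I4 x y z t fun a c b τ => (pP d true kc lc q z2 a c b τ : ℝ) / 943718400) =
          lp x fun a => lp y fun c => lp t fun τ =>
            (YH d true (tn kc a) (tn lc c) (tn q τ) : ℝ) / 14745600 := by
        have : ∀ a c b τ, (pP d true kc lc q z2 a c b τ : ℝ) / 943718400 =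
            (YH d true (tn kc a) (tn lc c) (tn q τ) : ℝ) / 14745600 := fun a c b τ => by
          rw [pP, ct, z2, nadd, Nat.add_zero, nsub, Nat.sub_zero, cmul]
          push_cast
          ring
        simp only [this, I4, lp_const]
      have k4 := hc_near hT n2 n3 h.x0 h.x1 h.y0 h.y1 hq h.t0 h.t1
      have k5 := mul_le_mul g2 (sub_le_sub_right g4 2) (sub_nonneg.2 k4) (m0.trans g2)
      rw [min_eq_right (g_near hT n2 h.x0 h.x1)] at g5 ⊢
      rw [k1] at g1 ⊢
      rw [k2, k3]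
      simp only [eR, ct, one_mul, mul_one, sub_zero] at g1 g3 k5 ⊢
      linarith [g5.2]
  · cases e
    · simp only [cf, bPF, bNF, cadd, cmul, Nat.cast_ofNat, ← Rn_cast]
      exact le_of_eq (by ring)
    · have := (zp_le (Xn d kc a)).2
      simp only [ct, bPF, bNF, cadd, cmul, Nat.cast_ofNat, h5 rfl, z2, Nat.cast_zero]
      linarith

end Crest.Agent.R310.Tb
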