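import Crest.Agent.R310.TbH
import Crest.Agent.R310.PairG

/-! Row 310, table route: from the box checks to the pair certificate. -/

set_option autoImplicit false
set_option linter.dupNamespace false

namespace Crest.Agent.R310.Tb

noncomputable def ΦP (d : Dat) (rc : ℕ) (z : ℝ) (kc : ℕ) (x : ℝ) (lc : ℕ) (y s μ : ℝ) : ℝ :=
  min 1 ((1 + 2 / Real.exp 1) * xR d kc x) - min (xR d rc z) ((1 + 2 / Real.exp 1) * xR d kc x) +
    gainV (fun _ => 1) (fun σ => hc d kc x lc y σ - 2) (capR 2 (8 / 5) (xR d kc x) (xR d rc z))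
      (sN 0) s (max (loR d kc x) μ) μ - (hc d rc z kc x s - 2)

theorem fld_le (h k : ℕ) : fld h k ≤ 64 := by
  rw [fld, mn_eq]; exact min_le_right _ _

theorem φR_mx (f g : B4) (a c b τ : Bool) :
    φR (mx4 f g) a c b τ ≤ φR f a c b τ ∧ φR (mx4 f g) a c b τ ≤ φR g a c b τ := by
  have h1 := le_max_left (f a c b τ : ℝ) (g a c b τ)
  have h2 := le_max_right (f a c b τ : ℝ) (g a c b τ)
  simp only [φR, mx4, cmx]
  constructor <;> linarith

theorem decP_sound {d : Dat} (hT : TabOK d) {e : Bool} {rc kc lc q h : ℕ} {K : B4 → Bool}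
    (hr : rc < 20) (hk : kc < 20) (hl : lc < 20) (hq : q < 26)
    (he : e = true → nearC rc = true ∧ nearC kc = true ∧ nearC lc = true)
    (H : decP d e rc kc lc q h K = true) : ∃ f, K f = true ∧ ∀ x y z t μ : ℝ, Fr x y z t →
      (μ = min (loR d kc x) (hiR d rc z kc x) ∨ μ = hiR d rc z kc x) →
      I4 x y z t (φR f) ≤ ΦP d rc z kc x lc y (sN (q + t)) μ := by
  simp only [decP, frc_eq, Bool.and_eq_true] at H
  refine ⟨_, H.2, fun x y z t μ hF hμ => ?_⟩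
  have H1 := H.1
  rw [okP, Bool.and_eq_true, Bool.or_eq_true, Nat.beq_eq] at H1
  have b1 : cond e 64 (fld h 28) ≤ 64 := by
    cases e
    · exact fld_le _ _
    · exact le_rfl
  have b2 : e = true → cond e 64 (fld h 28) = 64 := fun a => by rw [a, ct]
  have hhi : μ ≤ I2 x z fun a b => tR (mix d rc kc 64 a b) := by
    rw [I2_mix d rc kc le_rfl]
    rcases hμ with rfl | rfl
    · have := min_le_right (loR d kc x) (hiR d rc z kc x)
      push_cast
      linarith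
    · push_cast
      linarith
  have hlo : (I2 x z fun a b => tR (mix d rc kc 0 a b)) ≤ max (loR d kc x) μ := by
    rw [I2_mix d rc kc (Nat.zero_le _)]
    have := le_max_left (loR d kc x) μ
    push_cast
    linarith
  have f0 : ∀ k, (0 : ℝ) ≤ (fld h k : ℝ) / 64 ∧ (fld h k : ℝ) / 64 ≤ 1 := fun k => by
    have : (fld h k : ℝ) ≤ 64 := by exact_mod_cast fld_le h k
    exact ⟨div_nonneg (Nat.cast_nonneg _) (by norm_num), by linarith⟩
  rw [obsP, ΦP]
  by_cases h0 : fld h 0 = 0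
  · rw [beq_t h0, ct]
    exact candP_sound hT hF hr hk hl hq he b1 (fld_le _ _) (fld_le _ _) (fld_le _ _) b2 H1.1
      (by rw [h0]; exact hlo) hhi
  · rw [beq_f h0, cf]
    rcases hμ with hμ | hμ
    · refine (I4_mono hF fun a c b τ => (φR_mx _ _ a c b τ).1).trans ?_
      refine candP_sound hT hF hr hk hl hq he b1 (fld_le _ _) (fld_le _ _) (fld_le _ _) b2
        (H1.2.resolve_left h0) hlo ?_
      rw [I2_mix d rc kc (fld_le _ _), hμ]
      nlinarith [mul_le_mul_of_nonneg_left (min_le_left (loR d kc x) (hiR d rc z kc x))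
        (sub_nonneg.2 (f0 7).2),
        mul_le_mul_of_nonneg_left (min_le_right (loR d kc x) (hiR d rc z kc x)) (f0 7).1]
    · refine (I4_mono hF fun a c b τ => (φR_mx _ _ a c b τ).2).trans ?_
      refine candP_sound hT hF hr hk hl hq he b1 (fld_le _ _) (fld_le _ _) (fld_le _ _) b2
        H1.1 ?_ hhi
      rw [I2_mix d rc kc (fld_le _ _), hμ]
      nlinarith [mul_le_mul_of_nonneg_left (le_max_left (loR d kc x) (hiR d rc z kc x))
        (sub_nonneg.2 (f0 0).2),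
        mul_le_mul_of_nonneg_left (le_max_right (loR d kc x) (hiR d rc z kc x)) (f0 0).1]

theorem φR_add {f g : B4} {a c b τ : Bool}
    (h : Nat.ble (Nat.add (f a c b τ) (g c a b τ)) 800000000000000000000 = true) :
    0 ≤ φR f a c b τ + φR g c a b τ := by
  rw [Nat.ble_eq] at h
  have h1 := (Nat.cast_le (α := ℝ)).2 h
  rw [cadd, Nat.cast_ofNat] at h1
  simp only [φR]
  linarith

theorem boxP_sound {d : Dat} (hT : TabOK d) {e : Bool} {rc kc lc q h : ℕ}
    (hr : rc < 20) (hk : kc < 20) (hl : lc < 20) (hq : q < 26)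
    (he : e = true → nearC rc = true ∧ nearC kc = true ∧ nearC lc = true)
    (H : boxP d e rc kc lc q h = true) {x y z t μ ν : ℝ} (hF : Fr x y z t)
    (hμ : μ = min (loR d kc x) (hiR d rc z kc x) ∨ μ = hiR d rc z kc x)
    (hν : ν = min (loR d lc y) (hiR d rc z lc y) ∨ ν = hiR d rc z lc y) :
    0 ≤ ΦP d rc z kc x lc y (sN (q + t)) μ + ΦP d rc z lc y kc x (sN (q + t)) ν := by
  obtain ⟨f, H1, hf⟩ := decP_sound hT hr hk hl hq he H
  obtain ⟨g, H2, hg⟩ := decP_sound hT hr hl hk hq (fun a => ⟨(he a).1, (he a).2.2, (he a).2.1⟩) H1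
  have a1 := hf x y z t μ hF hμ
  have a2 := hg y x z t ν hF.swap hν
  have a3 := I4_mono hF fun a c b τ =>
    φR_add (allB_sound (allB_sound (allB_sound (allB_sound H2 a) c) b) τ)
  rw [I4_const, I4_add] at a3
  rw [I4_swap] at a2
  linarith

noncomputable def ΦE (d : Dat) (kc : ℕ) (x : ℝ) (lc : ℕ) (y : ℝ) : ℝ :=
  min 1 ((1 + 2 / Real.exp 1) * xR d kc x) + ∫ s in (0 : ℝ)..(min 1 (loR d kc x - sN 0)),
    (hc d kc x lc y (min (sN 26) (loR d kc x - s)) - 2)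

theorem s26 : sN (((25 : ℕ) : ℝ) + 1) = sN 26 := by norm_num

theorem candE_sound {d : Dat} (hT : TabOK d) {x y z : ℝ} (h : Fr x y z 1) {e : Bool}
    {rn R : Bool → ℕ} {W : B3} {kc lc md : ℕ} (hk : kc < 20) (hl : lc < 20)
    (he : e = true → nearC kc = true ∧ nearC lc = true) (hmd : md ≤ 26)
    (hok : rng (mix d 0 kc 0) = true) :
    I4 x y z 1 (φR (candE d e rn R W kc lc md)) ≤ ΦE d kc x lc y -
      (lp z fun b => (R b : ℝ) / 14745600) -
      (eR e * Ef (sN 26) + (I3 x z 1 fun a b τ => (W a b τ : ℝ) / 14745600) - 2) := by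
  have hq : 25 < 26 := by norm_num
  have hs := sN_mem hq h.t0 h.t1
  have e0 : (I2 x z fun a b => tR (mix d 0 kc 0 a b)) = loR d kc x := by
    rw [I2_mix d 0 kc (Nat.zero_le _)]; simp
  have g1 := gain_lb (v := fun σ => hc d kc x lc y σ - 2)
    (w := fun σ => wr (eR e) x y (fun a c => yR (rows d e kc lc a c)) σ - 2)
    ((hc_cont _ _ _ _ _).sub continuous_const) ((prim_wr _ _ _ _).cont.sub continuous_const)
    (fun _ a _ b c => sub_le_sub_right (hc_mono hT hk hl h.x0 h.x1 h.y0 h.y1 a b c) 2)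
    (fun _ a => sub_le_sub_right (wr_le hT he h.x0 h.x1 h.y0 h.y1 a) 2) 0
    (sN (((25 : ℕ) : ℝ) + 1)) hs.1 hs.2 (loR_ge hT hk h.x0 h.x1) le_rfl
  rw [Vw_sub (prim_wr _ _ _ _).cont] at g1
  simp only [gainV, sub_self, one_mul, sub_zero, min_eq_right (zero_le_one' ℝ), max_self,
    zero_mul] at g1
  obtain ⟨e1, e2, e3, e4, e5⟩ := eT_ok hT e hq h.t0 h.t1
  have hmd' : (md : ℝ) ≤ 26 := by exact_mod_cast hmd
  refine cand_sound h hq (wr_mono hT hk hl he h.x0 h.x1 h.y0 h.y1) (fun a => by omega)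
    (fun _ => hok) (fun _ _ => by push_cast; linarith)
    (βs := fun a b => cond e
      ((1 + 2 / Real.exp 1) * ((Xn d kc a : ℝ) / 720) - (R b : ℝ) / 14745600)
      ((zp (Xn d kc a) : ℝ) / 14745600 - (R b : ℝ) / 14745600)) ?_ (fun a b => ?_)
    (fun a _ _ => by rw [a, ct]) hT.ln e1 e2 e3 e4 e5 (fun a c τ => by simp [z4])
    (fun a c τ => by simp [z4]) (fun _ _ => adm_om _ _) (fun _ _ => adm_om _ _)
  · have k0 : (I3 x z 1 fun a b τ => (z3 a b τ : ℝ) / 50331648) = 0 := by simp [z3, I3, lp]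
    have k1 : (I2 x z fun a b => cond e
        ((1 + 2 / Real.exp 1) * ((Xn d kc a : ℝ) / 720) - (R b : ℝ) / 14745600)
        ((zp (Xn d kc a) : ℝ) / 14745600 - (R b : ℝ) / 14745600)) ≤
        min 1 ((1 + 2 / Real.exp 1) * xR d kc x) - lp z fun b => (R b : ℝ) / 14745600 := by
      cases e
      · refine le_of_eq_of_le ?_ (sub_le_sub_right (zp_lp d kc h.x0 h.x1) _)
        simp only [cf, I2, lp]; ring
      · rw [min_eq_right (g_near hT (he rfl).1 h.x0 h.x1)]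
        simp only [ct, I2, xR, lp]
        exact le_of_eq (by ring)
    rw [k0, e0, ΦE]
    rw [s26] at g1 ⊢
    linarith
  · have := (zp_le (Xn d kc a)).2
    cases e
    · simp only [cf, bPF, bNF, cadd, cmul, Nat.cast_ofNat, z2, Nat.cast_zero]
      exact le_of_eq (by ring)
    · simp only [ct, bPF, bNF, cadd, cmul, Nat.cast_ofNat, z2, Nat.cast_zero]
      linarith

theorem I4_one (x y z : ℝ) (f : Bool → Bool → Bool → Bool → ℝ) :
    I4 x y z 1 f = I4 x y z 1 fun a c b _ => f a c b true := by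
  simp only [I4, lp]; ring

theorem boxE_sound {d : Dat} (hT : TabOK d) {e : Bool} {rn R : Bool → ℕ} {W W' : B3}
    {kc lc h : ℕ} (hk : kc < 20) (hl : lc < 20)
    (he : e = true → nearC kc = true ∧ nearC lc = true)
    (H : boxE d e rn R W W' kc lc h = true) {x y z : ℝ} (hF : Fr x y z 1) :
    (eR e * Ef (sN 26) + (I3 x z 1 fun a b τ => (W a b τ : ℝ) / 14745600) - 2) +
      (eR e * Ef (sN 26) + (I3 y z 1 fun a b τ => (W' a b τ : ℝ) / 14745600) - 2) +
      2 * (lp z fun b => (R b : ℝ) / 14745600) ≤ ΦE d kc x lc y + ΦE d lc y kc x := by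
  simp only [boxE, frc_eq, Bool.and_eq_true] at H
  obtain ⟨⟨H1, H2⟩, H3⟩ := H
  have m : ∀ k, mn (fmd h k) 26 ≤ 26 := fun k => by rw [mn_eq]; exact min_le_right _ _
  have a1 := candE_sound hT hF (rn := rn) (R := R) (W := W) hk hl he (m 0) H1
  have a2 := candE_sound hT hF.swap (rn := rn) (R := R) (W := W') hl hk
    (fun a => ⟨(he a).2, (he a).1⟩) (m 64) H2
  have a3 := I4_mono hF fun a c b _ => φR_add (allB_sound (allB_sound (allB_sound H3 a) c) b)
  rw [I4_const, I4_add] at a3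
  rw [I4_swap, I4_one] at a2
  rw [I4_one] at a1
  linarith

theorem pair_sound {d : Dat} (hT : TabOK d) {kc lc h : ℕ} (hk : kc < 20) (hl : lc < 20)
    (H : pairOK d kc lc h = true) {x y : ℝ} (x0 : 0 ≤ x) (x1 : x ≤ 1) (y0 : 0 ≤ y) (y1 : y ≤ 1) :
    2 ≤ ΦE d kc x lc y + ΦE d lc y kc x ∧ ∀ rc < 20, ∀ z : ℝ, 0 ≤ z → z ≤ 1 →
      (hc d rc z kc x (sN 26) - 2 + (hc d rc z lc y (sN 26) - 2) + 2 * xR d rc z ≤
        ΦE d kc x lc y + ΦE d lc y kc x) ∧ ∀ s ∈ Set.Icc (sN 0) (sN 26), ∀ μ ν : ℝ,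
      (μ = min (loR d kc x) (hiR d rc z kc x) ∨ μ = hiR d rc z kc x) →
      (ν = min (loR d lc y) (hiR d rc z lc y) ∨ ν = hiR d rc z lc y) →
      0 ≤ ΦP d rc z kc x lc y s μ + ΦP d rc z lc y kc x s ν := by
  rw [pairOK, Bool.and_eq_true] at H
  have E26 : Ef (sN 26) = 2 / 3 := Ef_pos (by rw [sN]; norm_num)
  refine ⟨?_, fun rc hr z z0 z1 => ?_⟩
  · have := boxE_sound hT hk hl (fun a => by rwa [Bool.and_eq_true] at a) H.1 (z := 0)
      ⟨x0, x1, y0, y1, le_rfl, zero_le_one, zero_le_one, le_rfl⟩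
    refine le_of_eq_of_le ?_ this
    rw [E26]
    cases (nearC kc && nearC lc) <;> simp only [eR, ct, cf, c1, c3, I3, lp_const] <;> norm_num
  · have H2 := allN_sound H.2 rc hr
    rw [colR, Bool.and_eq_true] at H2
    have he : (nearC rc && (nearC kc && nearC lc)) = true →
        nearC rc = true ∧ nearC kc = true ∧ nearC lc = true := fun a => by
      rwa [Bool.and_eq_true, Bool.and_eq_true] at a
    refine ⟨?_, fun s hs μ ν hμ hν => ?_⟩
    · have hF : Fr x y z 1 := ⟨x0, x1, y0, y1, z0, z1, zero_le_one, le_rfl⟩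
      have a1 := boxE_sound hT hk hl (fun a => (he a).2) H2.1 hF
      have a2 := wW_le hT (rc := rc) (kc := kc) (q := 25) (fun a => ⟨(he a).1, (he a).2.1⟩)
        (by norm_num) hF
      have a3 := wW_le hT (rc := rc) (kc := lc) (q := 25) (fun a => ⟨(he a).1, (he a).2.2⟩)
        (by norm_num) hF.swap
      rw [s26] at a2 a3
      simp only [Rn_cast] at a1
      rw [xR]
      linarith
    · obtain ⟨q, hq, t, t0, t1, rfl⟩ := exists_cell hs
      exact boxP_sound hT hr hk hl hq he (allN_sound H2.2 q hq)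
        ⟨x0, x1, y0, y1, z0, z1, t0, t1⟩ hμ hν

theorem exists_idx {d : Dat} (hT : TabOK d) (r : ℝ) : ∃ p : ℕ × ℝ, 0 ≤ r → r ≤ 7 / 12 →
    p.1 < 20 ∧ 0 ≤ p.2 ∧ p.2 ≤ 1 ∧ r = xR d p.1 p.2 := by
  have key : ∀ n : ℕ, n < 20 → 0 ≤ r → r ≤ (d.X (n + 1) : ℝ) / 720 →
      ∃ p : ℕ × ℝ, p.1 < 20 ∧ 0 ≤ p.2 ∧ p.2 ≤ 1 ∧ r = xR d p.1 p.2 := by
    have cell : ∀ n : ℕ, n < 20 → (d.X n : ℝ) / 720 ≤ r → r ≤ (d.X (n + 1) : ℝ) / 720 →
        ∃ p : ℕ × ℝ, p.1 < 20 ∧ 0 ≤ p.2 ∧ p.2 ≤ 1 ∧ r = xR d p.1 p.2 := fun n hn h1 h2 => by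
      rcases eq_or_lt_of_le (h1.trans h2) with h | h
      · refine ⟨(n, 0), hn, le_rfl, zero_le_one, ?_⟩
        simp only [xR, lp, Xn, tn, ct, cf]
        linarith
      · have hp : 0 < (d.X (n + 1) : ℝ) / 720 - (d.X n : ℝ) / 720 := sub_pos.2 h
        refine ⟨(n, (r - (d.X n : ℝ) / 720) / ((d.X (n + 1) : ℝ) / 720 - (d.X n : ℝ) / 720)), hn,
          div_nonneg (by linarith) hp.le, (div_le_one hp).2 (by linarith), ?_⟩
        have := div_mul_cancel₀ (r - (d.X n : ℝ) / 720) hp.ne'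
        simp only [xR, lp, Xn, tn, ct, cf]
        linarith
    intro n
    induction n with
    | zero => exact fun hn h0 h1 => cell 0 hn (by rw [hT.x0]; simpa using h0) h1
    | succ n ih =>
      intro hn h0 h1
      rcases le_total r ((d.X (n + 1) : ℝ) / 720) with h | h
      · exact ih (by omega) h0 h
      · exact cell (n + 1) hn h h1
  by_cases h : 0 ≤ r ∧ r ≤ 7 / 12
  · obtain ⟨p, hp⟩ := key 19 (by norm_num) h.1 (by rw [hT.x20]; push_cast; linarith [h.2])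
    exact ⟨p, fun _ _ => hp⟩
  · exact ⟨(0, 0), fun a b => absurd ⟨a, b⟩ h⟩

theorem loR_le {d : Dat} (hT : TabOK d) {kc : ℕ} (hk : kc < 20) {x : ℝ} (x0 : 0 ≤ x) (x1 : x ≤ 1) :
    loR d kc x ≤ 13 / 10 * Real.log (3 / 2 * (1 - xR d kc x)) := by
  have pos : ∀ a, (0 : ℝ) < 3 / 2 * (1 - (Xn d kc a : ℝ) / 720) := fun a => by
    have : (Xn d kc a : ℝ) ≤ 420 := by exact_mod_cast hT.xle _ (tn_le hk a)
    linarith
  have a1 := lp_mono x0 x1 fun a => hT.l1b _ (tn_le hk a)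
  have a2 := strictConcaveOn_log_Ioi.concaveOn.2 (pos false) (pos true) (sub_nonneg.2 x1) x0
    (by ring)
  have e : 3 / 2 * (1 - xR d kc x) = (1 - x) • (3 / 2 * (1 - (Xn d kc false : ℝ) / 720)) +
      x • (3 / 2 * (1 - (Xn d kc true : ℝ) / 720)) := by
    simp only [xR, lp, smul_eq_mul]; ring
  rw [e]
  simp only [lp, smul_eq_mul, loR, Xn] at a1 a2 ⊢
  linarith

theorem le_hiR {d : Dat} (hT : TabOK d) {rc kc : ℕ} (hr : rc < 20) (hk : kc < 20) {x z : ℝ}
    (x0 : 0 ≤ x) (x1 : x ≤ 1) (z0 : 0 ≤ z) (z1 : z ≤ 1) (hp : 0 < xR d rc z + xR d kc x) :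
    13 / 10 * Real.log (3 / 2 * (xR d rc z + xR d kc x)) ≤ hiR d rc z kc x := by
  have p0 := hT.d0p rc hr kc hk
  have p1 : (0 : ℝ) < d0 d rc kc := by exact_mod_cast p0
  have a1 := hT.ub rc hr kc hk
  have a2 := Real.log_le_sub_one_of_pos
    (x := 720 * (xR d rc z + xR d kc x) / d0 d rc kc) (div_pos (by linarith) p1)
  have e : 3 / 2 * (xR d rc z + xR d kc x) =
      (d0 d rc kc : ℝ) / 480 * (720 * (xR d rc z + xR d kc x) / d0 d rc kc) := by
    field_simp; ring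
  have a3 : ∀ a b, ((d.U rc kc : ℝ) - 73728) / 12288 +
      13 / 10 * (((Xn d rc b : ℝ) + Xn d kc a) / d0 d rc kc - 1) ≤ tR (64 * l2 d rc kc a b) := by
    intro a b
    have p2 : 1 ≤ Nat.mul 5 (d0 d rc kc) := by rw [nmul]; omega
    have b1 : _ ≤ ((l2 d rc kc a b : ℕ) : ℝ) := le_cdiv _ p2
    have b2 := csub_ge (Nat.add (Nat.add (Nat.mul (Nat.mul 5 (d0 d rc kc)) (d.U rc kc))
      (Nat.mul 79872 (Nat.add (Xn d rc b) (Xn d kc a)))) (Nat.sub (Nat.mul 5 (d0 d rc kc)) 1))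
      (Nat.mul 346112 (d0 d rc kc))
    have b3 := div_le_div_of_nonneg_right (add_le_add_left b2 1)
      (Nat.cast_nonneg (α := ℝ) (Nat.mul 5 (d0 d rc kc)))
    have b4 := (sub_le_sub_right b3 1).trans b1
    simp only [cadd, cmul, csub_eq p2, Nat.cast_ofNat, Nat.cast_one] at b4
    have e2 : (5 * (d0 d rc kc : ℝ) * d.U rc kc + 79872 * ((Xn d rc b : ℝ) + Xn d kc a) +
        (5 * (d0 d rc kc : ℝ) - 1) - 346112 * d0 d rc kc + 1) / (5 * d0 d rc kc) - 1 =
        d.U rc kc + 79872 / 5 * (((Xn d rc b : ℝ) + Xn d kc a) / d0 d rc kc) - 346112 / 5 := by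
      field_simp; ring
    rw [e2] at b4
    simp only [tR, sN]
    push_cast
    linarith
  have a4 : ((d.U rc kc : ℝ) - 73728) / 12288 +
      13 / 10 * (720 * (xR d rc z + xR d kc x) / d0 d rc kc - 1) ≤ hiR d rc z kc x := by
    refine le_of_eq_of_le ?_ (lp_mono z0 z1 fun b => lp_mono x0 x1 fun a => a3 a b)
    simp only [xR, lp]; ring
  rw [e, Real.log_mul (by positivity) (div_pos (by linarith) p1).ne']
  linarith

theorem gainV_shift (v : ℝ → ℝ) (c τ0 τ lo μ σ : ℝ) :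
    gainV (fun _ => 1) (fun t => v (t + σ)) c (τ0 - σ) τ (max (lo - σ) μ) μ =
      gainV (fun _ => 1) v c τ0 (τ + σ) (max lo (μ + σ)) (μ + σ) := by
  have e1 : max lo (μ + σ) = max (lo - σ) μ + σ := by
    rw [← max_add_add_right, sub_add_cancel]
  simp only [gainV, e1]
  congr 1
  · funext s
    rw [← min_add_add_right]
    congr 4
    ring
  · congr 2; ring
  · congr 1; ring

theorem cert_of_table {d : Dat} (hT : TabOK d)
    (hP : ∀ lc < 20, ∀ kc ≤ lc, ∃ h, pairOK d kc lc h = true) (g : ℚ)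
    (hg : 1 + 2 / Real.exp 1 < (g : ℝ)) :
    ∃ (Kn : Kernel) (A g1 : ℚ), 0 ≤ A ∧ Cert Kn g A g1 := by
  choose p hp using exists_idx hT
  have key : ∀ k l, 0 < k → k ≤ 7 / 12 → 0 < l → l ≤ 7 / 12 →
      2 ≤ ΦE d (p k).1 (p k).2 (p l).1 (p l).2 + ΦE d (p l).1 (p l).2 (p k).1 (p k).2 ∧
      ∀ rc < 20, ∀ z : ℝ, 0 ≤ z → z ≤ 1 →
      (hc d rc z (p k).1 (p k).2 (sN 26) - 2 + (hc d rc z (p l).1 (p l).2 (sN 26) - 2) +
        2 * xR d rc z ≤
        ΦE d (p k).1 (p k).2 (p l).1 (p l).2 + ΦE d (p l).1 (p l).2 (p k).1 (p k).2) ∧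
      ∀ s ∈ Set.Icc (sN 0) (sN 26), ∀ μ ν : ℝ,
      (μ = min (loR d (p k).1 (p k).2) (hiR d rc z (p k).1 (p k).2) ∨
        μ = hiR d rc z (p k).1 (p k).2) →
      (ν = min (loR d (p l).1 (p l).2) (hiR d rc z (p l).1 (p l).2) ∨
        ν = hiR d rc z (p l).1 (p l).2) →
      0 ≤ ΦP d rc z (p k).1 (p k).2 (p l).1 (p l).2 s μ +
        ΦP d rc z (p l).1 (p l).2 (p k).1 (p k).2 s ν := fun k l k0 k1 l0 l1 => by
    obtain ⟨a1, a2, a3, -⟩ := hp k k0.le k1
    obtain ⟨b1, b2, b3, -⟩ := hp l l0.le l1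
    rcases le_total (p k).1 (p l).1 with h | h
    · obtain ⟨hh, H⟩ := hP _ b1 _ h
      exact pair_sound hT a1 b1 H a2 a3 b2 b3
    · obtain ⟨hh, H⟩ := hP _ a1 _ h
      obtain ⟨c1, c2⟩ := pair_sound hT b1 a1 H b2 b3 a2 a3
      refine ⟨by linarith, fun rc hr z z0 z1 => ⟨by linarith [(c2 rc hr z z0 z1).1],
        fun s hs μ ν hμ hν => ?_⟩⟩
      linarith [(c2 rc hr z z0 z1).2 s hs ν μ hν hμ]
  obtain ⟨σ, hσ⟩ : ∃ σ, σ = 13 / 10 * Real.log (3 / 2) := ⟨_, rfl⟩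
  have uv : ∀ k l, 0 < k → k ≤ 7 / 12 → 0 < l → l ≤ 7 / 12 →
      UV (1 + 2 / Real.exp 1) (sN 0 - σ) (sN 26 - σ) (fun k => loR d (p k).1 (p k).2 - σ)
        (fun r k τ => hc d (p r).1 (p r).2 (p k).1 (p k).2 (τ + σ) - 2) k l =
      ΦE d (p k).1 (p k).2 (p l).1 (p l).2 + ΦE d (p l).1 (p l).2 (p k).1 (p k).2 :=
    fun k l k0 k1 l0 l1 => by
      have e : ∀ L s : ℝ, min (sN 26 - σ) (L - σ - s) + σ = min (sN 26) (L - s) := fun L s => by
        rw [← min_add_add_right]; congr 1 <;> ring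
      simp only [UV, ΦE, e, sub_sub_sub_cancel_right, ← (hp k k0.le k1).2.2.2,
        ← (hp l l0.le l1).2.2.2]
      ring
  refine cert_exists_of_pairG (a := 13 / 10) (b := 7 / 12) (τ0 := sN 0 - σ) (τ1 := sN 26 - σ)
    (gc := 8 / 5) (A := 2) (lo := fun k => loR d (p k).1 (p k).2 - σ)
    (hi := fun r k => hiR d (p r).1 (p r).2 (p k).1 (p k).2 - σ) (χ := fun _ _ _ _ _ => 1)
    (h := fun r k τ => hc d (p r).1 (p r).2 (p k).1 (p k).2 (τ + σ) - 2)
    (QU := fun _ _ => 0) (QE := fun _ _ _ => 0) (QP := fun _ _ _ _ => 0) (by norm_num)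
    (by norm_num) (by norm_num) (by norm_num) (sub_le_sub_right (sN_mono (by norm_num)) _)
    (fun k k0 k1 => ?_) (fun k k0 k1 => ?_) (fun r k r0 r1 k0 k1 => ?_)
    (fun _ _ _ _ => measurable_const) (fun _ _ _ _ _ => zero_le_one) (fun _ _ _ _ _ => le_rfl)
    ⟨copos_zero, fun _ => copos_zero, fun _ _ => copos_zero, fun r k r0 r1 k0 k1 => ?_,
      fun r k r0 r1 k0 k1 => ?_, fun k l k0 kl l1 => ?_, fun r k l r0 r1 k0 kl l1 => ?_,
      fun r k l r0 r1 k0 kl l1 τ t0 t1 μ ν hμ hν => ?_⟩ g hg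
  · obtain ⟨a1, a2, a3, -⟩ := hp k k0.le k1
    linarith [loR_ge hT a1 a2 a3]
  · obtain ⟨a1, a2, a3, a4⟩ := hp k k0.le k1
    have := loR_le hT a1 a2 a3
    rw [← a4, Real.log_mul (by norm_num) (by linarith)] at this
    linarith
  · obtain ⟨a1, a2, a3, a4⟩ := hp k k0.le k1
    obtain ⟨b1, b2, b3, b4⟩ := hp r r0.le r1
    have := le_hiR hT b1 a1 a2 a3 b2 b3 (by rw [← a4, ← b4]; linarith)
    rw [← a4, ← b4, Real.log_mul (by norm_num) (by linarith)] at this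
    linarith
  · obtain ⟨a1, a2, a3, -⟩ := hp k k0.le k1
    obtain ⟨b1, b2, b3, -⟩ := hp r r0.le r1
    exact fun s hs t ht hst => sub_le_sub_right (hc_mono hT b1 a1 b2 b3 a2 a3
      ⟨by linarith [hs.1], by linarith [hs.2]⟩ ⟨by linarith [ht.1], by linarith [ht.2]⟩
      (by linarith)) 2
  · obtain ⟨a1, a2, a3, -⟩ := hp k k0.le k1
    obtain ⟨b1, b2, b3, b4⟩ := hp r r0.le r1
    have c1 := hc_hi hT (e := false) (i := (p r).1) (j := (p k).1) (q := 25) (by simp)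
      (by norm_num) b2 b3 a2 a3 zero_le_one le_rfl
    have c2 := lp_mono b2 b3 fun a => lp_le a2 a3 fun c => (show (lp 1 fun τ =>
        (YH d false (tn (p r).1 a) (tn (p k).1 c) (tn 25 τ) : ℝ) / 14745600) ≤
        4 - 16 / 5 * ((Xn d (p r).1 a : ℝ) / 720) from by
      have c3 := (Nat.cast_le (α := ℝ)).2 (hT.yub _ (tn_le b1 a) _ (tn_le a1 c))
      have e : tn 25 true = 26 := rfl
      simp only [lp, e, Xn]
      push_cast at c3
      linarith)
    have c4 : (lp (p r).2 fun a => 4 - 16 / 5 * ((Xn d (p r).1 a : ℝ) / 720)) =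
        4 - 16 / 5 * xR d (p r).1 (p r).2 := by simp only [xR, lp]; ring
    rw [c4, ← b4] at c2
    rw [s26, eR, cf] at c1
    refine le_max_of_le_right ?_
    rw [sub_add_cancel]
    push_cast
    linarith
  · rw [uv k l k0 (kl.trans l1) (k0.trans_le kl) l1]
    linarith [(key k l k0 (kl.trans l1) (k0.trans_le kl) l1).1]
  · obtain ⟨b1, b2, b3, b4⟩ := hp r r0.le r1
    have := ((key k l k0 (kl.trans l1) (k0.trans_le kl) l1).2 _ b1 _ b2 b3).1
    rw [uv k l k0 (kl.trans l1) (k0.trans_le kl) l1, sub_add_cancel]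
    rw [← b4] at this
    linarith
  · obtain ⟨b1, b2, b3, b4⟩ := hp r r0.le r1
    have := ((key k l k0 (kl.trans l1) (k0.trans_le kl) l1).2 _ b1 _ b2 b3).2 (τ + σ)
      ⟨by linarith, by linarith⟩ (μ + σ) (ν + σ)
      (hμ.imp (fun a => by rw [a, min_sub_sub_right, sub_add_cancel])
        fun a => by rw [a, sub_add_cancel])
      (hν.imp (fun a => by rw [a, min_sub_sub_right, sub_add_cancel])
        fun a => by rw [a, sub_add_cancel])
    simp only [ΦP, ← b4, ← (hp k k0.le (kl.trans l1)).2.2.2,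
      ← (hp l (k0.trans_le kl).le l1).2.2.2] at this
    rw [gainV_shift (fun σ => hc d (p k).1 (p k).2 (p l).1 (p l).2 σ - 2),
      gainV_shift (fun σ => hc d (p l).1 (p l).2 (p k).1 (p k).2 σ - 2)]
    push_cast
    linarith

end Crest.Agent.R310.Tb
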