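import Crest.Agent.R310.TbI

/-! Row 310, table route: checking the side conditions of the table. -/

set_option autoImplicit false
set_option linter.dupNamespace false

namespace Crest.Agent.R310.Tb

theorem w_lo : (281492597640825 : ℝ) / 281474976710656 ≤ Real.exp (5 / 79872) :=
  le_trans (by norm_num) (Real.quadratic_le_exp_of_nonneg (x := 5 / 79872) (by norm_num))

theorem w_hi : Real.exp (5 / 79872) ≤ (281492597640841 : ℝ) / 281474976710656 := by
  have h : |(5 / 79872 : ℝ)| = 5 / 79872 := abs_of_nonneg (by norm_num)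
  refine (exp_le_cubic (by rw [h]; norm_num)).trans ?_
  rw [h]
  norm_num

theorem q_bd : (293450865853674 : ℝ) / 281474976710656 ≤ Real.exp (1 / 24) ∧
    Real.exp (1 / 24) ≤ (293450865858449 : ℝ) / 281474976710656 := by
  have h : |(1 / 24 : ℝ)| = 1 / 24 := abs_of_nonneg (by norm_num)
  have := abs_le.1 (Real.exp_bound (x := 1 / 24) (by rw [h]; norm_num) (n := 6) (by norm_num))
  rw [h] at this
  simp only [Finset.sum_range_succ, Finset.sum_range_zero, Nat.factorial] at this
  norm_num at this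
  constructor <;> linarith [this.1, this.2]

theorem pow_lo {x u : ℝ} {D : ℝ} (hD : 0 < D) (hu : 0 ≤ u) (h : u / D ≤ Real.exp x) (n : ℕ) :
    u ^ n ≤ D ^ n * Real.exp (n * x) := by
  rw [Real.exp_nat_mul, ← mul_pow]
  exact pow_le_pow_left₀ hu (by rwa [div_le_iff₀' hD] at h) n

theorem pow_hi {x u : ℝ} {D : ℝ} (hD : 0 < D) (h : Real.exp x ≤ u / D) (n : ℕ) :
    D ^ n * Real.exp (n * x) ≤ u ^ n := by
  rw [Real.exp_nat_mul, ← mul_pow]
  exact pow_le_pow_left₀ (by positivity) (by rwa [le_div_iff₀' hD] at h) n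

/-- `A * exp (a x) ≤ B * exp (b x)` -/
def lev (A a B b : ℕ) : Bool :=
  Nat.ble (A * 281492597640841 ^ a * 281474976710656 ^ b) (B * 281474976710656 ^ a * 281492597640825 ^ b)

theorem lev_sound {A a B b : ℕ} (h : lev A a B b = true) :
    A * Real.exp (a * (5 / 79872)) ≤ B * Real.exp (b * (5 / 79872)) := by
  rw [lev, Nat.ble_eq] at h
  have h1 := (Nat.cast_le (α := ℝ)).2 h
  push_cast at h1
  have h2 := pow_hi (by norm_num) w_hi a
  have h3 := pow_lo (by norm_num) (by norm_num) w_lo b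
  have pa : (0 : ℝ) < 281474976710656 ^ a := by positivity
  have pb : (0 : ℝ) < 281474976710656 ^ b := by positivity
  refine le_of_mul_le_mul_right ?_ (mul_pos pa pb)
  have h4 := mul_le_mul_of_nonneg_right (mul_le_mul_of_nonneg_left h2 (Nat.cast_nonneg A)) pb.le
  have h5 := mul_le_mul_of_nonneg_left h3 (mul_nonneg (Nat.cast_nonneg (α := ℝ) B) pa.le)
  linarith

/-- `A * exp (m / 24) ≤ B` -/
def eup (A m B : ℕ) : Bool := Nat.ble (A * 293450865858449 ^ m) (B * 281474976710656 ^ m)

/-- `B ≤ A * exp (m / 24)` -/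
def edn (A m B : ℕ) : Bool := Nat.ble (B * 281474976710656 ^ m) (A * 293450865853674 ^ m)

theorem eup_sound {A m B : ℕ} (h : eup A m B = true) : A ≤ B * Real.exp (-(m / 24)) := by
  rw [eup, Nat.ble_eq] at h
  have h1 := (Nat.cast_le (α := ℝ)).2 h
  push_cast at h1
  have h2 := mul_le_mul_of_nonneg_left (pow_hi (by norm_num) q_bd.2 m) (Nat.cast_nonneg A)
  have pa : (0 : ℝ) < 281474976710656 ^ m := by positivity
  rw [Real.exp_neg, ← div_eq_mul_inv, le_div_iff₀ (Real.exp_pos _), div_eq_mul_one_div]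
  refine le_of_mul_le_mul_right ?_ pa
  linarith

theorem edn_sound {A m B : ℕ} (h : edn A m B = true) : B * Real.exp (-(m / 24)) ≤ A := by
  rw [edn, Nat.ble_eq] at h
  have h1 := (Nat.cast_le (α := ℝ)).2 h
  push_cast at h1
  have h2 := mul_le_mul_of_nonneg_left (pow_lo (by norm_num) (by norm_num) q_bd.1 m)
    (Nat.cast_nonneg A)
  have pa : (0 : ℝ) < 281474976710656 ^ m := by positivity
  rw [Real.exp_neg, ← div_eq_mul_inv, div_le_iff₀ (Real.exp_pos _), div_eq_mul_one_div]
  refine le_of_mul_le_mul_right ?_ pa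
  linarith

theorem Ef_node (j : ℕ) : Ef (sN j) = 2 / 3 * Real.exp (-(((2 * (20 - j) : ℕ) : ℝ) / 24)) := by
  rw [Ef, min_sN]
  congr 2
  rcases le_total j 20 with h | h
  · rw [min_eq_left (by exact_mod_cast h)]
    push_cast [h]
    ring
  · rw [min_eq_right (by exact_mod_cast h), Nat.sub_eq_zero_of_le h]
    norm_num

noncomputable def chkX (d : Dat) : Bool :=
  (d.X 0 == 0) && (d.X 20 == 420) && allN (fun i => Nat.ble (d.X i) (d.X (i + 1))) 20 &&
  allN (fun i => Nat.ble (d.X i) 420 && (!nearN i || (Nat.ble 196 (d.X i) && Nat.ble (d.X i) 284)) &&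
    Nat.ble 12288 (d.L1 i) && lev 480 (d.L1 i - 20480) (720 - d.X i) (20480 - d.L1 i)) 21

noncomputable def chkU (d : Dat) (i : ℕ) : Bool :=
  allN (fun j => Nat.ble 1 (d0 d i j) &&
    lev (d0 d i j) (73728 - d.U i j) 480 (d.U i j - 73728)) 20

noncomputable def chkE (d : Dat) : Bool :=
  allN (fun j => edn (d.HE j) (2 * (20 - j)) 9830400 && eup (d.LN j) (2 * (20 - j)) 9830400 &&
    Nat.ble (d.LE j) (d.HE j) && Nat.ble (d.LE j) 9830400) 27 &&
  allN (fun q => Nat.ble (d.LE q) (d.LE (q + 1)) && Nat.ble (d.HE q) (d.HE (q + 1))) 26 &&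
  allN (fun q => eup (24 * d.LE q) (39 - 2 * q) 226099200 &&
    eup (24 * d.LE (q + 1)) (39 - 2 * q) 245760000) 20

noncomputable def chkY (d : Dat) : Bool :=
  allN (fun i => allN (fun j => Nat.ble (YH d false i j 26 + 65536 * d.X i) 58982400 &&
    allN (fun q => Nat.ble (d.Y i j q) (d.Y i j (q + 1))) 26 &&
    (!(nearN i && nearN j) || (allN (fun t => Nat.ble 29491200 (d.Y i j t)) 27 &&
      allN (fun q => Nat.ble (12 * d.Y i j q + 12 * d.LE (q + 1))
        (12 * d.Y i j (q + 1) + 12 * d.LE q + if q < 20 then d.LN q else 0)) 26))) 21) 21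

theorem near_lt {i : ℕ} (h : nearN i = true) : i < 21 := by
  simp only [nearN, Bool.and_eq_true, Nat.ble_eq] at h
  omega

theorem tabOK_of_chk {d : Dat} (h1 : chkX d = true) (h2 : ∀ i < 20, chkU d i = true)
    (h3 : chkE d = true) (h4 : chkY d = true) : TabOK d := by
  simp only [chkX, chkE, Bool.and_eq_true, beq_iff_eq] at h1 h3
  obtain ⟨⟨⟨x0, x20⟩, xm⟩, xr⟩ := h1
  obtain ⟨⟨e1, e2⟩, e3⟩ := h3
  have xr' := fun i hi => allN_sound xr i hi
  have e1' := fun i hi => allN_sound e1 i hi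
  have e2' := fun i hi => allN_sound e2 i hi
  have e3' := fun i hi => allN_sound e3 i hi
  have u' := fun i hi j hj => allN_sound (h2 i hi) j hj
  have y' := fun i hi j hj => allN_sound (allN_sound h4 i hi) j hj
  simp only [Bool.and_eq_true, Bool.or_eq_true, Nat.ble_eq, Bool.not_eq_true'] at xr' e1' e2' e3' u' y'
  have hHE : ∀ j : ℕ, j ≤ 26 → Ef (sN j) ≤ yR d.HE j := fun j hj => by
    have := edn_sound (e1' j (by omega)).1.1.1
    rw [Ef_node, yR]
    rw [Nat.cast_ofNat] at this
    linarith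
  refine ⟨x0, x20, fun i hi => Nat.ble_eq ▸ allN_sound xm i hi, fun i hi => ?_,
    fun i hi => (xr' i (by omega)).1.1.1, fun i hi => (xr' i (by omega)).1.2, fun i hi => ?_,
    fun i hi j hj => (u' i hi j hj).1, fun i hi j hj => ?_, fun q hq f f0 f1 => ?_,
    fun q hq f f0 f1 => ?_, fun j hj => ?_, fun j hj => (e1' j (by omega)).1.2,
    fun q hq => (e2' q hq).1, fun q hq => (e2' q hq).2,
    fun j hj => (e1' j (by omega)).2.trans (by norm_num),
    fun i hi j hj q hq => Nat.ble_eq ▸ allN_sound (y' i (by omega) j (by omega)).1.2 q hq,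
    fun i j hi hj t ht => ?_, fun i j hi hj q hq => ?_,
    fun i hi j hj => (y' i (by omega) j (by omega)).1.1⟩
  · exact (xr' i (near_lt hi)).1.1.2.resolve_left (by simp [hi])
  · obtain ⟨⟨⟨a1, -⟩, -⟩, a2⟩ := xr' i (by omega)
    have a3 := lev_sound a2
    have a4 : (d.X i : ℝ) ≤ 420 := by exact_mod_cast a1
    have a5 := pos_neg (d.L1 i : ℝ) 20480
    rw [Nat.cast_sub (by omega : d.X i ≤ 720), ← nsub, ← nsub, csub, csub] at a3
    simp only [Nat.cast_ofNat] at a3
    have a6 : Real.exp (((d.L1 i : ℝ) - 20480) * (5 / 79872)) ≤ 3 / 2 * (1 - (d.X i : ℝ) / 720) := by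
      rw [← a5, sub_mul, Real.exp_sub, div_le_iff₀ (Real.exp_pos _)]
      linarith
    have a7 := (Real.le_log_iff_exp_le (by linarith)).2 a6
    simp only [tR, sN]
    push_cast
    linarith
  · obtain ⟨a1, a2⟩ := u' i hi j hj
    have a3 := lev_sound a2
    have a4 : (1 : ℝ) ≤ d0 d i j := by exact_mod_cast a1
    have a5 := pos_neg (d.U i j : ℝ) 73728
    rw [← nsub, ← nsub, csub, csub] at a3
    simp only [Nat.cast_ofNat] at a3
    have a6 : (d0 d i j : ℝ) / 480 ≤ Real.exp (((d.U i j : ℝ) - 73728) * (5 / 79872)) := by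
      rw [← a5, sub_mul, Real.exp_sub, le_div_iff₀ (Real.exp_pos _)]
      linarith
    have a7 := (Real.log_le_iff_le_exp (by linarith)).2 a6
    linarith
  · rcases Nat.lt_or_ge q 20 with h | h
    · have a : (q : ℝ) + 1 ≤ 20 := by exact_mod_cast h
      have b1 := eup_sound (e3' q h).1
      have b2 := eup_sound (e3' q h).2
      rw [Nat.cast_sub (by omega)] at b1 b2
      push_cast at b1 b2
      have e : sN (q + f) = -((39 - 2 * (q : ℝ)) / 24) + (f - 1 / 2) / 12 := by rw [sN]; ring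
      have b3 := mul_le_mul_of_nonneg_left (Real.add_one_le_exp ((f - 1 / 2) / 12))
        (Real.exp_pos (-((39 - 2 * (q : ℝ)) / 24))).le
      rw [Ef_neg (by rw [sN]; linarith), e, Real.exp_add]
      simp only [lp, yR, tn, ct, cf]
      nlinarith [mul_le_mul_of_nonneg_left b1 (sub_nonneg.2 f1), mul_le_mul_of_nonneg_left b2 f0]
    · have a : (20 : ℝ) ≤ q := by exact_mod_cast h
      rw [Ef_pos (by rw [sN]; linarith)]
      refine lp_le f0 f1 fun τ => ?_
      have : (d.LE (tn q τ) : ℝ) ≤ 9830400 := by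
        exact_mod_cast (e1' _ (Nat.lt_succ_of_le (tn_le hq τ))).2
      rw [yR]
      linarith
  · refine le_trans ?_ (lp_mono f0 f1 fun τ => hHE _ (tn_le hq τ))
    simp only [lp, tn, ct, cf, Nat.cast_add, Nat.cast_one]
    rcases Nat.lt_or_ge q 20 with h | h
    · have a : (q : ℝ) + 1 ≤ 20 := by exact_mod_cast h
      have b := convexOn_exp.2 (Set.mem_univ (sN q)) (Set.mem_univ (sN (q + 1)))
        (sub_nonneg.2 f1) f0 (by ring)
      have e : sN (q + f) = (1 - f) • sN q + f • sN (q + 1) := by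
        simp only [sN, smul_eq_mul]; ring
      rw [← e] at b
      rw [Ef_neg (by rw [sN]; linarith), Ef_neg (by rw [sN]; linarith),
        Ef_neg (by rw [sN]; linarith)]
      simp only [smul_eq_mul] at b
      linarith
    · have a : (20 : ℝ) ≤ q := by exact_mod_cast h
      rw [Ef_pos (by rw [sN]; linarith), Ef_pos (by rw [sN]; linarith),
        Ef_pos (by rw [sN]; linarith)]
      linarith
  · have := eup_sound (e1' j (by omega)).1.1.2
    rw [Ef_node]
    rw [Nat.cast_ofNat] at this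
    linarith
  · exact Nat.ble_eq ▸ allN_sound ((y' i (near_lt hi) j (near_lt hj)).2.resolve_left
      (by simp [hi, hj])).1 t (by omega)
  · exact Nat.ble_eq ▸ allN_sound ((y' i (near_lt hi) j (near_lt hj)).2.resolve_left
      (by simp [hi, hj])).2 q hq

end Crest.Agent.R310.Tb
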