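import Crest.Agent.R310.TbJ
import Crest.Agent.R310.TbT

/-! Row 310, table route: side conditions of the table. -/

set_option autoImplicit false
set_option linter.dupNamespace false

namespace Crest.Agent.R310.Tb

theorem chkX_ok : chkX dat = true := by decide +kernel

theorem chkE_ok : chkE dat = true := by decide +kernel

theorem chkY_ok : chkY dat = true := by decide +kernel

theorem chkU_ok : allN (chkU dat) 20 = true := by decide +kernel

theorem dat_ok : TabOK dat := tabOK_of_chk chkX_ok (allN_sound chkU_ok) chkE_ok chkY_ok

end Crest.Agent.R310.Tb
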