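import Crest.Agent.R310.TbL
import Crest.Agent.R310.TbK0
import Crest.Agent.R310.TbK1
import Crest.Agent.R310.TbK2
import Crest.Agent.R310.TbK3
import Crest.Agent.R310.TbK4
import Crest.Agent.R310.TbK5
import Crest.Agent.R310.TbK6
import Crest.Agent.R310.TbK7
import Crest.Agent.R310.TbK8
import Crest.Agent.R310.TbK9
import Crest.Agent.R310.TbK10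
import Crest.Agent.R310.TbK11

/-! Row 310, table route: the certificate exists. -/

set_option autoImplicit false
set_option linter.dupNamespace false

namespace Crest.Agent.R310.Tb

theorem col_0 (kc : ℕ) (h : kc ≤ 0) : ∃ h, pairOK dat kc 0 h = true := by
  interval_cases kc
  exacts [⟨_, ok_0_0⟩]

theorem col_1 (kc : ℕ) (h : kc ≤ 1) : ∃ h, pairOK dat kc 1 h = true := by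
  interval_cases kc
  exacts [⟨_, ok_0_1⟩, ⟨_, ok_1_1⟩]

theorem col_2 (kc : ℕ) (h : kc ≤ 2) : ∃ h, pairOK dat kc 2 h = true := by
  interval_cases kc
  exacts [⟨_, ok_0_2⟩, ⟨_, ok_1_2⟩, ⟨_, ok_2_2⟩]

theorem col_3 (kc : ℕ) (h : kc ≤ 3) : ∃ h, pairOK dat kc 3 h = true := by
  interval_cases kc
  exacts [⟨_, ok_0_3⟩, ⟨_, ok_1_3⟩, ⟨_, ok_2_3⟩, ⟨_, ok_3_3⟩]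

theorem col_4 (kc : ℕ) (h : kc ≤ 4) : ∃ h, pairOK dat kc 4 h = true := by
  interval_cases kc
  exacts [⟨_, ok_0_4⟩, ⟨_, ok_1_4⟩, ⟨_, ok_2_4⟩, ⟨_, ok_3_4⟩, ⟨_, ok_4_4⟩]

theorem col_5 (kc : ℕ) (h : kc ≤ 5) : ∃ h, pairOK dat kc 5 h = true := by
  interval_cases kc
  exacts [⟨_, ok_0_5⟩, ⟨_, ok_1_5⟩, ⟨_, ok_2_5⟩, ⟨_, ok_3_5⟩, ⟨_, ok_4_5⟩, ⟨_, ok_5_5⟩]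

theorem col_6 (kc : ℕ) (h : kc ≤ 6) : ∃ h, pairOK dat kc 6 h = true := by
  interval_cases kc
  exacts [⟨_, ok_0_6⟩, ⟨_, ok_1_6⟩, ⟨_, ok_2_6⟩, ⟨_, ok_3_6⟩, ⟨_, ok_4_6⟩, ⟨_, ok_5_6⟩, ⟨_, ok_6_6⟩]

theorem col_7 (kc : ℕ) (h : kc ≤ 7) : ∃ h, pairOK dat kc 7 h = true := by
  interval_cases kc
  exacts [⟨_, ok_0_7⟩, ⟨_, ok_1_7⟩, ⟨_, ok_2_7⟩, ⟨_, ok_3_7⟩, ⟨_, ok_4_7⟩, ⟨_, ok_5_7⟩, ⟨_, ok_6_7⟩, ⟨_, ok_7_7⟩]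

theorem col_8 (kc : ℕ) (h : kc ≤ 8) : ∃ h, pairOK dat kc 8 h = true := by
  interval_cases kc
  exacts [⟨_, ok_0_8⟩, ⟨_, ok_1_8⟩, ⟨_, ok_2_8⟩, ⟨_, ok_3_8⟩, ⟨_, ok_4_8⟩, ⟨_, ok_5_8⟩, ⟨_, ok_6_8⟩, ⟨_, ok_7_8⟩, ⟨_, ok_8_8⟩]

theorem col_9 (kc : ℕ) (h : kc ≤ 9) : ∃ h, pairOK dat kc 9 h = true := by
  interval_cases kc
  exacts [⟨_, ok_0_9⟩, ⟨_, ok_1_9⟩, ⟨_, ok_2_9⟩, ⟨_, ok_3_9⟩, ⟨_, ok_4_9⟩, ⟨_, ok_5_9⟩, ⟨_, ok_6_9⟩, ⟨_, ok_7_9⟩, ⟨_, ok_8_9⟩, ⟨_, ok_9_9⟩]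

theorem col_10 (kc : ℕ) (h : kc ≤ 10) : ∃ h, pairOK dat kc 10 h = true := by
  interval_cases kc
  exacts [⟨_, ok_0_10⟩, ⟨_, ok_1_10⟩, ⟨_, ok_2_10⟩, ⟨_, ok_3_10⟩, ⟨_, ok_4_10⟩, ⟨_, ok_5_10⟩, ⟨_, ok_6_10⟩, ⟨_, ok_7_10⟩, ⟨_, ok_8_10⟩, ⟨_, ok_9_10⟩, ⟨_, ok_10_10⟩]

theorem col_11 (kc : ℕ) (h : kc ≤ 11) : ∃ h, pairOK dat kc 11 h = true := by
  interval_cases kc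
  exacts [⟨_, ok_0_11⟩, ⟨_, ok_1_11⟩, ⟨_, ok_2_11⟩, ⟨_, ok_3_11⟩, ⟨_, ok_4_11⟩, ⟨_, ok_5_11⟩, ⟨_, ok_6_11⟩, ⟨_, ok_7_11⟩, ⟨_, ok_8_11⟩, ⟨_, ok_9_11⟩, ⟨_, ok_10_11⟩, ⟨_, ok_11_11⟩]

theorem col_12 (kc : ℕ) (h : kc ≤ 12) : ∃ h, pairOK dat kc 12 h = true := by
  interval_cases kc
  exacts [⟨_, ok_0_12⟩, ⟨_, ok_1_12⟩, ⟨_, ok_2_12⟩, ⟨_, ok_3_12⟩, ⟨_, ok_4_12⟩, ⟨_, ok_5_12⟩, ⟨_, ok_6_12⟩, ⟨_, ok_7_12⟩, ⟨_, ok_8_12⟩, ⟨_, ok_9_12⟩, ⟨_, ok_10_12⟩, ⟨_, ok_11_12⟩, ⟨_, ok_12_12⟩]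

theorem col_13 (kc : ℕ) (h : kc ≤ 13) : ∃ h, pairOK dat kc 13 h = true := by
  interval_cases kc
  exacts [⟨_, ok_0_13⟩, ⟨_, ok_1_13⟩, ⟨_, ok_2_13⟩, ⟨_, ok_3_13⟩, ⟨_, ok_4_13⟩, ⟨_, ok_5_13⟩, ⟨_, ok_6_13⟩, ⟨_, ok_7_13⟩, ⟨_, ok_8_13⟩, ⟨_, ok_9_13⟩, ⟨_, ok_10_13⟩, ⟨_, ok_11_13⟩, ⟨_, ok_12_13⟩, ⟨_, ok_13_13⟩]

theorem col_14 (kc : ℕ) (h : kc ≤ 14) : ∃ h, pairOK dat kc 14 h = true := by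
  interval_cases kc
  exacts [⟨_, ok_0_14⟩, ⟨_, ok_1_14⟩, ⟨_, ok_2_14⟩, ⟨_, ok_3_14⟩, ⟨_, ok_4_14⟩, ⟨_, ok_5_14⟩, ⟨_, ok_6_14⟩, ⟨_, ok_7_14⟩, ⟨_, ok_8_14⟩, ⟨_, ok_9_14⟩, ⟨_, ok_10_14⟩, ⟨_, ok_11_14⟩, ⟨_, ok_12_14⟩, ⟨_, ok_13_14⟩, ⟨_, ok_14_14⟩]

theorem col_15 (kc : ℕ) (h : kc ≤ 15) : ∃ h, pairOK dat kc 15 h = true := by
  interval_cases kc
  exacts [⟨_, ok_0_15⟩, ⟨_, ok_1_15⟩, ⟨_, ok_2_15⟩, ⟨_, ok_3_15⟩, ⟨_, ok_4_15⟩, ⟨_, ok_5_15⟩, ⟨_, ok_6_15⟩, ⟨_, ok_7_15⟩, ⟨_, ok_8_15⟩, ⟨_, ok_9_15⟩, ⟨_, ok_10_15⟩, ⟨_, ok_11_15⟩, ⟨_, ok_12_15⟩, ⟨_, ok_13_15⟩, ⟨_, ok_14_15⟩, ⟨_, ok_15_15⟩]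

theorem col_16 (kc : ℕ) (h : kc ≤ 16) : ∃ h, pairOK dat kc 16 h = true := by
  interval_cases kc
  exacts [⟨_, ok_0_16⟩, ⟨_, ok_1_16⟩, ⟨_, ok_2_16⟩, ⟨_, ok_3_16⟩, ⟨_, ok_4_16⟩, ⟨_, ok_5_16⟩, ⟨_, ok_6_16⟩, ⟨_, ok_7_16⟩, ⟨_, ok_8_16⟩, ⟨_, ok_9_16⟩, ⟨_, ok_10_16⟩, ⟨_, ok_11_16⟩, ⟨_, ok_12_16⟩, ⟨_, ok_13_16⟩, ⟨_, ok_14_16⟩, ⟨_, ok_15_16⟩, ⟨_, ok_16_16⟩]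

theorem col_17 (kc : ℕ) (h : kc ≤ 17) : ∃ h, pairOK dat kc 17 h = true := by
  interval_cases kc
  exacts [⟨_, ok_0_17⟩, ⟨_, ok_1_17⟩, ⟨_, ok_2_17⟩, ⟨_, ok_3_17⟩, ⟨_, ok_4_17⟩, ⟨_, ok_5_17⟩, ⟨_, ok_6_17⟩, ⟨_, ok_7_17⟩, ⟨_, ok_8_17⟩, ⟨_, ok_9_17⟩, ⟨_, ok_10_17⟩, ⟨_, ok_11_17⟩, ⟨_, ok_12_17⟩, ⟨_, ok_13_17⟩, ⟨_, ok_14_17⟩, ⟨_, ok_15_17⟩, ⟨_, ok_16_17⟩, ⟨_, ok_17_17⟩]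

theorem col_18 (kc : ℕ) (h : kc ≤ 18) : ∃ h, pairOK dat kc 18 h = true := by
  interval_cases kc
  exacts [⟨_, ok_0_18⟩, ⟨_, ok_1_18⟩, ⟨_, ok_2_18⟩, ⟨_, ok_3_18⟩, ⟨_, ok_4_18⟩, ⟨_, ok_5_18⟩, ⟨_, ok_6_18⟩, ⟨_, ok_7_18⟩, ⟨_, ok_8_18⟩, ⟨_, ok_9_18⟩, ⟨_, ok_10_18⟩, ⟨_, ok_11_18⟩, ⟨_, ok_12_18⟩, ⟨_, ok_13_18⟩, ⟨_, ok_14_18⟩, ⟨_, ok_15_18⟩, ⟨_, ok_16_18⟩, ⟨_, ok_17_18⟩, ⟨_, ok_18_18⟩]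

theorem col_19 (kc : ℕ) (h : kc ≤ 19) : ∃ h, pairOK dat kc 19 h = true := by
  interval_cases kc
  exacts [⟨_, ok_0_19⟩, ⟨_, ok_1_19⟩, ⟨_, ok_2_19⟩, ⟨_, ok_3_19⟩, ⟨_, ok_4_19⟩, ⟨_, ok_5_19⟩, ⟨_, ok_6_19⟩, ⟨_, ok_7_19⟩, ⟨_, ok_8_19⟩, ⟨_, ok_9_19⟩, ⟨_, ok_10_19⟩, ⟨_, ok_11_19⟩, ⟨_, ok_12_19⟩, ⟨_, ok_13_19⟩, ⟨_, ok_14_19⟩, ⟨_, ok_15_19⟩, ⟨_, ok_16_19⟩, ⟨_, ok_17_19⟩, ⟨_, ok_18_19⟩, ⟨_, ok_19_19⟩]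

theorem pairs_ok (lc : ℕ) (h : lc < 20) : ∀ kc ≤ lc, ∃ h, pairOK dat kc lc h = true := by
  interval_cases lc
  exacts [col_0, col_1, col_2, col_3, col_4, col_5, col_6, col_7, col_8, col_9, col_10, col_11, col_12, col_13, col_14, col_15, col_16, col_17, col_18, col_19]

theorem cert_exists (g : ℚ) (hg : 1 + 2 / Real.exp 1 < (g : ℝ)) :
    ∃ (Kn : Kernel) (A g1 : ℚ), 0 ≤ A ∧ Cert Kn g A g1 :=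
  cert_of_table dat_ok pairs_ok g hg

end Crest.Agent.R310.Tb
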