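import Crest.Agent.R310.NMain

/-! Row 310, column route: the blow-up at the flat tip, the origin and `(U)`. -/

set_option autoImplicit false
set_option linter.dupNamespace false

namespace Crest.Agent.R310

open Finset

theorem Prim.tan {φ Φ : ℝ → ℝ} (h : Prim φ Φ) (hm : Monotone φ) (τ x : ℝ) :
    Φ τ + (x - τ) * φ τ ≤ Φ x :=
  h.tangent (τ0 := Min.min x τ) (τ1 := Max.max x τ) (hm.monotoneOn _) (min_le_left _ _) (le_max_left _ _)
    (min_le_right _ _) (le_max_right _ _)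

theorem exp_le_poly4 {y : ℝ} (h : |y| ≤ 1) :
    Real.exp y ≤ 1 + y + y ^ 2 / 2 + y ^ 3 / 6 + 5 * y ^ 4 / 96 := by
  have h1 := Real.exp_bound h (n := 4) (by norm_num)
  have h2 : |y| ^ 4 = y ^ 4 := by
    rw [show (4 : ℕ) = 2 * 2 by rfl, pow_mul, pow_mul, sq_abs]
  rw [h2] at h1
  have h3 := (abs_le.1 h1).2
  simp only [Finset.sum_range_succ, Finset.sum_range_zero, Nat.factorial] at h3
  norm_num at h3
  linarith

/-- the bound of `Ghat` for the flat profile `(2/3) exp` -/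
theorem Ghat_flat {t0 τ l m : ℝ} (hl : t0 ≤ l - 1) :
    2 / 3 * Real.exp τ - 2 / 3 * Real.exp (-1) * Real.exp l +
      2 / 3 * Real.exp τ * (l - max τ m) ≤
      Ghat (fun σ => 2 / 3 * Real.exp σ) (fun σ => 2 / 3 * Real.exp σ) t0 τ l m 0 := by
  have hm : Monotone Real.exp := Real.exp_monotone
  rw [Ghat, max_eq_left hl]
  have a1 := prim_exp.tan hm τ (min τ l)
  have a2 : Real.exp (min τ (l - 1)) + Real.exp τ * (l - 1 - min τ (l - 1)) ≤ Real.exp (l - 1) := by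
    rcases le_total τ (l - 1) with h | h
    · rw [min_eq_left h]
      linarith [prim_exp.tan hm τ (l - 1)]
    · rw [min_eq_right h]
      linarith
  have a3 : Real.exp (l - 1) = Real.exp (-1) * Real.exp l := by
    rw [← Real.exp_add]
    congr 1
    ring
  have a4 : max τ m = τ + max 0 (m - τ) := by
    rw [← max_add_add_left]
    congr 1 <;> ring
  rw [a4]
  nlinarith

theorem Ghat_add (f F η Η : ℝ → ℝ) (u t0 τ l m : ℝ) :
    Ghat (fun σ => f σ + u * η σ) (fun σ => F σ + u * Η σ) t0 τ l m 0 =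
      Ghat f F t0 τ l m 0 + u * Ghat η Η t0 τ l m 0 := by
  simp only [Ghat]
  ring

/-- the test of the tip programs (the inequality divided by the distance `s` to the tip) -/
noncomputable def tipF (η Η : ℝ → ℝ) (t0 Z s d sr sk τ La M er Nw : ℝ) : ℝ :=
  (1 + 2 / Real.exp 1) * sk * d - sr * (1 - d) -
    2 / 3 * Real.exp (-1) * (La + s * La ^ 2 / 2 + s ^ 2 * La ^ 3 / 6 + 5 * s ^ 3 * La ^ 4 / 96) +
    2 / 3 * Real.exp τ * (La - max (τ / Z) M) + d * Ghat η Η t0 τ (s * La) (s * M) 0 -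
    (1 - d) * er - d * Nw

/-- blow-up at the tip, abstract form -/
theorem tip_core {η Η v : ℝ → ℝ} (hP : Prim η Η) {t0 Z s d sr sk τ La M er Nw lam μ c : ℝ}
    (hv : v = fun σ => 2 / 3 * Real.exp σ + s * d * η σ) (hm : Monotone v) (hs0 : 0 ≤ s)
    (hsZ : s ≤ Z) (hZ : 0 < Z) (h0 : t0 ≤ τ) (h1 : τ ≤ 0) (hμ : μ ≤ lam) (hl : s * La ≤ lam)
    (hM : μ ≤ s * M) (hl0 : t0 ≤ s * La - 1) (hl1 : |s * La| ≤ 1) (hc : c ≤ 0)
    (hpos : 0 ≤ v (min τ (s * La - 1))) (test : 0 ≤ tipF η Η t0 Z s d sr sk τ La M er Nw) :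
    s * d * Nw ≤ (1 + 2 / Real.exp 1) * (1 / 3 + sk * s * d) - (1 / 3 + sr * s * (1 - d)) +
      gainV (fun _ => 1) v c t0 τ lam μ - (2 / 3 * Real.exp τ + s * (1 - d) * er) := by
  have hPv : Prim v fun σ => 2 / 3 * Real.exp σ + s * d * Η σ := by
    rw [hv]
    exact (prim_exp.const_mul _).add (hP.const_mul _)
  have a1 := Ghat_le hPv hm (θ := 1) h0 hμ (by linarith) hl hM hc
    (by rwa [max_eq_left hl0]) zero_le_one le_rfl
  rw [one_mul] at a1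
  have a2 : Ghat v (fun σ => 2 / 3 * Real.exp σ + s * d * Η σ) t0 τ (s * La) (s * M) 0 =
      Ghat (fun σ => 2 / 3 * Real.exp σ) (fun σ => 2 / 3 * Real.exp σ) t0 τ (s * La) (s * M) 0 +
        s * d * Ghat η Η t0 τ (s * La) (s * M) 0 := by
    rw [hv]
    exact Ghat_add _ _ _ _ _ _ _ _ _
  have a3 := Ghat_flat (τ := τ) (m := s * M) hl0
  have a4 := mul_le_mul_of_nonneg_left (exp_le_poly4 hl1)
    (show 0 ≤ 2 / 3 * Real.exp (-1) by positivity)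
  have a5 : max τ (s * M) ≤ s * max (τ / Z) M := by
    refine max_le ?_ (mul_le_mul_of_nonneg_left (le_max_right _ _) hs0)
    refine le_trans ?_ (mul_le_mul_of_nonneg_left (le_max_left _ _) hs0)
    have : τ = Z * (τ / Z) := by field_simp
    have h2 : τ / Z ≤ 0 := div_nonpos_of_nonpos_of_nonneg h1 hZ.le
    nlinarith [mul_nonneg (sub_nonneg.2 hsZ) (neg_nonneg.2 h2)]
  have a6 := mul_le_mul_of_nonneg_left a5 (show 0 ≤ 2 / 3 * Real.exp τ by positivity)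
  have a7 := mul_nonneg hs0 test
  have a8 : 2 / Real.exp 1 = 2 * Real.exp (-1) := by rw [Real.exp_neg, div_eq_mul_inv]
  rw [tipF, a8] at a7
  rw [a8]
  nlinarith

/-- `loP (4/3) k / s` at `k = 1/3 + sk * s * d`, with `x = -3/2 * sk * d` -/
noncomputable def tipL (s x : ℝ) : ℝ := 4 / 3 * x * (6 + 5 * s * x) / ((1 + s * x) * (6 + 2 * s * x))

/-- `hiP (4/3) r k / s`, with `x = 3/2 * (sr * (1 - d) + sk * d)` -/
noncomputable def tipU (s x : ℝ) : ℝ := 4 / 3 * x * (6 + s * x) / (6 + 4 * s * x)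

theorem loP_tip (s d sk : ℝ) :
    loP (4 / 3) (1 / 3 + sk * s * d) = s * tipL s (-3 / 2 * sk * d) := by
  have e : (1 - 3 * (1 / 3 + sk * s * d)) / 2 = s * (-3 / 2 * sk * d) := by ring
  rw [loP, e, padeL, tipL]
  generalize -3 / 2 * sk * d = x
  simp only [mul_assoc, mul_div_assoc]
  ring

theorem hiP_tip (s d sr sk : ℝ) : hiP (4 / 3) (1 / 3 + sr * s * (1 - d)) (1 / 3 + sk * s * d) =
    s * tipU s (3 / 2 * (sr * (1 - d) + sk * d)) := by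
  have e : (3 * (1 / 3 + sr * s * (1 - d) + (1 / 3 + sk * s * d)) - 2) / 2 =
      s * (3 / 2 * (sr * (1 - d) + sk * d)) := by ring
  rw [hiP, e, padeU, tipU]
  generalize 3 / 2 * (sr * (1 - d) + sk * d) = x
  simp only [mul_assoc, mul_div_assoc]
  ring

theorem padeL_small {u : ℝ} (h0 : -1 / 12 ≤ u) (h1 : u ≤ 1 / 12) :
    -3 / 32 ≤ padeL u ∧ padeL u ≤ 3 / 32 := by
  have h2 : 0 < (1 + u) * (6 + 2 * u) := mul_pos (by linarith) (by linarith)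
  rw [padeL, le_div_iff₀ h2, div_le_iff₀ h2]
  constructor <;> nlinarith

theorem padeU_small {u : ℝ} (h0 : -1 / 12 ≤ u) (h1 : u ≤ 1 / 12) :
    -3 / 32 ≤ padeU u ∧ padeU u ≤ 3 / 32 := by
  have h2 : 0 < 6 + 4 * u := by linarith
  rw [padeU, le_div_iff₀ h2, div_le_iff₀ h2]
  constructor <;> nlinarith

theorem g_bounds : 1735 / 1000 ≤ 1 + 2 / Real.exp 1 ∧ 1 + 2 / Real.exp 1 ≤ 1736 / 1000 := by
  have h1 := Real.exp_one_gt_d9
  have h2 := Real.exp_one_lt_d9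
  have h3 : 0 < Real.exp 1 := Real.exp_pos 1
  have h4 : 735 / 1000 ≤ 2 / Real.exp 1 := by
    rw [le_div_iff₀ h3]
    linarith
  have h5 : 2 / Real.exp 1 ≤ 736 / 1000 := by
    rw [div_le_iff₀ h3]
    linarith
  constructor <;> linarith

/-- polar coordinates around the tip -/
theorem tip_coords {p q : ℝ} (hp : 0 ≤ p) (hq : 0 ≤ q) :
    ∃ d : ℝ, 0 ≤ d ∧ d ≤ 1 ∧ (p + q) * (1 - d) = p ∧ (p + q) * d = q := by
  rcases (add_nonneg hp hq).eq_or_lt with h | h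
  · refine ⟨0, le_rfl, zero_le_one, ?_, ?_⟩ <;> linarith
  · refine ⟨q / (p + q), div_nonneg hq h.le, (div_le_one h).2 (by linarith), ?_, ?_⟩
    · field_simp
      ring
    · field_simp

/-- Blow-up at the tip for the Padé levels.  `l = s * La` and `m = s * M` are any numbers between the
two levels with `l ≤ lam`, `μ ≤ m`. -/
theorem tip_pade {η Η v : ℝ → ℝ} (hP : Prim η Η) {Z s d sr sk τ La M er Nw r k vr lam μ th : ℝ}
    (hv : v = fun σ => 2 / 3 * Real.exp σ + s * d * η σ) (hm : Monotone v)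
    (hvr : vr = 2 / 3 * Real.exp τ + s * (1 - d) * er) (hr : r = 1 / 3 + sr * s * (1 - d))
    (hk : k = 1 / 3 + sk * s * d) (hsr : |sr| ≤ 1) (hsk : |sk| ≤ 1) (hs0 : 0 ≤ s) (hsZ : s ≤ Z)
    (hZ : 0 < Z) (hZ1 : Z ≤ 1 / 18) (hd0 : 0 ≤ d) (hd1 : d ≤ 1) (h0 : -9 / 8 ≤ τ) (h1 : τ ≤ 0)
    (ht0 : 0 ≤ th) (ht1 : th ≤ 1)
    (hLa : La = tipU s (3 / 2 * (sr * (1 - d) + sk * d)) +
      th * (tipL s (-3 / 2 * sk * d) - tipU s (3 / 2 * (sr * (1 - d) + sk * d))))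
    (hμ : μ ≤ lam) (hl : s * La ≤ lam) (hM : μ ≤ s * M) (hpos : 0 ≤ v (min τ (s * La - 1)))
    (test : 0 ≤ tipF η Η (-9 / 8) Z s d sr sk τ La M er Nw) :
    s * d * Nw ≤ min 1 ((1 + 2 / Real.exp 1) * k) - min r ((1 + 2 / Real.exp 1) * k) +
      gainV (fun _ => 1) v (capR (3 / 2) (8 / 5) k r) (-9 / 8) τ lam μ - vr := by
  obtain ⟨hr1, hr2⟩ := abs_le.1 hsr
  obtain ⟨hk1, hk2⟩ := abs_le.1 hsk
  have hp : 0 ≤ s * (1 - d) := mul_nonneg hs0 (by linarith)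
  have hq : 0 ≤ s * d := mul_nonneg hs0 hd0
  have b1 : sr * s * (1 - d) ≤ s * (1 - d) := by nlinarith
  have b2 : -(s * (1 - d)) ≤ sr * s * (1 - d) := by nlinarith
  have b3 : sk * s * d ≤ s * d := by nlinarith
  have b4 : -(s * d) ≤ sk * s * d := by nlinarith
  have hpq : s * (1 - d) + s * d ≤ 1 / 18 := by linarith
  have c1 := padeL_small (u := (1 - 3 * k) / 2) (by linarith) (by linarith)
  have c2 := padeU_small (u := (3 * (r + k) - 2) / 2) (by linarith) (by linarith)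
  have e1 := loP_tip s d sk
  have e2 := hiP_tip s d sr sk
  rw [← hk, loP] at e1
  rw [← hk, ← hr, hiP] at e2
  have e3 : s * La = (1 - th) * (4 / 3 * padeU ((3 * (r + k) - 2) / 2)) +
      th * (4 / 3 * padeL ((1 - 3 * k) / 2)) := by
    rw [e1, e2, hLa]
    ring
  have ht2 : 0 ≤ 1 - th := by linarith
  have d1 : -1 / 8 ≤ s * La := by
    nlinarith [mul_le_mul_of_nonneg_left c1.1 ht0, mul_le_mul_of_nonneg_left c2.1 ht2]
  have d2 : s * La ≤ 1 / 8 := by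
    nlinarith [mul_le_mul_of_nonneg_left c1.2 ht0, mul_le_mul_of_nonneg_left c2.2 ht2]
  have hc : capR (3 / 2) (8 / 5) k r ≤ 0 :=
    max_le le_rfl ((min_le_right _ _).trans (by linarith))
  have a1 := tip_core hP hv hm hs0 hsZ hZ h0 h1 hμ hl hM (by linarith)
    (abs_le.2 ⟨by linarith, by linarith⟩) hc hpos test
  have a2 : (1 + 2 / Real.exp 1) * k ≤ 1 := by
    have := mul_le_mul_of_nonneg_right g_bounds.2 (show 0 ≤ k by linarith)
    linarith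
  rw [← hk, ← hr, ← hvr] at a1
  rw [min_eq_right a2]
  linarith [min_le_left r ((1 + 2 / Real.exp 1) * k)]

/-- option A: `μ = hi` -/
theorem tipA {η Η v : ℝ → ℝ} (hP : Prim η Η) {Z s d sr sk τ LL UU er Nw r k vr th : ℝ}
    (hv : v = fun σ => 2 / 3 * Real.exp σ + s * d * η σ) (hm : Monotone v)
    (hvr : vr = 2 / 3 * Real.exp τ + s * (1 - d) * er) (hr : r = 1 / 3 + sr * s * (1 - d))
    (hk : k = 1 / 3 + sk * s * d) (hsr : |sr| ≤ 1) (hsk : |sk| ≤ 1) (hs0 : 0 ≤ s) (hsZ : s ≤ Z)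
    (hZ : 0 < Z) (hZ1 : Z ≤ 1 / 18) (hd0 : 0 ≤ d) (hd1 : d ≤ 1) (h0 : -9 / 8 ≤ τ) (h1 : τ ≤ 0)
    (ht0 : 0 ≤ th) (ht1 : th ≤ 1) (hL : LL = tipL s (-3 / 2 * sk * d))
    (hU : UU = tipU s (3 / 2 * (sr * (1 - d) + sk * d)))
    (hpos : 0 ≤ v (min τ (s * (UU + th * (LL - UU)) - 1)))
    (test : 0 ≤ tipF η Η (-9 / 8) Z s d sr sk τ (UU + th * (LL - UU)) UU er Nw) :
    s * d * Nw ≤ min 1 ((1 + 2 / Real.exp 1) * k) - min r ((1 + 2 / Real.exp 1) * k) +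
      gainV (fun _ => 1) v (capR (3 / 2) (8 / 5) k r) (-9 / 8) τ
        (max (loP (4 / 3) k) (hiP (4 / 3) r k)) (hiP (4 / 3) r k) - vr := by
  have e1 := loP_tip s d sk
  have e2 := hiP_tip s d sr sk
  rw [← hk, ← hL] at e1
  rw [← hk, ← hr, ← hU] at e2
  refine tip_pade hP hv hm hvr hr hk hsr hsk hs0 hsZ hZ hZ1 hd0 hd1 h0 h1 ht0 ht1
    (by rw [hL, hU]) (le_max_right _ _) ?_ e2.le hpos test
  rw [e1, e2]
  nlinarith [mul_le_mul_of_nonneg_left (le_max_left (s * LL) (s * UU)) ht0,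
    mul_le_mul_of_nonneg_left (le_max_right (s * LL) (s * UU)) (sub_nonneg.2 ht1)]

/-- option B: any `μ ≤ min lo hi` -/
theorem tipB {η Η v : ℝ → ℝ} (hP : Prim η Η) {Z s d sr sk τ LL UU er Nw r k vr th μ : ℝ}
    (hv : v = fun σ => 2 / 3 * Real.exp σ + s * d * η σ) (hm : Monotone v)
    (hvr : vr = 2 / 3 * Real.exp τ + s * (1 - d) * er) (hr : r = 1 / 3 + sr * s * (1 - d))
    (hk : k = 1 / 3 + sk * s * d) (hsr : |sr| ≤ 1) (hsk : |sk| ≤ 1) (hs0 : 0 ≤ s) (hsZ : s ≤ Z)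
    (hZ : 0 < Z) (hZ1 : Z ≤ 1 / 18) (hd0 : 0 ≤ d) (hd1 : d ≤ 1) (h0 : -9 / 8 ≤ τ) (h1 : τ ≤ 0)
    (ht0 : 0 ≤ th) (ht1 : th ≤ 1) (hL : LL = tipL s (-3 / 2 * sk * d))
    (hU : UU = tipU s (3 / 2 * (sr * (1 - d) + sk * d)))
    (hμ : μ ≤ min (loP (4 / 3) k) (hiP (4 / 3) r k)) (hpos : 0 ≤ v (min τ (s * LL - 1)))
    (test : 0 ≤ tipF η Η (-9 / 8) Z s d sr sk τ LL (UU + th * (LL - UU)) er Nw) :
    s * d * Nw ≤ min 1 ((1 + 2 / Real.exp 1) * k) - min r ((1 + 2 / Real.exp 1) * k) +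
      gainV (fun _ => 1) v (capR (3 / 2) (8 / 5) k r) (-9 / 8) τ (max (loP (4 / 3) k) μ) μ - vr := by
  have e1 := loP_tip s d sk
  have e2 := hiP_tip s d sr sk
  rw [← hk, ← hL] at e1
  rw [← hk, ← hr, ← hU] at e2
  refine tip_pade hP hv hm hvr hr hk hsr hsk hs0 hsZ hZ hZ1 hd0 hd1 h0 h1 zero_le_one le_rfl
    (by rw [hL]; ring) (le_max_right _ _) (e1.ge.trans (le_max_left _ _)) (hμ.trans ?_) hpos test
  rw [e1, e2]
  nlinarith [mul_le_mul_of_nonneg_left (min_le_left (s * LL) (s * UU)) ht0,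
    mul_le_mul_of_nonneg_left (min_le_right (s * LL) (s * UU)) (sub_nonneg.2 ht1)]

/-! ### `(U)` as a gain -/

theorem U1_eq_gain (g0 τ0 τ1 : ℝ) (lo v : ℝ → ℝ) (k : ℝ) {μ : ℝ} (hμ : μ ≤ τ1) :
    U1 g0 τ0 τ1 lo v k = min 1 (g0 * k) + gainV (fun _ => 1) v 0 τ0 τ1 (lo k) μ := by
  rw [U1, gainV, max_eq_left ((min_le_right _ _).trans (by linarith))]
  simp only [one_mul, sub_zero]

/-- `(U)` in the tip zone: option B with `d = 1`, `τ = 0` -/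
theorem tipU1 {η Η v : ℝ → ℝ} (hP : Prim η Η) {Z s sr sk LL UU er Nw k th : ℝ}
    (hv : v = fun σ => 2 / 3 * Real.exp σ + s * 1 * η σ) (hm : Monotone v)
    (hk : k = 1 / 3 + sk * s * 1) (hsr : |sr| ≤ 1) (hsk : |sk| ≤ 1) (hs0 : 0 ≤ s) (hsZ : s ≤ Z)
    (hZ : 0 < Z) (hZ1 : Z ≤ 1 / 18) (ht0 : 0 ≤ th) (ht1 : th ≤ 1)
    (hL : LL = tipL s (-3 / 2 * sk * 1)) (hU : UU = tipU s (3 / 2 * (sr * (1 - 1) + sk * 1)))
    (hpos : 0 ≤ v (min 0 (s * LL - 1)))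
    (test : 0 ≤ tipF η Η (-9 / 8) Z s 1 sr sk 0 LL (UU + th * (LL - UU)) er Nw) :
    s * 1 * Nw ≤ U1 (1 + 2 / Real.exp 1) (-9 / 8) 0 (loP (4 / 3)) v k - 1 := by
  obtain ⟨hk1, hk2⟩ := abs_le.1 hsk
  have b3 : sk * s ≤ s := by nlinarith
  have b4 : -s ≤ sk * s := by nlinarith
  have a1 := tipB hP hv hm (vr := 2 / 3) (r := 1 / 3) (by simp) (by simp) hk hsr hsk hs0 hsZ hZ hZ1
    zero_le_one le_rfl (by norm_num) le_rfl ht0 ht1 hL hU
    (min_le_left _ 0) hpos test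
  have a2 : capR (3 / 2) (8 / 5) k (1 / 3) = 0 :=
    max_eq_left ((min_le_right _ _).trans (by linarith))
  have a3 : 1 / 3 ≤ (1 + 2 / Real.exp 1) * k := by
    have := mul_le_mul_of_nonneg_right g_bounds.1 (show 0 ≤ k by linarith)
    linarith
  rw [a2, min_eq_left a3, max_eq_left ((min_le_left _ _).trans (min_le_left _ _))] at a1
  rw [U1_eq_gain _ _ _ _ _ _ (min_le_right (min (loP (4 / 3) k) (hiP (4 / 3) (1 / 3) k)) 0)]
  linarith

/-- `(U)` from the generic bound: every `l ≤ lo k`, every `m`, every `c₂` below the profile -/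
theorem U1_ge {φ Φ : ℝ → ℝ} (h : Prim φ Φ) (hm : Monotone φ) {g0 τ0 τ1 k l m c₁ c₂ θ : ℝ}
    {lo : ℝ → ℝ} (h0 : τ0 ≤ τ1) (hl0 : τ0 ≤ l) (hl : l ≤ lo k) (hc : 0 ≤ c₁)
    (hx : c₂ ≤ φ (min τ1 (max (l - 1) τ0))) (hθ0 : 0 ≤ θ) (hθ1 : θ ≤ 1) :
    min 1 (g0 * k) + θ * Ghat φ Φ τ0 τ1 l m c₂ - (c₁ - c₂) * min 1 (lo k - τ0) ≤
      U1 g0 τ0 τ1 lo φ k := by
  have h1 := Ghat_le2 h hm h0 (μ := min (min (lo k) m) τ1) (m' := m)
    ((min_le_left _ _).trans (min_le_left _ _)) hl0 hl ((min_le_left _ _).trans (min_le_right _ _))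
    hc hx hθ0 hθ1
  rw [max_eq_left ((min_le_right _ _).trans (sub_nonpos.2 (min_le_right _ _))), sub_zero] at h1
  rw [U1_eq_gain _ _ _ _ _ _ (min_le_right (min (lo k) m) τ1)]
  linarith

/-! ### the origin -/

theorem gainV_full {v : ℝ → ℝ} (hv : Continuous v) {c τ0 τ lam μ w : ℝ} (hμ : μ ≤ τ)
    (hl : τ0 ≤ lam - 1) (hw : ∀ σ, lam - 1 ≤ σ → w ≤ v (min τ σ)) :
    w - c ≤ gainV (fun _ => 1) v c τ0 τ lam μ := by
  rw [gainV, max_eq_left ((min_le_right _ _).trans (by linarith)), min_eq_left (by linarith)]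
  have := intervalIntegral.integral_mono_on (μ := MeasureTheory.volume) (a := 0) (b := 1)
    (f := fun _ => w - c) (g := fun s => 1 * (v (min τ (lam - s)) - c)) zero_le_one
    intervalIntegrable_const (Continuous.intervalIntegrable (by fun_prop) _ _)
    fun s hs => by linarith [hw (lam - s) (by linarith [hs.2])]
  simpa using this

theorem origin_lin {g p m r k : ℝ} (hg : 43 / 25 ≤ g) (hp : p ≤ 3 / 2) (hm1 : m ≤ 43 / 25 - p)
    (hm2 : m ≤ 9 / 5 * (p - 1)) (hm0 : 0 ≤ m) (hr : 0 ≤ r) (hk : 0 ≤ k) :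
    m * k ≤ g * k - min r (g * k) - capR (3 / 2) (8 / 5) k r + p * (r - k) := by
  have hp1 : 0 ≤ p - 1 := by linarith
  have a1 := mul_le_mul_of_nonneg_right hg hk
  have a2 := mul_le_mul_of_nonneg_right hm1 hk
  have a3 := mul_le_mul_of_nonneg_right hm2 hk
  have a4 := mul_nonneg hp1 hr
  have a5 := min_le_left r (g * k)
  have a6 := min_le_right r (g * k)
  rcases le_total r (8 / 5 * k) with h1 | h1
  · have c1 : capR (3 / 2) (8 / 5) k r ≤ 0 :=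
      max_le le_rfl ((min_le_right _ _).trans (by linarith))
    nlinarith
  · rcases le_total r (14 / 5 * k) with h2 | h2
    · have c1 : capR (3 / 2) (8 / 5) k r ≤ 3 / 2 * (r - 8 / 5 * k) :=
        max_le (by linarith) (min_le_right _ _)
      have a7 := mul_le_mul_of_nonneg_right hp hk
      rcases le_total r (43 / 25 * k) with h3 | h3
      · nlinarith [mul_nonneg (sub_nonneg.2 hp) (sub_nonneg.2 h3)]
      · nlinarith [mul_nonneg (sub_nonneg.2 hp) (sub_nonneg.2 h2)]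
    · have c1 : capR (3 / 2) (8 / 5) k r ≤ r - k := max_le (by linarith) (min_le_left _ _)
      nlinarith [mul_nonneg hp1 (sub_nonneg.2 h2)]

theorem loP_origin {k : ℝ} (h0 : 0 ≤ k) (h1 : k ≤ 1 / 40) : 1 / 2 ≤ loP (4 / 3) k := by
  have h2 : 0 < (1 + (1 - 3 * k) / 2) * (6 + 2 * ((1 - 3 * k) / 2)) :=
    mul_pos (by linarith) (by linarith)
  have h3 : 3 / 8 ≤ padeL ((1 - 3 * k) / 2) := by
    rw [padeL, le_div_iff₀ h2]
    nlinarith
  rw [loP]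
  linarith

theorem hiP_origin {r k : ℝ} (h0 : 0 ≤ r + k) (h1 : r + k ≤ 1 / 4) : hiP (4 / 3) r k ≤ -9 / 8 := by
  have h2 : 0 < 6 + 4 * ((3 * (r + k) - 2) / 2) := by linarith
  have h3 : padeU ((3 * (r + k) - 2) / 2) ≤ -27 / 32 := by
    rw [padeU, div_le_iff₀ h2]
    nlinarith
  rw [hiP]
  linarith

/-- the column inequality near the origin: the profile `v` is constant after time `-1/2` and the
own value is `vr ≤ v τ - p (r - k)` -/
theorem origin_col {v : ℝ → ℝ} (hv : Continuous v) (hc : ∀ σ, -1 / 2 ≤ σ → v σ = v (-1 / 2))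
    {r k τ μ vr p m : ℝ} (hr0 : 0 ≤ r) (hr : r ≤ 1 / 5) (hk0 : 0 ≤ k) (hk : k ≤ 1 / 40)
    (h0 : -9 / 8 ≤ τ) (hμ : μ ≤ hiP (4 / 3) r k) (hvr : vr ≤ v τ - p * (r - k)) (hp : p ≤ 3 / 2)
    (hm1 : m ≤ 43 / 25 - p) (hm2 : m ≤ 9 / 5 * (p - 1)) (hm0 : 0 ≤ m) :
    m * k ≤ min 1 ((1 + 2 / Real.exp 1) * k) - min r ((1 + 2 / Real.exp 1) * k) +
      gainV (fun _ => 1) v (capR (3 / 2) (8 / 5) k r) (-9 / 8) τ (max (loP (4 / 3) k) μ) μ - vr := by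
  have a1 := loP_origin hk0 hk
  have a2 := hiP_origin (r := r) (k := k) (by linarith) (by linarith)
  have a3 := le_max_left (loP (4 / 3) k) μ
  have a4 := gainV_full hv (c := capR (3 / 2) (8 / 5) k r) (τ0 := -9 / 8) (τ := τ)
    (lam := max (loP (4 / 3) k) μ) (μ := μ) (w := v τ) (by linarith) (by linarith) fun σ hσ => by
      rcases le_total τ σ with h | h
      · rw [min_eq_left h]
      · rw [min_eq_right h, hc σ (by linarith), hc τ (by linarith)]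
  have a5 := origin_lin (g := 1 + 2 / Real.exp 1) (by linarith [g_bounds.1]) hp hm1 hm2 hm0 hr0 hk0
  have a6 : (1 + 2 / Real.exp 1) * k ≤ 1 := by
    have := mul_le_mul_of_nonneg_right g_bounds.2 hk0
    linarith
  rw [min_eq_right a6]
  linarith

/-- `(U)` near the origin -/
theorem origin_U1 {v : ℝ → ℝ} (hv : Continuous v) {k p m : ℝ}
    (hc : ∀ σ, -1 / 2 ≤ σ → 1 - p * k ≤ v σ) (hk0 : 0 ≤ k) (hk : k ≤ 1 / 40)
    (hm : m ≤ 1735 / 1000 - p) :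
    m * k ≤ U1 (1 + 2 / Real.exp 1) (-9 / 8) 0 (loP (4 / 3)) v k - 1 := by
  have a1 := loP_origin hk0 hk
  have a4 := gainV_full hv (c := 0) (τ0 := -9 / 8) (τ := 0) (lam := loP (4 / 3) k) (μ := 0)
    (w := 1 - p * k) le_rfl (by linarith) fun σ hσ => hc _ (le_min (by norm_num) (by linarith))
  have a6 : (1 + 2 / Real.exp 1) * k ≤ 1 := by
    have := mul_le_mul_of_nonneg_right g_bounds.2 hk0
    linarith
  rw [U1_eq_gain _ _ _ _ _ _ le_rfl, min_eq_right a6]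
  nlinarith [mul_le_mul_of_nonneg_right g_bounds.1 hk0, mul_le_mul_of_nonneg_right hm hk0]

/-- a profile with `c 1 = 0`, total slope zero from the knot `-1/2` on, is constant there -/
theorem phC_const {c : ℕ → ℝ} (h1 : c 1 = 0) (h5 : c 2 + c 3 + c 4 + c 5 = 0) (h6 : c 6 = 0) (σ : ℝ)
    (hσ : -1 / 2 ≤ σ) : phC c σ = phC c (-1 / 2) := by
  have e : c 5 = -(c 2 + c 3 + c 4) := by linarith
  have key : ∀ x : ℝ, -1 / 2 ≤ x → phC c x = c 0 + 5 / 8 * c 2 + 1 / 2 * c 3 + 1 / 4 * c 4 :=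
    fun x hx => by
      rw [phC, h1, h6, e, max_eq_left (show 0 ≤ x + 9 / 8 by linarith),
        max_eq_left (show 0 ≤ x + 1 by linarith), max_eq_left (show 0 ≤ x + 3 / 4 by linarith),
        max_eq_left (show 0 ≤ x + 1 / 2 by linarith)]
      ring
  rw [key σ hσ, key _ le_rfl]

/-! ### the statements for coefficient vectors -/

/-- coefficient vector of the flat profile `(2/3) exp` -/
noncomputable def flatC (q : ℕ) : ℝ := if q = 1 then 2 / 3 else 0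

theorem phC_flat {c e : ℕ → ℝ} {u : ℝ} (hc : ∀ q < 7, c q = flatC q + u * e q) :
    phC c = fun σ => 2 / 3 * Real.exp σ + u * phC e σ := by
  funext σ
  simp only [phC, hc 0 (by norm_num), hc 1 (by norm_num), hc 2 (by norm_num), hc 3 (by norm_num),
    hc 4 (by norm_num), hc 5 (by norm_num), hc 6 (by norm_num), flatC]
  norm_num
  ring

/-- what the tip program certifies at `(s, d, τ)`, for the levels `l = s * La`, `m = s * M` -/
def TipT (ek er : ℕ → ℝ) (Z s d sr sk τ Nw La M : ℝ) : Prop :=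
  0 ≤ 2 / 3 * Real.exp (min τ (s * La - 1)) + s * d * phC ek (min τ (s * La - 1)) ∧
    0 ≤ tipF (phC ek) (PhC ek) (-9 / 8) Z s d sr sk τ La M (phC er τ) Nw

/-- option A -/
def TipA (ek er : ℕ → ℝ) (Z s d sr sk τ Nw : ℝ) : Prop :=
  ∃ th : ℝ, 0 ≤ th ∧ th ≤ 1 ∧ TipT ek er Z s d sr sk τ Nw
    (tipU s (3 / 2 * (sr * (1 - d) + sk * d)) +
      th * (tipL s (-3 / 2 * sk * d) - tipU s (3 / 2 * (sr * (1 - d) + sk * d))))
    (tipU s (3 / 2 * (sr * (1 - d) + sk * d)))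

/-- option B -/
def TipB (ek er : ℕ → ℝ) (Z s d sr sk τ Nw : ℝ) : Prop :=
  ∃ th : ℝ, 0 ≤ th ∧ th ≤ 1 ∧ TipT ek er Z s d sr sk τ Nw (tipL s (-3 / 2 * sk * d))
    (tipU s (3 / 2 * (sr * (1 - d) + sk * d)) +
      th * (tipL s (-3 / 2 * sk * d) - tipU s (3 / 2 * (sr * (1 - d) + sk * d))))

theorem colI_tipA {ck cr ek er : ℕ → ℝ} {Z sr sk τ r k Nv Nw : ℝ}
    (hck : ∀ q < 7, ck q = flatC q + |k - 1 / 3| * ek q)
    (hcr : ∀ q < 7, cr q = flatC q + |r - 1 / 3| * er q) (hM : MonoC ck)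
    (hr : r = 1 / 3 + sr * |r - 1 / 3|) (hk : k = 1 / 3 + sk * |k - 1 / 3|) (hsr : |sr| ≤ 1)
    (hsk : |sk| ≤ 1) (hZ0 : |r - 1 / 3| + |k - 1 / 3| ≤ Z) (hZ : 0 < Z) (hZ1 : Z ≤ 1 / 18)
    (h0 : -9 / 8 ≤ τ) (h1 : τ ≤ 0) (hN : Nv ≤ |k - 1 / 3| * Nw)
    (H : ∀ s d, 0 ≤ s → s ≤ Z → 0 ≤ d → d ≤ 1 → r = 1 / 3 + sr * s * (1 - d) →
      TipA ek er Z s d sr sk τ Nw) :
    ColI (1 + 2 / Real.exp 1) (3 / 2) (8 / 5) (-9 / 8) ck cr Nv r k τ (loP (4 / 3) k)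
      (hiP (4 / 3) r k) := by
  obtain ⟨d, hd0, hd1, e1, e2⟩ := tip_coords (abs_nonneg (r - 1 / 3)) (abs_nonneg (k - 1 / 3))
  have hs0 := add_nonneg (abs_nonneg (r - 1 / 3)) (abs_nonneg (k - 1 / 3))
  generalize |r - 1 / 3| + |k - 1 / 3| = s at e1 e2 hs0 hZ0
  rw [← e1] at hcr
  rw [← e2] at hck hN
  rw [← e1, ← mul_assoc] at hr
  rw [← e2, ← mul_assoc] at hk
  obtain ⟨th, t0, t1, t2, t3⟩ := H s d hs0 hZ0 hd0 hd1 hr
  exact hN.trans (tipA (prim_phC ek) (phC_flat hck) hM.mono (by rw [phC_flat hcr]) hr hk hsr hsk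
    hs0 hZ0 hZ hZ1 hd0 hd1 h0 h1 t0 t1 rfl rfl (by rw [phC_flat hck]; exact t2) t3)

theorem colI_tipB {ck cr ek er : ℕ → ℝ} {Z sr sk τ r k Nv Nw : ℝ}
    (hck : ∀ q < 7, ck q = flatC q + |k - 1 / 3| * ek q)
    (hcr : ∀ q < 7, cr q = flatC q + |r - 1 / 3| * er q) (hM : MonoC ck)
    (hr : r = 1 / 3 + sr * |r - 1 / 3|) (hk : k = 1 / 3 + sk * |k - 1 / 3|) (hsr : |sr| ≤ 1)
    (hsk : |sk| ≤ 1) (hZ0 : |r - 1 / 3| + |k - 1 / 3| ≤ Z) (hZ : 0 < Z) (hZ1 : Z ≤ 1 / 18)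
    (h0 : -9 / 8 ≤ τ) (h1 : τ ≤ 0) (hN : Nv ≤ |k - 1 / 3| * Nw)
    (H : ∀ s d, 0 ≤ s → s ≤ Z → 0 ≤ d → d ≤ 1 → r = 1 / 3 + sr * s * (1 - d) →
      TipB ek er Z s d sr sk τ Nw) :
    ColI (1 + 2 / Real.exp 1) (3 / 2) (8 / 5) (-9 / 8) ck cr Nv r k τ (loP (4 / 3) k)
      (min (loP (4 / 3) k) (hiP (4 / 3) r k)) := by
  obtain ⟨d, hd0, hd1, e1, e2⟩ := tip_coords (abs_nonneg (r - 1 / 3)) (abs_nonneg (k - 1 / 3))
  have hs0 := add_nonneg (abs_nonneg (r - 1 / 3)) (abs_nonneg (k - 1 / 3))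
  generalize |r - 1 / 3| + |k - 1 / 3| = s at e1 e2 hs0 hZ0
  rw [← e1] at hcr
  rw [← e2] at hck hN
  rw [← e1, ← mul_assoc] at hr
  rw [← e2, ← mul_assoc] at hk
  obtain ⟨th, t0, t1, t2, t3⟩ := H s d hs0 hZ0 hd0 hd1 hr
  exact hN.trans (tipB (prim_phC ek) (phC_flat hck) hM.mono (by rw [phC_flat hcr]) hr hk hsr hsk
    hs0 hZ0 hZ hZ1 hd0 hd1 h0 h1 t0 t1 rfl rfl le_rfl (by rw [phC_flat hck]; exact t2) t3)

/-- `(U)` in the tip zone -/
theorem colU_tip {ck ek er : ℕ → ℝ} {Z sr sk k Nv Nw : ℝ}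
    (hck : ∀ q < 7, ck q = flatC q + |k - 1 / 3| * ek q) (hM : MonoC ck)
    (hk : k = 1 / 3 + sk * |k - 1 / 3|) (hsr : |sr| ≤ 1) (hsk : |sk| ≤ 1)
    (hZ0 : |k - 1 / 3| ≤ Z) (hZ : 0 < Z) (hZ1 : Z ≤ 1 / 18) (hN : Nv ≤ |k - 1 / 3| * Nw)
    (H : ∀ s, 0 ≤ s → s ≤ Z → TipB ek er Z s 1 sr sk 0 Nw) :
    Nv ≤ U1 (1 + 2 / Real.exp 1) (-9 / 8) 0 (loP (4 / 3)) (phC ck) k - 1 := by
  have hs0 := abs_nonneg (k - 1 / 3)
  generalize |k - 1 / 3| = s at hck hk hZ0 hN hs0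
  obtain ⟨th, t0, t1, t2, t3⟩ := H s hs0 hZ0
  have e : phC ck = fun σ => 2 / 3 * Real.exp σ + s * 1 * phC ek σ := by
    rw [mul_one]
    exact phC_flat hck
  exact (hN.trans (by rw [mul_one])).trans (tipU1 (prim_phC ek) e hM.mono (by rw [mul_one]; exact hk)
    hsr hsk hs0 hZ0 hZ hZ1 t0 t1 rfl rfl (by rw [e]; exact t2) t3)

/-- interpolation on the right of the node `1/3` -/
theorem itp_tipR {x v : ℕ → ℝ} {a : ℕ} {k : ℝ} (hx : x a = 1 / 3) (hk : x a ≤ k) :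
    itp x v a k = v a + |k - 1 / 3| * ((v (a + 1) - v a) / (x (a + 1) - x a)) := by
  rw [abs_of_nonneg (by linarith), itp, wt, ← hx]
  ring

/-- interpolation on the left of the node `1/3` -/
theorem itp_tipL {x v : ℕ → ℝ} {a : ℕ} {k : ℝ} (hx : x (a + 1) = 1 / 3) (hlt : x a < x (a + 1))
    (hk : k ≤ x (a + 1)) :
    itp x v a k = v (a + 1) + |k - 1 / 3| * ((v a - v (a + 1)) / (x (a + 1) - x a)) := by
  have h : x (a + 1) - x a ≠ 0 := (sub_pos.2 hlt).ne'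
  rw [abs_of_nonpos (by linarith), itp, wt, ← hx]
  field_simp
  ring

theorem sideR {k : ℝ} (h : 1 / 3 ≤ k) : k = 1 / 3 + 1 * |k - 1 / 3| := by
  rw [abs_of_nonneg (by linarith)]
  ring

theorem sideL {k : ℝ} (h : k ≤ 1 / 3) : k = 1 / 3 + -1 * |k - 1 / 3| := by
  rw [abs_of_nonpos (by linarith)]
  ring

/-- the column inequality near the origin: `ck`, `cr` differ from a common vector `c` only by
`-p * k`, `-p * r` in the constant term, and `c` has no slope after the knot `-1/2` -/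
theorem colI_origin {ck cr c : ℕ → ℝ} {r k τ μ Nv p m : ℝ} (hk0' : ck 0 = c 0 - p * k)
    (hr0' : cr 0 = c 0 - p * r) (hkq : ∀ q, 1 ≤ q → q < 7 → ck q = c q)
    (hrq : ∀ q, 1 ≤ q → q < 7 → cr q = c q) (h1 : c 1 = 0) (h5 : c 2 + c 3 + c 4 + c 5 = 0)
    (h6 : c 6 = 0) (hr0 : 0 ≤ r) (hr : r ≤ 1 / 5) (hk0 : 0 ≤ k) (hk : k ≤ 1 / 40)
    (h0 : -9 / 8 ≤ τ) (hμ : μ ≤ hiP (4 / 3) r k) (hp : p ≤ 3 / 2) (hm1 : m ≤ 43 / 25 - p)
    (hm2 : m ≤ 9 / 5 * (p - 1)) (hm0 : 0 ≤ m) (hN : Nv ≤ m * k) :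
    ColI (1 + 2 / Real.exp 1) (3 / 2) (8 / 5) (-9 / 8) ck cr Nv r k τ (loP (4 / 3) k) μ := by
  have e : ∀ (d : ℕ → ℝ) (y : ℝ), d 0 = c 0 - p * y → (∀ q, 1 ≤ q → q < 7 → d q = c q) →
      ∀ σ, phC d σ = phC c σ - p * y := fun d y a1 a2 σ => by
    simp only [phC, a1, a2 1 (by norm_num) (by norm_num), a2 2 (by norm_num) (by norm_num),
      a2 3 (by norm_num) (by norm_num), a2 4 (by norm_num) (by norm_num),
      a2 5 (by norm_num) (by norm_num), a2 6 (by norm_num) (by norm_num)]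
    ring
  refine hN.trans (origin_col (prim_phC ck).cont (fun σ hσ => ?_) hr0 hr hk0 hk h0 hμ ?_ hp hm1 hm2
    hm0)
  · rw [e ck k hk0' hkq, e ck k hk0' hkq, phC_const h1 h5 h6 σ hσ]
  · rw [e ck k hk0' hkq, e cr r hr0' hrq]
    linarith

/-- `(U)` near the origin (`phC c 0 = 1`) -/
theorem colU_origin {ck c : ℕ → ℝ} {k Nv p m : ℝ} (hk0' : ck 0 = c 0 - p * k)
    (hkq : ∀ q, 1 ≤ q → q < 7 → ck q = c q) (h1 : c 1 = 0) (h5 : c 2 + c 3 + c 4 + c 5 = 0)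
    (h6 : c 6 = 0) (hone : 1 ≤ phC c 0) (hk0 : 0 ≤ k) (hk : k ≤ 1 / 40)
    (hm : m ≤ 1735 / 1000 - p) (hN : Nv ≤ m * k) :
    Nv ≤ U1 (1 + 2 / Real.exp 1) (-9 / 8) 0 (loP (4 / 3)) (phC ck) k - 1 := by
  refine hN.trans (origin_U1 (prim_phC ck).cont (fun σ hσ => ?_) hk0 hk hm)
  have e : phC ck σ = phC c σ - p * k := by
    simp only [phC, hk0', hkq 1 (by norm_num) (by norm_num), hkq 2 (by norm_num) (by norm_num),
      hkq 3 (by norm_num) (by norm_num), hkq 4 (by norm_num) (by norm_num),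
      hkq 5 (by norm_num) (by norm_num), hkq 6 (by norm_num) (by norm_num)]
    ring
  rw [e, phC_const h1 h5 h6 σ hσ, ← phC_const h1 h5 h6 0 (by norm_num)]
  linarith

/-- `(U)` from the generic test with `r = 0`, `τ = 0` (same expression as in `colI_gen`; the weight
`kapW` must be the full one, or the sign correction must vanish) -/
theorem colU_gen {g0 : ℝ} {lo : ℝ → ℝ} {ck : ℕ → ℝ} {Nv k θ1 θ4 l' m' c1 μ : ℝ} (hM : MonoC ck)
    (hg : 0 ≤ g0 * k) (a1 : θ1 ≤ 1) (d0 : 0 ≤ θ4) (d1 : θ4 ≤ 1) (hl0 : -9 / 8 ≤ l')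
    (hl : l' ≤ lo k) (hc : 0 ≤ c1) (hμ : μ ≤ 0 ∨ c1 ≤ phC ck (min 0 (max (l' - 1) (-9 / 8))))
    (h2 : 1 + Nv ≤ θ1 * (min 1 (g0 * k) - 0) +
      (θ4 * Ghat (phC ck) (PhC ck) (-9 / 8) 0 l' m' (min c1 (phC ck (min 0 (max (l' - 1) (-9 / 8))))) -
        (c1 - min c1 (phC ck (min 0 (max (l' - 1) (-9 / 8))))) * kapW (-9 / 8) 0 (lo k) μ)) :
    Nv ≤ U1 g0 (-9 / 8) 0 lo (phC ck) k - 1 := by
  have h3 := U1_ge (prim_phC ck) hM.mono (g0 := g0) (τ1 := 0) (m := m') (by norm_num) hl0 hl hc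
    (min_le_right c1 _) d0 d1
  have h5 : 0 ≤ min 1 (g0 * k) := le_min zero_le_one hg
  rcases hμ with hμ | hμ
  · have h4 : kapW (-9 / 8) 0 (lo k) μ = min 1 (lo k - -9 / 8) := by
      rw [kapW, max_eq_left ((min_le_right _ _).trans (by linarith)), sub_zero]
    rw [h4] at h2
    nlinarith [mul_nonneg (sub_nonneg.2 a1) h5]
  · rw [min_eq_left hμ, sub_self, zero_mul] at h2 h3
    nlinarith [mul_nonneg (sub_nonneg.2 a1) h5]

end Crest.Agent.R310
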