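import Crest.Agent.R310.Tip

/-! Row 310: the tip and origin lemmas with free parameters `a`, `A`, `gc`, `t0` and free profiles. -/

set_option autoImplicit false
set_option linter.dupNamespace false

namespace Crest.Agent.R310

/-- `loP a k / s` at `k = 1/3 + sk * s * d`, with `x = -3/2 * sk * d` -/
noncomputable def tipLa (a s x : ℝ) : ℝ := a * x * (6 + 5 * s * x) / ((1 + s * x) * (6 + 2 * s * x))

/-- `hiP a r k / s`, with `x = 3/2 * (sr * (1 - d) + sk * d)` -/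
noncomputable def tipUa (a s x : ℝ) : ℝ := a * x * (6 + s * x) / (6 + 4 * s * x)

theorem loP_tipa (a s d sk : ℝ) : loP a (1 / 3 + sk * s * d) = s * tipLa a s (-3 / 2 * sk * d) := by
  have e : (1 - 3 * (1 / 3 + sk * s * d)) / 2 = s * (-3 / 2 * sk * d) := by ring
  rw [loP, e, padeL, tipLa]
  generalize -3 / 2 * sk * d = x
  simp only [mul_assoc, mul_div_assoc]
  ring

theorem hiP_tipa (a s d sr sk : ℝ) : hiP a (1 / 3 + sr * s * (1 - d)) (1 / 3 + sk * s * d) =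
    s * tipUa a s (3 / 2 * (sr * (1 - d) + sk * d)) := by
  have e : (3 * (1 / 3 + sr * s * (1 - d) + (1 / 3 + sk * s * d)) - 2) / 2 =
      s * (3 / 2 * (sr * (1 - d) + sk * d)) := by ring
  rw [hiP, e, padeU, tipUa]
  generalize 3 / 2 * (sr * (1 - d) + sk * d) = x
  simp only [mul_assoc, mul_div_assoc]
  ring

theorem padeL_abs {u w : ℝ} (h0 : -w ≤ u) (h1 : u ≤ w) (hw : w ≤ 1 / 6) :
    -(11 / 10 * w) ≤ padeL u ∧ padeL u ≤ 11 / 10 * w := by
  have h2 : 0 < (1 + u) * (6 + 2 * u) := mul_pos (by linarith) (by linarith)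
  have h3 : 0 ≤ w := by linarith
  have h4 : -(11 / 10 * |u|) ≤ padeL u ∧ padeL u ≤ 11 / 10 * |u| := by
    rw [padeL, le_div_iff₀ h2, div_le_iff₀ h2]
    rcases le_total 0 u with h | h
    · rw [abs_of_nonneg h]
      constructor <;> nlinarith [mul_nonneg h h, mul_nonneg h (mul_nonneg h h)]
    · rw [abs_of_nonpos h]
      have h5 : 0 ≤ -u := by linarith
      have h6 : 0 ≤ u + 1 / 6 := by linarith
      constructor <;> nlinarith [mul_nonneg h5 h6, mul_nonneg h5 (mul_nonneg h5 h6)]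
  have h5 : |u| ≤ w := abs_le.2 ⟨h0, h1⟩
  constructor <;> linarith [h4.1, h4.2]

theorem padeU_abs {u w : ℝ} (h0 : -w ≤ u) (h1 : u ≤ w) (hw : w ≤ 1 / 6) :
    -(11 / 10 * w) ≤ padeU u ∧ padeU u ≤ 11 / 10 * w := by
  have h2 : 0 < 6 + 4 * u := by linarith
  have h3 : 0 ≤ w := by linarith
  have h4 : -(11 / 10 * |u|) ≤ padeU u ∧ padeU u ≤ 11 / 10 * |u| := by
    rw [padeU, le_div_iff₀ h2, div_le_iff₀ h2]
    rcases le_total 0 u with h | h
    · rw [abs_of_nonneg h]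
      constructor <;> nlinarith [mul_nonneg h h]
    · rw [abs_of_nonpos h]
      have h5 : 0 ≤ -u := by linarith
      have h6 : 0 ≤ u + 1 / 6 := by linarith
      constructor <;> nlinarith [mul_nonneg h5 h6]
  have h5 : |u| ≤ w := abs_le.2 ⟨h0, h1⟩
  constructor <;> linarith [h4.1, h4.2]

/-- side conditions on the size `Z` of the tip zone -/
structure TipPar (a A gc t0 Z : ℝ) : Prop where
  ha : 0 ≤ a
  hA : 0 ≤ A
  hgc : 1 ≤ gc
  hZ : 0 < Z
  hZ1 : Z ≤ 1 / 9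
  hc : 1 / 3 ≤ gc * (1 / 3 - Z)
  h0 : t0 + 1 ≤ -(33 / 20 * a * Z)
  h1 : 33 / 20 * a * Z ≤ 1

theorem tip_padeG {η Η v : ℝ → ℝ} (hP : Prim η Η)
    {a A gc t0 Z s d sr sk τ La M er Nw r k vr lam μ th : ℝ} (hp : TipPar a A gc t0 Z)
    (hv : v = fun σ => 2 / 3 * Real.exp σ + s * d * η σ) (hm : Monotone v)
    (hvr : vr ≤ 2 / 3 * Real.exp τ + s * (1 - d) * er) (hr : r = 1 / 3 + sr * s * (1 - d))
    (hk : k = 1 / 3 + sk * s * d) (hsr : |sr| ≤ 1) (hsk : |sk| ≤ 1) (hs0 : 0 ≤ s) (hsZ : s ≤ Z)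
    (hd0 : 0 ≤ d) (hd1 : d ≤ 1) (h0 : t0 ≤ τ) (h1 : τ ≤ 0) (ht0 : 0 ≤ th) (ht1 : th ≤ 1)
    (hLa : La = tipUa a s (3 / 2 * (sr * (1 - d) + sk * d)) +
      th * (tipLa a s (-3 / 2 * sk * d) - tipUa a s (3 / 2 * (sr * (1 - d) + sk * d))))
    (hμ : μ ≤ lam) (hl : s * La ≤ lam) (hM : μ ≤ s * M) (hpos : 0 ≤ v (min τ (s * La - 1)))
    (test : 0 ≤ tipF η Η t0 Z s d sr sk τ La M er Nw) :
    s * d * Nw ≤ min 1 ((1 + 2 / Real.exp 1) * k) - min r ((1 + 2 / Real.exp 1) * k) +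
      gainV (fun _ => 1) v (capR A gc k r) t0 τ lam μ - vr := by
  obtain ⟨hr1, hr2⟩ := abs_le.1 hsr
  obtain ⟨hk1, hk2⟩ := abs_le.1 hsk
  have hZ1 := hp.hZ1
  have hpp : 0 ≤ s * (1 - d) := mul_nonneg hs0 (by linarith)
  have hq : 0 ≤ s * d := mul_nonneg hs0 hd0
  have b1 : sr * s * (1 - d) ≤ s * (1 - d) := by nlinarith
  have b2 : -(s * (1 - d)) ≤ sr * s * (1 - d) := by nlinarith
  have b3 : sk * s * d ≤ s * d := by nlinarith
  have b4 : -(s * d) ≤ sk * s * d := by nlinarith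
  have hpq : s * (1 - d) + s * d ≤ Z := by linarith
  have c1 := padeL_abs (u := (1 - 3 * k) / 2) (w := 3 / 2 * Z) (by linarith) (by linarith)
    (by linarith)
  have c2 := padeU_abs (u := (3 * (r + k) - 2) / 2) (w := 3 / 2 * Z) (by linarith) (by linarith)
    (by linarith)
  have e1 := loP_tipa a s d sk
  have e2 := hiP_tipa a s d sr sk
  rw [← hk, loP] at e1
  rw [← hk, ← hr, hiP] at e2
  have e3 : s * La = a * ((1 - th) * padeU ((3 * (r + k) - 2) / 2) +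
      th * padeL ((1 - 3 * k) / 2)) := by
    rw [mul_add, mul_left_comm a (1 - th), mul_left_comm a th, e1, e2, hLa]
    ring
  have ht2 : 0 ≤ 1 - th := by linarith
  have d1 : -(33 / 20 * Z) ≤ (1 - th) * padeU ((3 * (r + k) - 2) / 2) +
      th * padeL ((1 - 3 * k) / 2) := by
    nlinarith [mul_le_mul_of_nonneg_left c1.1 ht0, mul_le_mul_of_nonneg_left c2.1 ht2]
  have d2 : (1 - th) * padeU ((3 * (r + k) - 2) / 2) + th * padeL ((1 - 3 * k) / 2) ≤
      33 / 20 * Z := by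
    nlinarith [mul_le_mul_of_nonneg_left c1.2 ht0, mul_le_mul_of_nonneg_left c2.2 ht2]
  have d3 := mul_le_mul_of_nonneg_left d1 hp.ha
  have d4 := mul_le_mul_of_nonneg_left d2 hp.ha
  rw [← e3] at d3 d4
  have hc : capR A gc k r ≤ 0 := by
    refine max_le le_rfl ((min_le_right _ _).trans (mul_nonpos_of_nonneg_of_nonpos hp.hA ?_))
    have f1 := mul_le_mul_of_nonneg_left
      (show 1 / 3 - Z + s * (1 - d) ≤ k by linarith) (show 0 ≤ gc by linarith [hp.hgc])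
    nlinarith [hp.hc, mul_le_mul_of_nonneg_right hp.hgc hpp]
  have a1 := tip_core hP hv hm hs0 hsZ hp.hZ h0 h1 hμ hl hM (by linarith [hp.h0])
    (abs_le.2 ⟨by linarith [hp.h1], by linarith [hp.h1]⟩) hc hpos test
  have a2 : (1 + 2 / Real.exp 1) * k ≤ 1 := by
    have := mul_le_mul_of_nonneg_right g_bounds.2 (show 0 ≤ k by linarith)
    linarith
  rw [← hk, ← hr] at a1
  rw [min_eq_right a2]
  linarith [min_le_left r ((1 + 2 / Real.exp 1) * k)]

/-- option A: `μ = hi` -/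
theorem tipAG {η Η v : ℝ → ℝ} (hP : Prim η Η)
    {a A gc t0 Z s d sr sk τ LL UU er Nw r k vr th : ℝ} (hp : TipPar a A gc t0 Z)
    (hv : v = fun σ => 2 / 3 * Real.exp σ + s * d * η σ) (hm : Monotone v)
    (hvr : vr ≤ 2 / 3 * Real.exp τ + s * (1 - d) * er) (hr : r = 1 / 3 + sr * s * (1 - d))
    (hk : k = 1 / 3 + sk * s * d) (hsr : |sr| ≤ 1) (hsk : |sk| ≤ 1) (hs0 : 0 ≤ s) (hsZ : s ≤ Z)
    (hd0 : 0 ≤ d) (hd1 : d ≤ 1) (h0 : t0 ≤ τ) (h1 : τ ≤ 0) (ht0 : 0 ≤ th) (ht1 : th ≤ 1)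
    (hL : LL = tipLa a s (-3 / 2 * sk * d)) (hU : UU = tipUa a s (3 / 2 * (sr * (1 - d) + sk * d)))
    (hpos : 0 ≤ v (min τ (s * (UU + th * (LL - UU)) - 1)))
    (test : 0 ≤ tipF η Η t0 Z s d sr sk τ (UU + th * (LL - UU)) UU er Nw) :
    s * d * Nw ≤ min 1 ((1 + 2 / Real.exp 1) * k) - min r ((1 + 2 / Real.exp 1) * k) +
      gainV (fun _ => 1) v (capR A gc k r) t0 τ (max (loP a k) (hiP a r k)) (hiP a r k) - vr := by
  have e1 := loP_tipa a s d sk
  have e2 := hiP_tipa a s d sr sk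
  rw [← hk, ← hL] at e1
  rw [← hk, ← hr, ← hU] at e2
  refine tip_padeG hP hp hv hm hvr hr hk hsr hsk hs0 hsZ hd0 hd1 h0 h1 ht0 ht1
    (by rw [hL, hU]) (le_max_right _ _) ?_ e2.le hpos test
  rw [e1, e2]
  nlinarith [mul_le_mul_of_nonneg_left (le_max_left (s * LL) (s * UU)) ht0,
    mul_le_mul_of_nonneg_left (le_max_right (s * LL) (s * UU)) (sub_nonneg.2 ht1)]

/-- option B: any `μ ≤ min lo hi` -/
theorem tipBG {η Η v : ℝ → ℝ} (hP : Prim η Η)
    {a A gc t0 Z s d sr sk τ LL UU er Nw r k vr th μ : ℝ} (hp : TipPar a A gc t0 Z)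
    (hv : v = fun σ => 2 / 3 * Real.exp σ + s * d * η σ) (hm : Monotone v)
    (hvr : vr ≤ 2 / 3 * Real.exp τ + s * (1 - d) * er) (hr : r = 1 / 3 + sr * s * (1 - d))
    (hk : k = 1 / 3 + sk * s * d) (hsr : |sr| ≤ 1) (hsk : |sk| ≤ 1) (hs0 : 0 ≤ s) (hsZ : s ≤ Z)
    (hd0 : 0 ≤ d) (hd1 : d ≤ 1) (h0 : t0 ≤ τ) (h1 : τ ≤ 0) (ht0 : 0 ≤ th) (ht1 : th ≤ 1)
    (hL : LL = tipLa a s (-3 / 2 * sk * d)) (hU : UU = tipUa a s (3 / 2 * (sr * (1 - d) + sk * d)))
    (hμ : μ ≤ min (loP a k) (hiP a r k)) (hpos : 0 ≤ v (min τ (s * LL - 1)))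
    (test : 0 ≤ tipF η Η t0 Z s d sr sk τ LL (UU + th * (LL - UU)) er Nw) :
    s * d * Nw ≤ min 1 ((1 + 2 / Real.exp 1) * k) - min r ((1 + 2 / Real.exp 1) * k) +
      gainV (fun _ => 1) v (capR A gc k r) t0 τ (max (loP a k) μ) μ - vr := by
  have e1 := loP_tipa a s d sk
  have e2 := hiP_tipa a s d sr sk
  rw [← hk, ← hL] at e1
  rw [← hk, ← hr, ← hU] at e2
  refine tip_padeG hP hp hv hm hvr hr hk hsr hsk hs0 hsZ hd0 hd1 h0 h1 zero_le_one le_rfl
    (by rw [hL]; ring) (le_max_right _ _) (e1.ge.trans (le_max_left _ _)) (hμ.trans ?_) hpos test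
  rw [e1, e2]
  nlinarith [mul_le_mul_of_nonneg_left (min_le_left (s * LL) (s * UU)) ht0,
    mul_le_mul_of_nonneg_left (min_le_right (s * LL) (s * UU)) (sub_nonneg.2 ht1)]

/-- `(E)` in the tip zone (`τ1 = 0`); `(U)` is the case `d = 1`, `vr = 2/3`, `r = 1/3`.  The test is
option B at `τ = 0` with any `M`. -/
theorem tipEG {η Η v : ℝ → ℝ} (hP : Prim η Η)
    {a A gc t0 Z s d sr sk LL er Nw r k vr : ℝ} (hp : TipPar a A gc t0 Z)
    (hv : v = fun σ => 2 / 3 * Real.exp σ + s * d * η σ) (hm : Monotone v)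
    (hvr : vr ≤ 2 / 3 + s * (1 - d) * er) (hr : r = 1 / 3 + sr * s * (1 - d))
    (hk : k = 1 / 3 + sk * s * d) (hsr : |sr| ≤ 1) (hsk : |sk| ≤ 1) (hs0 : 0 ≤ s) (hsZ : s ≤ Z)
    (hd0 : 0 ≤ d) (hd1 : d ≤ 1) (hL : LL = tipLa a s (-3 / 2 * sk * d)) (M : ℝ) (hpos : 0 ≤ v (min 0 (s * LL - 1)))
    (test : 0 ≤ tipF η Η t0 Z s d sr sk 0 LL M er Nw) :
    s * d * Nw ≤ U1 (1 + 2 / Real.exp 1) t0 0 (loP a) v k - vr - r := by
  have e1 := loP_tipa a s d sk
  rw [← hk, ← hL] at e1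
  have ht : t0 ≤ 0 := by nlinarith [hp.h0, mul_nonneg hp.ha hp.hZ.le]
  have a1 := tip_padeG hP hp hv hm (vr := vr) (by rwa [Real.exp_zero, mul_one]) hr hk hsr hsk hs0 hsZ
    hd0 hd1 ht le_rfl zero_le_one le_rfl (La := LL) (by rw [hL]; ring) (lam := loP a k)
    (μ := min (min (loP a k) (s * M)) 0) ((min_le_left _ _).trans (min_le_left _ _)) e1.ge
    ((min_le_left _ _).trans (min_le_right _ _)) hpos test
  obtain ⟨hr1, hr2⟩ := abs_le.1 hsr
  obtain ⟨hk1, hk2⟩ := abs_le.1 hsk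
  have hZ1 := hp.hZ1
  have hpp : 0 ≤ s * (1 - d) := mul_nonneg hs0 (by linarith)
  have hq : 0 ≤ s * d := mul_nonneg hs0 hd0
  have b1 : sr * s * (1 - d) ≤ s * (1 - d) := by nlinarith
  have b4 : -(s * d) ≤ sk * s * d := by nlinarith
  have hc : capR A gc k r = 0 := by
    refine max_eq_left ((min_le_right _ _).trans (mul_nonpos_of_nonneg_of_nonpos hp.hA ?_))
    have f1 := mul_le_mul_of_nonneg_left
      (show 1 / 3 - Z + s * (1 - d) ≤ k by linarith) (show 0 ≤ gc by linarith [hp.hgc])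
    nlinarith [hp.hc, mul_le_mul_of_nonneg_right hp.hgc hpp]
  have a3 : r ≤ (1 + 2 / Real.exp 1) * k := by
    have := mul_le_mul_of_nonneg_right g_bounds.1 (show 0 ≤ k by linarith)
    linarith
  rw [hc, min_eq_left a3] at a1
  rw [U1_eq_gain _ _ _ _ _ _ (min_le_right (min (loP a k) (s * M)) 0)]
  linarith

/-! ### the origin with free parameters -/

/-- The column inequality near the origin from the linear inequality `hlin`: the profile `v` does not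
drop below `v τ` on the window, which is full. -/
theorem origin_colG {v : ℝ → ℝ} (hv : Continuous v) {g0 t0 ts lo τ μ vr c r k p Nv : ℝ}
    (hc : ∀ σ, ts ≤ σ → v σ = v ts) (hts : t0 ≤ ts) (hlo : ts ≤ lo - 1) (hμ : μ ≤ τ)
    (hk : g0 * k ≤ 1) (hvr : vr ≤ v τ - p * (r - k))
    (hlin : Nv ≤ g0 * k - min r (g0 * k) - c + p * (r - k)) :
    Nv ≤ min 1 (g0 * k) - min r (g0 * k) + gainV (fun _ => 1) v c t0 τ (max lo μ) μ - vr := by
  have a3 := le_max_left lo μ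
  have a4 := gainV_full hv (c := c) (τ0 := t0) (τ := τ) (lam := max lo μ) (μ := μ) (w := v τ) hμ
    (by linarith) fun σ hσ => by
      rcases le_total τ σ with h | h
      · rw [min_eq_left h]
      · rw [min_eq_right h, hc σ (by linarith), hc τ (by linarith)]
  rw [min_eq_right hk]
  linarith

/-- the linear inequality for a general cap: `rs * k` is the crossing point of the two caps -/
theorem origin_linG {g g1 A gc rs p m r k : ℝ} (hg : g1 ≤ g) (hA : p ≤ A) (hp1 : 1 ≤ p)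
    (hrs : 1 ≤ rs) (h1 : m ≤ g1 - p) (h2 : m ≤ (rs - 1) * (p - 1))
    (h3 : m ≤ p * (rs - 1) - A * (rs - gc)) (h4 : m ≤ p * (g1 - 1) - A * (g1 - gc)) (hr : 0 ≤ r)
    (hk : 0 ≤ k) : m * k ≤ g * k - min r (g * k) - capR A gc k r + p * (r - k) := by
  have a1 := mul_le_mul_of_nonneg_right hg hk
  have a2 := mul_le_mul_of_nonneg_right h1 hk
  have a3 := mul_le_mul_of_nonneg_right h2 hk
  have a4 := mul_le_mul_of_nonneg_right h3 hk
  have a4' := mul_le_mul_of_nonneg_right h4 hk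
  have a5 := min_le_left r (g * k)
  have a6 := min_le_right r (g * k)
  have a7 := mul_nonneg (sub_nonneg.2 hp1) hr
  have a8 := mul_le_mul_of_nonneg_right hrs hk
  rcases le_total r (gc * k) with c1 | c1
  · have c2 : capR A gc k r ≤ 0 := max_le le_rfl ((min_le_right _ _).trans
      (mul_nonpos_of_nonneg_of_nonpos (by linarith) (by linarith)))
    nlinarith
  · rcases le_total r (rs * k) with c2 | c2
    · have c3 : capR A gc k r ≤ A * (r - gc * k) :=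
        max_le (mul_nonneg (by linarith) (by linarith)) (min_le_right _ _)
      rcases le_total r (g1 * k) with c4 | c4
      · nlinarith [mul_nonneg (sub_nonneg.2 hA) (sub_nonneg.2 c4)]
      · nlinarith [mul_nonneg (sub_nonneg.2 hA) (sub_nonneg.2 c2)]
    · have c3 : capR A gc k r ≤ r - k := max_le (by linarith) (min_le_left _ _)
      nlinarith [mul_nonneg (sub_nonneg.2 hp1) (sub_nonneg.2 c2)]

theorem origin_U1G {v lo : ℝ → ℝ} (hv : Continuous v) {g0 t0 ts k w : ℝ}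
    (hc : ∀ σ, ts ≤ σ → w ≤ v σ) (hts : t0 ≤ ts) (hts0 : ts ≤ 0) (hlo : ts ≤ lo k - 1)
    (hk : g0 * k ≤ 1) : g0 * k + w ≤ U1 g0 t0 0 lo v k := by
  have a4 := gainV_full hv (c := 0) (τ0 := t0) (τ := 0) (lam := lo k) (μ := 0)
    (w := w) le_rfl (by linarith) fun σ hσ => hc _ (le_min hts0 (by linarith))
  rw [U1_eq_gain _ _ _ _ _ _ le_rfl, min_eq_right hk]
  linarith

end Crest.Agent.R310
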