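import Crest.Agent.R310.TipG
import Crest.Agent.R310.NProf

/-! Row 310, column route: tip, origin and `(U)` for the profiles `phK` and free parameters. -/

set_option autoImplicit false
set_option linter.dupNamespace false

namespace Crest.Agent.R310

open Finset

theorem phK_flat {m : ℕ} (t : ℕ → ℝ) {c e : ℕ → ℝ} {u : ℝ}
    (hc : ∀ q < m + 2, c q = flatC q + u * e q) :
    phK m t c = fun σ => 2 / 3 * Real.exp σ + u * phK m t e σ := by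
  funext σ
  have h : ∑ i ∈ range m, c (i + 2) * max (σ - t i) 0 =
      u * ∑ i ∈ range m, e (i + 2) * max (σ - t i) 0 := by
    rw [mul_sum]
    refine sum_congr rfl fun i hi => ?_
    rw [hc (i + 2) (by have := mem_range.1 hi; omega), flatC, if_neg (by omega)]
    ring
  rw [phK, phK, h, hc 0 (by omega), hc 1 (by omega), flatC, flatC, if_neg (by omega), if_pos rfl]
  ring

/-- what the tip program certifies at `(s, d, τ)`, for the levels `l = s * La`, `m = s * M`; `η`, `Η`: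
profile of the partner direction and its primitive, `er`: value of the own direction at `τ` -/
def TipS (η Η : ℝ → ℝ) (t0 Z s d sr sk τ er Nw La M : ℝ) : Prop :=
  0 ≤ 2 / 3 * Real.exp (min τ (s * La - 1)) + s * d * η (min τ (s * La - 1)) ∧
    0 ≤ tipF η Η t0 Z s d sr sk τ La M er Nw

/-- option A -/
def TipSA (η Η : ℝ → ℝ) (a t0 Z s d sr sk τ er Nw : ℝ) : Prop :=
  ∃ th : ℝ, 0 ≤ th ∧ th ≤ 1 ∧ TipS η Η t0 Z s d sr sk τ er Nw
    (tipUa a s (3 / 2 * (sr * (1 - d) + sk * d)) +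
      th * (tipLa a s (-3 / 2 * sk * d) - tipUa a s (3 / 2 * (sr * (1 - d) + sk * d))))
    (tipUa a s (3 / 2 * (sr * (1 - d) + sk * d)))

/-- option B -/
def TipSB (η Η : ℝ → ℝ) (a t0 Z s d sr sk τ er Nw : ℝ) : Prop :=
  ∃ th : ℝ, 0 ≤ th ∧ th ≤ 1 ∧ TipS η Η t0 Z s d sr sk τ er Nw (tipLa a s (-3 / 2 * sk * d))
    (tipUa a s (3 / 2 * (sr * (1 - d) + sk * d)) +
      th * (tipLa a s (-3 / 2 * sk * d) - tipUa a s (3 / 2 * (sr * (1 - d) + sk * d))))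

theorem colG_tipA {m : ℕ} {t ck cr ek er : ℕ → ℝ} {a A gc t0 Z sr sk τ r k Nv Nw : ℝ}
    (hp : TipPar a A gc t0 Z) (hck : ∀ q < m + 2, ck q = flatC q + |k - 1 / 3| * ek q)
    (hcr : ∀ q < m + 2, cr q = flatC q + |r - 1 / 3| * er q) (hM : Monotone (phK m t ck))
    (hr : r = 1 / 3 + sr * |r - 1 / 3|) (hk : k = 1 / 3 + sk * |k - 1 / 3|) (hsr : |sr| ≤ 1)
    (hsk : |sk| ≤ 1) (hZ0 : |r - 1 / 3| + |k - 1 / 3| ≤ Z) (h0 : t0 ≤ τ) (h1 : τ ≤ 0)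
    (hN : Nv ≤ |k - 1 / 3| * Nw)
    (H : ∀ s d, 0 ≤ s → s ≤ Z → 0 ≤ d → d ≤ 1 → r = 1 / 3 + sr * s * (1 - d) →
      TipSA (phK m t ek) (PhK m t ek) a t0 Z s d sr sk τ (phK m t er τ) Nw) :
    ColG (1 + 2 / Real.exp 1) A gc t0 (phK m t ck) (phK m t cr τ) Nv r k τ (loP a k)
      (hiP a r k) := by
  obtain ⟨d, hd0, hd1, e1, e2⟩ := tip_coords (abs_nonneg (r - 1 / 3)) (abs_nonneg (k - 1 / 3))
  have hs0 := add_nonneg (abs_nonneg (r - 1 / 3)) (abs_nonneg (k - 1 / 3))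
  generalize |r - 1 / 3| + |k - 1 / 3| = s at e1 e2 hs0 hZ0
  rw [← e1] at hcr
  rw [← e2] at hck hN
  rw [← e1, ← mul_assoc] at hr
  rw [← e2, ← mul_assoc] at hk
  obtain ⟨th, t0', t1, t2, t3⟩ := H s d hs0 hZ0 hd0 hd1 hr
  exact hN.trans (tipAG (prim_phK m t ek) hp (phK_flat t hck) hM (by rw [phK_flat t hcr]) hr hk hsr
    hsk hs0 hZ0 hd0 hd1 h0 h1 t0' t1 rfl rfl (by rw [phK_flat t hck]; exact t2) t3)

theorem colG_tipB {m : ℕ} {t ck cr ek er : ℕ → ℝ} {a A gc t0 Z sr sk τ r k Nv Nw μ : ℝ}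
    (hp : TipPar a A gc t0 Z) (hck : ∀ q < m + 2, ck q = flatC q + |k - 1 / 3| * ek q)
    (hcr : ∀ q < m + 2, cr q = flatC q + |r - 1 / 3| * er q) (hM : Monotone (phK m t ck))
    (hr : r = 1 / 3 + sr * |r - 1 / 3|) (hk : k = 1 / 3 + sk * |k - 1 / 3|) (hsr : |sr| ≤ 1)
    (hsk : |sk| ≤ 1) (hZ0 : |r - 1 / 3| + |k - 1 / 3| ≤ Z) (h0 : t0 ≤ τ) (h1 : τ ≤ 0)
    (hN : Nv ≤ |k - 1 / 3| * Nw) (hμ : μ ≤ min (loP a k) (hiP a r k))
    (H : ∀ s d, 0 ≤ s → s ≤ Z → 0 ≤ d → d ≤ 1 → r = 1 / 3 + sr * s * (1 - d) →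
      TipSB (phK m t ek) (PhK m t ek) a t0 Z s d sr sk τ (phK m t er τ) Nw) :
    ColG (1 + 2 / Real.exp 1) A gc t0 (phK m t ck) (phK m t cr τ) Nv r k τ (loP a k) μ := by
  obtain ⟨d, hd0, hd1, e1, e2⟩ := tip_coords (abs_nonneg (r - 1 / 3)) (abs_nonneg (k - 1 / 3))
  have hs0 := add_nonneg (abs_nonneg (r - 1 / 3)) (abs_nonneg (k - 1 / 3))
  generalize |r - 1 / 3| + |k - 1 / 3| = s at e1 e2 hs0 hZ0
  rw [← e1] at hcr
  rw [← e2] at hck hN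
  rw [← e1, ← mul_assoc] at hr
  rw [← e2, ← mul_assoc] at hk
  obtain ⟨th, t0', t1, t2, t3⟩ := H s d hs0 hZ0 hd0 hd1 hr
  exact hN.trans (tipBG (prim_phK m t ek) hp (phK_flat t hck) hM (by rw [phK_flat t hcr]) hr hk hsr
    hsk hs0 hZ0 hd0 hd1 h0 h1 t0' t1 rfl rfl hμ (by rw [phK_flat t hck]; exact t2) t3)

/-- `(U)` in the tip zone: the test at `d = 1`, `τ = 0`, `La = tipLa ..`, any `M`, `er`, `sr` -/
theorem colU_tipK {m : ℕ} {t ck ek : ℕ → ℝ} {a A gc t0 Z sr sk k Nv Nw : ℝ}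
    (hp : TipPar a A gc t0 Z) (hck : ∀ q < m + 2, ck q = flatC q + |k - 1 / 3| * ek q)
    (hM : Monotone (phK m t ck)) (hk : k = 1 / 3 + sk * |k - 1 / 3|) (hsr : |sr| ≤ 1)
    (hsk : |sk| ≤ 1) (hZ0 : |k - 1 / 3| ≤ Z) (hN : Nv ≤ |k - 1 / 3| * Nw)
    (H : ∀ s, 0 ≤ s → s ≤ Z → ∃ er M : ℝ,
      TipS (phK m t ek) (PhK m t ek) t0 Z s 1 sr sk 0 er Nw (tipLa a s (-3 / 2 * sk * 1)) M) :
    Nv ≤ U1 (1 + 2 / Real.exp 1) t0 0 (loP a) (phK m t ck) k - 1 := by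
  have hs0 := abs_nonneg (k - 1 / 3)
  generalize |k - 1 / 3| = s at hck hk hZ0 hN hs0
  obtain ⟨er, M, t2, t3⟩ := H s hs0 hZ0
  have e : phK m t ck = fun σ => 2 / 3 * Real.exp σ + s * 1 * phK m t ek σ := by
    rw [mul_one]
    exact phK_flat t hck
  have := tipEG (prim_phK m t ek) hp e hM (vr := 2 / 3) (r := 1 / 3) (er := er) (k := k) (by simp) (by simp)
    (by rw [mul_one]; exact hk) hsr hsk hs0 hZ0 zero_le_one le_rfl rfl M (by rw [e]; exact t2) t3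
  linarith

theorem TipSB.toU {η Η : ℝ → ℝ} {a t0 Z s sr sk er Nw : ℝ} (h : TipSB η Η a t0 Z s 1 sr sk 0 er Nw) :
    ∃ er M : ℝ, TipS η Η t0 Z s 1 sr sk 0 er Nw (tipLa a s (-3 / 2 * sk * 1)) M := by
  obtain ⟨th, -, -, h⟩ := h
  exact ⟨_, _, h⟩

/-! ### the origin -/

theorem phK_shift {m : ℕ} (t : ℕ → ℝ) {c d : ℕ → ℝ} {y : ℝ} (h0 : d 0 = c 0 - y)
    (hq : ∀ q, 1 ≤ q → q < m + 2 → d q = c q) (σ : ℝ) : phK m t d σ = phK m t c σ - y := by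
  have h : ∑ i ∈ range m, d (i + 2) * max (σ - t i) 0 =
      ∑ i ∈ range m, c (i + 2) * max (σ - t i) 0 := sum_congr rfl fun i hi => by
    rw [hq (i + 2) (by omega) (by have := mem_range.1 hi; omega)]
  rw [phK, phK, h, h0, hq 1 le_rfl (by omega)]
  ring

/-- no slope after the knot `t f` -/
theorem phK_const {m f : ℕ} {t c : ℕ → ℝ} (hf : f < m) (h1 : c 1 = 0)
    (hs : ∑ i ∈ range (f + 1), c (i + 2) = 0) (hz : ∀ i, f < i → i < m → c (i + 2) = 0)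
    (ht : ∀ i ≤ f, t i ≤ t f) (σ : ℝ) (hσ : t f ≤ σ) : phK m t c σ = phK m t c (t f) := by
  have key : ∀ x, t f ≤ x → phK m t c x = c 0 - ∑ i ∈ range (f + 1), c (i + 2) * t i := fun x hx => by
    have e1 : ∑ i ∈ range m, c (i + 2) * max (x - t i) 0 =
        ∑ i ∈ range (f + 1), c (i + 2) * max (x - t i) 0 :=
      (sum_subset (range_subset_range.2 hf) fun i hi hi' => by
        rw [hz i (by have := mt mem_range.2 hi'; omega) (mem_range.1 hi), zero_mul]).symm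
    have e2 : ∑ i ∈ range (f + 1), c (i + 2) * max (x - t i) 0 =
        ∑ i ∈ range (f + 1), (c (i + 2) * x - c (i + 2) * t i) := sum_congr rfl fun i hi => by
      rw [max_eq_left (by linarith [ht i (by have := mem_range.1 hi; omega)])]
      ring
    rw [phK, h1, e1, e2, sum_sub_distrib, ← sum_mul, hs]
    ring
  rw [key σ hσ, key _ le_rfl]

/-- side conditions at the origin: zone `r ≤ zr`, `k ≤ zo`, freezing time `ts`, slope `p`, bound `m` -/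
structure OrgPar (a A gc t0 ts zr zo p m : ℝ) : Prop where
  hts : t0 ≤ ts
  hts0 : ts ≤ 0
  hzo : zo ≤ 1 / 2
  hlo : ∀ k, 0 ≤ k → k ≤ zo → ts ≤ loP a k - 1
  hhi : ∀ r k, 0 ≤ r → r ≤ zr → 0 ≤ k → k ≤ zo → hiP a r k ≤ t0
  hlin : ∀ r k, 0 ≤ r → 0 ≤ k → m * k ≤ (1 + 2 / Real.exp 1) * k - min r ((1 + 2 / Real.exp 1) * k) -
    capR A gc k r + p * (r - k)

theorem loP_ge_of {a z y : ℝ} (ha : 0 ≤ a) (hz : z ≤ 1 / 3) (hy : y ≤ loP a z) (k : ℝ) (_h0 : 0 ≤ k)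
    (hk : k ≤ z) : y ≤ loP a k := by
  refine hy.trans (mul_le_mul_of_nonneg_left ?_ ha)
  have hu : 0 ≤ (1 - 3 * z) / 2 := by linarith
  have huv : (1 - 3 * z) / 2 ≤ (1 - 3 * k) / 2 := by linarith
  generalize (1 - 3 * z) / 2 = u at hu huv
  generalize (1 - 3 * k) / 2 = v at huv
  have hv : 0 ≤ v := hu.trans huv
  rw [padeL, padeL, div_le_div_iff₀ (by positivity) (by positivity)]
  nlinarith [mul_nonneg (sub_nonneg.2 huv) (mul_nonneg hu hv), mul_nonneg (sub_nonneg.2 huv) hu,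
    mul_nonneg (sub_nonneg.2 huv) hv]

theorem hiP_le_of {a z y : ℝ} (ha : 0 ≤ a) (hy : a * padeU ((3 * z - 2) / 2) ≤ y) {r k : ℝ}
    (h0 : 0 ≤ r + k) (h1 : r + k ≤ z) : hiP a r k ≤ y := by
  refine (mul_le_mul_of_nonneg_left ?_ ha).trans hy
  have hu : -1 ≤ (3 * (r + k) - 2) / 2 := by linarith
  have huv : (3 * (r + k) - 2) / 2 ≤ (3 * z - 2) / 2 := by linarith
  generalize (3 * (r + k) - 2) / 2 = u at hu huv
  generalize (3 * z - 2) / 2 = v at huv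
  have hv : -1 ≤ v := hu.trans huv
  rw [padeU, padeU, div_le_div_iff₀ (by linarith) (by linarith)]
  have h2 : 0 ≤ u + 1 := by linarith
  have h3 : 0 ≤ v + 1 := by linarith
  nlinarith [mul_nonneg (sub_nonneg.2 huv) (mul_nonneg h2 h3), mul_nonneg (sub_nonneg.2 huv) h2,
    mul_nonneg (sub_nonneg.2 huv) h3]

/-- the parameters `a = 13/10`, `A = 2`, `gc = 8/5`, `t0 = -9/8`, `p = 5/4` -/
theorem orgPar13 : OrgPar (13 / 10) 2 (8 / 5) (-9 / 8) (-1 / 2) (1 / 5) (1 / 50) (5 / 4) (3 / 10) where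
  hts := by norm_num
  hts0 := by norm_num
  hzo := by norm_num
  hlo := fun k h0 h1 => by
    have := loP_ge_of (a := 13 / 10) (z := 1 / 50) (y := 1 / 2) (by norm_num) (by norm_num)
      (by norm_num [loP, padeL]) k h0 h1
    linarith
  hhi := fun r k h1 h2 h3 h4 => hiP_le_of (z := 1 / 4) (by norm_num) (by norm_num [padeU])
    (by linarith) (by linarith)
  hlin := fun r k h1 h2 => origin_linG (g1 := 43 / 25) (rs := 11 / 5) (by linarith [g_bounds.1])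
    (by norm_num) (by norm_num) (by norm_num) (by norm_num) (by norm_num) (by norm_num)
    (by norm_num) h1 h2

theorem tipPar13 {Z : ℝ} (h0 : 0 < Z) (h1 : Z ≤ 1 / 18) : TipPar (13 / 10) 2 (8 / 5) (-9 / 8) Z :=
  ⟨by norm_num, by norm_num, by norm_num, h0, by linarith, by linarith, by linarith, by linarith⟩

theorem colG_origin {m : ℕ} {t ck cr c : ℕ → ℝ} {a A gc t0 ts zr zo p mm r k τ μ Nv : ℝ}
    (hp : OrgPar a A gc t0 ts zr zo p mm) (hk0' : ck 0 = c 0 - p * k) (hr0' : cr 0 = c 0 - p * r)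
    (hkq : ∀ q, 1 ≤ q → q < m + 2 → ck q = c q) (hrq : ∀ q, 1 ≤ q → q < m + 2 → cr q = c q)
    (hc : ∀ σ, ts ≤ σ → phK m t c σ = phK m t c ts) (hr0 : 0 ≤ r) (hr : r ≤ zr) (hk0 : 0 ≤ k)
    (hk : k ≤ zo) (h0 : t0 ≤ τ) (hμ : μ ≤ hiP a r k) (hN : Nv ≤ mm * k) :
    ColG (1 + 2 / Real.exp 1) A gc t0 (phK m t ck) (phK m t cr τ) Nv r k τ (loP a k) μ := by
  refine origin_colG (prim_phK m t ck).cont (ts := ts) (p := p) (fun σ hσ => ?_) hp.hts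
    (hp.hlo k hk0 hk) ((hμ.trans (hp.hhi r k hr0 hr hk0 hk)).trans h0) ?_ ?_
    (hN.trans (hp.hlin r k hr0 hk0))
  · rw [phK_shift t hk0' hkq, phK_shift t hk0' hkq, hc σ hσ]
  · have := mul_le_mul_of_nonneg_right g_bounds.2 hk0
    linarith [hp.hzo]
  · rw [phK_shift t hk0' hkq, phK_shift t hr0' hrq]
    linarith

/-- `(U)` near the origin -/
theorem colU_originK {m : ℕ} {t ck c : ℕ → ℝ} {a A gc t0 ts zr zo p mm mu k Nv : ℝ}
    (hp : OrgPar a A gc t0 ts zr zo p mm) (hk0' : ck 0 = c 0 - p * k)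
    (hkq : ∀ q, 1 ≤ q → q < m + 2 → ck q = c q) (hc : ∀ σ, ts ≤ σ → phK m t c σ = phK m t c ts)
    (hone : 1 ≤ phK m t c 0) (hk0 : 0 ≤ k) (hk : k ≤ zo) (hmu : mu ≤ 1735 / 1000 - p)
    (hN : Nv ≤ mu * k) : Nv ≤ U1 (1 + 2 / Real.exp 1) t0 0 (loP a) (phK m t ck) k - 1 := by
  have a1 := origin_U1G (lo := loP a) (prim_phK m t ck).cont (g0 := 1 + 2 / Real.exp 1) (t0 := t0)
    (ts := ts) (k := k) (w := 1 - p * k) (fun σ hσ => by
      rw [phK_shift t hk0' hkq, hc σ hσ, ← hc 0 hp.hts0]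
      linarith) hp.hts hp.hts0 (hp.hlo k hk0 hk) (by
      have := mul_le_mul_of_nonneg_right g_bounds.2 hk0
      linarith [hp.hzo])
  nlinarith [mul_le_mul_of_nonneg_right g_bounds.1 hk0, mul_le_mul_of_nonneg_right hmu hk0]

/-- `(U)` from the generic test with `r = 0`, `τ = 0` (same expression as in `colG_gen`; the weight
`kapW` must be the full one, or the sign correction must vanish) -/
theorem colU_genG {φ Φ lo : ℝ → ℝ} {g0 t0 Nv k θ1 θ4 l' m' c1 μ : ℝ} (hP : Prim φ Φ)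
    (hM : Monotone φ) (ht0 : t0 ≤ 0) (hg : 0 ≤ g0 * k) (a1 : θ1 ≤ 1) (d0 : 0 ≤ θ4) (d1 : θ4 ≤ 1)
    (hl0 : t0 ≤ l') (hl : l' ≤ lo k) (hc : 0 ≤ c1)
    (hμ : μ ≤ 0 ∨ c1 ≤ φ (min 0 (max (l' - 1) t0)))
    (h2 : 1 + Nv ≤ θ1 * (min 1 (g0 * k) - 0) +
      (θ4 * Ghat φ Φ t0 0 l' m' (min c1 (φ (min 0 (max (l' - 1) t0)))) -
        (c1 - min c1 (φ (min 0 (max (l' - 1) t0)))) * kapW t0 0 (lo k) μ)) :
    Nv ≤ U1 g0 t0 0 lo φ k - 1 := by
  have h3 := U1_ge hP hM (g0 := g0) (τ1 := 0) (m := m') ht0 hl0 hl hc (min_le_right c1 _) d0 d1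
  have h5 : 0 ≤ min 1 (g0 * k) := le_min zero_le_one hg
  rcases hμ with hμ | hμ
  · have h4 : kapW t0 0 (lo k) μ = min 1 (lo k - t0) := by
      rw [kapW, max_eq_left ((min_le_right _ _).trans (by linarith)), sub_zero]
    rw [h4] at h2
    nlinarith [mul_nonneg (sub_nonneg.2 a1) h5]
  · rw [min_eq_left hμ, sub_self, zero_mul] at h2 h3
    nlinarith [mul_nonneg (sub_nonneg.2 a1) h5]

/-- exact form of `(U)`: no sign condition, no parameter -/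
theorem U1_exact {φ Φ lo : ℝ → ℝ} (hP : Prim φ Φ) (g0 t0 k : ℝ) :
    U1 g0 t0 0 lo φ k = min 1 (g0 * k) + (Φ (min 0 (lo k)) + max (lo k) 0 * φ 0 -
      (Φ (min 0 (max (lo k - 1) t0)) + max (max (lo k - 1) t0) 0 * φ 0)) := by
  rw [U1, hP.int_frz, sub_min_one, sub_zero, frz, frz, sub_zero, sub_zero]

end Crest.Agent.R310
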