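import Crest.Agent.R310.NF

/-! Row 310: the virtual instance built from a collapsed opening (definitions). -/

set_option autoImplicit false
set_option linter.dupNamespace false

namespace Crest.Agent.R310

open Finset Crest.Agent.Lib.PT

/-- rank of `q` among `0, …, N-1` in decreasing order of `f` (ties by index) -/
def rk (N : ℕ) (f : ℕ → ℚ) (q : ℕ) : ℕ :=
  ∑ q' ∈ range N, if f q < f q' ∨ (f q = f q' ∧ q' < q) then 1 else 0

/-- the largest value of `f` in the block `b` (blocks of `H` consecutive ranks) -/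
def cmf (N : ℕ) (f : ℕ → ℚ) (H b : ℕ) : ℚ :=
  ∑ q ∈ range N, if rk N f q = b * H then f q else 0

namespace MkV

variable (I : II) (K : ℕ) (y1 : ℕ → ℚ) (core isU : ℕ → Bool) (usr : ℕ → ℕ)

/-- block size -/
def HH (K : ℕ) : ℕ := 24 * K ^ 5

/-- cores with tiny deficiency -/
def big (i : ℕ) : Bool := decide (core i = true ∧ 1 - y1 i ≤ 1 / (K : ℚ) ^ 4)

/-- filler mass of the core `q` at `o` -/
def xf (q o : ℕ) : ℚ := if core q = true ∧ o ≠ q then I.nf y1 q o else 0

/-- the copy of `o` used by the core `q` -/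
def blk (o q : ℕ) : ℕ := rk I.N (fun q' => xf I y1 core q' o) q / HH K

/-- masses of the virtual facilities `v = o + N b` -/
def vy (v : ℕ) : ℚ :=
  if v < I.N then y1 v else cmf I.N (fun q' => xf I y1 core q' (v % I.N)) (HH K) (v / I.N)

def vfree (v : ℕ) : Bool := decide (¬ (v < I.N ∧ big K y1 core v = true))

/-- clients that are kept as they are -/
def act (a : ℕ) : Bool := decide (I.cl a = true ∧ isU a = false)

/-- assignment of the kept client `a` -/
def xa (a v : ℕ) : ℚ :=
  if act I isU a = true ∧ v < I.N ∧ big K y1 core v = false then I.nf y1 a v else 0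

/-- assignment of the core client `q` -/
def xq (q v : ℕ) : ℚ :=
  if core q = true then
    (if v = q then y1 q
      else if v / I.N = blk I K y1 core (v % I.N) q then xf I y1 core q (v % I.N) else 0)
  else 0

def vx (a v : ℕ) : ℚ := if a < I.N then xa I K y1 core isU a v else xq I K y1 core (a - I.N) v

/-- kept clients that use a big core -/
def tch (a : ℕ) : Bool :=
  decide (act I isU a = true ∧ ∃ i < I.N, big K y1 core i = true ∧ 0 < I.nf y1 a i)

/-- nearest big core -/
def nb (a : ℕ) : ℕ := (((List.range I.N).filter (big K y1 core)).argmin (I.dd a)).getD 0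

def vr0 (a : ℕ) : ℕ :=
  if a < I.N ∧ tch I K y1 core isU a = true then I.dd a (nb I K y1 core a) + 1 else I.L + 1

def vJ (o i : ℕ) : Bool :=
  decide (i = o ∨ vfree I K y1 core i = true ∨
    ∃ q < I.N, 0 < xq I K y1 core q o ∧ 0 < xq I K y1 core q i)

def vw (a : ℕ) : ℚ :=
  if a < I.N then (if act I isU a = true then 1 else 0)
  else ∑ j ∈ range I.N,
    ((if I.cl j = true ∧ isU j = true ∧ usr j = a - I.N then 1 else 0) +
      (if tch I K y1 core isU j = true ∧ nb I K y1 core j = a - I.N then 1 else 0))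

end MkV

open MkV in
/-- The virtual instance. -/
def mkVI (I : II) (K : ℕ) (y1 : ℕ → ℚ) (core isU : ℕ → Bool) (usr : ℕ → ℕ) : VI where
  n := I.N * I.N
  nc := 2 * I.N
  L := I.L + 1
  y := vy I K y1 core
  x := vx I K y1 core isU
  x0 a := 1 - ∑ v ∈ range (I.N * I.N), vx I K y1 core isU a v
  r0 := vr0 I K y1 core isU
  dist a v := I.dd (a % I.N) (v % I.N) + 1
  D i o := if i = o then 0 else I.dd (i % I.N) (o % I.N) + 1
  J := vJ I K y1 core
  free := vfree I K y1 core
  w := vw I K y1 core isU usr

/-- the displacement cost of the users -/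
def II.ucost (I : II) (isU : ℕ → Bool) (usr : ℕ → ℕ) : ℚ :=
  ∑ j ∈ I.C, if isU j = true then (I.dd j (usr j) : ℚ) else 0

end Crest.Agent.R310
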