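import Crest.Agent.R310.VIDefs

/-! Row 310: ranks and blocks. -/

set_option autoImplicit false
set_option linter.dupNamespace false

namespace Crest.Agent.R310

open Finset

variable {N : ℕ} {f : ℕ → ℚ}

lemma h54_rk_card (q : ℕ) :
    rk N f q = ((range N).filter fun q' => f q < f q' ∨ (f q = f q' ∧ q' < q)).card := by
  unfold rk
  rw [Finset.card_filter]

/-- `q` itself is not counted -/
lemma rk_lt {q : ℕ} (hq : q < N) : rk N f q < N := by
  rw [h54_rk_card]
  have h : ((range N).filter fun q' => f q < f q' ∨ (f q = f q' ∧ q' < q)) ⊂ range N := by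
    refine Finset.ssubset_iff_of_subset (Finset.filter_subset _ _) |>.2 ⟨q, mem_range.2 hq, ?_⟩
    simp
  simpa using Finset.card_lt_card h

/-- if `q'` comes strictly before `q`, everything counted for `q'` is counted for `q`, and `q'` is
counted for `q` only -/
lemma rk_lt_rk {q q' : ℕ} (hq' : q' < N) (h : f q < f q' ∨ (f q = f q' ∧ q' < q)) :
    rk N f q' < rk N f q := by
  rw [h54_rk_card, h54_rk_card]
  apply Finset.card_lt_card
  refine Finset.ssubset_iff_of_subset ?_ |>.2 ⟨q', ?_, ?_⟩
  · intro a ha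
    rw [mem_filter] at ha ⊢
    refine ⟨ha.1, ?_⟩
    rcases ha.2 with h1 | ⟨h1, h2⟩ <;> rcases h with h3 | ⟨h3, h4⟩
    · exact Or.inl (h3.trans h1)
    · exact Or.inl (h3 ▸ h1)
    · exact Or.inl (h1 ▸ h3)
    · exact Or.inr ⟨h3.trans h1, h2.trans h4⟩
  · exact mem_filter.2 ⟨mem_range.2 hq', h⟩
  · simp

/-- trichotomy and `rk_lt_rk` -/
lemma rk_inj {q q' : ℕ} (hq : q < N) (hq' : q' < N) (h : rk N f q = rk N f q') : q = q' := by
  by_contra hne
  rcases lt_trichotomy (f q) (f q') with h1 | h1 | h1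
  · exact absurd h (rk_lt_rk hq' (Or.inl h1)).ne'
  · rcases lt_or_gt_of_ne hne with h2 | h2
    · exact absurd h (rk_lt_rk hq (Or.inr ⟨h1.symm, h2⟩)).ne
    · exact absurd h (rk_lt_rk hq' (Or.inr ⟨h1, h2⟩)).ne'
  · exact absurd h (rk_lt_rk hq (Or.inl h1)).ne

lemma le_of_rk_le {q q' : ℕ} (hq : q < N) (hq' : q' < N) (h : rk N f q' ≤ rk N f q) :
    f q ≤ f q' := by
  by_contra hlt
  exact absurd h (not_le.2 (rk_lt_rk hq (Or.inl (not_le.1 hlt))))

/-- an injective self-map of `range N` is onto (`Finset.surj_on_of_inj_on_of_card_le`) -/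
lemma rk_surj {r : ℕ} (hr : r < N) : ∃ q < N, rk N f q = r := by
  obtain ⟨a, ha, h⟩ := Finset.surj_on_of_inj_on_of_card_le (s := range N) (t := range N)
    (fun a _ => rk N f a) (fun a ha => mem_range.2 (rk_lt (mem_range.1 ha)))
    (fun a b ha hb h => rk_inj (mem_range.1 ha) (mem_range.1 hb) h) le_rfl r (mem_range.2 hr)
  exact ⟨a, mem_range.1 ha, h.symm⟩

/-- sums may be reindexed by the rank: at most `H` indices in a block -/
lemma card_block_le {H : ℕ} (hH : 0 < H) (b : ℕ) :
    ((range N).filter fun q => rk N f q / H = b).card ≤ H := by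
  have h : ((range N).filter fun q => rk N f q / H = b).card ≤ (range H).card := by
    refine Finset.card_le_card_of_injOn (fun q => rk N f q % H) ?_ ?_
    · intro q _
      simpa using Nat.mod_lt _ hH
    · intro q hq q' hq' h
      simp only [coe_filter, mem_range, Set.mem_ofPred_eq] at hq hq' h
      refine rk_inj (f := f) hq.1 hq'.1 ?_
      rw [← Nat.div_add_mod (rk N f q) H, ← Nat.div_add_mod (rk N f q') H, hq.2, hq'.2, h]
  simpa using h

/-- `cmf` is the value at the unique index of rank `b * H`, or `0` -/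
lemma cmf_eq {H b q : ℕ} (hq : q < N) (h : rk N f q = b * H) : cmf N f H b = f q := by
  unfold cmf
  rw [Finset.sum_eq_single q]
  · rw [if_pos h]
  · intro a ha hne
    rw [if_neg]
    intro h'
    exact hne (rk_inj (f := f) (mem_range.1 ha) hq (h'.trans h.symm))
  · intro h'
    exact absurd (mem_range.2 hq) h'

lemma cmf_cases (H b : ℕ) : cmf N f H b = 0 ∨ ∃ q < N, rk N f q = b * H ∧ cmf N f H b = f q := by
  by_cases h : ∃ q < N, rk N f q = b * H
  · obtain ⟨q, hq, h⟩ := h
    exact Or.inr ⟨q, hq, h, cmf_eq hq h⟩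
  · left
    unfold cmf
    refine Finset.sum_eq_zero fun q hq => if_neg fun h' => h ⟨q, mem_range.1 hq, h'⟩

/-- the index of rank `(rk q / H) * H ≤ rk q` exists (`rk_surj`) and has a larger value -/
lemma le_cmf {H q : ℕ} (hq : q < N) : f q ≤ cmf N f H (rk N f q / H) := by
  have h1 : rk N f q / H * H ≤ rk N f q := Nat.div_mul_le_self _ _
  obtain ⟨q', hq', h⟩ := rk_surj (f := f) (h1.trans_lt (rk_lt hq))
  rw [cmf_eq hq' h]
  exact le_of_rk_le hq hq' (h ▸ h1)

/-- `H * cmf (b + 1) ≤ ∑ {f q | rk q / H = b}`: if the index of rank `(b+1) H` exists, the block `b`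
has exactly `H` members (`rk_surj`, `rk_inj`), all with larger values; then sum over `b`
(`Finset.sum_fiberwise`-style, `f ≥ 0`). -/
lemma sum_cmf_le {H : ℕ} (hH : 0 < H) (hf : ∀ q < N, 0 ≤ f q) (n : ℕ) :
    (H : ℚ) * ∑ b ∈ range n, cmf N f H (b + 1) ≤ ∑ q ∈ range N, f q := by
  have key : ∀ b, (H : ℚ) * cmf N f H (b + 1) ≤
      ∑ q ∈ (range N).filter fun q => rk N f q / H = b, f q := by
    intro b
    rcases cmf_cases (N := N) (f := f) H (b + 1) with h0 | ⟨q₀, hq₀, h1, h2⟩
    · rw [h0, mul_zero]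
      exact sum_nonneg fun q hq => hf q (mem_range.1 (mem_filter.1 hq).1)
    · have hlt := rk_lt (f := f) hq₀
      have hc : H ≤ ((range N).filter fun q => rk N f q / H = b).card := by
        have h3 : Ico (b * H) ((b + 1) * H) ⊆
            ((range N).filter fun q => rk N f q / H = b).image (rk N f) := by
          intro r hr
          obtain ⟨a1, a2⟩ := mem_Ico.1 hr
          obtain ⟨q, hq, rfl⟩ := rk_surj (N := N) (f := f) (r := r) (by omega)
          exact mem_image_of_mem _ (mem_filter.2 ⟨mem_range.2 hq, Nat.div_eq_of_lt_le a1 a2⟩)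
        have h4 := (card_le_card h3).trans card_image_le
        rwa [Nat.card_Ico, add_mul, one_mul, Nat.add_sub_cancel_left] at h4
      have h5 := card_nsmul_le_sum ((range N).filter fun q => rk N f q / H = b) f (f q₀)
        fun q hq => by
          obtain ⟨a1, a2⟩ := mem_filter.1 hq
          refine le_of_rk_le hq₀ (mem_range.1 a1) ?_
          rw [h1, ← a2]
          exact ((Nat.div_lt_iff_lt_mul hH).1 (Nat.lt_succ_self _)).le
      rw [nsmul_eq_mul] at h5
      rw [h2]
      exact (mul_le_mul_of_nonneg_right (by exact_mod_cast hc) (hf q₀ hq₀)).trans h5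
  rw [mul_sum]
  refine (sum_le_sum fun b _ => key b).trans ?_
  rw [sum_fiberwise_eq_sum_filter]
  exact sum_le_sum_of_subset_of_nonneg (filter_subset _ _) fun q hq _ => hf q (mem_range.1 hq)

/-- sums over the virtual facilities `v = o + N b` -/
lemma sum_range_sq (N : ℕ) (g : ℕ → ℚ) :
    ∑ v ∈ range (N * N), g v = ∑ b ∈ range N, ∑ o ∈ range N, g (o + N * b) := by
  have key : ∀ m, ∑ v ∈ range (N * m), g v = ∑ b ∈ range m, ∑ o ∈ range N, g (o + N * b) := by
    intro m
    induction m with
    | zero => simp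
    | succ m ih =>
      rw [Nat.mul_succ, sum_range_add, ih, sum_range_succ]
      simp only [add_comm (N * m)]
  exact key N

/-- a function vanishing from `N` on -/
lemma sum_range_sq_low (N : ℕ) (g : ℕ → ℚ) (hg : ∀ v, N ≤ v → g v = 0) :
    ∑ v ∈ range (N * N), g v = ∑ v ∈ range N, g v := by
  refine (sum_subset (range_subset_range.2 (Nat.le_mul_self N)) fun v _ hv => hg v ?_).symm
  exact not_lt.1 fun h => hv (mem_range.2 h)

end Crest.Agent.R310
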