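import Crest.Agent.R310.IDefs
import Crest.Prelude.Def_KMedian

/-!
Row 310: from rational instances to integer instances, definitions.
-/

set_option autoImplicit false

namespace Crest.Agent.R310.A

open Crest.Agent.Lib.PT Crest.LogicCS.KMedian

/-- Plain data of a rational instance: table, clients, facilities, budget. -/
abbrev Raw : Type := List (List ℚ) × List ℕ × List ℕ × ℕ

/-- A finset of points as an increasing list of numbers. -/
def toL {N : ℕ} (S : Finset (Fin N)) : List ℕ :=
  ((List.finRange N).filter fun i => decide (i ∈ S)).map Fin.val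
/-- The plain data of an instance. -/
def raw (I : Instance) : Raw :=
  (List.ofFn fun i => List.ofFn fun j => I.dist i j, toL I.clients, toL I.facilities, I.k)
/-- A table entry. -/
def qd (R : Raw) (a b : ℕ) : ℚ := (R.1.getD a []).getD b 0
/-- The distance to a nonempty list. -/
def qdS (R : Raw) (j : ℕ) (S : List ℕ) : ℚ := (S.map (qd R j)).foldr min (qd R j (S.headD 0))
/-- The cost of a nonempty list. -/
def qcost (R : Raw) (S : List ℕ) : ℚ := (R.2.1.map fun j => qdS R j S).sum
/-- The truncation level. -/
def wrapL (K G : ℕ) (R : Raw) : ℕ := G * (R.1.length * (K * R.1.length)) + 1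
/-- Rounding up to multiples of `δ / (K n)` and truncating. -/
def scale (K G : ℕ) (R : Raw) (δ : ℚ) : Inst :=
  (List.replicate (wrapL K G R) (),
    R.1.map fun row => row.map fun q => min ⌈q * (K * R.1.length : ℕ) / δ⌉₊ (wrapL K G R),
    R.2.1, R.2.2.1, R.2.2.2)
/-- All candidates. -/
def wrapCands (K G : ℕ) (A : Inst × ℕ → List (List ℕ)) (R : Raw) : List (List ℕ) :=
  R.2.1 :: R.2.2.1.take 1 :: R.1.flatten.flatMap fun δ =>
    (List.range (R.1.length * (K * R.1.length) + 1)).flatMap fun B => A (scale K G R δ, B)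
/-- Feasibility test. -/
def feasB (R : Raw) (S : List ℕ) : Bool :=
  decide (S ≠ [] ∧ (∀ i ∈ S, i ∈ R.2.2.1) ∧ S.dedup.length ≤ R.2.2.2)
/-- The cheapest feasible candidate. -/
def wrapBest (K G : ℕ) (A : Inst × ℕ → List (List ℕ)) (R : Raw) : List ℕ :=
  (((wrapCands K G A R).filter (feasB R)).argmin (qcost R)).getD []
/-- The output mask. -/
def wrapOut (K G : ℕ) (A : Inst × ℕ → List (List ℕ)) (R : Raw) : List Bool :=
  (List.range R.1.length).map fun i => decide (i ∈ wrapBest K G A R)
/-- A list of numbers as a finset of points. -/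
def ofL (N : ℕ) (S : List ℕ) : Finset (Fin N) := Finset.univ.filter fun i => (i : ℕ) ∈ S

lemma mem_toL {N : ℕ} (S : Finset (Fin N)) (a : ℕ) : a ∈ toL S ↔ ∃ i ∈ S, (i : ℕ) = a := by
  simp [toL]

lemma nodup_toL {N : ℕ} (S : Finset (Fin N)) : (toL S).Nodup :=
  ((List.nodup_finRange N).filter _).map Fin.val_injective

lemma toFinset_toL {N : ℕ} (S : Finset (Fin N)) : (toL S).toFinset = S.map Fin.valEmbedding := by
  ext a; simp [mem_toL]

lemma length_toL {N : ℕ} (S : Finset (Fin N)) : (toL S).length = S.card := by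
  rw [← List.toFinset_card_of_nodup (nodup_toL S), toFinset_toL, Finset.card_map]

lemma ofL_toL {N : ℕ} (S : Finset (Fin N)) : ofL N (toL S) = S := by
  ext i; simp [ofL, mem_toL, Fin.val_inj]

@[simp] lemma length_raw (I : Instance) : (raw I).1.length = I.N := by simp [raw]

lemma qd_raw (I : Instance) (a b : Fin I.N) : qd (raw I) a b = I.dist a b := by
  simp [qd, raw, List.getD_eq_getElem?_getD]

end Crest.Agent.R310.A
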