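import Crest.Agent.R310.WrapDefs

/-!
Row 310: the wrapper runs in polynomial time.
-/

set_option autoImplicit false

namespace Crest.Agent.R310.A

open Crest.Agent.Lib.PT Crest.LogicCS.KMedian

lemma h56_toL_eq {N : ℕ} (S : Finset (Fin N)) :
    toL S = (List.range ((List.finRange N).map fun i => decide (i ∈ S)).length).filter
      fun a => ((List.finRange N).map fun i => decide (i ∈ S)).getD a false := by
  rw [List.length_map, List.length_finRange, ← List.map_coe_finRange_eq_range, List.filter_map,
    toL]
  congr 1
  refine List.filter_congr fun i _ => ?_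
  simp [List.getD_eq_getElem?_getD]

lemma h56_reads_toL {ι : Type} {u : ι → List Bool} {N : ι → ℕ} {S : (i : ι) → Finset (Fin (N i))}
    (h : Reads u fun a => (List.finRange (N a)).map fun i => decide (i ∈ S a)) :
    Reads u fun a => toL (S a) :=
  (h.comp (g := fun m : List Bool => (List.range m.length).filter fun a => m.getD a false)
    (by fun_prop)).congr fun a => h56_toL_eq (S a)

/-- The codes of `Def_KMedian` are those of `Crest.Enc` (`rfl`): `Reads.split SD.natCode` twice,
`Reads.split_len` / `Reads.split_maskCode` for the two masks, `Reads.split_square` or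
`Reads.split_matrix` for the table; `toL S` is the list of positions of `true` in the mask. -/
theorem reads_raw : Reads Instance.encode raw := by
  have h0 : Reads Instance.encode fun I : Instance => Crest.Enc.natCode I.N ++
      (Crest.Enc.natCode I.k ++ (((List.finRange I.N).map fun i => decide (i ∈ I.clients)) ++
        (((List.finRange I.N).map fun i => decide (i ∈ I.facilities)) ++
          (((List.ofFn fun i => List.ofFn fun j => I.dist i j).map
            fun row => (row.map Crest.Enc.ratCode).flatten).flatten ++ [])))) :=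
    (Reads.self _).congr fun I => by
      simp only [Instance.encode, List.append_assoc, List.append_nil, List.ofFn_eq_map,
        List.map_map, Function.comp_def]
      rfl
  obtain ⟨hN, h1⟩ := Reads.split SD.natCode h0
  obtain ⟨hk, h2⟩ := Reads.split SD.natCode h1
  obtain ⟨hC, h3⟩ := Reads.split_len hN (fun I => by simp) h2
  obtain ⟨hF, h4⟩ := Reads.split_len hN (fun I => by simp) h3
  have hU : Reads Instance.encode fun I : Instance =>
      List.replicate (List.ofFn fun i => List.ofFn fun j => I.dist i j).length () :=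
    hC.unary_length.congr fun I => by simp
  obtain ⟨hD, -⟩ := Reads.split_matrix SD.ratCode ratCode_ne_nil hU hN (fun I row hrow => by
    obtain ⟨i, rfl⟩ := List.mem_ofFn.1 hrow
    simp) h4
  exact hD.pair ((h56_reads_toL hC).pair ((h56_reads_toL hF).pair hk))

section h56PT

variable {α : Type} [Enc α]

@[fun_prop] lemma h56_pt_qd {R : α → Raw} {a b : α → ℕ} (hR : PT R) (ha : PT a) (hb : PT b) :
    PT (fun x => qd (R x) (a x) (b x)) := by
  unfold qd; fun_prop

@[fun_prop] lemma h56_pt_qdS {R : α → Raw} {j : α → ℕ} {S : α → List ℕ} (hR : PT R) (hj : PT j)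
    (hS : PT S) : PT (fun x => qdS (R x) (j x) (S x)) := by
  unfold qdS; fun_prop

@[fun_prop] lemma h56_pt_qcost {R : α → Raw} {S : α → List ℕ} (hR : PT R) (hS : PT S) :
    PT (fun x => qcost (R x) (S x)) := by
  unfold qcost; fun_prop

@[fun_prop] lemma h56_pt_wrapL (K G : ℕ) {R : α → Raw} (hR : PT R) :
    PT (fun x => wrapL K G (R x)) := by
  unfold wrapL; fun_prop

@[fun_prop] lemma h56_pb_wrapL (K G : ℕ) {R : α → Raw} (hR : PT R) :
    PB (fun x => wrapL K G (R x)) := by
  unfold wrapL; fun_prop

@[fun_prop] lemma h56_pt_scale (K G : ℕ) {R : α → Raw} {δ : α → ℚ} (hR : PT R) (hδ : PT δ) :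
    PT (fun x => scale K G (R x) (δ x)) := by
  unfold scale; fun_prop

lemma h56_pt_wrapCands (K G : ℕ) {A : Inst × ℕ → List (List ℕ)} (hA : PT A) {R : α → Raw}
    (hR : PT R) : PT (fun x => wrapCands K G A (R x)) := by
  unfold wrapCands; fun_prop

@[fun_prop] lemma h56_pt_feasB {R : α → Raw} {S : α → List ℕ} (hR : PT R) (hS : PT S) :
    PT (fun x => feasB (R x) (S x)) := by
  have h : PT (fun x => (!(S x).isEmpty) && (((S x).all fun i => decide (i ∈ (R x).2.2.1)) &&
      decide ((S x).dedup.length ≤ (R x).2.2.2))) := by fun_prop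
  refine h.congr fun x => ?_
  rw [Bool.eq_iff_iff]
  simp [feasB]

lemma h56_pt_wrapBest (K G : ℕ) {A : Inst × ℕ → List (List ℕ)} (hA : PT A) {R : α → Raw}
    (hR : PT R) : PT (fun x => wrapBest K G A (R x)) := by
  have h := h56_pt_wrapCands K G hA hR
  unfold wrapBest; fun_prop

end h56PT

/-- One `@[fun_prop]` lemma per definition of `WrapDefs` (`PT.foldr_ratMin`, `PT.argmin_rat`,
`PT.ratNatCeil`, `PT.replicate`, `PT.range`, `PT.dedup`, `PT.decide_forall_mem`). -/
theorem pt_wrapOut (K G : ℕ) {A : Inst × ℕ → List (List ℕ)} (hA : PT A) :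
    PT (wrapOut K G A) := by
  have h : PT (fun p : Raw × ℕ => wrapBest K G A p.1) := h56_pt_wrapBest K G hA (by fun_prop)
  unfold wrapOut
  fun_prop

theorem exists_polyTime_wrap (K G : ℕ) {A : Inst × ℕ → List (List ℕ)} (hA : PT A) :
    ∃ f : List Bool → List Bool, Crest.Complexity.PolyTime f ∧
      ∀ I : Instance, f I.encode = wrapOut K G A (raw I) :=
  (reads_raw.comp (pt_wrapOut K G hA)).exists_polyTime

end Crest.Agent.R310.A
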